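import Claimed.Agent.R291.Pin.Geo
import Claimed.Agent.R291.Geo.Lat
import Claimed.Agent.R291.Tool.TriSCLat

/-!
# Row 291 (S0539), unit PIN (05-pins), file Win : DISCRETE GEOMETRY OF THE WINDOWS AND OF THE GAPS      (owner helper74; order: ruling 2 (B) of helper34; prefix `pin_win_`, `pinWin`, `PinWin`)

From `Pin/Geo` (arcs `pinGeoArc t a i`, windows `pinGeoWin t a i` of the sorted angles `t` of the marked parameters `CC0`) and the soft boundary walk `hgVis` of helper172 (`Geo/Region`).      TEX[lem:boundary-walk], TEX[pins:label-count], TEX[def:brackets], l.226-262, l.779-790.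
* `pinWinV δ F g I : Finset TV`   the faces of `F` visited by `g` on the set of parameters `I`      (groups `Gn i = pinWinV .. (pinGeoArc t a i)`, labels `Dn i = pinWinV .. (pinGeoArc t ε i)`, `a ≤ ε`)
* (W2) `pin_win_mono`, `pin_win_sub_bd`, `pin_win_conn` (`TscConn tscG`), `pin_win_nonempty`, `pin_win_bd_eq` (`latBd F` = groups ∪ faces visited on the windows)
* (W1) `pin_win_W1`     a boundary site which carries no label is within `r` of a marked point      (= (B1) of `exit_pin_ins`)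
* (W3) `pin_win_big`    GAP BALLS, big radius `r0` (depends on `ε` and on the tests): no label, no face which meets the tests, the balls of different marked points are disjoint
       `pin_win_small`  GAP BALLS, small radius `η` (`a ≤ a0(η)`): the faces visited on the `a`-window lie in the ball, each of the two adjacent groups has a site in the ball
       `pin_win_far`    each group has a site off all the big balls (any label site).
Radii in lattice units: `k : ℕ` with `k δ_n ≤ r0` (big), `η ≤ k δ_n` (small).      `z` = ANY site whose face contains `γ c`.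
-/

set_option autoImplicit false
open Claims.C0467 MeasureTheory Filter Topology Set

namespace Claimed.Agent.R291

open Classical in
/-- the faces of `F` visited by `g` on `I` -/
noncomputable def pinWinV (δ : ℝ) (F : Finset TV) (g : Circle → ℝ × ℝ) (I : Set Circle) : Finset TV := F.filter fun u => u ∈ hgVis δ F g I

theorem pin_win_eqns_cite : True := by
  have := @pinWinV.eq_1
  trivial

theorem pin_win_mem {δ : ℝ} {F : Finset TV} {g : Circle → ℝ × ℝ} {I : Set Circle} {u : TV} : u ∈ pinWinV δ F g I ↔ u ∈ hgVis δ F g I := by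
  classical
  unfold pinWinV
  rw [Finset.mem_filter, and_iff_right_iff_imp]
  exact fun h => h.1

theorem pin_win_coe (δ : ℝ) (F : Finset TV) (g : Circle → ℝ × ℝ) (I : Set Circle) : (pinWinV δ F g I : Set TV) = hgVis δ F g I := by
  ext u
  exact pin_win_mem

/-! ## (W2) -/

theorem pin_win_mono {δ : ℝ} {F : Finset TV} {g : Circle → ℝ × ℝ} {I J : Set Circle} (h : I ⊆ J) : pinWinV δ F g I ⊆ pinWinV δ F g J :=
  fun _ hu => pin_win_mem.2 (hg_vis_mono h (pin_win_mem.1 hu))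

theorem pin_win_sub_bd {δ : ℝ} (hδ : 0 < δ) {F : Finset TV} {g : Circle → ℝ × ℝ} (hg : Set.range g = frontier (faceRegion δ F)) (I : Set Circle) :
    pinWinV δ F g I ⊆ latBd F := fun _ hu => lat_mem_bd.2 (hg_vis_boundary hδ hg (pin_win_mem.1 hu))

theorem pin_win_R_of_reach {P : Set TV} {u v : TV} (hu : u ∈ P) (h : Relation.ReflTransGen (fun a b => triAdj a b ∧ b ∈ P) u v) : TscR tscG P u v := by
  induction h with
  | refl => exact tsc_R_refl _
  | @tail c b _ hcb ih => exact tsc_R_trans ih (tsc_R_step ((tsc_G_adj c b).2 hcb.1) (tsc_R_mem ih hu) hcb.2)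

/-- the faces visited on a connected set of parameters are lattice connected -/
theorem pin_win_conn {δ : ℝ} (hδ : 0 < δ) {F : Finset TV} {g : Circle → ℝ × ℝ} (hgc : Continuous g) (hg : Set.range g = frontier (faceRegion δ F))
    {I : Set Circle} (hI : IsPreconnected I) : TscConn tscG (pinWinV δ F g I : Set TV) := by
  rw [pin_win_coe]
  exact fun u hu v hv => pin_win_R_of_reach hu (hg_vis_reach hδ hgc hg hI hu hv)

theorem pin_win_nonempty {δ : ℝ} (hδ : 0 < δ) {F : Finset TV} {g : Circle → ℝ × ℝ} (hg : Set.range g = frontier (faceRegion δ F))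
    {I : Set Circle} (hI : I.Nonempty) : (pinWinV δ F g I).Nonempty := by
  obtain ⟨θ, hθ⟩ := hI
  obtain ⟨u, hu, -⟩ := hg_param_vis hδ hg hθ
  exact ⟨u, pin_win_mem.2 hu⟩

/-- the face visited at a given parameter -/
theorem pin_win_at {δ : ℝ} (hδ : 0 < δ) {F : Finset TV} {g : Circle → ℝ × ℝ} (hg : Set.range g = frontier (faceRegion δ F))
    {I : Set Circle} {θ : Circle} (hθ : θ ∈ I) : ∃ u ∈ pinWinV δ F g I, g θ ∈ hexFace δ u := by
  obtain ⟨u, hu, hu'⟩ := hg_param_vis hδ hg hθ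
  exact ⟨u, pin_win_mem.2 hu, hu'⟩

/-- **the boundary layer = the groups and the faces visited on the windows** -/
theorem pin_win_bd_eq {δ : ℝ} (hδ : 0 < δ) {F : Finset TV} {g : Circle → ℝ × ℝ} (hg : Set.range g = frontier (faceRegion δ F))
    {CC0 : Finset Circle} {t : ℕ → ℝ} (ht : PinGeoAng CC0 t) {a : ℝ} (ha : 0 < a) :
    latBd F = (Finset.range CC0.card).biUnion (fun i => pinWinV δ F g (pinGeoArc t a i))
      ∪ (Finset.range CC0.card).biUnion fun i => pinWinV δ F g (pinGeoWin t a i) := by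
  ext u
  simp only [Finset.mem_union, Finset.mem_biUnion, Finset.mem_range]
  constructor
  · intro hu
    obtain ⟨huF, v, huv, hv⟩ := lat_mem_bd.1 hu
    obtain ⟨-, θ, -, hθ⟩ := hg_boundary_vis hδ hg huF hv huv
    obtain ⟨i, hi, h | h⟩ := ht.cover ha θ
    · exact Or.inl ⟨i, hi, pin_win_mem.2 ⟨huF, θ, h, hθ⟩⟩
    · exact Or.inr ⟨i, hi, pin_win_mem.2 ⟨huF, θ, h, hθ⟩⟩
  · rintro (⟨i, -, h⟩ | ⟨i, -, h⟩)
    · exact pin_win_sub_bd hδ hg _ h
    · exact pin_win_sub_bd hδ hg _ h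

/-! ## the standing data -/

/-- the standing data: an inside approximation, its boundary parametrisations, the marked parameters and their sorted angles -/
structure PinWinDat (D : Set (ℝ × ℝ)) (δ : ℕ → ℝ) (F : ℕ → Finset TV) (γ : Circle → ℝ × ℝ) (γs : ℕ → Circle → ℝ × ℝ) (CC0 : Finset Circle)
    (t : ℕ → ℝ) : Prop where
  app : IsInsideApprox D δ F
  bd : HgBd D δ F γ γs
  ang : PinGeoAng CC0 t

namespace PinWinDat

variable {D : Set (ℝ × ℝ)} {δ : ℕ → ℝ} {F : ℕ → Finset TV} {γ : Circle → ℝ × ℝ} {γs : ℕ → Circle → ℝ × ℝ} {CC0 : Finset Circle} {t : ℕ → ℝ}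

theorem pos (H : PinWinDat D δ F γ γs CC0 t) (n : ℕ) : 0 < δ n := H.app.1 n

theorem cont (H : PinWinDat D δ F γ γs CC0 t) (n : ℕ) : Continuous (γs n) := (H.bd.2.2.2.1 n).1

theorem rng (H : PinWinDat D δ F γ γs CC0 t) (n : ℕ) : Set.range (γs n) = frontier (faceRegion (δ n) (F n)) := (H.bd.2.2.2.1 n).2.2

/-- eventually the mesh and the uniform distance of the parametrisations are `< e` (Euclidean) -/
theorem small (H : PinWinDat D δ F γ γs CC0 t) {e : ℝ} (he : 0 < e) : ∀ᶠ n in atTop, δ n < e ∧ ∀ θ, hgE (γs n θ) (γ θ) < e := by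
  filter_upwards [H.app.2.1.eventually (gt_mem_nhds he), H.bd.2.2.2.2 e he] with n h1 h2
  refine ⟨h1, fun θ => ?_⟩
  unfold hgE
  rw [Real.sqrt_lt' he]
  exact h2 θ

/-- a face visited at `θ` is within `δ_n + e_n` of `γ θ` -/
theorem near (H : PinWinDat D δ F γ γs CC0 t) {n : ℕ} {e : ℝ} (h : δ n < e ∧ ∀ θ, hgE (γs n θ) (γ θ) < e) {u : TV} {θ : Circle}
    (hu : γs n θ ∈ hexFace (δ n) u) : hgE (triPos (δ n) u) (γ θ) < 2 * e := by
  have h1 := hg_E_face_le (H.pos n) hu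
  have h2 := hg_E_triangle (triPos (δ n) u) (γs n θ) (γ θ)
  rw [hg_E_comm] at h1
  linarith [h.1, h.2 θ]

end PinWinDat

/-- Euclidean form of `pin_geo_win_small` -/
theorem pin_win_small_E {γ : Circle → ℝ × ℝ} (hc : Continuous γ) {e : ℝ} (he : 0 < e) :
    ∃ a0 : ℝ, 0 < a0 ∧ ∀ (t : ℕ → ℝ) (a : ℝ) (i : ℕ), a ≤ a0 → ∀ θ ∈ pinGeoWin t a i, hgE (γ θ) (γ (Circle.exp (t i))) < e := by
  obtain ⟨a0, ha0, h⟩ := pin_geo_win_small hc he
  refine ⟨a0, ha0, fun t a i ha θ hθ => ?_⟩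
  unfold hgE
  rw [Real.sqrt_lt' he]
  exact h t a i ha θ hθ

/-! ## (W1) -/

/-- **(W1)** a boundary site without label is within `r` of a marked point -/
theorem pin_win_W1 {D : Set (ℝ × ℝ)} {δ : ℕ → ℝ} {F : ℕ → Finset TV} {γ : Circle → ℝ × ℝ} {γs : ℕ → Circle → ℝ × ℝ} {CC0 : Finset Circle} {t : ℕ → ℝ}
    (H : PinWinDat D δ F γ γs CC0 t) {r : ℝ} (hr : 0 < r) :
    ∃ ε0 : ℝ, 0 < ε0 ∧ ∀ᶠ n in atTop, ∀ ε : ℝ, 0 < ε → ε ≤ ε0 → ∀ u ∈ latBd (F n),
      (∀ i, i < CC0.card → u ∉ pinWinV (δ n) (F n) (γs n) (pinGeoArc t ε i)) → ∃ c ∈ CC0, sqDist (triPos (δ n) u) (γ c) < r ^ 2 := by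
  obtain ⟨ε0, hε0, hwin⟩ := pin_win_small_E H.bd.1 (e := r / 2) (by positivity)
  refine ⟨ε0, hε0, ?_⟩
  filter_upwards [H.small (e := r / 4) (by positivity)] with n hn ε hε hεε u hu hno
  rw [pin_win_bd_eq (H.pos n) (H.rng n) H.ang hε] at hu
  simp only [Finset.mem_union, Finset.mem_biUnion, Finset.mem_range] at hu
  rcases hu with ⟨i, hi, h⟩ | ⟨i, hi, h⟩
  · exact absurd h (hno i hi)
  · obtain ⟨-, θ, hθ, hz⟩ := pin_win_mem.1 h
    refine ⟨Circle.exp (t i), (H.ang.mem _).2 ⟨i, hi, rfl⟩, ?_⟩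
    have h1 := H.near hn hz
    have h2 := hwin t ε i hεε θ hθ
    have h3 := hg_E_triangle (triPos (δ n) u) (γ θ) (γ (Circle.exp (t i)))
    have h4 : hgE (triPos (δ n) u) (γ (Circle.exp (t i))) < r := by linarith
    rw [← hg_E_sq]
    exact pow_lt_pow_left₀ h4 (hg_E_nonneg _ _) (by norm_num)

/-! ## (W3) the gap balls -/

/-- the smallest gap between consecutive marked angles -/
theorem pin_win_gap {CC : Finset Circle} {t : ℕ → ℝ} (h : PinGeoAng CC t) : ∃ g : ℝ, 0 < g ∧ ∀ i, i < CC.card → g ≤ t (i + 1) - t i := by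
  rcases Nat.eq_zero_or_pos CC.card with h0 | h0
  · exact ⟨1, one_pos, fun i hi => by omega⟩
  have hne : (Finset.range CC.card).Nonempty := ⟨0, Finset.mem_range.2 h0⟩
  refine ⟨(Finset.range CC.card).inf' hne fun i => t (i + 1) - t i, ?_, fun i hi => Finset.inf'_le _ (Finset.mem_range.2 hi)⟩
  rw [Finset.lt_inf'_iff]
  intro i hi
  have := h.mono i (i + 1) (by omega) (Finset.mem_range.1 hi)
  linarith

theorem pin_win_arc_nonempty {t : ℕ → ℝ} {a : ℝ} {i : ℕ} (h : 2 * a ≤ t (i + 1) - t i) : (pinGeoArc t a i).Nonempty :=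
  ⟨_, (pin_geo_arc_ends t h).1⟩

/-- a site of a lattice ball is Euclidean-close to the centre -/
theorem pin_win_ball_E {δ : ℝ} (hδ : 0 < δ) {u z : TV} {k : ℕ} {r : ℝ} (hu : u ∈ latBall z k) (hk : (k : ℝ) * δ ≤ r) :
    hgE (triPos δ u) (triPos δ z) ≤ r := by
  have h1 := hg_E_le_latN hδ u z
  have h2 : (latN (u - z) : ℝ) ≤ k := by exact_mod_cast lat_mem_ball.1 hu
  have h3 : δ * (latN (u - z) : ℝ) ≤ δ * k := mul_le_mul_of_nonneg_left h2 hδ.le
  linarith

/-- a site which is Euclidean-close to the centre is in the lattice ball -/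
theorem pin_win_mem_ball {δ : ℝ} (hδ : 0 < δ) {u z : TV} {k : ℕ} (h : 2 * hgE (triPos δ u) (triPos δ z) ≤ (k : ℝ) * δ) : u ∈ latBall z k := by
  rw [lat_mem_ball]
  have h1 := hg_latN_le_E hδ u z
  have hs : (1 : ℝ) ≤ Real.sqrt 3 := by
    rw [show (1 : ℝ) = Real.sqrt 1 by simp]
    exact Real.sqrt_le_sqrt (by norm_num)
  have h2 : 2 / Real.sqrt 3 ≤ 2 := by
    rw [div_le_iff₀ (by linarith)]
    linarith
  have h3 : 2 / Real.sqrt 3 * hgE (triPos δ u) (triPos δ z) ≤ 2 * hgE (triPos δ u) (triPos δ z) :=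
    mul_le_mul_of_nonneg_right h2 (hg_E_nonneg _ _)
  have h4 : δ * (latN (u - z) : ℝ) ≤ δ * k := by linarith
  have h5 : (latN (u - z) : ℝ) ≤ k := le_of_mul_le_mul_left h4 hδ
  exact_mod_cast h5

/-- Euclidean form of `pin_geo_sep` -/
theorem pin_win_sep_E {γ : Circle → ℝ × ℝ} (hc : Continuous γ) (hi : Function.Injective γ) {K K' : Set Circle} (hK : IsCompact K)
    (hK' : IsCompact K') (hd : Disjoint K K') : ∃ κ : ℝ, 0 < κ ∧ ∀ θ ∈ K, ∀ θ' ∈ K', κ ≤ hgE (γ θ) (γ θ') := by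
  obtain ⟨κ, hκ, h⟩ := pin_geo_sep hc hi hK hK' hd
  refine ⟨κ, hκ, fun θ hθ θ' hθ' => ?_⟩
  unfold hgE
  exact Real.le_sqrt_of_sq_le (h θ hθ θ' hθ')

/-- the images of different marked points are separated -/
theorem pin_win_marks_sep {γ : Circle → ℝ × ℝ} (hi : Function.Injective γ) (CC : Finset Circle) :
    ∃ κ : ℝ, 0 < κ ∧ ∀ c ∈ CC, ∀ c' ∈ CC, c ≠ c' → κ ≤ hgE (γ c) (γ c') := by
  rcases CC.offDiag.eq_empty_or_nonempty with h0 | hne
  · refine ⟨1, one_pos, fun c hc c' hc' hne => ?_⟩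
    have : (c, c') ∈ CC.offDiag := Finset.mem_offDiag.2 ⟨hc, hc', hne⟩
    rw [h0] at this
    exact absurd this (Finset.notMem_empty _)
  refine ⟨CC.offDiag.inf' hne fun p => hgE (γ p.1) (γ p.2), ?_, fun c hc c' hc' hcc =>
    Finset.inf'_le (fun p : Circle × Circle => hgE (γ p.1) (γ p.2)) (b := (c, c')) (Finset.mem_offDiag.2 ⟨hc, hc', hcc⟩)⟩
  rw [Finset.lt_inf'_iff]
  intro p hp
  have hp' := (Finset.mem_offDiag.1 hp).2.2
  unfold hgE
  rw [Real.sqrt_pos]
  rcases (hg_sqDist_nonneg (γ p.1) (γ p.2)).lt_or_eq with h | h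
  · exact h
  · exact absurd (hi (hg_sqDist_eq_zero h.symm)) hp'

/-- a compact subset of an open set is separated from the frontier -/
theorem pin_win_test_sep {D Kt : Set (ℝ × ℝ)} (ho : IsOpen D) (hK : IsCompact Kt) (hKD : Kt ⊆ D) :
    ∃ κ : ℝ, 0 < κ ∧ ∀ y ∈ Kt, ∀ p ∈ frontier D, κ ≤ hgE y p := by
  have hd : Disjoint Kt (frontier D) := by
    rw [Set.disjoint_left]
    intro y hy hy'
    have : y ∈ D ∩ frontier D := ⟨hKD hy, hy'⟩
    rw [ho.inter_frontier_eq] at this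
    exact this
  obtain ⟨κ, hκ, h⟩ := Metric.exists_pos_forall_lt_edist hK isClosed_frontier hd
  refine ⟨κ, by exact_mod_cast hκ, fun y hy p hp => ?_⟩
  have h4 := h y hy p hp
  rw [edist_nndist, ENNReal.coe_lt_coe] at h4
  have h5 : (κ : ℝ) < dist y p := by exact_mod_cast h4
  exact h5.le.trans (hg_dist_le_E y p)

/-- **(W3), big radius**: no label, no face which meets the tests, disjoint balls -/
theorem pin_win_big {D : Set (ℝ × ℝ)} {δ : ℕ → ℝ} {F : ℕ → Finset TV} {γ : Circle → ℝ × ℝ} {γs : ℕ → Circle → ℝ × ℝ} {CC0 : Finset Circle} {t : ℕ → ℝ}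
    (H : PinWinDat D δ F γ γs CC0 t) (ho : IsOpen D) {ε : ℝ} (hε : 0 < ε) {Kt : Set (ℝ × ℝ)} (hK : IsCompact Kt) (hKD : Kt ⊆ D) :
    ∃ r0 : ℝ, 0 < r0 ∧ ∀ᶠ n in atTop, ∀ c ∈ CC0, ∀ z : TV, γ c ∈ hexFace (δ n) z → ∀ k : ℕ, (k : ℝ) * δ n ≤ r0 →
      (∀ i, i < CC0.card → Disjoint (latBall z k) (pinWinV (δ n) (F n) (γs n) (pinGeoArc t ε i))) ∧
      (∀ u ∈ latBall z k, Disjoint (hexFace (δ n) u) Kt) ∧
      ∀ c' ∈ CC0, c' ≠ c → ∀ z' : TV, γ c' ∈ hexFace (δ n) z' → Disjoint (latBall z k) (latBall z' k) := by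
  have hcomp : IsCompact (⋃ i ∈ Finset.range CC0.card, pinGeoArc t ε i) :=
    (Finset.range CC0.card).isCompact_biUnion fun i _ => pin_geo_arc_compact t ε i
  have hdis : Disjoint (⋃ i ∈ Finset.range CC0.card, pinGeoArc t ε i) (CC0 : Set Circle) := by
    rw [Set.disjoint_left]
    intro θ hθ hc
    simp only [Set.mem_iUnion, Finset.mem_range] at hθ
    obtain ⟨i, hi, hθ⟩ := hθ
    exact H.ang.arc_not_mem hε hi hθ hc
  obtain ⟨κ1, hκ1, h1⟩ := pin_win_sep_E H.bd.1 H.bd.2.1 hcomp CC0.finite_toSet.isCompact hdis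
  obtain ⟨κ2, hκ2, h2⟩ := pin_win_test_sep ho hK hKD
  obtain ⟨κ3, hκ3, h3⟩ := pin_win_marks_sep H.bd.2.1 CC0
  set r0 : ℝ := min κ1 (min κ2 κ3) / 5 with hr0
  have hr0pos : 0 < r0 := by
    rw [hr0]
    have := lt_min hκ1 (lt_min hκ2 hκ3)
    positivity
  have m1 : 5 * r0 ≤ κ1 := by rw [hr0]; linarith [min_le_left κ1 (min κ2 κ3)]
  have m2 : 5 * r0 ≤ κ2 := by rw [hr0]; linarith [(min_le_right κ1 (min κ2 κ3)).trans (min_le_left κ2 κ3)]
  have m3 : 5 * r0 ≤ κ3 := by rw [hr0]; linarith [(min_le_right κ1 (min κ2 κ3)).trans (min_le_right κ2 κ3)]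
  refine ⟨r0, hr0pos, ?_⟩
  filter_upwards [H.small hr0pos] with n hn c hc z hz k hk
  have hzc : hgE (γ c) (triPos (δ n) z) < r0 := (hg_E_face_le (H.pos n) hz).trans_lt hn.1
  refine ⟨fun i hi => ?_, fun u hu => ?_, fun c' hc' hcc z' hz' => ?_⟩
  · rw [Finset.disjoint_left]
    intro u hu hu'
    obtain ⟨-, θ, hθ, hzθ⟩ := pin_win_mem.1 hu'
    have a1 := H.near hn hzθ
    have a2 := pin_win_ball_E (H.pos n) hu hk
    have a3 := h1 θ (by simp only [Set.mem_iUnion, Finset.mem_range]; exact ⟨i, hi, hθ⟩) c hc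
    have a4 := hg_E_triangle (γ θ) (triPos (δ n) u) (γ c)
    have a5 := hg_E_triangle (triPos (δ n) u) (triPos (δ n) z) (γ c)
    rw [hg_E_comm (γ θ) (triPos (δ n) u)] at a4
    rw [hg_E_comm (triPos (δ n) z) (γ c)] at a5
    linarith
  · rw [Set.disjoint_left]
    intro y hy hyK
    have a1 := (hg_E_face_le (H.pos n) hy).trans_lt hn.1
    have a2 := pin_win_ball_E (H.pos n) hu hk
    have a3 := h2 y hyK (γ c) (H.bd.2.2.1 ▸ mem_range_self c)
    have a4 := hg_E_triangle y (triPos (δ n) u) (γ c)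
    have a5 := hg_E_triangle (triPos (δ n) u) (triPos (δ n) z) (γ c)
    rw [hg_E_comm (triPos (δ n) z) (γ c)] at a5
    linarith
  · rw [Finset.disjoint_left]
    intro u hu hu'
    have hzc' : hgE (γ c') (triPos (δ n) z') < r0 := (hg_E_face_le (H.pos n) hz').trans_lt hn.1
    have a1 := pin_win_ball_E (H.pos n) hu hk
    have a2 := pin_win_ball_E (H.pos n) hu' hk
    have a3 := h3 c hc c' hc' (Ne.symm hcc)
    have a4 := hg_E_triangle (γ c) (triPos (δ n) z) (γ c')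
    have a5 := hg_E_triangle (triPos (δ n) z) (triPos (δ n) u) (γ c')
    have a6 := hg_E_triangle (triPos (δ n) u) (triPos (δ n) z') (γ c')
    rw [hg_E_comm (triPos (δ n) z) (triPos (δ n) u)] at a5
    rw [hg_E_comm (triPos (δ n) z') (γ c')] at a6
    linarith

/-- the index of the arc which ENDS at the marked point `j` -/
def pinWinPrev (m j : ℕ) : ℕ := if j = 0 then m - 1 else j - 1

theorem pin_win_eqns_cite2 : True := by
  have := @pinWinPrev.eq_1
  trivial

theorem pin_win_prev_lt {m j : ℕ} (hj : j < m) : pinWinPrev m j < m := by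
  unfold pinWinPrev
  split_ifs <;> omega

/-- the two ends next to the marked point `j`: they belong to the arcs `j`, `prev j` and to the window of size `2 a` -/
theorem pin_win_ends {CC : Finset Circle} {t : ℕ → ℝ} (h : PinGeoAng CC t) {a g : ℝ} (ha : 0 < a) (hg : ∀ i, i < CC.card → g ≤ t (i + 1) - t i)
    (hag : 2 * a ≤ g) {j : ℕ} (hj : j < CC.card) :
    (Circle.exp (t j + a) ∈ pinGeoArc t a j ∧ Circle.exp (t j + a) ∈ pinGeoWin t (2 * a) j) ∧
      Circle.exp (t j - a) ∈ pinGeoArc t a (pinWinPrev CC.card j) ∧ Circle.exp (t j - a) ∈ pinGeoWin t (2 * a) j := by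
  refine ⟨⟨(pin_geo_arc_ends t (hag.trans (hg j hj))).1, ⟨_, ⟨by linarith, by linarith⟩, rfl⟩⟩, ?_, ⟨_, ⟨by linarith, by linarith⟩, rfl⟩⟩
  unfold pinWinPrev
  split_ifs with h0
  · subst h0
    have e : CC.card - 1 + 1 = CC.card := by omega
    have h1 := (pin_geo_arc_ends t (i := CC.card - 1) (hag.trans (hg _ (by omega)))).2
    rw [e, h.top] at h1
    have e2 : t 0 + 2 * Real.pi - a = t 0 - a + 2 * Real.pi := by ring
    rw [e2, Circle.exp_add_two_pi] at h1
    exact h1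
  · have e : j - 1 + 1 = j := by omega
    have h1 := (pin_geo_arc_ends t (i := j - 1) (hag.trans (hg _ (by omega)))).2
    rw [e] at h1
    exact h1

/-- **(W3), small radius**: the faces visited on the `a`-window lie in the small ball; each of the two adjacent groups has a site in it -/
theorem pin_win_small {D : Set (ℝ × ℝ)} {δ : ℕ → ℝ} {F : ℕ → Finset TV} {γ : Circle → ℝ × ℝ} {γs : ℕ → Circle → ℝ × ℝ} {CC0 : Finset Circle} {t : ℕ → ℝ}
    (H : PinWinDat D δ F γ γs CC0 t) {η : ℝ} (hη : 0 < η) :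
    ∃ a0 : ℝ, 0 < a0 ∧ ∀ᶠ n in atTop, ∀ a : ℝ, 0 < a → a ≤ a0 → ∀ j, j < CC0.card → ∀ z : TV, γ (Circle.exp (t j)) ∈ hexFace (δ n) z →
      ∀ k : ℕ, η ≤ (k : ℝ) * δ n →
        pinWinV (δ n) (F n) (γs n) (pinGeoWin t a j) ⊆ latBall z k ∧
        (∃ u ∈ pinWinV (δ n) (F n) (γs n) (pinGeoArc t a j), u ∈ latBall z k) ∧
        ∃ u ∈ pinWinV (δ n) (F n) (γs n) (pinGeoArc t a (pinWinPrev CC0.card j)), u ∈ latBall z k := by
  obtain ⟨a1, ha1, hwin⟩ := pin_win_small_E H.bd.1 (e := η / 8) (by positivity)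
  obtain ⟨g, hg0, hg⟩ := pin_win_gap H.ang
  refine ⟨min (a1 / 2) (g / 2), lt_min (by positivity) (by positivity), ?_⟩
  filter_upwards [H.small (e := η / 8) (by positivity)] with n hn a ha haa j hj z hz k hk
  have haa1 : 2 * a ≤ a1 := by linarith [haa.trans (min_le_left _ _)]
  have haag : 2 * a ≤ g := by linarith [haa.trans (min_le_right _ _)]
  have hzc : hgE (γ (Circle.exp (t j))) (triPos (δ n) z) < η / 8 := (hg_E_face_le (H.pos n) hz).trans_lt hn.1
  -- a face visited at a parameter of the window of size `2 a` is in the ball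
  have key : ∀ (θ : Circle) (u : TV), θ ∈ pinGeoWin t (2 * a) j → γs n θ ∈ hexFace (δ n) u → u ∈ latBall z k := by
    intro θ u hθ hu
    apply pin_win_mem_ball (H.pos n)
    have b1 := H.near hn hu
    have b2 := hwin t (2 * a) j haa1 θ hθ
    have b3 := hg_E_triangle (triPos (δ n) u) (γ θ) (triPos (δ n) z)
    have b4 := hg_E_triangle (γ θ) (γ (Circle.exp (t j))) (triPos (δ n) z)
    linarith
  obtain ⟨⟨e1, e2⟩, e3, e4⟩ := pin_win_ends H.ang ha hg haag hj
  refine ⟨fun u hu => ?_, ?_, ?_⟩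
  · obtain ⟨-, θ, hθ, hzθ⟩ := pin_win_mem.1 hu
    exact key θ u (pin_geo_win_mono t (by linarith) j hθ) hzθ
  · obtain ⟨u, hu, hu'⟩ := pin_win_at (H.pos n) (H.rng n) e1
    exact ⟨u, hu, key _ u e2 hu'⟩
  · obtain ⟨u, hu, hu'⟩ := pin_win_at (H.pos n) (H.rng n) e3
    exact ⟨u, hu, key _ u e4 hu'⟩

/-- **each group has a site off the big balls** (any label site), `a ≤ ε`, `2 ε ≤` the smallest gap -/
theorem pin_win_far {δ : ℝ} (hδ : 0 < δ) {F : Finset TV} {g : Circle → ℝ × ℝ} (hg : Set.range g = frontier (faceRegion δ F)) {t : ℕ → ℝ} {a ε : ℝ}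
    (haε : a ≤ ε) {i : ℕ} (hgap : 2 * ε ≤ t (i + 1) - t i) :
    ∃ u ∈ pinWinV δ F g (pinGeoArc t a i), u ∈ pinWinV δ F g (pinGeoArc t ε i) := by
  obtain ⟨u, hu⟩ := pin_win_nonempty hδ hg (pin_win_arc_nonempty hgap)
  exact ⟨u, pin_win_mono (pin_geo_arc_mono t haε i) hu, hu⟩

end Claimed.Agent.R291
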