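import Claimed.Agent.R291.Geo.Region
import Claimed.Agent.R291.Defs.Lat
import Claimed.Agent.R291.Tool.TriSCLat

/-!
# Row 291 (S0539), unit PIN (05-pins), file Shell : FROM PHYSICAL GEOMETRY TO LATTICE DATA      (OWNER helper72; head of PIN: helper34; prefix `pin_sh_`, defs `pin…`/`Pin…`)

Mathlib + Geo/Hex (172) + Defs/Lat (115) + Tool/TriSCLat (147) only; 0 sorry.      Design: (K4) of `origin/helper34:notes/R291/sec5_34.md`, hypotheses of the CORE of `origin/helper39:notes/R291/sec5_N3_39.md`, (N) of `sec2_146.md`.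
The physical plane is `ℂ` (so that `dist` is EUCLIDEAN; `ℝ × ℝ` carries the sup metric): `pinC : ℝ × ℝ → ℂ`, `pinP δ u = pinC (triPos δ u)`, `dist (pinC z) (pinC w) ^ 2 = sqDist z w`.
* sec. 1  `pin_sh_P_le`, `pin_sh_P_ge`: `δ latN (v - u) / 2 ≤ |p_u - p_v| ≤ δ latN (v - u)`; `pin_sh_P_adj`; `pin_sh_near` (a site within `δ` of every point).
* sec. 2  `pinG δ Γ u` = Euclidean distance of the site `u` to `Γ`; `pin_sh_G_adj`: `pinG / δ` is `1`-Lipschitz for `triAdj` (the function `g` of 146's (N)).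
* sec. 3  **`pin_sh_cover`** (K4): the sites at the distance `s ± δ` of a compact `Γ` are covered by `≤ N` lattice balls of radius `n = pinRad w κ δ ≥ n0`, and the balls of radius `κ n + 2` stay in `|dist - s| < w`;
          `N`, `δ0` depend on `(Γ, s, w, κ, n0)` only: UNIFORM in the mesh and in ALL rigid motions `φ : ℂ ≃ᵢ ℂ` of `Γ` (placements, mirror copies).
* sec. 4  `pin_sh_ivt`, `pin_sh_necklace`: these balls block every lattice path (`TscR tscG Q a b`) across the level `s`.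
* sec. 5  `pinVis δ X` = sites whose face meets `X`; **`pin_sh_vis_conn`** (nerve lemma): `X` preconnected ⟹ `TscConn tscG (pinVis δ X)`.
* sec. 6  `pin_sh_star` (connected sets attached to a connected set), `pinFat ρ X`, `pin_sh_fat_conn`.
* sec. 7  `PinEsc Γ c R p` (the point `p` escapes from the obstacle `Γ` with clearance `c`), `pin_sh_esc_proj` (along a direction of separation), `pin_sh_esc_chain` (through a connected set),
          **`pin_sh_ext`**: ONE connected exterior containing all escaping points (substitute of "an arc does not separate the plane", gap (!) of 39's note sec. 3).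
* sec. 8  `pinNb`, `PinCol κ n N A Rr O` (collar of an obstacle, lattice form), **`pin_sh_collar`**.
-/

set_option autoImplicit false

namespace Claimed.Agent.R291

open Claims Claims.C0467 Set Metric Filter Topology


/-! ## 1. the Euclidean plane as `ℂ`; Euclidean distance versus the hexagonal norm -/

/-- a physical point as a complex number (so that `dist` is the EUCLIDEAN distance) -/
def pinC (z : ℝ × ℝ) : ℂ := ⟨z.1, z.2⟩

/-- the position of a site -/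
noncomputable def pinP (δ : ℝ) (u : TV) : ℂ := pinC (triPos δ u)

theorem pin_sh_dist (z w : ℝ × ℝ) : dist (pinC z) (pinC w) = Real.sqrt (sqDist z w) := by
  rw [Complex.dist_eq_re_im]; rfl

theorem pin_sh_dist_sq (z w : ℝ × ℝ) : dist (pinC z) (pinC w) ^ 2 = sqDist z w := by
  rw [pin_sh_dist, Real.sq_sqrt (hg_sqDist_nonneg z w)]

theorem pin_sh_dist_le_iff (z w : ℝ × ℝ) {r : ℝ} (hr : 0 ≤ r) : dist (pinC z) (pinC w) ≤ r ↔ sqDist z w ≤ r ^ 2 := by
  rw [← pin_sh_dist_sq, pow_le_pow_iff_left₀ dist_nonneg hr (by norm_num)]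

theorem pin_sh_dist_lt_iff (z w : ℝ × ℝ) {r : ℝ} (hr : 0 ≤ r) : dist (pinC z) (pinC w) < r ↔ sqDist z w < r ^ 2 := by
  rw [← pin_sh_dist_sq, pow_lt_pow_iff_left₀ dist_nonneg hr (by norm_num)]

theorem pin_sh_C_surj (c : ℂ) : ∃ z : ℝ × ℝ, pinC z = c := ⟨(c.re, c.im), rfl⟩

theorem pin_sh_C_cont : Continuous pinC := by
  have : pinC = fun z : ℝ × ℝ => (z.1 : ℂ) + (z.2 : ℂ) * Complex.I := by
    funext z; apply Complex.ext <;> simp [pinC]
  rw [this]; fun_prop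

theorem pin_sh_C_add (z w : ℝ × ℝ) : pinC (z + w) = pinC z + pinC w := by
  apply Complex.ext <;> simp [pinC]

/-- the norm form is between `3/4 latN²` and `latN²` -/
theorem pin_sh_form_le (d : TV) : d.1 ^ 2 + d.1 * d.2 + d.2 ^ 2 ≤ (latN d : ℤ) ^ 2 := by
  obtain ⟨a, b⟩ := d
  simp only [latN]
  have h1 : (a.natAbs : ℤ) ≤ (max (max a.natAbs b.natAbs) (a + b).natAbs : ℕ) := by
    exact_mod_cast (le_max_left _ _).trans (le_max_left _ _)
  have h2 : (b.natAbs : ℤ) ≤ (max (max a.natAbs b.natAbs) (a + b).natAbs : ℕ) := by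
    exact_mod_cast (le_max_right _ _).trans (le_max_left _ _)
  have h3 : ((a + b).natAbs : ℤ) ≤ (max (max a.natAbs b.natAbs) (a + b).natAbs : ℕ) := by
    exact_mod_cast le_max_right _ _
  generalize ((max (max a.natAbs b.natAbs) (a + b).natAbs : ℕ) : ℤ) = m at h1 h2 h3
  rw [Int.natCast_natAbs] at h1 h2 h3
  have a1 := abs_le.1 h1
  have a2 := abs_le.1 h2
  have a3 := abs_le.1 h3
  rcases le_total 0 (a * b) with h | h
  · nlinarith [a3.1, a3.2]
  · rcases le_total |a| |b| with hab | hab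
    · have : a ^ 2 ≤ -(a * b) ∨ True := Or.inr trivial
      nlinarith [abs_mul_abs_self a, abs_mul_abs_self b, abs_nonneg a, abs_nonneg b, abs_mul a b, abs_of_nonpos h, a2.1, a2.2, sq_abs b, sq_abs a]
    · nlinarith [abs_mul_abs_self a, abs_mul_abs_self b, abs_nonneg a, abs_nonneg b, abs_mul a b, abs_of_nonpos h, a1.1, a1.2, sq_abs b, sq_abs a]

theorem pin_sh_form_ge (d : TV) : 3 * (latN d : ℤ) ^ 2 ≤ 4 * (d.1 ^ 2 + d.1 * d.2 + d.2 ^ 2) := by
  obtain ⟨a, b⟩ := d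
  simp only [latN]
  rcases max_cases (max a.natAbs b.natAbs) (a + b).natAbs with ⟨h, -⟩ | ⟨h, -⟩
  · rw [h]
    rcases max_cases a.natAbs b.natAbs with ⟨h', -⟩ | ⟨h', -⟩
    · rw [h', Int.natCast_natAbs, sq_abs]; nlinarith [sq_nonneg (a + 2 * b)]
    · rw [h', Int.natCast_natAbs, sq_abs]; nlinarith [sq_nonneg (2 * a + b)]
  · rw [h, Int.natCast_natAbs, sq_abs]; nlinarith [sq_nonneg (a - b)]


theorem pin_sh_P_sq (δ : ℝ) (u v : TV) :
    dist (pinP δ u) (pinP δ v) ^ 2 = δ ^ 2 * (((v - u).1 ^ 2 + (v - u).1 * (v - u).2 + (v - u).2 ^ 2 : ℤ) : ℝ) := by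
  unfold pinP
  rw [pin_sh_dist_sq, hg_sqDist_triPos]
  simp only [Prod.fst_sub, Prod.snd_sub]
  push_cast
  ring

/-- Euclidean distance `≤ δ ×` graph distance -/
theorem pin_sh_P_le {δ : ℝ} (hδ : 0 ≤ δ) (u v : TV) : dist (pinP δ u) (pinP δ v) ≤ δ * latN (v - u) := by
  have h := pin_sh_form_le (v - u)
  have h' : (((v - u).1 ^ 2 + (v - u).1 * (v - u).2 + (v - u).2 ^ 2 : ℤ) : ℝ) ≤ (latN (v - u) : ℝ) ^ 2 := by exact_mod_cast h
  refine abs_le_of_sq_le_sq' ?_ (by positivity) |>.2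
  rw [pin_sh_P_sq, mul_pow]
  exact mul_le_mul_of_nonneg_left h' (sq_nonneg δ)

/-- `δ ×` graph distance `≤ 2 ×` Euclidean distance (the sharp constant is `2/√3`) -/
theorem pin_sh_P_ge {δ : ℝ} (hδ : 0 ≤ δ) (u v : TV) : δ * latN (v - u) ≤ 2 * dist (pinP δ u) (pinP δ v) := by
  have h := pin_sh_form_ge (v - u)
  have h' : 3 * (latN (v - u) : ℝ) ^ 2 ≤ 4 * (((v - u).1 ^ 2 + (v - u).1 * (v - u).2 + (v - u).2 ^ 2 : ℤ) : ℝ) := by exact_mod_cast h
  refine abs_le_of_sq_le_sq' ?_ (by positivity) |>.2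
  rw [mul_pow, mul_pow, pin_sh_P_sq]
  nlinarith [sq_nonneg δ, mul_le_mul_of_nonneg_left h' (sq_nonneg δ), mul_nonneg (sq_nonneg δ) (sq_nonneg (latN (v - u) : ℝ))]

theorem pin_sh_P_adj {δ : ℝ} (hδ : 0 ≤ δ) {u v : TV} (h : triAdj u v) : dist (pinP δ u) (pinP δ v) = δ := by
  unfold pinP
  rw [pin_sh_dist, hg_sqDist_of_triAdj δ h, Real.sqrt_sq hδ]

/-- every point is within `δ` of a site -/
theorem pin_sh_near {δ : ℝ} (hδ : 0 < δ) (c : ℂ) : ∃ u : TV, dist c (pinP δ u) ≤ δ := by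
  obtain ⟨z, rfl⟩ := pin_sh_C_surj c
  obtain ⟨u, hu⟩ := hg_cover hδ z
  refine ⟨u, ?_⟩
  unfold pinP
  rw [pin_sh_dist_le_iff _ _ hδ.le]
  have := hg_hexFace_sqDist_le hδ hu
  nlinarith [sq_nonneg δ]

theorem pin_sh_P_add (δ : ℝ) (u a : TV) : pinP δ (u + a) = pinP δ u + pinP δ a := by
  unfold pinP
  rw [← pin_sh_C_add]
  congr 1
  unfold triPos
  ext <;> simp <;> ring

/-! ## 2. the distance to a set, read on the sites -/

/-- Euclidean distance of the site `u` to the set `Γ` -/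
noncomputable def pinG (δ : ℝ) (Γ : Set ℂ) (u : TV) : ℝ := infDist (pinP δ u) Γ

theorem pin_sh_G_nonneg (δ : ℝ) (Γ : Set ℂ) (u : TV) : 0 ≤ pinG δ Γ u := infDist_nonneg

theorem pin_sh_infDist_abs (Γ : Set ℂ) (a b : ℂ) : |infDist a Γ - infDist b Γ| ≤ dist a b := by
  rw [abs_le]
  constructor
  · have := infDist_le_infDist_add_dist (s := Γ) (x := b) (y := a)
    rw [dist_comm] at this; linarith
  · have := infDist_le_infDist_add_dist (s := Γ) (x := a) (y := b)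
    linarith

/-- `pinG / δ` is `1`-Lipschitz for the lattice adjacency -/
theorem pin_sh_G_adj {δ : ℝ} (hδ : 0 ≤ δ) (Γ : Set ℂ) {u v : TV} (h : triAdj u v) : |pinG δ Γ u - pinG δ Γ v| ≤ δ :=
  (pin_sh_infDist_abs Γ _ _).trans (pin_sh_P_adj hδ h).le

theorem pin_sh_G_ball {δ : ℝ} (hδ : 0 ≤ δ) (Γ : Set ℂ) {z v : TV} {n : ℕ} (h : v ∈ latBall z n) :
    |pinG δ Γ v - pinG δ Γ z| ≤ δ * n := by
  refine (pin_sh_infDist_abs Γ _ _).trans ?_
  rw [dist_comm]
  refine (pin_sh_P_le hδ z v).trans (mul_le_mul_of_nonneg_left ?_ hδ)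
  exact_mod_cast lat_mem_ball.1 h

theorem pin_sh_infDist_image (φ : ℂ ≃ᵢ ℂ) (Γ : Set ℂ) (c : ℂ) : infDist (φ c) (φ '' Γ) = infDist c Γ := by
  exact infDist_image φ.isometry


/-! ## 3. shells are covered by boundedly many lattice balls -/

/-- the closed shell of a compact set is compact -/
theorem pin_sh_shell_compact {Γ : Set ℂ} (hΓ : IsCompact Γ) (hne : Γ.Nonempty) (s ρ : ℝ) :
    IsCompact {c : ℂ | |infDist c Γ - s| ≤ ρ} := by
  refine isCompact_of_isClosed_isBounded ?_ ?_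
  · exact isClosed_le (((continuous_infDist_pt Γ).sub continuous_const).abs) continuous_const
  · obtain ⟨R, hR⟩ := hΓ.isBounded.subset_closedBall 0
    refine (isBounded_closedBall (x := (0 : ℂ)) (r := R + (s + ρ + 1))).subset fun c hc => ?_
    have hc' : |infDist c Γ - s| ≤ ρ := hc
    have h1 : infDist c Γ < s + ρ + 1 := by have := (abs_le.1 hc').2; linarith
    obtain ⟨y, hy, hcy⟩ := (infDist_lt_iff hne).1 h1
    have h2 := hR hy
    rw [mem_closedBall] at h2 ⊢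
    linarith [dist_triangle c y 0]

/-- the radius (in lattice units) of the balls of the necklaces: it depends on the half width `w`, the ratio `κ` and the mesh only -/
noncomputable def pinRad (w : ℝ) (κ : ℕ) (δ : ℝ) : ℕ := ⌈2 * (w / (8 * ((κ : ℝ) + 1)) + δ) / δ⌉₊

/-- **(K4), covering.**  `Γ` compact, shell at the distance `s`, half width `w`, ratio `κ`, minimal radius `n0`:
there are `N` and `δ0` such that at every mesh `δ ≤ δ0` the radius `n = pinRad w κ δ` is `≥ n0` and, for every rigid motion `φ` of `Γ`, at most `N` lattice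
balls of radius `n` cover the sites at the distance `s ± δ`, and the balls of radius `κ n + 2` with the same centres stay in the shell `|dist - s| < w`. -/
theorem pin_sh_cover {Γ : Set ℂ} (hΓ : IsCompact Γ) (hne : Γ.Nonempty) (s : ℝ) {w : ℝ} (hw : 0 < w) (κ n0 : ℕ) :
    ∃ (N : ℕ) (δ0 : ℝ), 0 < δ0 ∧ ∀ δ, 0 < δ → δ ≤ δ0 → n0 ≤ pinRad w κ δ ∧ ∀ φ : ℂ ≃ᵢ ℂ, ∃ Z : Finset TV, Z.card ≤ N ∧
      (∀ u : TV, |pinG δ (φ '' Γ) u - s| ≤ δ → ∃ z ∈ Z, u ∈ latBall z (pinRad w κ δ)) ∧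
      (∀ z ∈ Z, ∀ v ∈ latBall z (κ * pinRad w κ δ + 2), |pinG δ (φ '' Γ) v - s| < w) := by
  classical
  obtain ⟨ρ, hρ⟩ : ∃ ρ, ρ = w / (8 * ((κ : ℝ) + 1)) := ⟨_, rfl⟩
  have hκ0 : (0 : ℝ) ≤ κ := Nat.cast_nonneg κ
  have hρ0 : 0 < ρ := by rw [hρ]; positivity
  have hρw : 8 * ((κ : ℝ) + 1) * ρ = w := by rw [hρ]; field_simp
  obtain ⟨t, htS, htf, hcov⟩ := (pin_sh_shell_compact hΓ hne s ρ).finite_cover_balls hρ0
  refine ⟨htf.toFinset.card, min (ρ / 2) (ρ / ((n0 : ℝ) + 1)), lt_min (by positivity) (by positivity), ?_⟩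
  intro δ hδ hδ0
  have hδ1 : δ ≤ ρ / 2 := hδ0.trans (min_le_left _ _)
  have hδ2 : δ ≤ ρ / ((n0 : ℝ) + 1) := hδ0.trans (min_le_right _ _)
  obtain ⟨n, hn'⟩ : ∃ n : ℕ, n = pinRad w κ δ := ⟨_, rfl⟩
  rw [← hn']
  have hn : n = ⌈2 * (ρ + δ) / δ⌉₊ := by rw [hn', hρ]; rfl
  have hn1 : 2 * (ρ + δ) / δ ≤ n := by rw [hn]; exact Nat.le_ceil _
  have hn2 : (n : ℝ) < 2 * (ρ + δ) / δ + 1 := by rw [hn]; exact Nat.ceil_lt_add_one (by positivity)
  have hn1' : 2 * (ρ + δ) ≤ δ * n := by rw [div_le_iff₀ hδ] at hn1; linarith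
  have hn2' : δ * n < 2 * ρ + 3 * δ := by
    have : (n : ℝ) * δ < (2 * (ρ + δ) / δ + 1) * δ := mul_lt_mul_of_pos_right hn2 hδ
    rw [add_mul, div_mul_cancel₀ _ hδ.ne'] at this
    linarith
  refine ⟨?_, fun φ => ?_⟩
  · have h1 : δ * ((n0 : ℝ) + 1) ≤ ρ := by rwa [le_div_iff₀ (by positivity)] at hδ2
    have h2 : δ * (n0 : ℝ) ≤ δ * n := by nlinarith
    exact_mod_cast le_of_mul_le_mul_left h2 hδ
  choose zf hzf using fun c : ℂ => pin_sh_near hδ c
  refine ⟨htf.toFinset.image fun x => zf (φ x), Finset.card_image_le, ?_, ?_⟩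
  · intro u hu
    have h1 : φ.symm (pinP δ u) ∈ {c : ℂ | |infDist c Γ - s| ≤ ρ} := by
      have e : infDist (φ.symm (pinP δ u)) Γ = pinG δ (φ '' Γ) u := by
        rw [← pin_sh_infDist_image φ, φ.apply_symm_apply]; rfl
      show |infDist (φ.symm (pinP δ u)) Γ - s| ≤ ρ
      rw [e]; linarith
    obtain ⟨x, hx, hux⟩ := mem_iUnion₂.1 (hcov h1)
    refine ⟨zf (φ x), Finset.mem_image.2 ⟨x, htf.mem_toFinset.2 hx, rfl⟩, lat_mem_ball.2 ?_⟩
    have h2 : dist (pinP δ u) (φ x) < ρ := by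
      have := φ.dist_eq (φ.symm (pinP δ u)) x
      rw [φ.apply_symm_apply] at this
      rw [this]; exact hux
    have h3 : dist (pinP δ (zf (φ x))) (pinP δ u) < ρ + δ := by
      have h := dist_triangle (pinP δ (zf (φ x))) (φ x) (pinP δ u)
      have e1 : dist (pinP δ (zf (φ x))) (φ x) = dist (φ x) (pinP δ (zf (φ x))) := dist_comm _ _
      have e2 : dist (φ x) (pinP δ u) = dist (pinP δ u) (φ x) := dist_comm _ _
      linarith [hzf (φ x)]
    have h4 := pin_sh_P_ge hδ.le (zf (φ x)) u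
    have h5 : δ * (latN (u - zf (φ x)) : ℝ) ≤ δ * n := by linarith
    exact_mod_cast le_of_mul_le_mul_left h5 hδ
  · intro z hz v hv
    obtain ⟨x, hx, rfl⟩ := Finset.mem_image.1 hz
    have hx' := htS (htf.mem_toFinset.1 hx)
    have h1 : |infDist (φ x) (φ '' Γ) - s| ≤ ρ := by rw [pin_sh_infDist_image]; exact hx'
    have h2 : |pinG δ (φ '' Γ) (zf (φ x)) - infDist (φ x) (φ '' Γ)| ≤ δ := by
      refine (pin_sh_infDist_abs _ _ _).trans ?_
      rw [dist_comm]; exact hzf _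
    have h3 := pin_sh_G_ball hδ.le (φ '' Γ) hv
    push_cast at h3
    have h4 : δ * ((κ : ℝ) * n + 2) ≤ κ * (2 * ρ + 3 * δ) + 2 * δ := by
      have : (κ : ℝ) * (δ * n) ≤ κ * (2 * ρ + 3 * δ) := mul_le_mul_of_nonneg_left hn2'.le hκ0
      linarith
    have h5 : |pinG δ (φ '' Γ) v - s| ≤ δ * ((κ : ℝ) * n + 2) + δ + ρ := by
      have e : pinG δ (φ '' Γ) v - s = (pinG δ (φ '' Γ) v - pinG δ (φ '' Γ) (zf (φ x)))
          + (pinG δ (φ '' Γ) (zf (φ x)) - infDist (φ x) (φ '' Γ)) + (infDist (φ x) (φ '' Γ) - s) := by ring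
      rw [e]
      refine (abs_add_le _ _).trans (add_le_add ((abs_add_le _ _).trans (add_le_add h3 h2)) h1)
    have h6 : (κ : ℝ) * δ ≤ κ * (ρ / 2) := mul_le_mul_of_nonneg_left hδ1 hκ0
    nlinarith


/-! ## 4. blocking: a lattice path which crosses the level `s` of the distance visits the shell -/

/-- discrete intermediate value theorem for the distance to `Γ` -/
theorem pin_sh_ivt {δ : ℝ} (hδ : 0 ≤ δ) (Γ : Set ℂ) {s : ℝ} {Q : Set TV} {a b : TV} (h : TscR tscG Q a b) (haQ : a ∈ Q)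
    (ha : pinG δ Γ a ≤ s) (hb : s ≤ pinG δ Γ b) : ∃ u ∈ Q, |pinG δ Γ u - s| ≤ δ := by
  induction h with
  | refl => exact ⟨a, haQ, by rw [le_antisymm ha hb, sub_self, abs_zero]; exact hδ⟩
  | @tail c b _ hcb ih =>
    rcases le_total s (pinG δ Γ c) with hc | hc
    · exact ih hc
    · refine ⟨b, hcb.2.2, ?_⟩
      have h1 := abs_le.1 (pin_sh_G_adj hδ Γ ((tsc_G_adj c b).1 hcb.1))
      rw [abs_le]
      constructor <;> linarith [h1.1, h1.2]

/-- **(K4), necklace form**: the balls of `pin_sh_cover` block every lattice path from `{dist ≤ s}` to `{dist ≥ s}` -/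
theorem pin_sh_necklace {δ : ℝ} (hδ : 0 ≤ δ) (Γ : Set ℂ) {s : ℝ} {n : ℕ} {Z : Finset TV}
    (hZ : ∀ u : TV, |pinG δ Γ u - s| ≤ δ → ∃ z ∈ Z, u ∈ latBall z n)
    {Q : Set TV} {a b : TV} (h : TscR tscG Q a b) (haQ : a ∈ Q) (ha : pinG δ Γ a ≤ s) (hb : s ≤ pinG δ Γ b) :
    ∃ z ∈ Z, ∃ u ∈ Q, u ∈ latBall z n := by
  obtain ⟨u, hu, hus⟩ := pin_sh_ivt hδ Γ h haQ ha hb
  obtain ⟨z, hz, huz⟩ := hZ u hus
  exact ⟨z, hz, u, hu, huz⟩

/-! ## 5. the nerve lemma: the faces met by a connected set form a connected set of sites -/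

/-- the sites whose face meets `X` -/
def pinVis (δ : ℝ) (X : Set ℂ) : Set TV := {u | ∃ z ∈ hexFace δ u, pinC z ∈ X}

theorem pin_sh_vis_mono {δ : ℝ} {X X' : Set ℂ} (h : X ⊆ X') : pinVis δ X ⊆ pinVis δ X' :=
  fun _ ⟨z, hz, hzX⟩ => ⟨z, hz, h hzX⟩

theorem pin_sh_vis_center {δ : ℝ} {X : Set ℂ} {u : TV} (h : pinP δ u ∈ X) : u ∈ pinVis δ X :=
  ⟨triPos δ u, hg_center_mem δ u, h⟩

/-- a visited face is within `δ` of the set -/
theorem pin_sh_vis_near {δ : ℝ} (hδ : 0 < δ) {X : Set ℂ} {u : TV} (h : u ∈ pinVis δ X) : ∃ x ∈ X, dist (pinP δ u) x ≤ δ := by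
  obtain ⟨z, hz, hzX⟩ := h
  refine ⟨pinC z, hzX, ?_⟩
  unfold pinP
  rw [dist_comm, pin_sh_dist_le_iff _ _ hδ.le]
  have := hg_hexFace_sqDist_le hδ hz
  nlinarith [sq_nonneg δ]

theorem pin_sh_pre_conn {X : Set ℂ} (hX : IsPreconnected X) : IsPreconnected (pinC ⁻¹' X) := by
  have e : pinC ⁻¹' X = (fun c : ℂ => (c.re, c.im)) '' X := by
    ext z
    constructor
    · intro hz; exact ⟨pinC z, hz, rfl⟩
    · rintro ⟨c, hc, rfl⟩; exact hc
  rw [e]
  exact hX.image _ (Complex.continuous_re.prodMk Complex.continuous_im).continuousOn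

theorem pin_sh_R_of_reach {P : Set TV} {u v : TV} (hu : u ∈ P)
    (h : Relation.ReflTransGen (fun a b => triAdj a b ∧ b ∈ P) u v) : TscR tscG P u v := by
  induction h with
  | refl => exact tsc_R_refl _
  | @tail c b hc hcb ih =>
    exact tsc_R_trans ih (tsc_R_step ((tsc_G_adj c b).2 hcb.1) (tsc_R_mem ih hu) hcb.2)

/-- **nerve lemma** -/
theorem pin_sh_vis_conn {δ : ℝ} (hδ : 0 < δ) {X : Set ℂ} (hX : IsPreconnected X) : TscConn tscG (pinVis δ X) := by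
  intro u hu v hv
  refine pin_sh_R_of_reach hu (hg_reach_of_no_split (P := pinVis δ X) ?_ hu hv)
  intro S hS hne hcl
  by_contra hSP
  have hT : (pinVis δ X \ S).Nonempty := by
    by_contra hc
    rw [Set.not_nonempty_iff_eq_empty, Set.sdiff_eq_empty] at hc
    exact hSP (subset_antisymm hS hc)
  have hcov : pinC ⁻¹' X ⊆ hgU δ S ∪ hgU δ (pinVis δ X \ S) := by
    intro z hz
    obtain ⟨a, ha⟩ := hg_cover hδ z
    have haP : a ∈ pinVis δ X := ⟨z, ha, hz⟩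
    by_cases haS : a ∈ S
    · exact Or.inl (hg_mem_U.2 ⟨a, haS, ha⟩)
    · exact Or.inr (hg_mem_U.2 ⟨a, ⟨haP, haS⟩, ha⟩)
  have t1 : (pinC ⁻¹' X ∩ hgU δ S).Nonempty := by
    obtain ⟨a, ha⟩ := hne
    obtain ⟨z, hz, hzX⟩ := hS ha
    exact ⟨z, hzX, hg_mem_U.2 ⟨a, ha, hz⟩⟩
  have t2 : (pinC ⁻¹' X ∩ hgU δ (pinVis δ X \ S)).Nonempty := by
    obtain ⟨a, ha⟩ := hT
    obtain ⟨z, hz, hzX⟩ := ha.1
    exact ⟨z, hzX, hg_mem_U.2 ⟨a, ha, hz⟩⟩
  obtain ⟨z, -, hz1, hz2⟩ := (isPreconnected_closed_iff.1 (pin_sh_pre_conn hX)) _ _ (hg_isClosed_U hδ S)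
    (hg_isClosed_U hδ (pinVis δ X \ S)) hcov t1 t2
  obtain ⟨a, ha, hza⟩ := hg_mem_U.1 hz1
  obtain ⟨b, hb, hzb⟩ := hg_mem_U.1 hz2
  rcases (hg_inter_nonempty_iff hδ a b).1 ⟨z, hza, hzb⟩ with h | h
  · exact hb.2 (h ▸ ha)
  · exact hb.2 (hcl a ha b hb.1 h)

/-! ## 6. connected sets: stars, fattening -/

/-- a connected set with connected sets attached to it -/
theorem pin_sh_star {α ι : Type*} [TopologicalSpace α] {C : Set α} (hC : IsPreconnected C) {E : ι → Set α}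
    (hE : ∀ i, IsPreconnected (E i)) (hm : ∀ i, (C ∩ E i).Nonempty) : IsPreconnected (C ∪ ⋃ i, E i) := by
  rcases C.eq_empty_or_nonempty with h0 | ⟨x0, hx0⟩
  · rcases isEmpty_or_nonempty ι with hι | ⟨⟨i⟩⟩
    · simp only [h0, iUnion_of_empty, union_empty]; exact isPreconnected_empty
    · obtain ⟨x, hx, -⟩ := hm i
      rw [h0] at hx; exact hx.elim
  have e : C ∪ ⋃ i, E i = ⋃₀ {s | s = C ∨ ∃ i, s = C ∪ E i} := by
    ext x
    simp only [mem_union, mem_iUnion, mem_sUnion, mem_ofPred_eq]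
    constructor
    · rintro (h | ⟨i, h⟩)
      · exact ⟨C, Or.inl rfl, h⟩
      · exact ⟨C ∪ E i, Or.inr ⟨i, rfl⟩, Or.inr h⟩
    · rintro ⟨s, rfl | ⟨i, rfl⟩, h⟩
      · exact Or.inl h
      · rcases h with h | h
        · exact Or.inl h
        · exact Or.inr ⟨i, h⟩
  rw [e]
  refine isPreconnected_sUnion x0 _ ?_ ?_
  · rintro s (rfl | ⟨i, rfl⟩)
    · exact hx0
    · exact Or.inl hx0
  · rintro s (rfl | ⟨i, rfl⟩)
    · exact hC
    · exact IsPreconnected.union' (hm i) hC (hE i)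

/-- the closed `ρ`-neighbourhood, as a union of balls -/
def pinFat (ρ : ℝ) (X : Set ℂ) : Set ℂ := {c | ∃ x ∈ X, dist c x ≤ ρ}

theorem pin_sh_fat_sub {ρ : ℝ} (hρ : 0 ≤ ρ) (X : Set ℂ) : X ⊆ pinFat ρ X := fun x hx => ⟨x, hx, by rw [dist_self]; exact hρ⟩

theorem pin_sh_fat_conn {ρ : ℝ} (hρ : 0 ≤ ρ) {X : Set ℂ} (hX : IsPreconnected X) : IsPreconnected (pinFat ρ X) := by
  have e : pinFat ρ X = X ∪ ⋃ x : X, closedBall (x : ℂ) ρ := by
    ext c
    simp only [pinFat, mem_ofPred_eq, mem_union, mem_iUnion, mem_closedBall, Subtype.exists, exists_prop]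
    constructor
    · intro h; exact Or.inr h
    · rintro (h | h)
      · exact ⟨c, h, by rw [dist_self]; exact hρ⟩
      · exact h
  rw [e]
  refine pin_sh_star hX (fun x => (convex_closedBall (x : ℂ) ρ).isPreconnected) fun x => ⟨x, x.2, ?_⟩
  rw [mem_closedBall, dist_self]; exact hρ


/-! ## 7. escape to infinity off an obstacle; the connected exterior -/

/-- Euclidean scalar product -/
def pinDot (a b : ℂ) : ℝ := a.re * b.re + a.im * b.im

theorem pin_sh_dot_self (n : ℂ) : pinDot n n = ‖n‖ ^ 2 := by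
  rw [Complex.sq_norm, Complex.normSq_apply]; rfl

theorem pin_sh_dot_add (a b n : ℂ) : pinDot (a + b) n = pinDot a n + pinDot b n := by
  simp only [pinDot, Complex.add_re, Complex.add_im]; ring

theorem pin_sh_dot_sub (a b n : ℂ) : pinDot (a - b) n = pinDot a n - pinDot b n := by
  simp only [pinDot, Complex.sub_re, Complex.sub_im]; ring

theorem pin_sh_dot_smul (t : ℝ) (a n : ℂ) : pinDot ((t : ℂ) * a) n = t * pinDot a n := by
  simp only [pinDot, Complex.mul_re, Complex.mul_im, Complex.ofReal_re, Complex.ofReal_im]; ring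

theorem pin_sh_dot_le (a : ℂ) {n : ℂ} (hn : ‖n‖ ≤ 1) : pinDot a n ≤ ‖a‖ := by
  have h1 : pinDot a n ^ 2 ≤ ‖a‖ ^ 2 * ‖n‖ ^ 2 := by
    rw [Complex.sq_norm, Complex.sq_norm, Complex.normSq_apply, Complex.normSq_apply]
    unfold pinDot
    nlinarith [sq_nonneg (a.re * n.im - a.im * n.re)]
  have h2 : ‖a‖ ^ 2 * ‖n‖ ^ 2 ≤ ‖a‖ ^ 2 * 1 :=
    mul_le_mul_of_nonneg_left (pow_le_one₀ (norm_nonneg n) hn) (sq_nonneg _)
  exact (abs_le_of_sq_le_sq' (by linarith) (norm_nonneg a)).2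

/-- separation in a projection bounds the distance from below -/
theorem pin_sh_dot_dist {q y n : ℂ} {c : ℝ} (hn : ‖n‖ ≤ 1) (h : c ≤ pinDot (q - y) n) : c ≤ dist q y := by
  rw [dist_eq_norm]; exact h.trans (pin_sh_dot_le _ hn)

/-- a ray from a point of the ball meets the sphere -/
theorem pin_sh_exit {p n : ℂ} {R : ℝ} (hn : ‖n‖ = 1) (hp : ‖p‖ ≤ R) : ∃ T : ℝ, 0 ≤ T ∧ ‖p + (T : ℂ) * n‖ = R := by
  have hR : 0 ≤ R := (norm_nonneg p).trans hp
  have hc : ContinuousOn (fun t : ℝ => ‖p + (t : ℂ) * n‖) (Icc 0 (2 * R)) := by fun_prop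
  have h0 : (fun t : ℝ => ‖p + (t : ℂ) * n‖) 0 ≤ R := by simpa using hp
  have h1 : R ≤ (fun t : ℝ => ‖p + (t : ℂ) * n‖) (2 * R) := by
    have h2 : ‖((2 * R : ℝ) : ℂ) * n‖ = 2 * R := by
      rw [norm_mul, hn, mul_one, Complex.norm_real, Real.norm_eq_abs, abs_of_nonneg (by linarith)]
    have h3 : ‖((2 * R : ℝ) : ℂ) * n‖ ≤ ‖p + ((2 * R : ℝ) : ℂ) * n‖ + ‖p‖ := by
      have := norm_sub_le (p + ((2 * R : ℝ) : ℂ) * n) p
      rwa [add_sub_cancel_left] at this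
    show R ≤ ‖p + ((2 * R : ℝ) : ℂ) * n‖
    linarith
  obtain ⟨T, hT, hTe⟩ := intermediate_value_Icc (by linarith : (0 : ℝ) ≤ 2 * R) hc ⟨h0, h1⟩
  exact ⟨T, hT.1, hTe⟩

/-- the point `p` ESCAPES from `Γ` with the clearance `c`: it is joined to the circle of radius `R`, inside the disk, by a connected set at the distance `≥ c` from `Γ` -/
def PinEsc (Γ : Set ℂ) (c R : ℝ) (p : ℂ) : Prop :=
  ∃ E : Set ℂ, IsPreconnected E ∧ p ∈ E ∧ (sphere (0 : ℂ) R ∩ E).Nonempty ∧ E ⊆ closedBall 0 R ∧ ∀ q ∈ E, ∀ y ∈ Γ, c ≤ dist q y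

/-- escape along a direction in which `p` is beyond `Γ` -/
theorem pin_sh_esc_proj {Γ : Set ℂ} {p n : ℂ} {c R : ℝ} (hn : ‖n‖ = 1) (hp : ‖p‖ ≤ R) (hsep : ∀ y ∈ Γ, c ≤ pinDot (p - y) n) :
    PinEsc Γ c R p := by
  obtain ⟨T, hT0, hT⟩ := pin_sh_exit hn hp
  refine ⟨segment ℝ p (p + (T : ℂ) * n), (convex_segment _ _).isPreconnected, left_mem_segment _ _ _,
    ⟨p + (T : ℂ) * n, by rw [mem_sphere, dist_zero_right]; exact hT, right_mem_segment _ _ _⟩, ?_, ?_⟩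
  · refine (convex_closedBall (0 : ℂ) R).segment_subset ?_ ?_
    · rw [mem_closedBall, dist_zero_right]; exact hp
    · rw [mem_closedBall, dist_zero_right]; exact hT.le
  · intro q hq y hy
    rw [segment_eq_image'] at hq
    obtain ⟨θ, hθ, rfl⟩ := hq
    refine pin_sh_dot_dist hn.le ?_
    have e : p + θ • (p + (T : ℂ) * n - p) - y = (p - y) + ((θ * T : ℝ) : ℂ) * n := by
      rw [add_sub_cancel_left, Complex.real_smul]; push_cast; ring
    rw [e, pin_sh_dot_add, pin_sh_dot_smul, pin_sh_dot_self, hn]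
    have := mul_nonneg hθ.1 hT0
    linarith [hsep y hy]

/-- escape through a connected set which contains an escaping point -/
theorem pin_sh_esc_chain {Γ : Set ℂ} {p p' : ℂ} {c R : ℝ} {E0 : Set ℂ} (hE0 : IsPreconnected E0) (hp : p ∈ E0) (hp' : p' ∈ E0)
    (hb : E0 ⊆ closedBall 0 R) (hcl : ∀ q ∈ E0, ∀ y ∈ Γ, c ≤ dist q y) (h : PinEsc Γ c R p') : PinEsc Γ c R p := by
  obtain ⟨E, hE, hpE, ⟨x, hx1, hx2⟩, hEb, hEc⟩ := h
  refine ⟨E0 ∪ E, IsPreconnected.union' ⟨p', hp', hpE⟩ hE0 hE, Or.inl hp, ⟨x, hx1, Or.inr hx2⟩, union_subset hb hEb, ?_⟩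
  rintro q (hq | hq) y hy
  · exact hcl q hq y hy
  · exact hEc q hq y hy

theorem PinEsc.mono {Γ Γ' : Set ℂ} {c c' R : ℝ} {p : ℂ} (h : PinEsc Γ c R p) (hΓ : Γ' ⊆ Γ) (hc : c' ≤ c) : PinEsc Γ' c' R p := by
  obtain ⟨E, h1, h2, h3, h4, h5⟩ := h
  exact ⟨E, h1, h2, h3, h4, fun q hq y hy => hc.trans (h5 q hq y (hΓ hy))⟩

/-- **the connected exterior** of an obstacle: ONE connected set, inside the disk of radius `R`, at the distance `≥ c` from `Γ`, which contains every escaping point -/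
theorem pin_sh_ext {Γ : Set ℂ} {c R : ℝ} (hR0 : 0 ≤ R) (hR : ∀ y ∈ Γ, ‖y‖ + c ≤ R) {X : Set ℂ} (hX : ∀ p ∈ X, PinEsc Γ c R p) :
    ∃ XX : Set ℂ, IsPreconnected XX ∧ X ⊆ XX ∧ sphere 0 R ⊆ XX ∧ XX ⊆ closedBall 0 R ∧ ∀ q ∈ XX, ∀ y ∈ Γ, c ≤ dist q y := by
  choose! E h1 h2 h3 h4 h5 using hX
  have hS : IsPreconnected (sphere (0 : ℂ) R) :=
    (isConnected_sphere (by rw [Complex.rank_real_complex]; norm_num) (0 : ℂ) hR0).isPreconnected
  refine ⟨sphere 0 R ∪ ⋃ p : X, E p, pin_sh_star hS (fun p => h1 p p.2) (fun p => h3 p p.2), ?_, subset_union_left, ?_, ?_⟩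
  · intro p hp
    exact Or.inr (mem_iUnion.2 ⟨⟨p, hp⟩, h2 p hp⟩)
  · refine union_subset sphere_subset_closedBall (iUnion_subset fun p => h4 p p.2)
  · rintro q (hq | hq) y hy
    · rw [mem_sphere, dist_zero_right] at hq
      have := hR y hy
      have h6 : ‖q‖ ≤ dist q y + ‖y‖ := by
        rw [dist_eq_norm]
        have := norm_add_le (q - y) y
        rwa [sub_add_cancel] at this
      linarith
    · obtain ⟨p, hp⟩ := mem_iUnion.1 hq
      exact h5 p p.2 q hp y hy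


/-! ## 8. lattice neighbourhoods and the collar of an obstacle -/

/-- the sites within the distance `r` of `Γ` -/
def pinNb (δ : ℝ) (Γ : Set ℂ) (r : ℝ) : Set TV := {u | pinG δ Γ u ≤ r}

theorem pin_sh_nb_mono {δ : ℝ} {Γ : Set ℂ} {r r' : ℝ} (h : r ≤ r') : pinNb δ Γ r ⊆ pinNb δ Γ r' := fun _ hu => le_trans hu h

/-- faces meeting the `ρ`-neighbourhood have their centre within `ρ + δ` -/
theorem pin_sh_vis_fat_nb {δ : ℝ} (hδ : 0 < δ) {X : Set ℂ} {ρ : ℝ} : pinVis δ (pinFat ρ X) ⊆ pinNb δ X (ρ + δ) := by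
  intro u hu
  obtain ⟨x, ⟨x', hx', hxx'⟩, hux⟩ := pin_sh_vis_near hδ hu
  have h1 : infDist (pinP δ u) X ≤ dist (pinP δ u) x' := infDist_le_dist_of_mem hx'
  have h2 := dist_triangle (pinP δ u) x x'
  show infDist (pinP δ u) X ≤ ρ + δ
  linarith

/-- sites within `ρ < ρ'` of `X` have their face meeting the `ρ'`-neighbourhood -/
theorem pin_sh_nb_vis_fat {δ : ℝ} {X : Set ℂ} (hX : X.Nonempty) {ρ ρ' : ℝ} (h : ρ < ρ') : pinNb δ X ρ ⊆ pinVis δ (pinFat ρ' X) := by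
  intro u hu
  have hu' : infDist (pinP δ u) X < ρ' := lt_of_le_of_lt hu h
  obtain ⟨x, hx, hux⟩ := (infDist_lt_iff hX).1 hu'
  exact pin_sh_vis_center ⟨x, hx, hux.le⟩

/-- clearance is inherited by the faces meeting a neighbourhood -/
theorem pin_sh_vis_fat_clear {δ : ℝ} (hδ : 0 < δ) {Γ XX : Set ℂ} (hΓ : Γ.Nonempty) {c ρ : ℝ} (hcl : ∀ q ∈ XX, ∀ y ∈ Γ, c ≤ dist q y)
    {u : TV} (hu : u ∈ pinVis δ (pinFat ρ XX)) : c - ρ - δ ≤ pinG δ Γ u := by
  obtain ⟨x, ⟨x', hx', hxx'⟩, hux⟩ := pin_sh_vis_near hδ hu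
  refine (le_infDist hΓ).2 fun y hy => ?_
  have h1 := hcl x' hx' y hy
  have h2 := dist_triangle x' x (pinP δ u)
  have h3 := dist_triangle x' (pinP δ u) y
  rw [dist_comm x' x, dist_comm x (pinP δ u)] at h2
  linarith

/-- a large lattice hexagon contains the sites of a disk -/
theorem pin_sh_ball_sub {δ : ℝ} (hδ : 0 < δ) {R : ℝ} {L : ℕ} (hL : 2 * R ≤ δ * L) {u : TV} (hu : ‖pinP δ u‖ ≤ R) : u ∈ latBall 0 L := by
  have h0 : pinP δ 0 = 0 := by
    unfold pinP pinC triPos; apply Complex.ext <;> simp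
  have h1 := pin_sh_P_ge hδ.le 0 u
  rw [h0, dist_zero_left] at h1
  rw [lat_mem_ball]
  have h2 : δ * (latN (u - 0) : ℝ) ≤ δ * L := by linarith
  exact_mod_cast le_of_mul_le_mul_left h2 hδ

/-- **collar of an obstacle**, lattice form (hypotheses of the CORE of node N3, helper39): protected inside `A` (connected), region `Rr`, protected outside `O` (connected);
an inner necklace in `Rr \ A` which blocks `A` from the complement of `Rr`, an outer necklace off `O ∪ Rr` which blocks `Rr` from `O`; at most `N` balls of radius `n` each,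
the balls of radius `κ n + 2` stay in the regions. -/
structure PinCol (κ n N : ℕ) (A Rr O : Set TV) : Prop where
  connA : TscConn tscG A
  connO : TscConn tscG O
  sub : A ⊆ Rr
  disj : Disjoint O Rr
  neckI : ∃ Z : Finset TV, Z.card ≤ N ∧ (∀ z ∈ Z, (latBall z (κ * n + 2) : Set TV) ⊆ Rr \ A) ∧
    ∀ (Q : Set TV) (a b : TV), TscR tscG Q a b → a ∈ Q → a ∈ A → b ∉ Rr → ∃ z ∈ Z, ∃ u ∈ Q, u ∈ latBall z n
  neckO : ∃ Z : Finset TV, Z.card ≤ N ∧ (∀ z ∈ Z, (latBall z (κ * n + 2) : Set TV) ⊆ (O ∪ Rr)ᶜ) ∧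
    ∀ (Q : Set TV) (a b : TV), TscR tscG Q a b → a ∈ Q → a ∈ Rr → b ∈ O → ∃ z ∈ Z, ∃ u ∈ Q, u ∈ latBall z n

/-- **(K4) for one obstacle.**  `N`, `δ0` depend on `(Γ, r, κ, n0)` only; the radius `n = pinRad (r/2) κ δ` on `(r, κ)` and the mesh only; the placement `φ` and the exterior `XX` are arbitrary.
`A` = faces meeting the `r/2`-neighbourhood of the obstacle, `Rr` = sites within `2 r`, `O` = faces meeting the `2 r`-neighbourhood of the exterior (clearance `6 r`). -/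
theorem pin_sh_collar {Γ : Set ℂ} (hΓ : IsCompact Γ) (hne : Γ.Nonempty) (hconn : IsPreconnected Γ) {r : ℝ} (hr : 0 < r) (κ n0 : ℕ) :
    ∃ (N : ℕ) (δ0 : ℝ), 0 < δ0 ∧ ∀ δ, 0 < δ → δ ≤ δ0 → n0 ≤ pinRad (r / 2) κ δ ∧ ∀ (φ : ℂ ≃ᵢ ℂ) (XX : Set ℂ), IsPreconnected XX →
      (∀ q ∈ XX, ∀ y ∈ φ '' Γ, 6 * r ≤ dist q y) →
        PinCol κ (pinRad (r / 2) κ δ) N (pinVis δ (pinFat (r / 2) (φ '' Γ))) (pinNb δ (φ '' Γ) (2 * r)) (pinVis δ (pinFat (2 * r) XX)) := by
  obtain ⟨N1, d1, hd1, H1⟩ := pin_sh_cover hΓ hne (3 * r / 2) (show 0 < r / 2 by positivity) κ n0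
  obtain ⟨N2, d2, hd2, H2⟩ := pin_sh_cover hΓ hne (5 * r / 2) (show 0 < r / 2 by positivity) κ n0
  refine ⟨max N1 N2, min (min d1 d2) (r / 2), lt_min (lt_min hd1 hd2) (by positivity), ?_⟩
  intro δ hδ hδ0
  have hδ1 : δ ≤ d1 := (hδ0.trans (min_le_left _ _)).trans (min_le_left _ _)
  have hδ2 : δ ≤ d2 := (hδ0.trans (min_le_left _ _)).trans (min_le_right _ _)
  have hδr : δ ≤ r / 2 := hδ0.trans (min_le_right _ _)
  obtain ⟨hn, K1⟩ := H1 δ hδ hδ1
  obtain ⟨-, K2⟩ := H2 δ hδ hδ2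
  refine ⟨hn, fun φ XX hXX hcl => ?_⟩
  obtain ⟨Z1, hZ1, c1, b1⟩ := K1 φ
  obtain ⟨Z2, hZ2, c2, b2⟩ := K2 φ
  have hne' : (φ '' Γ).Nonempty := hne.image _
  have hA : pinVis δ (pinFat (r / 2) (φ '' Γ)) ⊆ pinNb δ (φ '' Γ) r := by
    refine (pin_sh_vis_fat_nb hδ).trans (pin_sh_nb_mono ?_)
    linarith
  have hO : ∀ u ∈ pinVis δ (pinFat (2 * r) XX), 3 * r < pinG δ (φ '' Γ) u := by
    intro u hu
    have := pin_sh_vis_fat_clear hδ hne' hcl hu
    linarith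
  refine ⟨pin_sh_vis_conn hδ (pin_sh_fat_conn (by positivity) (hconn.image _ φ.continuous.continuousOn)),
    pin_sh_vis_conn hδ (pin_sh_fat_conn (by positivity) hXX), hA.trans (pin_sh_nb_mono (by linarith)), ?_, ?_, ?_⟩
  · rw [Set.disjoint_left]
    intro u hu hu'
    have h1 := hO u hu
    have h2 : pinG δ (φ '' Γ) u ≤ 2 * r := hu'
    linarith
  · refine ⟨Z1, hZ1.trans (le_max_left _ _), ?_, ?_⟩
    · intro z hz v hv
      have h1 := abs_lt.1 (b1 z hz v (Finset.mem_coe.1 hv))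
      refine ⟨?_, fun hvA => ?_⟩
      · show pinG δ (φ '' Γ) v ≤ 2 * r
        linarith [h1.2]
      · have h2 : pinG δ (φ '' Γ) v ≤ r := hA hvA
        linarith [h1.1]
    · intro Q a b hab haQ ha hb
      have h1 : pinG δ (φ '' Γ) a ≤ r := hA ha
      have h2 : ¬ pinG δ (φ '' Γ) b ≤ 2 * r := hb
      exact pin_sh_necklace hδ.le _ c1 hab haQ (by linarith) (by linarith [not_le.1 h2])
  · refine ⟨Z2, hZ2.trans (le_max_right _ _), ?_, ?_⟩
    · intro z hz v hv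
      have h1 := abs_lt.1 (b2 z hz v (Finset.mem_coe.1 hv))
      rintro (hvO | hvR)
      · linarith [hO v hvO, h1.2]
      · have h2 : pinG δ (φ '' Γ) v ≤ 2 * r := hvR
        linarith [h1.1]
    · intro Q a b hab haQ ha hb
      have h1 : pinG δ (φ '' Γ) a ≤ 2 * r := ha
      exact pin_sh_necklace hδ.le _ c2 hab haQ (by linarith) (by linarith [hO b hb])

end Claimed.Agent.R291
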