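import Claimed.Agent.R291.Tool.MidAmp
import Claimed.Agent.R291.Tool.MidWeight
import Claimed.Agent.R291.Tool.TriSC

/-!
# Row 291 (S0539), Pin/Mom : PIN MOMENTS, model free part      (owner helper39; prefix `pin_mo_`)

Node N3 of `origin/helper34:notes/R291/sec5_34.md`; design `origin/helper39:notes/R291/sec5_N3_39.md`.
TEX[prop:pin-moments] (checked pin moments), TEX[pins:uniform-common-moments] (common offsets).

* Part A (finite sums only): `pin_mo_flip`, `pin_mo_classes` (the ORBIT IDENTITY (5.14): weight preserving involutions which flip one parity each give the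
  same mass to all the parity classes; NO commutation is needed), `pin_mo_asm` (ASSEMBLY: central event in the status-augmented law + flips + midpoint closure
  inside the parity classes => hypotheses `MdpAmp` of the amplification lemma of helper23 => all moments).
* Part B (integers, Gray code, connected sets): a connected chain of first colour plus stays in ONE lifted pair `4 t + {0,1}` (`pin_mo_pair_conn`), the rounded midpoints
  of two heights with offsets of the same parity satisfy the offset constraints (5.9) (`pin_mo_mid_B`, `pin_mo_mid_W`),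
  two lifts of the same spins on a connected set differ by a constant (`pin_mo_lift_conn`), hence a zero-total statistic is a function of the spins (`pin_mo_stat_eq`).
-/

set_option autoImplicit false
set_option linter.unusedSectionVars false
set_option linter.unusedSimpArgs false

namespace Claimed.Agent.R291

open Finset

/-! ## A. the orbit identity and the assembly -/

section orbit

variable {α K : Type*} [DecidableEq K]

/-- one flip: a weight preserving involution of the event `X` which acts on the classes by the involution `f`. -/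
theorem pin_mo_flip (X : Finset α) (w : α → ℝ) (κ : α → K) (σ : α → α) (f : K → K) (hf : ∀ k, f (f k) = k)
    (hX : ∀ a ∈ X, σ a ∈ X) (hσ : ∀ a ∈ X, σ (σ a) = a) (hw : ∀ a ∈ X, w (σ a) = w a)
    (hκ : ∀ a ∈ X, κ (σ a) = f (κ a)) (k : K) :
    ∑ a ∈ X with κ a = k, w a = ∑ a ∈ X with κ a = f k, w a := by
  refine Finset.sum_nbij' σ σ ?_ ?_ ?_ ?_ ?_
  · intro a ha
    rw [mem_filter] at ha ⊢
    exact ⟨hX a ha.1, by rw [hκ a ha.1, ha.2]⟩
  · intro a ha
    rw [mem_filter] at ha ⊢
    exact ⟨hX a ha.1, by rw [hκ a ha.1, ha.2, hf]⟩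
  · intro a ha; exact hσ a (mem_filter.mp ha).1
  · intro a ha; exact hσ a (mem_filter.mp ha).1
  · intro a ha; exact (hw a (mem_filter.mp ha).1).symm

end orbit

section classes

variable {α I : Type*} [Fintype I] [DecidableEq I]

theorem pin_mo_upd_upd (k : I → Bool) (i : I) :
    Function.update (Function.update k i (!k i)) i (!(Function.update k i (!k i)) i) = k := by
  funext j
  by_cases h : j = i
  · subst h; simp
  · simp [Function.update_of_ne h]

/-- all the parity classes have the same mass. -/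
theorem pin_mo_classes_eq (X : Finset α) (w : α → ℝ) (κ : α → I → Bool) (σ : I → α → α)
    (hX : ∀ i, ∀ a ∈ X, σ i a ∈ X) (hσ : ∀ i, ∀ a ∈ X, σ i (σ i a) = a) (hw : ∀ i, ∀ a ∈ X, w (σ i a) = w a)
    (hκ : ∀ i, ∀ a ∈ X, κ (σ i a) = Function.update (κ a) i (!κ a i)) (k k' : I → Bool) :
    ∑ a ∈ X with κ a = k, w a = ∑ a ∈ X with κ a = k', w a := by
  have step : ∀ (i : I) (k : I → Bool),
      ∑ a ∈ X with κ a = k, w a = ∑ a ∈ X with κ a = Function.update k i (!k i), w a := fun i k =>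
    pin_mo_flip X w κ (σ i) (fun k => Function.update k i (!k i)) (fun k => pin_mo_upd_upd k i)
      (hX i) (hσ i) (hw i) (hκ i) k
  have key : ∀ s : Finset I,
      ∑ a ∈ X with κ a = k, w a = ∑ a ∈ X with κ a = (fun i => if i ∈ s then k' i else k i), w a := by
    intro s
    induction s using Finset.induction_on with
    | empty => simp
    | insert i s hi ih =>
      rw [ih]
      by_cases hk : k' i = k i
      · have : (fun j => if j ∈ insert i s then k' j else k j) = (fun j => if j ∈ s then k' j else k j) := by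
          funext j
          by_cases hj : j = i
          · subst hj; simp [hi, hk]
          · simp [hj]
        rw [this]
      · have : (fun j => if j ∈ insert i s then k' j else k j)
            = Function.update (fun j => if j ∈ s then k' j else k j) i (!(fun j => if j ∈ s then k' j else k j) i) := by
          funext j
          by_cases hj : j = i
          · subst hj
            simp only [mem_insert, true_or, if_true, Function.update_self, hi, if_false]
            cases h1 : k' j <;> cases h2 : k j <;> simp_all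
          · simp [hj, Function.update_of_ne hj]
        rw [this]
        exact step i _
  have := key univ
  simpa using this

/-- **the orbit identity** (5.14): every parity class carries the fraction `2^(-|I|)` of the event.      TEX[pins:every-class-mass] -/
theorem pin_mo_classes (X : Finset α) (w : α → ℝ) (κ : α → I → Bool) (σ : I → α → α)
    (hX : ∀ i, ∀ a ∈ X, σ i a ∈ X) (hσ : ∀ i, ∀ a ∈ X, σ i (σ i a) = a) (hw : ∀ i, ∀ a ∈ X, w (σ i a) = w a)
    (hκ : ∀ i, ∀ a ∈ X, κ (σ i a) = Function.update (κ a) i (!κ a i)) (k : I → Bool) :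
    (2 : ℝ) ^ Fintype.card I * ∑ a ∈ X with κ a = k, w a = ∑ a ∈ X, w a := by
  rw [← Finset.sum_fiberwise X κ w]
  rw [Finset.sum_congr rfl fun k' _ => pin_mo_classes_eq X w κ σ hX hσ hw hκ k' k]
  rw [Finset.sum_const, nsmul_eq_mul, Finset.card_univ, Fintype.card_fun, Fintype.card_bool]
  push_cast
  ring

end classes

section assembly

variable {ι τ I : Type*} [Fintype I] [DecidableEq I]

open Classical in
/-- **ASSEMBLY of the pin moments.**  `Ω, W` = the constrained height arrays with their weights; `Ts` = the statuses, `j s t` = weight of the array `s` with the statuses `t` (`∑_t j = W`);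
`cls` = parity vector of the offsets; `A` = central event of the augmented law (`A ⊆ {|Y| ≤ M}`, mass `≥ c`); `σ i` = collar switch of the obstacle `i`.
      TEX[prop:pin-moments] -/
theorem pin_mo_asm (Ω : Finset (ι → ℤ)) (Ts : Finset τ) (W Y : (ι → ℤ) → ℝ) (j : (ι → ℤ) → τ → ℝ) (cls : (ι → ℤ) → I → Bool)
    (A : (ι → ℤ) → τ → Prop) (σ : I → (ι → ℤ) → τ → (ι → ℤ)) (c M : ℝ) (hM : 0 < M) (hc : 0 < c)
    (hj0 : ∀ s ∈ Ω, ∀ t ∈ Ts, 0 ≤ j s t) (hjW : ∀ s ∈ Ω, ∑ t ∈ Ts, j s t = W s)
    (mid : ∀ s ∈ Ω, ∀ t ∈ Ω, 0 < W s → 0 < W t → cls s = cls t →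
      midL s t ∈ Ω ∧ midU s t ∈ Ω ∧ W s * W t ≤ W (midL s t) * W (midU s t))
    (rnd : ∀ s ∈ Ω, ∀ t ∈ Ω, 0 < W s → 0 < W t → cls s = cls t →
      |Y (midL s t) - (Y s + Y t) / 2| ≤ M ∧ |Y (midU s t) - (Y s + Y t) / 2| ≤ M)
    (hAY : ∀ s ∈ Ω, ∀ t ∈ Ts, A s t → |Y s| ≤ M)
    (hAc : c * ∑ s ∈ Ω, W s ≤ ∑ s ∈ Ω, ∑ t ∈ Ts, if A s t then j s t else 0)
    (hσΩ : ∀ i, ∀ s ∈ Ω, ∀ t ∈ Ts, A s t → σ i s t ∈ Ω)
    (hσσ : ∀ i, ∀ s ∈ Ω, ∀ t ∈ Ts, A s t → σ i (σ i s t) t = s)
    (hσj : ∀ i, ∀ s ∈ Ω, ∀ t ∈ Ts, A s t → j (σ i s t) t = j s t)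
    (hσA : ∀ i, ∀ s ∈ Ω, ∀ t ∈ Ts, A s t → A (σ i s t) t)
    (hσc : ∀ i, ∀ s ∈ Ω, ∀ t ∈ Ts, A s t → cls (σ i s t) = Function.update (cls s) i (!cls s i)) :
    MdpAmp Ω W Y cls (2 ^ Fintype.card I) (c / 2 ^ Fintype.card I) M where
  W_nn := fun s hs => by rw [← hjW s hs]; exact Finset.sum_nonneg fun t ht => hj0 s hs t ht
  M_pos := hM
  c_pos := by positivity
  card_le := by
    calc (Ω.image cls).card ≤ (univ : Finset (I → Bool)).card := Finset.card_le_card (Finset.subset_univ _)
      _ = 2 ^ Fintype.card I := by rw [Finset.card_univ, Fintype.card_fun, Fintype.card_bool]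
  mid := mid
  rnd := rnd
  cen := by
    intro s₀ _ _
    set X : Finset ((ι → ℤ) × τ) := (Ω ×ˢ Ts).filter (fun p => A p.1 p.2) with hXdef
    have hmem : ∀ p, p ∈ X ↔ (p.1 ∈ Ω ∧ p.2 ∈ Ts) ∧ A p.1 p.2 := by
      intro p; simp [hXdef]
    have horb := pin_mo_classes X (fun p => j p.1 p.2) (fun p => cls p.1) (fun i p => (σ i p.1 p.2, p.2))
      (fun i p hp => by
        rw [hmem] at hp ⊢
        exact ⟨⟨hσΩ i _ hp.1.1 _ hp.1.2 hp.2, hp.1.2⟩, hσA i _ hp.1.1 _ hp.1.2 hp.2⟩)
      (fun i p hp => by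
        rw [hmem] at hp
        exact Prod.ext (hσσ i _ hp.1.1 _ hp.1.2 hp.2) rfl)
      (fun i p hp => by
        rw [hmem] at hp
        exact hσj i _ hp.1.1 _ hp.1.2 hp.2)
      (fun i p hp => by
        rw [hmem] at hp
        exact hσc i _ hp.1.1 _ hp.1.2 hp.2) (cls s₀)
    have htot : ∑ p ∈ X, j p.1 p.2 = ∑ s ∈ Ω, ∑ t ∈ Ts, if A s t then j s t else 0 := by
      rw [hXdef, Finset.sum_filter, Finset.sum_product]
    have hle : ∑ p ∈ X with cls p.1 = cls s₀, j p.1 p.2 ≤ ∑ s ∈ Ω with cls s = cls s₀ ∧ |Y s| ≤ M, W s := by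
      calc ∑ p ∈ X with cls p.1 = cls s₀, j p.1 p.2
          ≤ ∑ p ∈ (Ω.filter fun s => cls s = cls s₀ ∧ |Y s| ≤ M) ×ˢ Ts, j p.1 p.2 := by
            refine Finset.sum_le_sum_of_subset_of_nonneg ?_ ?_
            · intro p hp
              rw [mem_filter, hmem] at hp
              rw [mem_product, mem_filter]
              exact ⟨⟨hp.1.1.1, hp.2, hAY _ hp.1.1.1 _ hp.1.1.2 hp.1.2⟩, hp.1.1.2⟩
            · intro p hp _
              rw [mem_product, mem_filter] at hp
              exact hj0 _ hp.1.1 _ hp.2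
        _ = ∑ s ∈ Ω with cls s = cls s₀ ∧ |Y s| ≤ M, W s := by
            rw [Finset.sum_product]
            exact Finset.sum_congr rfl fun s hs => hjW s (mem_filter.mp hs).1
    have h2 : (0 : ℝ) < 2 ^ Fintype.card I := by positivity
    rw [div_mul_eq_mul_div, div_le_iff₀ h2]
    calc c * ∑ s ∈ Ω, W s ≤ ∑ p ∈ X, j p.1 p.2 := by rw [htot]; exact hAc
      _ = 2 ^ Fintype.card I * ∑ p ∈ X with cls p.1 = cls s₀, j p.1 p.2 := horb.symm
      _ ≤ 2 ^ Fintype.card I * ∑ s ∈ Ω with cls s = cls s₀ ∧ |Y s| ≤ M, W s := by gcongr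
      _ = _ := by ring

end assembly

/-! ## B. integers, Gray code, connected sets -/

/-- two neighbouring heights with first colour plus lie in the same lifted pair `4 t + {0,1}`. -/
theorem pin_mo_pair_step {a b : ℤ} (h : |a - b| ≤ 1) (ha : a % 4 = 0 ∨ a % 4 = 1) (hb : b % 4 = 0 ∨ b % 4 = 1) :
    a / 4 = b / 4 := by
  rw [abs_le] at h; omega

/-- (5.9), first colour: rounded midpoints of two heights in lifted pairs with offsets of the same parity. -/
theorem pin_mo_mid_B {a b : ℤ} (ha : a % 4 = 0 ∨ a % 4 = 1) (hb : b % 4 = 0 ∨ b % 4 = 1) (hp : (a / 4) % 2 = (b / 4) % 2) :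
    (((a + b) / 2) % 4 = 0 ∨ ((a + b) / 2) % 4 = 1) ∧ (((a + b + 1) / 2) % 4 = 0 ∨ ((a + b + 1) / 2) % 4 = 1) := by
  omega

/-- (5.9), double pins. -/
theorem pin_mo_mid_W {a b : ℤ} (ha : a % 4 = 0) (hb : b % 4 = 0) (hp : (a / 4) % 2 = (b / 4) % 2) :
    ((a + b) / 2) % 4 = 0 ∧ ((a + b + 1) / 2) % 4 = 0 := by
  omega

/-- the offset of the rounded midpoints is the mean of the offsets. -/
theorem pin_mo_mid_off {a b : ℤ} (ha : a % 4 = 0 ∨ a % 4 = 1) (hb : b % 4 = 0 ∨ b % 4 = 1) (hp : (a / 4) % 2 = (b / 4) % 2) :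
    ((a + b) / 2) / 4 = (a / 4 + b / 4) / 2 ∧ ((a + b + 1) / 2) / 4 = (a / 4 + b / 4) / 2 := by
  omega

/-- a shift by `±4` flips the parity of the offset. -/
theorem pin_mo_shift_par {a b : ℤ} (h : b = a + 4 ∨ b = a - 4) : ((b / 4) % 2 = 1 ↔ ¬ (a / 4) % 2 = 1) := by
  omega

/-- two lifts of the same spins along an edge have the same increment. -/
theorem pin_mo_lift_step {a a' b b' : ℤ} (h : |a - b| ≤ 1) (h' : |a' - b'| ≤ 1) (ha : a % 4 = a' % 4) (hb : b % 4 = b' % 4) :
    a - a' = b - b' := by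
  rw [abs_le] at h h'; omega

section conn

variable {V : Type*} {G : SimpleGraph V} {S : Set V}

/-- **one lifted pair on a connected chain of first colour plus** (replaces the checks `C_i` and TEX[pins:marker-checks]).      TEX[pins:bracket-order] l.186-193 -/
theorem pin_mo_pair_conn (hS : TscConn G S) (h : V → ℤ) (hL : ∀ u ∈ S, ∀ v ∈ S, G.Adj u v → |h u - h v| ≤ 1)
    (hB : ∀ u ∈ S, h u % 4 = 0 ∨ h u % 4 = 1) {u v : V} (hu : u ∈ S) (hv : v ∈ S) : h u / 4 = h v / 4 :=
  tsc_R_const (fun u => h u / 4)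
    (fun a b hab => pin_mo_pair_step (hL a hab.2.1 b hab.2.2 hab.1) (hB a hab.2.1) (hB b hab.2.2)) (hS u hu v hv)

/-- two lifts of the same spins on a connected set differ by a constant.      TEX[lem:spin-lift] (uniqueness) -/
theorem pin_mo_lift_conn (hS : TscConn G S) (h h' : V → ℤ) (hL : ∀ u ∈ S, ∀ v ∈ S, G.Adj u v → |h u - h v| ≤ 1)
    (hL' : ∀ u ∈ S, ∀ v ∈ S, G.Adj u v → |h' u - h' v| ≤ 1) (hg : ∀ u ∈ S, h u % 4 = h' u % 4) {u v : V} (hu : u ∈ S)
    (hv : v ∈ S) : h u - h' u = h v - h' v :=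
  tsc_R_const (fun u => h u - h' u)
    (fun a b hab => pin_mo_lift_step (hL a hab.2.1 b hab.2.2 hab.1) (hL' a hab.2.1 b hab.2.2 hab.1) (hg a hab.2.1)
      (hg b hab.2.2)) (hS u hu v hv)

/-- a statistic of total mass zero carried by a set on which two heights differ by a constant. -/
theorem pin_mo_stat_const (T : Finset V) (w : V → ℝ) (hw : ∑ u ∈ T, w u = 0) (h h' : V → ℤ) (c : ℤ)
    (hc : ∀ u ∈ T, h u - h' u = c) : ∑ u ∈ T, w u * (h u : ℝ) = ∑ u ∈ T, w u * (h' u : ℝ) := by
  have h1 : ∑ u ∈ T, w u * (h u : ℝ) = ∑ u ∈ T, (w u * (h' u : ℝ) + w u * (c : ℝ)) := by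
    refine Finset.sum_congr rfl fun u hu => ?_
    have : (h u : ℝ) = (h' u : ℝ) + (c : ℝ) := by
      have := hc u hu
      have h2 : h u = h' u + c := by omega
      rw [h2]; push_cast; ring
    rw [this]; ring
  rw [h1, Finset.sum_add_distrib, ← Finset.sum_mul, hw, zero_mul, add_zero]

/-- **a zero-total statistic carried by a connected set is a function of the spins.** -/
theorem pin_mo_stat_eq (T : Finset V) (hT : TscConn G (↑T : Set V)) (w : V → ℝ) (hw : ∑ u ∈ T, w u = 0) (h h' : V → ℤ)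
    (hL : ∀ u ∈ T, ∀ v ∈ T, G.Adj u v → |h u - h v| ≤ 1) (hL' : ∀ u ∈ T, ∀ v ∈ T, G.Adj u v → |h' u - h' v| ≤ 1)
    (hg : ∀ u ∈ T, h u % 4 = h' u % 4) : ∑ u ∈ T, w u * (h u : ℝ) = ∑ u ∈ T, w u * (h' u : ℝ) := by
  rcases T.eq_empty_or_nonempty with rfl | ⟨u0, hu0⟩
  · simp
  · exact pin_mo_stat_const T w hw h h' (h u0 - h' u0) fun u hu =>
      pin_mo_lift_conn hT h h' (fun a ha b hb => hL a ha b hb) (fun a ha b hb => hL' a ha b hb) (fun a ha => hg a ha)
        (Finset.mem_coe.2 hu) (Finset.mem_coe.2 hu0)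

end conn

end Claimed.Agent.R291
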