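import Claimed.Agent.R291.Pin.Rp
import Claimed.Agent.R291.Pin.Mom
import Claimed.Agent.R291.Lim.Kit
import Claimed.Agent.R291.Exit.DisRare
import Claimed.Agent.R291.Exit.DisSync
import Claimed.Agent.R291.Exit.DisFill
import Claimed.Agent.R291.Exit.DisPinPos

/-!
# Row 291 (S0539), unit PIN (05-pins), Pin/Gap : CLOSING THE GAPS      (OWNER helper76; head of PIN: helper34, deputy helper48; prefix `pin_gap_`, `pinGap`, `PinGap`)

Nodes N8 + N9 of `origin/helper34:notes/R291/sec5_34.md`, in the height-only vocabulary D4 of helper48 (`htPl`, `pinHat`, `pinPer` of Defs/Pin; API of Pin/Rp).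
TEX[pins:gap-closing] (pins:offset-synchronization), (pins:increment-tv);  TEX[prop:bracket-insertion] (proof: division by `P(P_=)/J`, truncation, order of the limits).
* sec. 0-1  indicators; local 4-periodic events `PinGapV` and observables `PinGapO`; `pinPer x` is a positive linear functional on them (`pin_gap_per_*`), a.s. statements on `PinLip` heights
* sec. 2    OFFSET ALGEBRA: `pin_gap_hat_abs` (`pinHat (Γ 1_PinAbs) = htPl (Γ 1_PinGr)`), `pin_gap_per_loc` (`pinPer (Γ 1_PinLoc) = htPl (Γ 1_PinGr) / 4`), `pin_gap_sp_iff_loc` (spin pin = lifted pin on a connected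
            group, Lipschitz heights), unions, `pin_gap_chain` (equal offsets across every gap => one common offset)
* sec. 3    ONE MESH: `PinGapAt` (groups, labels, gap balls), `pin_gap_sync_at` (from `exit_dis_sync`), `pin_gap_fill_at` (from `exit_dis_fill`, one gap after the other), `pin_gap_tv_at`, `pin_gap_cmp_at` (truncation)
* sec. 4    THE LIMIT: `pin_gap_lim` (numbers), **`pin_gap_main`**: separated insertion (SEP, helper48) + uniform second moments (N3b, helper39) + geometry (helper74, helper72) => the filled bracket insertion identity.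
-/

set_option autoImplicit false

namespace Claimed.Agent.R291

open Claims Claims.C0467 Filter Topology

/-! ## 0. indicators -/

theorem pin_gap_I_pos {p : Prop} (h : p) : pinI p = 1 := by
  classical
  unfold pinI
  exact if_pos h

theorem pin_gap_I_neg {p : Prop} (h : ¬ p) : pinI p = 0 := by
  classical
  unfold pinI
  exact if_neg h

theorem pin_gap_I_nonneg (p : Prop) : 0 ≤ pinI p := by
  by_cases h : p
  · rw [pin_gap_I_pos h]; exact zero_le_one
  · rw [pin_gap_I_neg h]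

theorem pin_gap_I_le_one (p : Prop) : pinI p ≤ 1 := by
  by_cases h : p
  · rw [pin_gap_I_pos h]
  · rw [pin_gap_I_neg h]; exact zero_le_one

theorem pin_gap_I_congr {p q : Prop} (h : p ↔ q) : pinI p = pinI q := by rw [propext h]

theorem pin_gap_I_mono {p q : Prop} (h : p → q) : pinI p ≤ pinI q := by
  by_cases hp : p
  · rw [pin_gap_I_pos hp, pin_gap_I_pos (h hp)]
  · rw [pin_gap_I_neg hp]; exact pin_gap_I_nonneg q

theorem pin_gap_I_and (p q : Prop) : pinI (p ∧ q) = pinI p * pinI q := by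
  by_cases hp : p
  · by_cases hq : q
    · rw [pin_gap_I_pos hp, pin_gap_I_pos hq, pin_gap_I_pos ⟨hp, hq⟩, one_mul]
    · rw [pin_gap_I_neg hq, pin_gap_I_neg (fun h => hq h.2), mul_zero]
  · rw [pin_gap_I_neg hp, pin_gap_I_neg (fun h => hp h.1), zero_mul]

theorem pin_gap_I_split (p q : Prop) : pinI p = pinI (p ∧ q) + pinI (p ∧ ¬ q) := by
  by_cases hq : q
  · rw [pin_gap_I_neg (fun h : p ∧ ¬ q => h.2 hq), add_zero]
    exact pin_gap_I_congr ⟨fun h => ⟨h, hq⟩, fun h => h.1⟩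
  · rw [pin_gap_I_neg (fun h : p ∧ q => hq h.2), zero_add]
    exact pin_gap_I_congr ⟨fun h => ⟨h, hq⟩, fun h => h.1⟩

theorem pin_gap_I_all {ι : Type*} [Fintype ι] (p : ι → Prop) : pinI (∀ i, p i) = ∏ i, pinI (p i) := by
  by_cases h : ∀ i, p i
  · rw [pin_gap_I_pos h]
    exact (Finset.prod_eq_one fun i _ => pin_gap_I_pos (h i)).symm
  · rw [pin_gap_I_neg h]
    push Not at h
    obtain ⟨i, hi⟩ := h
    exact (Finset.prod_eq_zero (Finset.mem_univ i) (pin_gap_I_neg hi)).symm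

/-- union bound for indicators -/
theorem pin_gap_I_ex_le {ι : Type*} [Fintype ι] (p : ι → Prop) : pinI (∃ i, p i) ≤ ∑ i, pinI (p i) := by
  by_cases h : ∃ i, p i
  · obtain ⟨i, hi⟩ := h
    rw [pin_gap_I_pos ⟨i, hi⟩, ← pin_gap_I_pos hi]
    exact Finset.single_le_sum (f := fun i => pinI (p i)) (fun j _ => pin_gap_I_nonneg _) (Finset.mem_univ i)
  · rw [pin_gap_I_neg h]
    exact Finset.sum_nonneg fun j _ => pin_gap_I_nonneg _

/-! ## 1. local 4-periodic events and observables; the functional `pinPer x` -/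

/-- local 4-periodic event -/
def PinGapV (A : (TV → ℤ) → Prop) : Prop :=
  (∃ S : Finset TV, ∀ h h' : TV → ℤ, (∀ u ∈ S, h u = h' u) → (A h ↔ A h')) ∧ ∀ h : TV → ℤ, A (fun u => h u + 4) ↔ A h

/-- local 4-periodic observable -/
def PinGapO (K : (TV → ℤ) → ℝ) : Prop := PinLc K ∧ PinP4 K

theorem PinGapV.and {A B : (TV → ℤ) → Prop} (hA : PinGapV A) (hB : PinGapV B) : PinGapV fun h => A h ∧ B h := by
  classical
  obtain ⟨⟨S, hS⟩, pA⟩ := hA
  obtain ⟨⟨S', hS'⟩, pB⟩ := hB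
  refine ⟨⟨S ∪ S', fun h h' hh => ?_⟩, fun h => and_congr (pA h) (pB h)⟩
  exact and_congr (hS h h' fun u hu => hh u (Finset.mem_union_left _ hu)) (hS' h h' fun u hu => hh u (Finset.mem_union_right _ hu))

theorem PinGapV.not {A : (TV → ℤ) → Prop} (hA : PinGapV A) : PinGapV fun h => ¬ A h := by
  obtain ⟨⟨S, hS⟩, pA⟩ := hA
  exact ⟨⟨S, fun h h' hh => not_congr (hS h h' hh)⟩, fun h => not_congr (pA h)⟩

theorem PinGapV.all {ι : Type*} [Fintype ι] {A : ι → (TV → ℤ) → Prop} (hA : ∀ i, PinGapV (A i)) : PinGapV fun h => ∀ i, A i h := by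
  classical
  choose S hS using fun i => (hA i).1
  refine ⟨⟨Finset.univ.biUnion S, fun h h' hh => ?_⟩, fun h => forall_congr' fun i => (hA i).2 h⟩
  exact forall_congr' fun i => hS i h h' fun u hu => hh u (Finset.mem_biUnion.2 ⟨i, Finset.mem_univ i, hu⟩)

theorem PinGapV.ind {A : (TV → ℤ) → Prop} (hA : PinGapV A) : PinGapO fun h => pinI (A h) := by
  obtain ⟨⟨S, hS⟩, pA⟩ := hA
  exact ⟨⟨S, fun h h' hh => pin_gap_I_congr (hS h h' hh)⟩, fun h => pin_gap_I_congr (pA h)⟩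

theorem PinGapO.of_LG {K : (TV → ℤ) → ℝ} (h : PinLG K) : PinGapO K := ⟨h.1, fun a => h.2 a 4⟩

theorem PinGapO.const (c : ℝ) : PinGapO fun _ => c := PinGapO.of_LG (PinLG.const c)

theorem PinGapO.map2 {F G : (TV → ℤ) → ℝ} (hF : PinGapO F) (hG : PinGapO G) (f : ℝ → ℝ → ℝ) : PinGapO fun h => f (F h) (G h) :=
  ⟨hF.1.map2 hG.1 f, fun h => by show f (F _) (G _) = f (F h) (G h); rw [hF.2 h, hG.2 h]⟩

theorem PinGapO.map1 {F : (TV → ℤ) → ℝ} (hF : PinGapO F) (f : ℝ → ℝ) : PinGapO fun h => f (F h) :=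
  ⟨hF.1.map1 f, fun h => by show f (F _) = f (F h); rw [hF.2 h]⟩

theorem PinGapO.add {F G : (TV → ℤ) → ℝ} (hF : PinGapO F) (hG : PinGapO G) : PinGapO fun h => F h + G h := hF.map2 hG (· + ·)
theorem PinGapO.sub {F G : (TV → ℤ) → ℝ} (hF : PinGapO F) (hG : PinGapO G) : PinGapO fun h => F h - G h := hF.map2 hG (· - ·)
theorem PinGapO.mul {F G : (TV → ℤ) → ℝ} (hF : PinGapO F) (hG : PinGapO G) : PinGapO fun h => F h * G h := hF.map2 hG (· * ·)
theorem PinGapO.smul {F : (TV → ℤ) → ℝ} (hF : PinGapO F) (c : ℝ) : PinGapO fun h => c * F h := hF.map1 (c * ·)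

/-- average over one period -/
noncomputable def pinGapAv (K : (TV → ℤ) → ℝ) : (TV → ℤ) → ℝ := fun h => (∑ c ∈ Finset.range 4, K fun u => h u + (c : ℤ)) / 4

theorem pin_gap_per_eq (x : ℝ) (K : (TV → ℤ) → ℝ) : pinPer x K = htPl x (pinGapAv K) := rfl

/-- a sum over one period does not depend on its starting point -/
theorem pin_gap_period (s : ℤ → ℝ) (hs : ∀ j, s (j + 4) = s j) (c : ℤ) :
    ∑ i ∈ Finset.range 4, s (c + (i : ℤ)) = ∑ i ∈ Finset.range 4, s (i : ℤ) := by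
  have step : ∀ c : ℤ, ∑ i ∈ Finset.range 4, s (c + 1 + (i : ℤ)) = ∑ i ∈ Finset.range 4, s (c + (i : ℤ)) := by
    intro c
    simp only [Finset.sum_range_succ, Finset.sum_range_zero, zero_add]
    have e0 : c + 1 + ((0 : ℕ) : ℤ) = c + ((1 : ℕ) : ℤ) := by push_cast; ring
    have e1 : c + 1 + ((1 : ℕ) : ℤ) = c + ((2 : ℕ) : ℤ) := by push_cast; ring
    have e2 : c + 1 + ((2 : ℕ) : ℤ) = c + ((3 : ℕ) : ℤ) := by push_cast; ring
    have e3 : c + 1 + ((3 : ℕ) : ℤ) = c + ((0 : ℕ) : ℤ) + 4 := by push_cast; ring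
    rw [e0, e1, e2, e3, hs]
    ring
  induction c using Int.induction_on with
  | zero => simp
  | succ n ih => rw [step, ih]
  | pred n ih =>
    have := step (-(n : ℤ) - 1)
    rw [sub_add_cancel] at this
    rw [← this, ih]

theorem pin_gap_av_LG {K : (TV → ℤ) → ℝ} (hK : PinGapO K) : PinLG (pinGapAv K) := by
  obtain ⟨⟨S, hS⟩, hp⟩ := hK
  refine ⟨⟨S, fun h h' hh => ?_⟩, fun h c => ?_⟩
  · unfold pinGapAv
    congr 1
    exact Finset.sum_congr rfl fun c _ => hS _ _ fun u hu => by rw [hh u hu]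
  · unfold pinGapAv
    congr 1
    have h1 := pin_gap_period (fun j => K fun u => h u + j) (fun j => by
      have := hp fun u => h u + j
      simpa only [add_assoc] using this) c
    simpa only [add_assoc] using h1

theorem pin_gap_lip_shift {h : TV → ℤ} (hh : PinLip h) (c : ℤ) : PinLip fun u => h u + c := by
  intro u d hd
  have := hh u d hd
  simpa using this

theorem pin_gap_lip_adj {h : TV → ℤ} (hh : PinLip h) {u v : TV} (huv : triAdj u v) : |h u - h v| ≤ 1 := by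
  have := hh u (v - u) ((lat_adj_iff u v).1 huv)
  rw [add_sub_cancel, abs_sub_comm] at this
  exact this

section per

variable {x : ℝ} (hP : PinPl x)
include hP

theorem pin_gap_per_add {F G : (TV → ℤ) → ℝ} (hF : PinGapO F) (hG : PinGapO G) :
    pinPer x (fun h => F h + G h) = pinPer x F + pinPer x G := by
  rw [pin_gap_per_eq, pin_gap_per_eq, pin_gap_per_eq, ← pin_pl_add hP (pin_gap_av_LG hF) (pin_gap_av_LG hG)]
  congr 1
  funext h
  simp only [pinGapAv, Finset.sum_add_distrib, add_div]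

theorem pin_gap_per_smul {F : (TV → ℤ) → ℝ} (hF : PinGapO F) (c : ℝ) : pinPer x (fun h => c * F h) = c * pinPer x F := by
  rw [pin_gap_per_eq, pin_gap_per_eq, ← pin_pl_smul hP (pin_gap_av_LG hF)]
  congr 1
  funext h
  simp only [pinGapAv, ← Finset.mul_sum, mul_div_assoc]

theorem pin_gap_per_sub {F G : (TV → ℤ) → ℝ} (hF : PinGapO F) (hG : PinGapO G) :
    pinPer x (fun h => F h - G h) = pinPer x F - pinPer x G := by
  have h1 := pin_gap_per_add hP hF (hG.smul (-1))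
  rw [pin_gap_per_smul hP hG] at h1
  have e : (fun h => F h - G h) = fun h => F h + -1 * G h := by funext h; ring
  rw [e, h1]; ring

theorem pin_gap_per_mono {F G : (TV → ℤ) → ℝ} (hF : PinGapO F) (hG : PinGapO G) (h : ∀ a, PinLip a → F a ≤ G a) :
    pinPer x F ≤ pinPer x G := by
  refine pin_pl_mono hP (pin_gap_av_LG hF) (pin_gap_av_LG hG) fun a ha => ?_
  exact div_le_div_of_nonneg_right (Finset.sum_le_sum fun c _ => h _ (pin_gap_lip_shift ha c)) (by norm_num)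

theorem pin_gap_per_congr {F G : (TV → ℤ) → ℝ} (hF : PinGapO F) (hG : PinGapO G) (h : ∀ a, PinLip a → F a = G a) :
    pinPer x F = pinPer x G :=
  le_antisymm (pin_gap_per_mono hP hF hG fun a ha => (h a ha).le) (pin_gap_per_mono hP hG hF fun a ha => (h a ha).ge)

omit hP in
theorem pin_gap_per_of_grad (x : ℝ) {G : (TV → ℤ) → ℝ} (hG : HtGrad G) : pinPer x G = htPl x G := by
  rw [pin_gap_per_eq]
  congr 1
  funext h
  unfold pinGapAv
  rw [Finset.sum_congr rfl fun (c : ℕ) _ => hG h (c : ℤ)]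
  simp

theorem pin_gap_per_const (c : ℝ) : pinPer x (fun _ => c) = c := by
  rw [pin_gap_per_of_grad x (fun _ _ => rfl), pin_pl_const hP]

theorem pin_gap_per_nonneg {G : (TV → ℤ) → ℝ} (hG : PinGapO G) (h : ∀ a, PinLip a → 0 ≤ G a) : 0 ≤ pinPer x G := by
  have := pin_gap_per_mono hP (PinGapO.const 0) hG h
  rwa [pin_gap_per_const hP] at this

theorem pin_gap_per_abs_le {F G : (TV → ℤ) → ℝ} (hF : PinGapO F) (hG : PinGapO G) (h : ∀ a, PinLip a → |F a| ≤ G a) :
    |pinPer x F| ≤ pinPer x G := by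
  rw [abs_le]
  constructor
  · have := pin_gap_per_mono hP (hG.smul (-1)) hF fun a ha => by have := (abs_le.1 (h a ha)).1; linarith
    rw [pin_gap_per_smul hP hG] at this
    linarith
  · exact pin_gap_per_mono hP hF hG fun a ha => (abs_le.1 (h a ha)).2

theorem pin_gap_per_sum {ι : Type*} (s : Finset ι) {F : ι → (TV → ℤ) → ℝ} (hF : ∀ i ∈ s, PinGapO (F i)) :
    PinGapO (fun h => ∑ i ∈ s, F i h) ∧ pinPer x (fun h => ∑ i ∈ s, F i h) = ∑ i ∈ s, pinPer x (F i) := by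
  classical
  induction s using Finset.induction_on with
  | empty => simpa using ⟨PinGapO.const 0, pin_gap_per_const hP 0⟩
  | insert a s ha ih =>
    obtain ⟨i1, i2⟩ := ih fun i hi => hF i (Finset.mem_insert_of_mem hi)
    have ha' := hF a (Finset.mem_insert_self _ _)
    simp only [Finset.sum_insert ha]
    exact ⟨ha'.add i1, by rw [pin_gap_per_add hP ha' i1, i2]⟩

end per

/-! ## 2. offset algebra -/

theorem pin_gap_abs_loc {G D : Finset TV} {h h' : TV → ℤ} (hh : ∀ u ∈ G ∪ D, h u = h' u) : PinAbs G D h ↔ PinAbs G D h' := by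
  unfold PinAbs
  constructor
  · rintro ⟨h1, h2⟩
    exact ⟨fun u hu => by rw [← hh u (Finset.mem_union_left _ hu)]; exact h1 u hu,
      fun u hu => by rw [← hh u (Finset.mem_union_right _ hu)]; exact h2 u hu⟩
  · rintro ⟨h1, h2⟩
    exact ⟨fun u hu => by rw [hh u (Finset.mem_union_left _ hu)]; exact h1 u hu,
      fun u hu => by rw [hh u (Finset.mem_union_right _ hu)]; exact h2 u hu⟩

/-- the offset of a pin is the height of any of its double pins -/
theorem pin_gap_abs_off {G D : Finset TV} {h : TV → ℤ} {t : ℤ} {v : TV} (hv : v ∈ D) (H : PinAbs G D fun u => h u - t) : t = h v := by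
  have h1 : h v - t = 0 := H.2 v hv
  linarith

theorem pin_gap_gr_iff {G D : Finset TV} {v : TV} (hv : v ∈ D) (h : TV → ℤ) : PinGr G D h ↔ PinAbs G D fun u => h u - h v := by
  constructor
  · rintro ⟨t, H⟩
    rw [← pin_gap_abs_off hv H]
    exact H
  · exact fun H => ⟨h v, H⟩

theorem pin_gap_loc_iff {G D : Finset TV} {v : TV} (hv : v ∈ D) (h : TV → ℤ) : PinLoc G D h ↔ PinGr G D h ∧ h v % 4 = 0 := by
  constructor
  · rintro ⟨t, H⟩
    have := pin_gap_abs_off hv H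
    exact ⟨⟨4 * t, H⟩, by omega⟩
  · rintro ⟨H, h4⟩
    refine ⟨h v / 4, ?_⟩
    have e : 4 * (h v / 4) = h v := by omega
    rw [e]
    exact (pin_gap_gr_iff hv h).1 H

theorem pin_gap_gr_shift (G D : Finset TV) (h : TV → ℤ) (c : ℤ) : PinGr G D (fun u => h u + c) ↔ PinGr G D h := by
  constructor
  · rintro ⟨t, H⟩
    refine ⟨t - c, ?_⟩
    have e : (fun u => h u - (t - c)) = fun u => h u + c - t := by funext u; ring
    rw [e]; exact H
  · rintro ⟨t, H⟩
    refine ⟨t + c, ?_⟩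
    have e : (fun u => h u + c - (t + c)) = fun u => h u - t := by funext u; ring
    rw [e]; exact H

theorem pin_gap_gr_LG (G D : Finset TV) : PinLG fun h => pinI (PinGr G D h) := by
  classical
  refine ⟨⟨G ∪ D, fun h h' hh => pin_gap_I_congr ?_⟩, fun h c => pin_gap_I_congr (pin_gap_gr_shift G D h c)⟩
  unfold PinGr
  exact exists_congr fun t => pin_gap_abs_loc fun u hu => by rw [hh u hu]

theorem pin_gap_V_loc (G D : Finset TV) : PinGapV (PinLoc G D) := by
  classical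
  refine ⟨⟨G ∪ D, fun h h' hh => ?_⟩, fun h => ?_⟩
  · unfold PinLoc
    exact exists_congr fun t => pin_gap_abs_loc fun u hu => by rw [hh u hu]
  · constructor
    · rintro ⟨t, H⟩
      refine ⟨t - 1, ?_⟩
      have e : (fun u => h u - 4 * (t - 1)) = fun u => h u + 4 - 4 * t := by funext u; ring
      rw [e]; exact H
    · rintro ⟨t, H⟩
      refine ⟨t + 1, ?_⟩
      have e : (fun u => h u + 4 - 4 * (t + 1)) = fun u => h u - 4 * t := by funext u; ring
      rw [e]; exact H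

theorem pin_gap_V_sp (G D : Finset TV) : PinGapV (PinSp G D) := by
  classical
  refine ⟨⟨G ∪ D, fun h h' hh => ?_⟩, fun h => ?_⟩
  · unfold PinSp
    refine and_congr (forall₂_congr fun u hu => ?_) (forall₂_congr fun u hu => ?_)
    · rw [hh u (Finset.mem_union_left _ hu)]
    · rw [hh u (Finset.mem_union_right _ hu)]
  · unfold PinSp momB
    refine and_congr (forall₂_congr fun u _ => ?_) (forall₂_congr fun u _ => ?_)
    · show ((h u + 4) % 4 = 0 ∨ (h u + 4) % 4 = 1) ↔ (h u % 4 = 0 ∨ h u % 4 = 1)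
      constructor <;> intro H <;> omega
    · show (h u + 4) % 4 = 0 ↔ h u % 4 = 0
      constructor <;> intro H <;> omega

/-- the event "the groups `(G, D)` and `(G', D')` have the same offset" -/
theorem pin_gap_V_com (G D G' D' : Finset TV) :
    PinGapV fun h => ∃ t : ℤ, PinAbs G D (fun u => h u - t) ∧ PinAbs G' D' (fun u => h u - t) := by
  classical
  refine ⟨⟨(G ∪ D) ∪ (G' ∪ D'), fun h h' hh => ?_⟩, fun h => ?_⟩
  · exact exists_congr fun t => and_congr (pin_gap_abs_loc fun u hu => by rw [hh u (Finset.mem_union_left _ hu)])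
      (pin_gap_abs_loc fun u hu => by rw [hh u (Finset.mem_union_right _ hu)])
  · constructor
    · rintro ⟨t, H⟩
      refine ⟨t - 4, ?_⟩
      have e : (fun u => h u - (t - 4)) = fun u => h u + 4 - t := by funext u; ring
      rw [e]; exact H
    · rintro ⟨t, H⟩
      refine ⟨t + 4, ?_⟩
      have e : (fun u => h u + 4 - (t + 4)) = fun u => h u - t := by funext u; ring
      rw [e]; exact H

/-- **absolute pins under the sigma-finite measure = gradient pins under the plane law** -/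
theorem pin_gap_hat_abs (x : ℝ) {G D : Finset TV} (hD : D.Nonempty) {Γ : (TV → ℤ) → ℝ} (hΓ : HtGrad Γ) :
    pinHat x (fun h => Γ h * pinI (PinAbs G D h)) = htPl x fun h => Γ h * pinI (PinGr G D h) := by
  obtain ⟨v, hv⟩ := hD
  rw [pin_hat_eq, pin_sum_mul_grad hΓ]
  congr 1
  funext h
  rw [pin_sum_anchor (v := v) (K := fun h => pinI (PinAbs G D h)) (fun a ha => by
    by_contra hne
    exact ha (pin_gap_I_neg fun H => hne (H.2 v hv))) h]
  rw [pin_gap_I_congr (pin_gap_gr_iff hv h)]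

theorem pin_gap_res (m : ℤ) : ∑ c ∈ Finset.range 4, pinI ((m + (c : ℤ)) % 4 = 0) = 1 := by
  have key : pinI ((m + 0) % 4 = 0) + pinI ((m + 1) % 4 = 0) + pinI ((m + 2) % 4 = 0) + pinI ((m + 3) % 4 = 0) = 1 := by
    have h4 : m % 4 = 0 ∨ m % 4 = 1 ∨ m % 4 = 2 ∨ m % 4 = 3 := by omega
    rcases h4 with h | h | h | h
    · rw [pin_gap_I_pos (show (m + 0) % 4 = 0 by omega), pin_gap_I_neg (show ¬ (m + 1) % 4 = 0 by omega),
        pin_gap_I_neg (show ¬ (m + 2) % 4 = 0 by omega), pin_gap_I_neg (show ¬ (m + 3) % 4 = 0 by omega)]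
      norm_num
    · rw [pin_gap_I_neg (show ¬ (m + 0) % 4 = 0 by omega), pin_gap_I_neg (show ¬ (m + 1) % 4 = 0 by omega),
        pin_gap_I_neg (show ¬ (m + 2) % 4 = 0 by omega), pin_gap_I_pos (show (m + 3) % 4 = 0 by omega)]
      norm_num
    · rw [pin_gap_I_neg (show ¬ (m + 0) % 4 = 0 by omega), pin_gap_I_neg (show ¬ (m + 1) % 4 = 0 by omega),
        pin_gap_I_pos (show (m + 2) % 4 = 0 by omega), pin_gap_I_neg (show ¬ (m + 3) % 4 = 0 by omega)]
      norm_num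
    · rw [pin_gap_I_neg (show ¬ (m + 0) % 4 = 0 by omega), pin_gap_I_pos (show (m + 1) % 4 = 0 by omega),
        pin_gap_I_neg (show ¬ (m + 2) % 4 = 0 by omega), pin_gap_I_neg (show ¬ (m + 3) % 4 = 0 by omega)]
      norm_num
  rw [← key]
  simp only [Finset.sum_range_succ, Finset.sum_range_zero, zero_add]
  norm_num

/-- **lifted pins under the pair law = gradient pins under the plane law, up to the factor 4** -/
theorem pin_gap_per_loc {x : ℝ} (hP : PinPl x) {G D : Finset TV} (hD : D.Nonempty) {Γ : (TV → ℤ) → ℝ} (hΓ : PinLG Γ) :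
    pinPer x (fun h => Γ h * pinI (PinLoc G D h)) = htPl x (fun h => Γ h * pinI (PinGr G D h)) / 4 := by
  obtain ⟨v, hv⟩ := hD
  have e : pinGapAv (fun h => Γ h * pinI (PinLoc G D h)) = fun h => (1 / 4 : ℝ) * (Γ h * pinI (PinGr G D h)) := by
    funext h
    unfold pinGapAv
    have h1 : ∀ c ∈ Finset.range 4, (Γ fun u => h u + (c : ℤ)) * pinI (PinLoc G D fun u => h u + (c : ℤ))
        = Γ h * pinI (PinGr G D h) * pinI ((h v + (c : ℤ)) % 4 = 0) := by
      intro c _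
      rw [hΓ.2 h c, pin_gap_I_congr (pin_gap_loc_iff hv _), pin_gap_I_and, pin_gap_I_congr (pin_gap_gr_shift G D h c), mul_assoc]
    rw [Finset.sum_congr rfl h1, ← Finset.mul_sum, pin_gap_res]
    ring
  rw [pin_gap_per_eq, e, pin_pl_smul hP (hΓ.mul (pin_gap_gr_LG G D))]
  ring

/-- **on a connected group the spin pin is the lifted pin** (Lipschitz heights) -/
theorem pin_gap_sp_iff_loc {G D : Finset TV} (hG : TscConn tscG (G : Set TV)) (hDG : D ⊆ G) (hD : D.Nonempty) {h : TV → ℤ} (hL : PinLip h) :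
    PinSp G D h ↔ PinLoc G D h := by
  obtain ⟨v, hv⟩ := hD
  constructor
  · rintro ⟨hB, hW⟩
    have key : ∀ u ∈ G, h u / 4 = h v / 4 := fun u hu =>
      pin_mo_pair_conn hG h (fun a _ b _ hab => pin_gap_lip_adj hL hab) (fun a ha => hB a ha) (Finset.mem_coe.2 hu) (Finset.mem_coe.2 (hDG hv))
    refine ⟨h v / 4, fun u hu => ?_, fun u hu => ?_⟩
    · have h1 := key u hu
      have h2 : h u % 4 = 0 ∨ h u % 4 = 1 := hB u hu
      show h u - 4 * (h v / 4) = 0 ∨ h u - 4 * (h v / 4) = 1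
      omega
    · have h1 := key u (hDG hu)
      have h2 := hW u hu
      show h u - 4 * (h v / 4) = 0
      omega
  · rintro ⟨t, h1, h2⟩
    refine ⟨fun u hu => ?_, fun u hu => ?_⟩
    · have h3 : h u - 4 * t = 0 ∨ h u - 4 * t = 1 := h1 u hu
      show h u % 4 = 0 ∨ h u % 4 = 1
      omega
    · have h3 : h u - 4 * t = 0 := h2 u hu
      omega

theorem pin_gap_loc_sp {G D : Finset TV} {h : TV → ℤ} (H : PinLoc G D h) : PinSp G D h := by
  obtain ⟨t, h1, h2⟩ := H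
  refine ⟨fun u hu => ?_, fun u hu => ?_⟩
  · have h3 : h u - 4 * t = 0 ∨ h u - 4 * t = 1 := h1 u hu
    show h u % 4 = 0 ∨ h u % 4 = 1
    omega
  · have h3 : h u - 4 * t = 0 := h2 u hu
    omega

theorem pin_gap_sp_anti {G G' D : Finset TV} (hG : G ⊆ G') {h : TV → ℤ} (H : PinSp G' D h) : PinSp G D h :=
  ⟨fun u hu => H.1 u (hG hu), H.2⟩

theorem pin_gap_abs_union {k : ℕ} (G D : Fin k → Finset TV) (h : TV → ℤ) :
    PinAbs (Finset.univ.biUnion G) (Finset.univ.biUnion D) h ↔ ∀ i, PinAbs (G i) (D i) h := by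
  unfold PinAbs
  constructor
  · rintro ⟨h1, h2⟩ i
    exact ⟨fun u hu => h1 u (Finset.mem_biUnion.2 ⟨i, Finset.mem_univ i, hu⟩), fun u hu => h2 u (Finset.mem_biUnion.2 ⟨i, Finset.mem_univ i, hu⟩)⟩
  · intro H
    refine ⟨fun u hu => ?_, fun u hu => ?_⟩
    · obtain ⟨i, -, hi⟩ := Finset.mem_biUnion.1 hu
      exact (H i).1 u hi
    · obtain ⟨i, -, hi⟩ := Finset.mem_biUnion.1 hu
      exact (H i).2 u hi

theorem pin_gap_sp_union {k : ℕ} (G D : Fin k → Finset TV) (h : TV → ℤ) :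
    PinSp (Finset.univ.biUnion G) (Finset.univ.biUnion D) h ↔ ∀ i, PinSp (G i) (D i) h := by
  unfold PinSp
  constructor
  · rintro ⟨h1, h2⟩ i
    exact ⟨fun u hu => h1 u (Finset.mem_biUnion.2 ⟨i, Finset.mem_univ i, hu⟩), fun u hu => h2 u (Finset.mem_biUnion.2 ⟨i, Finset.mem_univ i, hu⟩)⟩
  · intro H
    refine ⟨fun u hu => ?_, fun u hu => ?_⟩
    · obtain ⟨i, -, hi⟩ := Finset.mem_biUnion.1 hu
      exact (H i).1 u hi
    · obtain ⟨i, -, hi⟩ := Finset.mem_biUnion.1 hu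
      exact (H i).2 u hi

theorem pin_gap_loc_union {k : ℕ} {G D : Fin k → Finset TV} {h : TV → ℤ} (H : PinLoc (Finset.univ.biUnion G) (Finset.univ.biUnion D) h) (i : Fin k) :
    PinLoc (G i) (D i) h := by
  obtain ⟨t, H⟩ := H
  exact ⟨t, (pin_gap_abs_union G D _).1 H i⟩

/-- **equal offsets across every gap => one common offset** -/
theorem pin_gap_chain {k : ℕ} {G D : Fin k → Finset TV} (hne : ∀ i, (D i).Nonempty) {pv : Fin k → Fin k}
    (hpv : ∀ f : Fin k → ℤ, (∀ c, f c = f (pv c)) → ∀ i j, f i = f j) {h : TV → ℤ} (hA : ∀ l, PinLoc (G l) (D l) h)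
    (hc : ∀ c, ∃ t : ℤ, PinAbs (G c) (D c) (fun u => h u - t) ∧ PinAbs (G (pv c)) (D (pv c)) (fun u => h u - t)) :
    PinLoc (Finset.univ.biUnion G) (Finset.univ.biUnion D) h := by
  choose v hv using hne
  have hf : ∀ i j, h (v i) = h (v j) := hpv (fun i => h (v i)) fun c => by
    obtain ⟨t, H1, H2⟩ := hc c
    show h (v c) = h (v (pv c))
    rw [← pin_gap_abs_off (hv c) H1, ← pin_gap_abs_off (hv (pv c)) H2]
  rcases isEmpty_or_nonempty (Fin k) with he | ⟨⟨i0⟩⟩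
  · exact ⟨0, (pin_gap_abs_union G D _).2 fun i => he.elim i⟩
  · obtain ⟨t0, H0⟩ := hA i0
    refine ⟨t0, (pin_gap_abs_union G D _).2 fun l => ?_⟩
    obtain ⟨t, H⟩ := hA l
    have e1 := pin_gap_abs_off (hv i0) H0
    have e2 := pin_gap_abs_off (hv l) H
    have e3 := hf l i0
    have e4 : t = t0 := by omega
    rw [← e4]
    exact H

/-! ## 3. one mesh -/

/-- the conclusion of `exit_dis_sync` for `k` groups, with its constants -/
def PinGapSync (x α C : ℝ) (k : ℕ) : Prop :=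
  ∀ (G D : Fin k → Finset TV) (z : TV) (r1 r2 : ℕ) (i j : Fin k),
    (∀ l, PinOb (G l) (D l)) → 1 ≤ r1 → r1 ≤ r2 → (∀ l, Disjoint (D l) (latBall z r2)) →
    (∃ u ∈ G i, u ∈ latBall z r1) → (∃ u ∈ G i, u ∉ latBall z r2) → (∃ u ∈ G j, u ∈ latBall z r1) → (∃ u ∈ G j, u ∉ latBall z r2) →
    (pinPer x fun h => pinI ((∀ l, PinLoc (G l) (D l) h) ∧ ¬ ∃ t : ℤ, PinAbs (G i) (D i) (fun u => h u - t) ∧ PinAbs (G j) (D j) (fun u => h u - t))) ≤
      C * ((r1 : ℝ) / r2) ^ α * pinPer x fun h => pinI (∀ l, PinLoc (G l) (D l) h)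

/-- the conclusion of `exit_dis_fill` for `k` labels, with its constants -/
def PinGapFill (x α C : ℝ) (k : ℕ) : Prop :=
  ∀ (G E T : Finset TV) (L : Fin k → Finset TV) (z : TV) (r1 r2 : ℕ) (Ψ : (TV → ℤ) → ℝ),
    (∀ l, TscConn tscG (L l : Set TV)) → 1 ≤ r1 → r1 ≤ r2 → E ⊆ latBall z r1 → (∀ l, Disjoint (L l) (latBall z r2)) → Disjoint T (latBall z r2) →
    HtLoc T Ψ → PinP4 Ψ → (∀ h, |Ψ h| ≤ 1) →
    |(pinPer x fun h => Ψ h * pinI (PinSp (G ∪ E) (Finset.univ.biUnion L) h)) * (pinPer x fun h => pinI (PinSp G (Finset.univ.biUnion L) h)) -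
        (pinPer x fun h => Ψ h * pinI (PinSp G (Finset.univ.biUnion L) h)) * (pinPer x fun h => pinI (PinSp (G ∪ E) (Finset.univ.biUnion L) h))| ≤
      C * ((r1 : ℝ) / r2) ^ α * ((pinPer x fun h => pinI (PinSp G (Finset.univ.biUnion L) h)) * pinPer x fun h => pinI (PinSp (G ∪ E) (Finset.univ.biUnion L) h))

/-- THE GEOMETRY AT ONE MESH: `k` groups `G i` with labels `D i`, `k` gaps; the gap `c` lies between the groups `c` and `pv c`; its missing sites `E c` are in the small ball `latBall (z c) r1`;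
the big ball `latBall (z c) r2` contains no label and no test site; `G0` = the filled boundary layer. -/
structure PinGapAt {k : ℕ} (G D E : Fin k → Finset TV) (G0 T : Finset TV) (z : Fin k → TV) (r1 r2 : ℕ) (pv : Fin k → Fin k) : Prop where
  ob : ∀ i, PinOb (G i) (D i)
  fill : G0 = Finset.univ.biUnion G ∪ Finset.univ.biUnion E
  conn : TscConn tscG (G0 : Set TV)
  one_le : 1 ≤ r1
  le : r1 ≤ r2
  win : ∀ c, E c ⊆ latBall (z c) r1
  lab : ∀ c l, Disjoint (D l) (latBall (z c) r2)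
  tst : ∀ c, Disjoint T (latBall (z c) r2)
  nxt : ∀ c, ∃ u ∈ G c, u ∈ latBall (z c) r1
  prv : ∀ c, ∃ u ∈ G (pv c), u ∈ latBall (z c) r1
  cyc : ∀ f : Fin k → ℤ, (∀ c, f c = f (pv c)) → ∀ i j, f i = f j

theorem PinGapAt.far {k : ℕ} {G D E : Fin k → Finset TV} {G0 T : Finset TV} {z : Fin k → TV} {r1 r2 : ℕ} {pv : Fin k → Fin k}
    (H : PinGapAt G D E G0 T z r1 r2 pv) (c l : Fin k) : ∃ u ∈ G l, u ∉ latBall (z c) r2 := by
  obtain ⟨v, hv⟩ := (H.ob l).ne
  exact ⟨v, (H.ob l).sub hv, fun hin => Finset.disjoint_left.1 (H.lab c l) hv hin⟩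

theorem pin_gap_per_loc_one {x : ℝ} (hP : PinPl x) {G D : Finset TV} (hD : D.Nonempty) :
    pinPer x (fun h => pinI (PinLoc G D h)) = htPl x (fun h => pinI (PinGr G D h)) / 4 := by
  simpa using pin_gap_per_loc hP (G := G) hD (PinLG.const 1)

/-- splitting an event -/
theorem pin_gap_per_split {x : ℝ} (hP : PinPl x) {Ψ : (TV → ℤ) → ℝ} (hΨ : PinGapO Ψ) {A B : (TV → ℤ) → Prop} (vA : PinGapV A) (vB : PinGapV B)
    (hBA : ∀ h, B h → A h) :
    pinPer x (fun h => Ψ h * pinI (A h)) = pinPer x (fun h => Ψ h * pinI (B h)) + pinPer x fun h => Ψ h * pinI (A h ∧ ¬ B h) := by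
  rw [← pin_gap_per_add hP (hΨ.mul vB.ind) (hΨ.mul (vA.and vB.not).ind)]
  congr 1
  funext h
  rw [pin_gap_I_split (A h) (B h), pin_gap_I_congr (show (A h ∧ B h) ↔ B h from ⟨fun H => H.2, fun H => ⟨hBA h H, H⟩⟩)]
  ring

theorem pin_gap_per_ind_abs {x : ℝ} (hP : PinPl x) {Ψ : (TV → ℤ) → ℝ} (hΨ : PinGapO Ψ) (h1 : ∀ h, |Ψ h| ≤ 1) {A : (TV → ℤ) → Prop} (vA : PinGapV A) :
    |pinPer x fun h => Ψ h * pinI (A h)| ≤ pinPer x fun h => pinI (A h) := by
  refine pin_gap_per_abs_le hP (hΨ.mul vA.ind) vA.ind fun a _ => ?_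
  rw [abs_mul, abs_of_nonneg (pin_gap_I_nonneg _)]
  exact mul_le_of_le_one_left (pin_gap_I_nonneg _) (h1 a)

/-- **synchronisation of all the offsets**      TEX (pins:offset-synchronization) -/
theorem pin_gap_sync_at {x : ℝ} (hP : PinPl x) {α C : ℝ} {k : ℕ} (hS : PinGapSync x α C k) {G D E : Fin k → Finset TV} {G0 T : Finset TV}
    {z : Fin k → TV} {r1 r2 : ℕ} {pv : Fin k → Fin k} (H : PinGapAt G D E G0 T z r1 r2 pv) :
    (pinPer x fun h => pinI ((∀ l, PinLoc (G l) (D l) h) ∧ ¬ PinLoc (Finset.univ.biUnion G) (Finset.univ.biUnion D) h)) ≤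
      k * (C * ((r1 : ℝ) / r2) ^ α) * pinPer x fun h => pinI (∀ l, PinLoc (G l) (D l) h) := by
  have vA : PinGapV fun h => ∀ l, PinLoc (G l) (D l) h := PinGapV.all fun l => pin_gap_V_loc _ _
  have vC : ∀ c, PinGapV fun h => (∀ l, PinLoc (G l) (D l) h) ∧
      ¬ ∃ t : ℤ, PinAbs (G c) (D c) (fun u => h u - t) ∧ PinAbs (G (pv c)) (D (pv c)) (fun u => h u - t) :=
    fun c => vA.and (pin_gap_V_com _ _ _ _).not
  have vE := vA.and (pin_gap_V_loc (Finset.univ.biUnion G) (Finset.univ.biUnion D)).not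
  obtain ⟨s1, s2⟩ := pin_gap_per_sum hP Finset.univ (F := fun c h => pinI ((∀ l, PinLoc (G l) (D l) h) ∧
      ¬ ∃ t : ℤ, PinAbs (G c) (D c) (fun u => h u - t) ∧ PinAbs (G (pv c)) (D (pv c)) (fun u => h u - t))) (fun c _ => (vC c).ind)
  refine (pin_gap_per_mono hP vE.ind s1 fun a _ => ?_).trans ?_
  · refine le_trans (pin_gap_I_mono ?_) (pin_gap_I_ex_le _)
    rintro ⟨hA, hn⟩
    by_contra hcon
    push Not at hcon
    exact hn (pin_gap_chain (fun i => (H.ob i).ne) H.cyc hA fun c => hcon c hA)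
  · rw [s2]
    refine (Finset.sum_le_sum fun c _ => hS G D (z c) r1 r2 c (pv c) H.ob H.one_le H.le (H.lab c) (H.nxt c) (H.far c c) (H.prv c)
      (H.far c (pv c))).trans (le_of_eq ?_)
    rw [Finset.sum_const, Finset.card_univ, Fintype.card_fin, nsmul_eq_mul]
    ring

theorem pin_gap_V_gr (G D : Finset TV) : PinGapV (PinGr G D) := by
  classical
  refine ⟨⟨G ∪ D, fun h h' hh => ?_⟩, fun h => pin_gap_gr_shift G D h 4⟩
  unfold PinGr
  exact exists_congr fun t => pin_gap_abs_loc fun u hu => by rw [hh u hu]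

theorem pin_gap_gr_union {k : ℕ} (G D : Fin k → Finset TV) (h : TV → ℤ) :
    PinGr (Finset.univ.biUnion G) (Finset.univ.biUnion D) h ↔ ∃ t : ℤ, ∀ l, PinAbs (G l) (D l) fun u => h u - t :=
  exists_congr fun _ => pin_gap_abs_union G D _

/-- the same with the gradient form of the common offset event (form consumed by N3b, helper39) -/
theorem pin_gap_sync_gr {x : ℝ} (hP : PinPl x) {α C : ℝ} {k : ℕ} (hS : PinGapSync x α C k) {G D E : Fin k → Finset TV} {G0 T : Finset TV}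
    {z : Fin k → TV} {r1 r2 : ℕ} {pv : Fin k → Fin k} (H : PinGapAt G D E G0 T z r1 r2 pv) :
    (pinPer x fun h => pinI ((∀ l, PinLoc (G l) (D l) h) ∧ ¬ ∃ t : ℤ, ∀ l, PinAbs (G l) (D l) fun u => h u - t)) ≤
      k * (C * ((r1 : ℝ) / r2) ^ α) * pinPer x fun h => pinI (∀ l, PinLoc (G l) (D l) h) := by
  have vA : PinGapV fun h => ∀ l, PinLoc (G l) (D l) h := PinGapV.all fun l => pin_gap_V_loc _ _
  have e : (fun h : TV → ℤ => pinI ((∀ l, PinLoc (G l) (D l) h) ∧ ¬ ∃ t : ℤ, ∀ l, PinAbs (G l) (D l) fun u => h u - t)) =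
      fun h => pinI ((∀ l, PinLoc (G l) (D l) h) ∧ ¬ PinGr (Finset.univ.biUnion G) (Finset.univ.biUnion D) h) := by
    funext h
    rw [pin_gap_I_congr (and_congr Iff.rfl (not_congr (pin_gap_gr_union G D h).symm))]
  rw [e]
  refine (pin_gap_per_mono hP (vA.and (pin_gap_V_gr _ _).not).ind (vA.and (pin_gap_V_loc _ _).not).ind fun a _ => pin_gap_I_mono ?_).trans
    (pin_gap_sync_at hP hS H)
  rintro ⟨h1, h2⟩
  exact ⟨h1, fun ⟨t, Ht⟩ => h2 ⟨4 * t, Ht⟩⟩

/-- the groups and the first `j` filled gaps -/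
def pinGapG {k : ℕ} (G E : Fin k → Finset TV) (j : ℕ) : Finset TV :=
  Finset.univ.biUnion G ∪ (Finset.univ.filter fun c : Fin k => c.val < j).biUnion E

theorem pin_gap_G_zero {k : ℕ} (G E : Fin k → Finset TV) : pinGapG G E 0 = Finset.univ.biUnion G := by
  simp [pinGapG]

theorem pin_gap_G_top {k : ℕ} (G E : Fin k → Finset TV) : pinGapG G E k = Finset.univ.biUnion G ∪ Finset.univ.biUnion E := by
  unfold pinGapG
  congr 2
  exact Finset.filter_true_of_mem fun c _ => c.isLt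

theorem pin_gap_G_succ {k : ℕ} (G E : Fin k → Finset TV) {j : ℕ} (hj : j < k) : pinGapG G E (j + 1) = pinGapG G E j ∪ E ⟨j, hj⟩ := by
  ext u
  simp only [pinGapG, Finset.mem_union, Finset.mem_biUnion, Finset.mem_filter, Finset.mem_univ, true_and]
  constructor
  · rintro (h | ⟨c, hc, hu⟩)
    · exact Or.inl (Or.inl h)
    · rcases Nat.lt_succ_iff_lt_or_eq.1 hc with h1 | h1
      · exact Or.inl (Or.inr ⟨c, h1, hu⟩)
      · right
        have : c = ⟨j, hj⟩ := Fin.ext h1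
        rwa [← this]
  · rintro ((h | ⟨c, hc, hu⟩) | h)
    · exact Or.inl h
    · exact Or.inr ⟨c, Nat.lt_succ_of_lt hc, hu⟩
    · exact Or.inr ⟨⟨j, hj⟩, Nat.lt_succ_self j, h⟩

theorem pin_gap_G_sub {k : ℕ} (G E : Fin k → Finset TV) (j : ℕ) : pinGapG G E j ⊆ Finset.univ.biUnion G ∪ Finset.univ.biUnion E := by
  unfold pinGapG
  exact Finset.union_subset_union (Finset.Subset.refl _) (Finset.biUnion_subset_biUnion_of_subset_left _ (Finset.filter_subset _ _))

/-- telescoping of cross-multiplied comparisons -/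
theorem pin_gap_tele (N Z : ℕ → ℝ) (κ : ℝ) (k : ℕ) (hZ : ∀ j ≤ k, 0 < Z j)
    (h : ∀ j < k, |N (j + 1) * Z j - N j * Z (j + 1)| ≤ κ * (Z j * Z (j + 1))) : |N k / Z k - N 0 / Z 0| ≤ k * κ := by
  induction k with
  | zero => simp
  | succ k ih =>
    have h1 := ih (fun j hj => hZ j (by omega)) fun j hj => h j (by omega)
    have z1 := hZ k (by omega)
    have z2 := hZ (k + 1) le_rfl
    have h2 : |N (k + 1) / Z (k + 1) - N k / Z k| ≤ κ := by
      have e : N (k + 1) / Z (k + 1) - N k / Z k = (N (k + 1) * Z k - N k * Z (k + 1)) / (Z k * Z (k + 1)) := by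
        field_simp
      rw [e, abs_div, abs_of_pos (mul_pos z1 z2), div_le_iff₀ (mul_pos z1 z2)]
      exact h k (by omega)
    have h3 := abs_add_le (N (k + 1) / Z (k + 1) - N k / Z k) (N k / Z k - N 0 / Z 0)
    rw [sub_add_sub_cancel] at h3
    push_cast
    linarith

/-- **filling all the gaps**      TEX (pins:increment-tv), comparison of the gapped pin with the filled bracket -/
theorem pin_gap_fill_at {x : ℝ} (hP : PinPl x) (hpos : ∀ G D : Finset TV, 0 < htPl x fun h => pinI (PinGr G D h)) {α C : ℝ} {k : ℕ} (hk : 0 < k)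
    (hF : PinGapFill x α C k) {G D E : Fin k → Finset TV} {G0 T : Finset TV} {z : Fin k → TV} {r1 r2 : ℕ} {pv : Fin k → Fin k}
    (H : PinGapAt G D E G0 T z r1 r2 pv) {Ψ : (TV → ℤ) → ℝ} (hl : HtLoc T Ψ) (hp : PinP4 Ψ) (h1 : ∀ h, |Ψ h| ≤ 1) :
    |(pinPer x fun h => Ψ h * pinI (PinLoc G0 (Finset.univ.biUnion D) h)) / (pinPer x fun h => pinI (PinLoc G0 (Finset.univ.biUnion D) h)) -
      (pinPer x fun h => Ψ h * pinI (∀ l, PinLoc (G l) (D l) h)) / pinPer x fun h => pinI (∀ l, PinLoc (G l) (D l) h)| ≤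
      k * (C * ((r1 : ℝ) / r2) ^ α) := by
  have oΨ : PinGapO Ψ := ⟨⟨T, hl⟩, hp⟩
  have hD0 : (Finset.univ.biUnion D).Nonempty := by
    obtain ⟨v, hv⟩ := (H.ob ⟨0, hk⟩).ne
    exact ⟨v, Finset.mem_biUnion.2 ⟨_, Finset.mem_univ _, hv⟩⟩
  have hDG : Finset.univ.biUnion D ⊆ G0 := by
    rw [H.fill]
    intro u hu
    obtain ⟨i, -, hi⟩ := Finset.mem_biUnion.1 hu
    exact Finset.mem_union_left _ (Finset.mem_biUnion.2 ⟨i, Finset.mem_univ i, (H.ob i).sub hi⟩)
  have vA : PinGapV fun h => ∀ l, PinLoc (G l) (D l) h := PinGapV.all fun l => pin_gap_V_loc _ _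
  -- the two ends of the chain
  have e0 : ∀ a, PinLip a → (PinSp (pinGapG G E 0) (Finset.univ.biUnion D) a ↔ ∀ l, PinLoc (G l) (D l) a) := by
    intro a ha
    rw [pin_gap_G_zero, pin_gap_sp_union]
    exact forall_congr' fun l => pin_gap_sp_iff_loc (H.ob l).connG (H.ob l).sub (H.ob l).ne ha
  have ek : ∀ a, PinLip a → (PinSp (pinGapG G E k) (Finset.univ.biUnion D) a ↔ PinLoc G0 (Finset.univ.biUnion D) a) := by
    intro a ha
    rw [pin_gap_G_top, ← H.fill]
    exact pin_gap_sp_iff_loc H.conn hDG hD0 ha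
  have key := pin_gap_tele (fun j => pinPer x fun h => Ψ h * pinI (PinSp (pinGapG G E j) (Finset.univ.biUnion D) h))
    (fun j => pinPer x fun h => pinI (PinSp (pinGapG G E j) (Finset.univ.biUnion D) h)) (C * ((r1 : ℝ) / r2) ^ α) k (fun j _ => ?_) (fun j hj => ?_)
  · rw [pin_gap_per_congr hP (oΨ.mul (pin_gap_V_sp _ _).ind) (oΨ.mul (pin_gap_V_loc G0 _).ind) (fun a ha => by rw [pin_gap_I_congr (ek a ha)]),
      pin_gap_per_congr hP (pin_gap_V_sp (pinGapG G E k) _).ind (pin_gap_V_loc G0 _).ind (fun a ha => pin_gap_I_congr (ek a ha)),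
      pin_gap_per_congr hP (oΨ.mul (pin_gap_V_sp (pinGapG G E 0) _).ind) (oΨ.mul vA.ind) (fun a ha => by rw [pin_gap_I_congr (e0 a ha)]),
      pin_gap_per_congr hP (pin_gap_V_sp (pinGapG G E 0) _).ind vA.ind (fun a ha => pin_gap_I_congr (e0 a ha))] at key
    exact key
  · have h2 : 0 < pinPer x fun h => pinI (PinLoc G0 (Finset.univ.biUnion D) h) := by
      rw [pin_gap_per_loc_one hP hD0]
      exact div_pos (hpos _ _) (by norm_num)
    refine h2.trans_le (pin_gap_per_mono hP (pin_gap_V_loc G0 _).ind (pin_gap_V_sp _ _).ind fun a _ => pin_gap_I_mono fun Ha => ?_)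
    refine pin_gap_sp_anti ?_ (pin_gap_loc_sp Ha)
    rw [H.fill]
    exact pin_gap_G_sub G E j
  · rw [pin_gap_G_succ G E hj]
    exact hF (pinGapG G E j) (E ⟨j, hj⟩) T D (z ⟨j, hj⟩) r1 r2 Ψ (fun l => (H.ob l).connD) H.one_le H.le (H.win _) (H.lab _) (H.tst _) hl hp h1

theorem pin_gap_per_split_one {x : ℝ} (hP : PinPl x) {A B : (TV → ℤ) → Prop} (vA : PinGapV A) (vB : PinGapV B) (hBA : ∀ h, B h → A h) :
    pinPer x (fun h => pinI (A h)) = pinPer x (fun h => pinI (B h)) + pinPer x fun h => pinI (A h ∧ ¬ B h) := by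
  simpa using pin_gap_per_split hP (PinGapO.const 1) vA vB hBA

/-- conditioning further on a likely event -/
theorem pin_gap_cond {nA nE pA pE : ℝ} (hpE : 0 < pE) (hpA : 0 < pA) (h1 : |nE| ≤ pE) (h2 : |nA - nE| ≤ pA - pE) :
    |nE / pE - nA / pA| ≤ 2 * ((pA - pE) / pA) := by
  have e : nE / pE - nA / pA = (nE * (pA - pE) - (nA - nE) * pE) / (pE * pA) := by
    field_simp
    ring
  have hd : 0 ≤ pA - pE := (abs_nonneg _).trans h2
  have e2 : 2 * ((pA - pE) / pA) = (pE * (pA - pE) + (pA - pE) * pE) / (pE * pA) := by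
    field_simp
    ring
  rw [e, e2, abs_div, abs_of_pos (mul_pos hpE hpA)]
  refine div_le_div_of_nonneg_right ?_ (mul_pos hpE hpA).le
  refine (abs_sub _ _).trans (add_le_add ?_ ?_)
  · rw [abs_mul, abs_of_nonneg hd]
    exact mul_le_mul_of_nonneg_right h1 hd
  · rw [abs_mul, abs_of_pos hpE]
    exact mul_le_mul_of_nonneg_right h2 hpE.le

/-- conditional expectation in the plane law given a gradient event -/
noncomputable def pinGapE (x : ℝ) (B : (TV → ℤ) → Prop) (Γ : (TV → ℤ) → ℝ) : ℝ :=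
  htPl x (fun h => Γ h * pinI (B h)) / htPl x fun h => pinI (B h)

theorem pin_gap_eqns_cite : True := by
  have := @pinGapAv.eq_1
  have := @pinGapG.eq_1
  have := @pinGapE.eq_1
  have := @PinGapV.eq_1
  have := @PinGapO.eq_1
  have := @PinGapSync.eq_1
  have := @PinGapFill.eq_1
  trivial

section condE

variable {x : ℝ} (hP : PinPl x) {B : (TV → ℤ) → Prop} (hB : PinLG fun h => pinI (B h))
include hP hB

theorem pin_gap_E_add {Γ Γ' : (TV → ℤ) → ℝ} (h : PinLG Γ) (h' : PinLG Γ') :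
    pinGapE x B (fun a => Γ a + Γ' a) = pinGapE x B Γ + pinGapE x B Γ' := by
  unfold pinGapE
  rw [← add_div, ← pin_pl_add hP (h.mul hB) (h'.mul hB)]
  congr 2
  funext a
  ring

theorem pin_gap_E_smul {Γ : (TV → ℤ) → ℝ} (h : PinLG Γ) (c : ℝ) : pinGapE x B (fun a => c * Γ a) = c * pinGapE x B Γ := by
  unfold pinGapE
  rw [← mul_div_assoc, ← pin_pl_smul hP (h.mul hB)]
  congr 2
  funext a
  ring

theorem pin_gap_E_mono (hpos : 0 < htPl x fun h => pinI (B h)) {Γ Γ' : (TV → ℤ) → ℝ} (h : PinLG Γ) (h' : PinLG Γ') (hle : ∀ a, Γ a ≤ Γ' a) :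
    pinGapE x B Γ ≤ pinGapE x B Γ' := by
  unfold pinGapE
  refine div_le_div_of_nonneg_right (pin_pl_mono hP (h.mul hB) (h'.mul hB) fun a _ => ?_) hpos.le
  exact mul_le_mul_of_nonneg_right (hle a) (pin_gap_I_nonneg _)

theorem pin_gap_E_abs_le (hpos : 0 < htPl x fun h => pinI (B h)) {Γ Γ' : (TV → ℤ) → ℝ} (h : PinLG Γ) (h' : PinLG Γ') (hle : ∀ a, |Γ a| ≤ Γ' a) :
    |pinGapE x B Γ| ≤ pinGapE x B Γ' := by
  rw [abs_le]
  constructor
  · have := pin_gap_E_mono hP hB hpos (h'.smul (-1)) h fun a => by have := (abs_le.1 (hle a)).1; linarith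
    rw [pin_gap_E_smul hP hB h'] at this
    linarith
  · exact pin_gap_E_mono hP hB hpos h h' fun a => (abs_le.1 (hle a)).2

end condE

/-- **truncation**: two conditional laws which are close on bounded observables of the test sites and have bounded second moments      TEX[prop:bracket-insertion], proof -/
theorem pin_gap_cmp {x : ℝ} (hP : PinPl x) {B0 BE : (TV → ℤ) → Prop} (hB0 : PinLG fun h => pinI (B0 h)) (hBE : PinLG fun h => pinI (BE h))
    (p0 : 0 < htPl x fun h => pinI (B0 h)) (pE : 0 < htPl x fun h => pinI (BE h)) {T : Finset TV} {X Φ : (TV → ℤ) → ℝ}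
    (lX : HtLoc T X) (gX : HtGrad X) (lΦ : HtLoc T Φ) (gΦ : HtGrad Φ) {CF Cm M tv : ℝ} (hCF : 0 < CF) (hΦ : ∀ h, |Φ h| ≤ CF) (hM : 0 < M)
    (m0 : pinGapE x B0 (fun h => X h ^ 2) ≤ Cm) (mE : pinGapE x BE (fun h => X h ^ 2) ≤ Cm)
    (htv : ∀ Ψ : (TV → ℤ) → ℝ, HtLoc T Ψ → HtGrad Ψ → (∀ h, |Ψ h| ≤ 1) → |pinGapE x B0 Ψ - pinGapE x BE Ψ| ≤ tv) :
    |pinGapE x BE (fun h => X h * Φ h) - pinGapE x B0 fun h => X h * Φ h| ≤ CF * M * tv + 2 * CF * Cm / M := by
  have LX : PinLG X := ⟨⟨T, lX⟩, gX⟩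
  have LΦ : PinLG Φ := ⟨⟨T, lΦ⟩, gΦ⟩
  have hMC : 0 < M * CF := mul_pos hM hCF
  -- the bounded part
  obtain ⟨Ψ, hΨ⟩ : ∃ Ψ : (TV → ℤ) → ℝ, Ψ = fun h => limTr M (X h) * Φ h / (M * CF) := ⟨_, rfl⟩
  have lΨ : HtLoc T Ψ := fun h h' hh => by rw [hΨ]; show limTr M (X h) * Φ h / _ = limTr M (X h') * Φ h' / _; rw [lX h h' hh, lΦ h h' hh]
  have gΨ : HtGrad Ψ := fun h c => by rw [hΨ]; show limTr M (X _) * Φ _ / _ = limTr M (X h) * Φ h / _; rw [gX h c, gΦ h c]
  have bΨ : ∀ h, |Ψ h| ≤ 1 := fun h => by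
    rw [hΨ]
    show |limTr M (X h) * Φ h / (M * CF)| ≤ 1
    rw [abs_div, abs_of_pos hMC, div_le_one hMC, abs_mul]
    exact mul_le_mul (lim_tr_abs_le hM.le _) (hΦ h) (abs_nonneg _) hM.le
  have LΨ : PinLG Ψ := ⟨⟨T, lΨ⟩, gΨ⟩
  -- the remainder
  obtain ⟨R, hR⟩ : ∃ R : (TV → ℤ) → ℝ, R = fun h => (X h - limTr M (X h)) * Φ h := ⟨_, rfl⟩
  have LR : PinLG R := by
    rw [hR]
    exact (LX.map1 fun t => t - limTr M t).mul LΦ
  have LQ : PinLG fun h => X h ^ 2 := LX.map1 (· ^ 2)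
  have bR : ∀ h, |R h| ≤ CF / M * X h ^ 2 := fun h => by
    rw [hR]
    show |(X h - limTr M (X h)) * Φ h| ≤ _
    have h1 : |X h - limTr M (X h)| ≤ X h ^ 2 / M := by simpa using lim_tr_err hM (X h) (m := 1) le_rfl
    rw [abs_mul]
    calc |X h - limTr M (X h)| * |Φ h| ≤ X h ^ 2 / M * CF := mul_le_mul h1 (hΦ h) (abs_nonneg _) (by positivity)
      _ = CF / M * X h ^ 2 := by ring
  have dec : (fun h => X h * Φ h) = fun h => M * CF * Ψ h + R h := by
    funext h
    rw [hΨ, hR]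
    show X h * Φ h = M * CF * (limTr M (X h) * Φ h / (M * CF)) + (X h - limTr M (X h)) * Φ h
    field_simp
    ring
  have rem : ∀ (B : (TV → ℤ) → Prop), PinLG (fun h => pinI (B h)) → (0 < htPl x fun h => pinI (B h)) → pinGapE x B (fun h => X h ^ 2) ≤ Cm →
      |pinGapE x B R| ≤ CF * Cm / M := by
    intro B hB pB mB
    refine (pin_gap_E_abs_le hP hB pB LR (LQ.smul (CF / M)) bR).trans ?_
    rw [pin_gap_E_smul hP hB LQ]
    calc CF / M * pinGapE x B (fun h => X h ^ 2) ≤ CF / M * Cm := mul_le_mul_of_nonneg_left mB (by positivity)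
      _ = CF * Cm / M := by ring
  rw [dec, pin_gap_E_add hP hBE (LΨ.smul _) LR, pin_gap_E_add hP hB0 (LΨ.smul _) LR, pin_gap_E_smul hP hBE LΨ, pin_gap_E_smul hP hB0 LΨ]
  have t1 := htv Ψ lΨ gΨ bΨ
  have t2 := rem B0 hB0 p0 m0
  have t3 := rem BE hBE pE mE
  have e : M * CF * pinGapE x BE Ψ + pinGapE x BE R - (M * CF * pinGapE x B0 Ψ + pinGapE x B0 R)
      = -(M * CF * (pinGapE x B0 Ψ - pinGapE x BE Ψ)) + (pinGapE x BE R - pinGapE x B0 R) := by ring
  rw [e]
  have t4 : |-(M * CF * (pinGapE x B0 Ψ - pinGapE x BE Ψ))| ≤ M * CF * tv := by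
    rw [abs_neg, abs_mul, abs_of_pos hMC]
    exact mul_le_mul_of_nonneg_left t1 hMC.le
  have t5 := abs_sub (pinGapE x BE R) (pinGapE x B0 R)
  have t6 := abs_add_le (-(M * CF * (pinGapE x B0 Ψ - pinGapE x BE Ψ))) (pinGapE x BE R - pinGapE x B0 R)
  have e2 : CF * M * tv + 2 * CF * Cm / M = M * CF * tv + (CF * Cm / M + CF * Cm / M) := by ring
  rw [e2]
  linarith

section atmesh

variable {x : ℝ} (hP : PinPl x) (hpos : ∀ G D : Finset TV, 0 < htPl x fun h => pinI (PinGr G D h)) {k : ℕ} (hk : 0 < k)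
  {G D E : Fin k → Finset TV} {G0 T : Finset TV} {z : Fin k → TV} {r1 r2 : ℕ} {pv : Fin k → Fin k} (H : PinGapAt G D E G0 T z r1 r2 pv)
include hP hpos hk H

omit hP hpos in
theorem pin_gap_lab_ne : (Finset.univ.biUnion D).Nonempty := by
  obtain ⟨v, hv⟩ := (H.ob ⟨0, hk⟩).ne
  exact ⟨v, Finset.mem_biUnion.2 ⟨_, Finset.mem_univ _, hv⟩⟩

omit hpos in
/-- the conditional law given the lifted pin, in the two vocabularies -/
theorem pin_gap_E_per (G' : Finset TV) {Γ : (TV → ℤ) → ℝ} (hΓ : PinLG Γ) :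
    (pinPer x fun h => Γ h * pinI (PinLoc G' (Finset.univ.biUnion D) h)) / (pinPer x fun h => pinI (PinLoc G' (Finset.univ.biUnion D) h)) =
      pinGapE x (PinGr G' (Finset.univ.biUnion D)) Γ := by
  rw [pin_gap_per_loc hP (pin_gap_lab_ne hk H) hΓ, pin_gap_per_loc_one hP (pin_gap_lab_ne hk H)]
  unfold pinGapE
  rw [div_div_div_cancel_right₀ (by norm_num : (4 : ℝ) ≠ 0)]

/-- the gapped pin has positive probability -/
theorem pin_gap_pA_pos : 0 < pinPer x fun h => pinI (∀ l, PinLoc (G l) (D l) h) := by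
  have h2 : 0 < pinPer x fun h => pinI (PinLoc (Finset.univ.biUnion G) (Finset.univ.biUnion D) h) := by
    rw [pin_gap_per_loc_one hP (pin_gap_lab_ne hk H)]
    exact div_pos (hpos _ _) (by norm_num)
  exact h2.trans_le (pin_gap_per_mono hP (pin_gap_V_loc _ _).ind (PinGapV.all fun l => pin_gap_V_loc _ _).ind fun a _ =>
    pin_gap_I_mono fun Ha l => pin_gap_loc_union Ha l)

/-- **the common offset event is not rarer than the gapped pin**      TEX[prop:bracket-insertion], first line of the proof -/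
theorem pin_gap_low_at {α C : ℝ} (hS : PinGapSync x α C k) (hκ : k * (C * ((r1 : ℝ) / r2) ^ α) ≤ 1 / 2) :
    2 * (pinPer x fun h => pinI (∀ l, PinLoc (G l) (D l) h)) ≤ htPl x fun h => pinI (PinGr (Finset.univ.biUnion G) (Finset.univ.biUnion D) h) := by
  have vA : PinGapV fun h => ∀ l, PinLoc (G l) (D l) h := PinGapV.all fun l => pin_gap_V_loc _ _
  have h1 := pin_gap_per_split_one hP vA (pin_gap_V_loc (Finset.univ.biUnion G) (Finset.univ.biUnion D)) fun h Ha l => pin_gap_loc_union Ha l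
  have h2 := pin_gap_sync_at hP hS H
  have h3 := pin_gap_per_loc_one hP (G := Finset.univ.biUnion G) (pin_gap_lab_ne hk H)
  have h4 := mul_le_mul_of_nonneg_right hκ (pin_gap_pA_pos hP hpos hk H).le
  linarith

/-- **total variation between the common offset law and the filled bracket, on the test sites**      TEX (pins:increment-tv) -/
theorem pin_gap_tv_at {αs Cs αf Cf : ℝ} (hS : PinGapSync x αs Cs k) (hF : PinGapFill x αf Cf k) {Ψ : (TV → ℤ) → ℝ} (hl : HtLoc T Ψ) (hg : HtGrad Ψ)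
    (h1 : ∀ h, |Ψ h| ≤ 1) :
    |pinGapE x (PinGr G0 (Finset.univ.biUnion D)) Ψ - pinGapE x (PinGr (Finset.univ.biUnion G) (Finset.univ.biUnion D)) Ψ| ≤
      k * (Cf * ((r1 : ℝ) / r2) ^ αf) + 2 * (k * (Cs * ((r1 : ℝ) / r2) ^ αs)) := by
  have LΨ : PinLG Ψ := ⟨⟨T, hl⟩, hg⟩
  have oΨ : PinGapO Ψ := PinGapO.of_LG LΨ
  have vA : PinGapV fun h => ∀ l, PinLoc (G l) (D l) h := PinGapV.all fun l => pin_gap_V_loc _ _
  have vE := pin_gap_V_loc (Finset.univ.biUnion G) (Finset.univ.biUnion D)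
  have hEA : ∀ h, PinLoc (Finset.univ.biUnion G) (Finset.univ.biUnion D) h → ∀ l, PinLoc (G l) (D l) h := fun h Ha l => pin_gap_loc_union Ha l
  have f1 := pin_gap_fill_at hP hpos hk hF H hl oΨ.2 h1
  rw [pin_gap_E_per hP hk H G0 LΨ] at f1
  have pA := pin_gap_pA_pos hP hpos hk H
  have pE : 0 < pinPer x fun h => pinI (PinLoc (Finset.univ.biUnion G) (Finset.univ.biUnion D) h) := by
    rw [pin_gap_per_loc_one hP (pin_gap_lab_ne hk H)]
    exact div_pos (hpos _ _) (by norm_num)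
  have s1 := pin_gap_per_split hP oΨ vA vE hEA
  have s2 := pin_gap_per_split_one hP vA vE hEA
  have s3 := pin_gap_per_ind_abs hP oΨ h1 (vA.and vE.not)
  have s4 := pin_gap_sync_at hP hS H
  have s5 : |(pinPer x fun h => Ψ h * pinI (∀ l, PinLoc (G l) (D l) h)) - pinPer x fun h => Ψ h * pinI (PinLoc (Finset.univ.biUnion G) (Finset.univ.biUnion D) h)| ≤
      (pinPer x fun h => pinI (∀ l, PinLoc (G l) (D l) h)) - pinPer x fun h => pinI (PinLoc (Finset.univ.biUnion G) (Finset.univ.biUnion D) h) := by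
    rw [s1, s2, add_sub_cancel_left, add_sub_cancel_left]; exact s3
  have c1 := pin_gap_cond pE pA (pin_gap_per_ind_abs hP oΨ h1 vE) s5
  rw [pin_gap_E_per hP hk H _ LΨ] at c1
  have c2 : ((pinPer x fun h => pinI (∀ l, PinLoc (G l) (D l) h)) - pinPer x fun h => pinI (PinLoc (Finset.univ.biUnion G) (Finset.univ.biUnion D) h)) /
      (pinPer x fun h => pinI (∀ l, PinLoc (G l) (D l) h)) ≤ k * (Cs * ((r1 : ℝ) / r2) ^ αs) := by
    rw [div_le_iff₀ pA]
    linarith
  have t := abs_sub_le (pinGapE x (PinGr G0 (Finset.univ.biUnion D)) Ψ)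
    ((pinPer x fun h => Ψ h * pinI (∀ l, PinLoc (G l) (D l) h)) / pinPer x fun h => pinI (∀ l, PinLoc (G l) (D l) h))
    (pinGapE x (PinGr (Finset.univ.biUnion G) (Finset.univ.biUnion D)) Ψ)
  rw [abs_sub_comm] at c1
  linarith

/-- **division by `P(P_=) / J`**      TEX[prop:bracket-insertion], first lines of the proof -/
theorem pin_gap_eq_at {α C : ℝ} (hS : PinGapSync x α C k) (hκ : k * (C * ((r1 : ℝ) / r2) ^ α) ≤ 1 / 2) {c : ℝ} (hc : 0 < c)
    (hrare : c * ∏ i, (htPl x fun h => pinI (PinGr (G i) (D i) h)) ≤ pinPer x fun h => pinI (∀ i, PinLoc (G i) (D i) h))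
    {Γ : (TV → ℤ) → ℝ} (hΓ : HtGrad Γ) :
    |pinGapE x (PinGr (Finset.univ.biUnion G) (Finset.univ.biUnion D)) Γ| ≤
      |pinHat x (fun h => Γ h * ∏ i, pinI (PinAbs (G i) (D i) h)) / ∏ i, htPl x fun h => pinI (PinGr (G i) (D i) h)| * (1 / (2 * c)) := by
  have e : pinHat x (fun h => Γ h * ∏ i, pinI (PinAbs (G i) (D i) h)) =
      htPl x fun h => Γ h * pinI (PinGr (Finset.univ.biUnion G) (Finset.univ.biUnion D) h) := by
    rw [← pin_gap_hat_abs x (pin_gap_lab_ne hk H) hΓ]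
    congr 1
    funext h
    rw [← pin_gap_I_all, pin_gap_I_congr (pin_gap_abs_union G D h)]
  have hJ : 0 < ∏ i, htPl x fun h => pinI (PinGr (G i) (D i) h) := Finset.prod_pos fun i _ => hpos _ _
  have hZ := pin_gap_low_at hP hpos hk H hS hκ
  have hZ2 : 2 * c * ∏ i, (htPl x fun h => pinI (PinGr (G i) (D i) h)) ≤
      htPl x fun h => pinI (PinGr (Finset.univ.biUnion G) (Finset.univ.biUnion D) h) := by linarith
  unfold pinGapE
  rw [e, abs_div, abs_div, abs_of_pos hJ, abs_of_pos (hpos _ _)]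
  refine (div_le_div_of_nonneg_left (abs_nonneg _) (mul_pos (mul_pos two_pos hc) hJ) hZ2).trans (le_of_eq ?_)
  generalize (∏ i, htPl x fun h => pinI (PinGr (G i) (D i) h)) = J at hJ
  generalize |htPl x fun h => Γ h * pinI (PinGr (Finset.univ.biUnion G) (Finset.univ.biUnion D) h)| = m
  field_simp

end atmesh

/-! ## 4. the limit -/

/-- mesh first (at a fixed gap), then the gap, then the truncation level (numbers only; variant of `pin_fill_lim` without a modulus) -/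
theorem pin_gap_lim {e0 : ℕ → ℝ} {K1 K2 : ℝ} (hK1 : 0 ≤ K1) (hK2 : 0 ≤ K2)
    (h : ∀ θ : ℝ, 0 < θ → ∃ eq tv : ℕ → ℝ, Tendsto eq atTop (𝓝 0) ∧ (∀ᶠ n in atTop, tv n ≤ θ) ∧
      ∀ M : ℝ, 0 < M → ∀ᶠ n in atTop, |eq n - e0 n| ≤ K1 * M * tv n + K2 / M) : Tendsto e0 atTop (𝓝 0) := by
  rw [Metric.tendsto_atTop]
  intro ε hε
  obtain ⟨M, hM⟩ : ∃ M, M = 4 * K2 / ε + 1 := ⟨_, rfl⟩
  have hM0 : 0 < M := by rw [hM]; positivity
  have hKM : K2 / M ≤ ε / 4 := by
    rw [div_le_div_iff₀ hM0 (by norm_num), hM]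
    have : ε * (4 * K2 / ε + 1) = 4 * K2 + ε := by field_simp
    nlinarith
  obtain ⟨θ, hθ⟩ : ∃ θ, θ = ε / (4 * (K1 * M + 1)) := ⟨_, rfl⟩
  have hθ0 : 0 < θ := by rw [hθ]; positivity
  have hKθ : K1 * M * θ ≤ ε / 4 := by
    rw [hθ]
    have h1 : 0 ≤ K1 * M := by positivity
    rw [show K1 * M * (ε / (4 * (K1 * M + 1))) = (K1 * M * ε) / (4 * (K1 * M + 1)) by ring]
    rw [div_le_div_iff₀ (by positivity) (by norm_num)]
    nlinarith
  obtain ⟨eq, tv, h1, h2, h3⟩ := h θ hθ0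
  have h1' := h1.eventually (Metric.ball_mem_nhds 0 (show 0 < ε / 4 by positivity))
  obtain ⟨n0, hn0⟩ := eventually_atTop.1 ((h1'.and h2).and (h3 M hM0))
  refine ⟨n0, fun n hn => ?_⟩
  obtain ⟨⟨b1, b2⟩, b3⟩ := hn0 n hn
  rw [Real.dist_eq, sub_zero] at b1
  have b4 : K1 * M * tv n ≤ K1 * M * θ := mul_le_mul_of_nonneg_left b2 (by positivity)
  rw [Real.dist_eq, sub_zero]
  have b5 : |e0 n| ≤ |eq n| + |eq n - e0 n| := by
    have : e0 n = eq n - (eq n - e0 n) := by ring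
    calc |e0 n| = |eq n - (eq n - e0 n)| := by rw [← this]
      _ ≤ |eq n| + |eq n - e0 n| := abs_sub _ _
  linarith

/-- small ratios make the two errors small -/
theorem pin_gap_ratio {a b α β : ℝ} (hα : 0 < α) (hβ : 0 < β) {η : ℝ} (hη : 0 < η) :
    ∃ θ : ℝ, 0 < θ ∧ a * θ ^ α ≤ η ∧ b * θ ^ β ≤ η := by
  have h1 : Tendsto (fun θ : ℝ => a * θ ^ α) (𝓝 0) (𝓝 0) := by
    have := ((Real.continuousAt_rpow_const 0 α (Or.inr hα.le)).tendsto).const_mul a
    rwa [Real.zero_rpow hα.ne', mul_zero] at this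
  have h2 : Tendsto (fun θ : ℝ => b * θ ^ β) (𝓝 0) (𝓝 0) := by
    have := ((Real.continuousAt_rpow_const 0 β (Or.inr hβ.le)).tendsto).const_mul b
    rwa [Real.zero_rpow hβ.ne', mul_zero] at this
  have h3 : ∀ᶠ θ in 𝓝[>] (0 : ℝ), a * θ ^ α < η ∧ b * θ ^ β < η :=
    ((h1.eventually (gt_mem_nhds hη)).and (h2.eventually (gt_mem_nhds hη))).filter_mono nhdsWithin_le_nhds
  obtain ⟨θ, ⟨h4, h5⟩, h6⟩ := (h3.and self_mem_nhdsWithin).exists
  exact ⟨θ, h6, h4.le, h5.le⟩

/-- **CLOSING THE GAPS.**      TEX[prop:bracket-insertion] from TEX[pins:three-moves]/(pins:common-offset-numerator) (`hsep`, helper48), TEX (pins:uniform-common-moments) (`hm0`, `hmE`, helper39),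
TEX[pins:gap-closing] (here, from `exit_dis_sync`, `exit_dis_fill`), TEX (pins:multiplicative) (`exit_dis_rare`).
`k` labels `D n i` (fixed windows), `G0 n` = the filled boundary layer, `T n` = the test sites, `X n` = the insertion, `Φ n` = the bounded spectators.
For every ratio `θ > 0` there is a choice of gaps: groups `G n i ⊇ D n i`, missing sites `E n c` in balls of radius `r1 n ≤ θ r2 n`. -/
theorem pin_gap_main (x : ℝ) (hx1 : 1 / Real.sqrt 2 ≤ x) (hx2 : x ≤ 1) (hP : PinPl x) {k : ℕ} (hk : 0 < k) (pv : Fin k → Fin k)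
    (D : ℕ → Fin k → Finset TV) (G0 T : ℕ → Finset TV) (X Φ : ℕ → (TV → ℤ) → ℝ) (CF Cm : ℝ) (hCF : 0 < CF) (hCm : 0 ≤ Cm)
    (hX : ∀ᶠ n in atTop, HtLoc (T n) (X n) ∧ HtGrad (X n))
    (hΦ : ∀ᶠ n in atTop, HtLoc (T n) (Φ n) ∧ HtGrad (Φ n) ∧ ∀ h, |Φ n h| ≤ CF)
    (hm0 : ∀ᶠ n in atTop, htPl x (fun h => X n h ^ 2 * pinI (PinGr (G0 n) (Finset.univ.biUnion (D n)) h)) ≤
      Cm * htPl x fun h => pinI (PinGr (G0 n) (Finset.univ.biUnion (D n)) h))
    (hgap : ∀ θ : ℝ, 0 < θ → ∃ (G E : ℕ → Fin k → Finset TV) (z : ℕ → Fin k → TV) (r1 r2 : ℕ → ℕ),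
      (∀ᶠ n in atTop, PinGapAt (G n) (D n) (E n) (G0 n) (T n) (z n) (r1 n) (r2 n) pv ∧ (r1 n : ℝ) ≤ θ * r2 n) ∧
      (∀ κ n0 : ℕ, ∃ N : ℕ, ∀ᶠ n in atTop, ∃ U : Fin k → Finset TV, PinFam κ n0 N (G n) (D n) U) ∧
      (∀ᶠ n in atTop, htPl x (fun h => X n h ^ 2 * pinI (PinGr (Finset.univ.biUnion (G n)) (Finset.univ.biUnion (D n)) h)) ≤
        Cm * htPl x fun h => pinI (PinGr (Finset.univ.biUnion (G n)) (Finset.univ.biUnion (D n)) h)) ∧
      Tendsto (fun n => pinHat x (fun h => X n h * Φ n h * ∏ i, pinI (PinAbs (G n i) (D n i) h)) /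
        ∏ i, htPl x fun h => pinI (PinGr (G n i) (D n i) h)) atTop (𝓝 0)) :
    Tendsto (fun n => pinHat x (fun h => X n h * Φ n h * pinI (PinAbs (G0 n) (Finset.univ.biUnion (D n)) h)) /
      pinHat x fun h => pinI (PinAbs (G0 n) (Finset.univ.biUnion (D n)) h)) atTop (𝓝 0) := by
  have hpos : ∀ G D : Finset TV, 0 < htPl x fun h => pinI (PinGr G D h) := fun G D => exit_dis_pin_pos x hx1 hx2 G D
  obtain ⟨αs, hαs, hs⟩ := exit_dis_sync x hx1 hx2
  obtain ⟨Cs, hCs, hS'⟩ := hs k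
  have hS : PinGapSync x αs Cs k := hS'
  obtain ⟨αf, hαf, hf⟩ := exit_dis_fill x hx1 hx2
  obtain ⟨Cf, hCf, hF'⟩ := hf k
  have hF : PinGapFill x αf Cf k := hF'
  obtain ⟨κ, n0, hr⟩ := exit_dis_rare x hx1 hx2
  have hgoal : Tendsto (fun n => pinGapE x (PinGr (G0 n) (Finset.univ.biUnion (D n))) fun h => X n h * Φ n h) atTop (𝓝 0) := by
    refine pin_gap_lim (K1 := CF) (K2 := 2 * CF * Cm) hCF.le (by positivity) fun θ' hθ' => ?_
    obtain ⟨θ, hθ, hθ1, hθ2⟩ := pin_gap_ratio (a := k * Cf) (b := k * Cs) hαf hαs (η := min (θ' / 3) (1 / 2)) (by positivity)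
    obtain ⟨G, E, z, r1, r2, hA, hfam, hmE, hsep⟩ := hgap θ hθ
    obtain ⟨N, hN⟩ := hfam κ n0
    obtain ⟨c, C, hc, -, hrare⟩ := hr k N
    -- the ratio
    have hrat : ∀ᶠ n in atTop, k * (Cf * ((r1 n : ℝ) / r2 n) ^ αf) ≤ min (θ' / 3) (1 / 2) ∧ k * (Cs * ((r1 n : ℝ) / r2 n) ^ αs) ≤ min (θ' / 3) (1 / 2) := by
      filter_upwards [hA] with n hn
      have h2 : (0 : ℝ) < r2 n := by exact_mod_cast (lt_of_lt_of_le Nat.one_pos (hn.1.one_le.trans hn.1.le))
      have h3 : (r1 n : ℝ) / r2 n ≤ θ := by rw [div_le_iff₀ h2]; exact hn.2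
      have h4 : (0 : ℝ) ≤ (r1 n : ℝ) / r2 n := by positivity
      constructor
      · refine le_trans ?_ hθ1
        rw [← mul_assoc]
        exact mul_le_mul_of_nonneg_left (Real.rpow_le_rpow h4 h3 hαf.le) (by positivity)
      · refine le_trans ?_ hθ2
        rw [← mul_assoc]
        exact mul_le_mul_of_nonneg_left (Real.rpow_le_rpow h4 h3 hαs.le) (by positivity)
    refine ⟨fun n => pinGapE x (PinGr (Finset.univ.biUnion (G n)) (Finset.univ.biUnion (D n))) fun h => X n h * Φ n h,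
      fun n => k * (Cf * ((r1 n : ℝ) / r2 n) ^ αf) + 2 * (k * (Cs * ((r1 n : ℝ) / r2 n) ^ αs)), ?_, ?_, ?_⟩
    · rw [tendsto_zero_iff_abs_tendsto_zero]
      have g0 := ((tendsto_zero_iff_abs_tendsto_zero _).1 hsep).mul_const (1 / (2 * c))
      rw [zero_mul] at g0
      refine squeeze_zero' (Eventually.of_forall fun n => abs_nonneg _) ?_ g0
      filter_upwards [hA, hrat, hN, hX, hΦ] with n hn hr2 hU hXn hΦn
      obtain ⟨U, hU⟩ := hU
      exact pin_gap_eq_at hP hpos hk hn.1 hS (hr2.2.trans (min_le_right _ _)) hc (hrare (G n) (D n) U hU).2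
        (Γ := fun h => X n h * Φ n h) (fun h c => by show X n _ * Φ n _ = _; rw [hXn.2 h c, hΦn.2.1 h c])
    · filter_upwards [hrat] with n hn
      have h1 := hn.1.trans (min_le_left _ _)
      have h2 := hn.2.trans (min_le_left _ _)
      linarith
    · intro M hM
      filter_upwards [hA, hX, hΦ, hm0, hmE] with n hn hXn hΦn h0 hE
      refine pin_gap_cmp hP (pin_gap_gr_LG _ _) (pin_gap_gr_LG _ _) (hpos _ _) (hpos _ _) hXn.1 hXn.2 hΦn.1 hΦn.2.1 hCF hΦn.2.2 hM ?_ ?_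
        fun Ψ hl hg h1 => pin_gap_tv_at hP hpos hk hn.1 hS hF hl hg h1
      · unfold pinGapE
        rw [div_le_iff₀ (hpos _ _)]
        exact h0
      · unfold pinGapE
        rw [div_le_iff₀ (hpos _ _)]
        exact hE
  obtain ⟨G, E, z, r1, r2, hA, -⟩ := hgap 1 one_pos
  refine hgoal.congr' ?_
  filter_upwards [hA, hX, hΦ] with n hn hXn hΦn
  have hne := pin_gap_lab_ne hk hn.1
  have e1 := pin_gap_hat_abs x (G := G0 n) hne (Γ := fun h => X n h * Φ n h) (fun h c => by show X n _ * Φ n _ = _; rw [hXn.2 h c, hΦn.2.1 h c])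
  have e2 := pin_gap_hat_abs x (G := G0 n) hne (Γ := fun _ => 1) (fun _ _ => rfl)
  simp only [one_mul] at e2
  rw [e1, e2]
  rfl

end Claimed.Agent.R291
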