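import Claimed.Agent.R291.Pin.Place
import Claimed.Agent.R291.Defs.PinTop

/-!
# Row 291 (S0539), unit PIN (05-pins), Pin/Inst : THE INSTANCE LAYER ON `PinStd`      (OWNER helper72; head of PIN: helper34; consumers: helper48 Sep, helper76 Gap, helper100 InstG)      0 sorry

TEX[pins:local-geometry], TEX[pins:middle-geometry] on the concrete arrangement of Defs/PinTop.      Prefix `pin_in_`, defs `pinIn*` / `PinIn*`.
* sec. 1  `pinInArc γ t a i : Set ℂ` (physical arc of the group `i`), `pin_in_arc_sep`, `pin_in_ob` (`PinOb` of the groups), `pin_in_gp_near`,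
          **`pin_in_fam`** (I1): at fixed gaps `a ≤ ε`, ALL `κ n0`, ALL `r0 > 0`: EX `N`, EVENTUALLY `n`, EX `U : Fin m → Finset TV`, `PinFam κ n0 N (pinGp a n) (pinGp ε n) U`, every site of `U i` within `r0` of `γ (pinGeoArc t a i)`.
* sec. 2  `PinInAt S z0 ρ lm lp κ f` (position of a set, `f : PinKind`), `pin_in_at_of_pos` (from `PinGeoPos` of 74), **`pin_in_scene_fat`** (positions ⟹ the scene `PinSc` of Pin/Place for the supports enlarged by `r`).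
* sec. 3  `pin_in_std_pos` (arcs, spectator disks, core: ONE margin), `pin_in_std_TB` (a group above `lp`, a group below `lm`, at EVERY admissible gap), `PinSc.mono`.
* sec. 4  **`pin_in_std_scene`**: families `fam i`, `fs l`, enlarged supports `obj f`, `PinSc M κ (ρ/2) (pinGeoU z0) lm lp obj`, `T` and `B` contain a group.
* sec. 5  **`pin_in_picture`** (I2): the scene + eventually collars with `PinFam` inside `obj (fam i)`, spectator sites in `obj (fs l)`, the sites within `ρ/1000 + r` of `z0` in `obj K`;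
          integer projections `pin_in_pe/pu/pv` (unit `√3/2 δ`: `u.2`, `u.1 + u.2`, `- u.1`), **`pin_in_int`** (the scene in integers: bounds `Lam`, gaps `mu`), `pin_in_seq` (`mu n`, `Lam n`).
-/

set_option autoImplicit false
set_option linter.unusedVariables false
set_option linter.unusedTactic false
set_option linter.unreachableTactic false
set_option linter.unnecessarySeqFocus false

namespace Claimed.Agent.R291

open Claims Claims.C0467 Set Metric Filter Topology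

/-! ## 1. (I1) the boundary groups at fixed gaps form a separated family with necklaces -/

theorem pin_in_dist (z w : ℝ × ℝ) : dist (pinC z) (pinC w) = hgE z w := pin_sh_dist z w

/-- the physical arc of the group `i` at gap `a` -/
def pinInArc (γ : Circle → ℝ × ℝ) (t : ℕ → ℝ) (a : ℝ) (i : ℕ) : Set ℂ := pinC '' (γ '' pinGeoArc t a i)

theorem pin_in_arc_compact {γ : Circle → ℝ × ℝ} (hc : Continuous γ) (t : ℕ → ℝ) (a : ℝ) (i : ℕ) : IsCompact (pinInArc γ t a i) :=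
  ((pin_geo_arc_compact t a i).image hc).image pin_sh_C_cont

theorem pin_in_arc_nonempty (γ : Circle → ℝ × ℝ) {t : ℕ → ℝ} {a : ℝ} {i : ℕ} (h : 2 * a ≤ t (i + 1) - t i) : (pinInArc γ t a i).Nonempty :=
  ((pin_win_arc_nonempty h).image _).image _

/-- the arcs at a fixed gap are at a positive mutual distance -/
theorem pin_in_arc_sep {γ : Circle → ℝ × ℝ} (hc : Continuous γ) (hi : Function.Injective γ) {CC0 : Finset Circle} {t : ℕ → ℝ} (ht : PinGeoAng CC0 t)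
    {a : ℝ} (ha : 0 < a) : ∃ s : ℝ, 0 < s ∧ ∀ i j : Fin CC0.card, i ≠ j → ∀ p ∈ pinInArc γ t a i, ∀ q ∈ pinInArc γ t a j, s ≤ dist p q := by
  have key : ∀ ij : Fin CC0.card × Fin CC0.card, ∃ s : ℝ, 0 < s ∧ (ij.1 ≠ ij.2 → ∀ p ∈ pinInArc γ t a ij.1, ∀ q ∈ pinInArc γ t a ij.2, s ≤ dist p q) := by
    rintro ⟨i, j⟩
    by_cases hij : i = j
    · exact ⟨1, one_pos, fun h => absurd hij h⟩
    · have hd := ht.arc_arc_disjoint ha i.2 j.2 (fun h => hij (Fin.ext h))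
      obtain ⟨s, hs, h⟩ := pin_geo_sep hc hi (pin_geo_arc_compact t a i) (pin_geo_arc_compact t a j) hd
      refine ⟨s, hs, fun _ p hp q hq => ?_⟩
      obtain ⟨_, ⟨θ, hθ, rfl⟩, rfl⟩ := hp
      obtain ⟨_, ⟨θ', hθ', rfl⟩, rfl⟩ := hq
      rw [pin_sh_dist]
      exact Real.le_sqrt_of_sq_le (h θ hθ θ' hθ')
  choose s hs0 hs using key
  obtain ⟨c, hc0, hc'⟩ := pin_pc_pos_inf s hs0
  exact ⟨c, hc0, fun i j hij p hp q hq => (hc' (i, j)).trans (hs (i, j) hij p hp q hq)⟩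

/-- a group is a pinned group in the sense of `PinOb` -/
theorem pin_in_ob {D : Set (ℝ × ℝ)} {δ : ℕ → ℝ} {F : ℕ → Finset TV} {γ : Circle → ℝ × ℝ} {γs : ℕ → Circle → ℝ × ℝ} {CC0 : Finset Circle} {t : ℕ → ℝ}
    (H : PinWinDat D δ F γ γs CC0 t) {a ε : ℝ} (hae : a ≤ ε) {i : ℕ} (hgap : 2 * ε ≤ t (i + 1) - t i) (n : ℕ) :
    PinOb (pinGp δ F γs t a n i) (pinGp δ F γs t ε n i) where
  sub := pin_win_mono (pin_geo_arc_mono t hae i)
  ne := pin_win_nonempty (H.pos n) (H.rng n) (pin_win_arc_nonempty hgap)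
  connG := pin_win_conn (H.pos n) (H.cont n) (H.rng n) (pin_geo_arc_preconnected t a i)
  connD := pin_win_conn (H.pos n) (H.cont n) (H.rng n) (pin_geo_arc_preconnected t ε i)

/-- the sites of a group are close to the physical arc -/
theorem pin_in_gp_near {D : Set (ℝ × ℝ)} {δ : ℕ → ℝ} {F : ℕ → Finset TV} {γ : Circle → ℝ × ℝ} {γs : ℕ → Circle → ℝ × ℝ} {CC0 : Finset Circle} {t : ℕ → ℝ}
    (H : PinWinDat D δ F γ γs CC0 t) {r : ℝ} (hr : 0 < r) : ∀ᶠ n in atTop, ∀ (a : ℝ) (i : ℕ), ∀ u ∈ pinGp δ F γs t a n i, pinG (δ n) (pinInArc γ t a i) u ≤ r := by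
  filter_upwards [H.small (half_pos hr)] with n hn a i u hu
  obtain ⟨-, θ, hθ, hf⟩ := pin_win_mem.1 hu
  have h1 := H.near hn hf
  refine (infDist_le_dist_of_mem (mem_image_of_mem pinC (mem_image_of_mem γ hθ))).trans ?_
  show dist (pinC _) (pinC _) ≤ r
  rw [pin_in_dist]
  linarith

/-- **(I1)**  at fixed gaps `a ≤ ε`, for every `(κ, n0)` and every collar width `r0`: the groups `pinGp a n i` with the double pins `pinGp ε n i` form a `PinFam`, with collars within `r0` of the physical arcs. -/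
theorem pin_in_fam {D : Set (ℝ × ℝ)} {δ : ℕ → ℝ} {F : ℕ → Finset TV} {γ : Circle → ℝ × ℝ} {γs : ℕ → Circle → ℝ × ℝ} {CC0 : Finset Circle} {t : ℕ → ℝ}
    (H : PinWinDat D δ F γ γs CC0 t) {a ε : ℝ} (ha : 0 < a) (hae : a ≤ ε) (hgap : ∀ i, i < CC0.card → 2 * ε ≤ t (i + 1) - t i) (κ n0 : ℕ)
    {r0 : ℝ} (hr0 : 0 < r0) :
    ∃ N : ℕ, ∀ᶠ n in atTop, ∃ U : Fin CC0.card → Finset TV,
      PinFam κ n0 N (fun i : Fin CC0.card => pinGp δ F γs t a n i) (fun i : Fin CC0.card => pinGp δ F γs t ε n i) U ∧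
      ∀ i, ∀ u ∈ U i, ∃ θ ∈ pinGeoArc t a i, hgE (triPos (δ n) u) (γ θ) ≤ r0 := by
  have hc : Continuous γ := H.bd.1
  obtain ⟨s, hs, hsep⟩ := pin_in_arc_sep hc H.bd.2.1 H.ang ha
  obtain ⟨r, hr, hr1, hr2⟩ : ∃ r : ℝ, 0 < r ∧ 6 * r ≤ s ∧ 2 * r ≤ r0 :=
    ⟨min (s / 6) (r0 / 2), lt_min (by positivity) (by positivity), by linarith [min_le_left (s / 6) (r0 / 2)], by linarith [min_le_right (s / 6) (r0 / 2)]⟩
  have hcomp : ∀ i : Fin CC0.card, IsCompact (pinInArc γ t a i) := fun i => pin_in_arc_compact hc t a i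
  have hne : ∀ i : Fin CC0.card, (pinInArc γ t a i).Nonempty := fun i => pin_in_arc_nonempty γ (by linarith [hgap i i.2])
  obtain ⟨N, δ0, hδ0, HF⟩ := pin_pc_fam hcomp hne hr κ n0
  refine ⟨N, ?_⟩
  filter_upwards [pin_in_gp_near H hr, H.app.2.1.eventually (gt_mem_nhds hδ0)] with n hn hδn
  obtain ⟨U, hU, hfam⟩ := HF (δ n) (H.pos n) hδn.le (fun _ => IsometryEquiv.refl ℂ) (fun i j hij p hp q hq => hr1.trans (hsep i j hij p hp q hq))
  have eid : ∀ X : Set ℂ, (IsometryEquiv.refl ℂ) '' X = X := fun X => image_id X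
  simp only [eid] at hU hfam
  refine ⟨U, hfam _ _ (fun i => pin_in_ob H hae (hgap i i.2) n) (fun i u hu => hn a i u hu), fun i u hu => ?_⟩
  obtain ⟨y, hy, hd⟩ := (hcomp i).exists_infDist_eq_dist (hne i) (pinP (δ n) u)
  obtain ⟨_, ⟨θ, hθ, rfl⟩, rfl⟩ := hy
  refine ⟨θ, hθ, ?_⟩
  rw [← pin_in_dist]
  have : dist (pinP (δ n) u) (pinC (γ θ)) ≤ 2 * r := by rw [← hd]; exact (hU i u).1 hu
  exact this.trans hr2

/-! ## 2. from the positions of helper74 (`PinGeoPos`) to the scene `PinSc` of Pin/Place -/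

/-- the set `S` has the position of the family `f` with the margin `κ` (`K` = the core) -/
def PinInAt (S : Set (ℝ × ℝ)) (z0 : ℝ × ℝ) (ρ lm lp κ : ℝ) : PinKind → Prop
  | .T => ∀ p ∈ S, lp + κ ≤ p.2
  | .B => ∀ p ∈ S, p.2 ≤ lm - κ
  | .R => ∀ p ∈ S, lm + κ ≤ p.2 ∧ p.2 ≤ lp - κ ∧ pinGeoU z0 + ρ / 2 < pinGeoU p
  | .L => ∀ p ∈ S, lm + κ ≤ p.2 ∧ p.2 ≤ lp - κ ∧ pinGeoU p < pinGeoU z0 - ρ / 2
  | .K => ∀ p ∈ S, lm + κ ≤ p.2 ∧ p.2 ≤ lp - κ ∧ |pinGeoU p - pinGeoU z0| ≤ ρ / 1000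

theorem pin_in_at_of_pos {S : Set (ℝ × ℝ)} {z0 : ℝ × ℝ} {ρ lm lp κ : ℝ} (h : PinGeoPos S z0 ρ lm lp κ) : ∃ f : PinKind, f ≠ .K ∧ PinInAt S z0 ρ lm lp κ f := by
  rcases h with h | h | h | h
  · exact ⟨.T, by simp, h⟩
  · exact ⟨.B, by simp, h⟩
  · exact ⟨.R, by simp, h⟩
  · exact ⟨.L, by simp, h⟩

theorem PinInAt.union {ι : Type*} {S : ι → Set (ℝ × ℝ)} {z0 : ℝ × ℝ} {ρ lm lp κ : ℝ} {f : PinKind} (h : ∀ i, PinInAt (S i) z0 ρ lm lp κ f) :
    PinInAt (⋃ i, S i) z0 ρ lm lp κ f := by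
  cases f <;> intro p hp <;> obtain ⟨i, hi⟩ := mem_iUnion.1 hp <;> exact h i p hi

theorem PinInAt.union₂ {S S' : Set (ℝ × ℝ)} {z0 : ℝ × ℝ} {ρ lm lp κ : ℝ} {f : PinKind} (h : PinInAt S z0 ρ lm lp κ f) (h' : PinInAt S' z0 ρ lm lp κ f) :
    PinInAt (S ∪ S') z0 ρ lm lp κ f := by
  cases f <;> intro p hp <;> rcases hp with hp | hp <;> first | exact h p hp | exact h' p hp

theorem PinInAt.empty (z0 : ℝ × ℝ) (ρ lm lp κ : ℝ) (f : PinKind) : PinInAt ∅ z0 ρ lm lp κ f := by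
  cases f <;> intro p hp <;> exact absurd hp (notMem_empty p)

theorem PinInAt.mono {S S' : Set (ℝ × ℝ)} {z0 : ℝ × ℝ} {ρ lm lp κ : ℝ} {f : PinKind} (h : PinInAt S z0 ρ lm lp κ f) (hS : S' ⊆ S) : PinInAt S' z0 ρ lm lp κ f := by
  cases f <;> intro p hp <;> exact h p (hS hp)

/-- the projection on a unit vector is 1-Lipschitz -/
theorem pin_in_dot_abs {c p n : ℂ} (hn : ‖n‖ ≤ 1) : |pinDot c n - pinDot p n| ≤ dist c p := by
  rw [← pin_sh_dot_sub, abs_le]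
  constructor
  · have := pin_sh_dot_le (p - c) hn
    rw [pin_sh_dot_sub] at this ⊢
    rw [dist_comm, dist_eq_norm]
    linarith
  · rw [dist_eq_norm]
    exact pin_sh_dot_le (c - p) hn

theorem pin_in_dot_abs0 {c n : ℂ} (hn : ‖n‖ ≤ 1) : |pinDot c n| ≤ ‖c‖ := by
  have := pin_in_dot_abs (c := c) (p := 0) hn
  rwa [pin_pc_dot_zero, sub_zero, dist_zero_right] at this

/-- **the scene from positions**: `Sf f` = union of the supports of the family `f`, enlarged by `r` -/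
theorem pin_in_scene_fat {Sf : PinKind → Set (ℝ × ℝ)} {z0 : ℝ × ℝ} {ρ lm lp κ B r M : ℝ} (h : ∀ f, PinInAt (Sf f) z0 ρ lm lp κ f)
    (hB : ∀ f, ∀ p ∈ Sf f, ‖pinC p‖ ≤ B) (hκ : 0 < κ) (hρ : 0 < ρ) (hr1 : r ≤ κ / 2) (hr2 : r ≤ ρ / 10) (hl : lm ≤ lp)
    (hM1 : B + r ≤ M) (hM2 : |pinGeoU z0| + ρ / 2 ≤ M) (hM3 : |lp| + κ / 2 ≤ M) (hM4 : |lm| + κ / 2 ≤ M) :
    PinSc M (κ / 2) (ρ / 2) (pinGeoU z0) lm lp (fun f => pinFat r (pinC '' Sf f)) := by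
  have hbd : ∀ (n : ℂ), ‖n‖ ≤ 1 → ∀ f, ∀ c ∈ pinFat r (pinC '' Sf f), |pinDot c n| ≤ M := by
    rintro n hn f c ⟨_, ⟨p, hp, rfl⟩, hd⟩
    have h1 := pin_in_dot_abs0 (c := c) hn
    have h2 : ‖c‖ ≤ ‖pinC p‖ + dist c (pinC p) := by
      rw [dist_eq_norm]
      have := norm_add_le (pinC p) (c - pinC p)
      rwa [add_sub_cancel] at this
    linarith [hB f p hp]
  have hE : ∀ f, ∀ c ∈ pinFat r (pinC '' Sf f), ∃ p ∈ Sf f, |pinDot c pinE - p.2| ≤ r ∧ |pinDot c pinU - pinGeoU p| ≤ r := by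
    rintro f c ⟨_, ⟨p, hp, rfl⟩, hd⟩
    refine ⟨p, hp, ?_, ?_⟩
    · rw [← pin_pc_dot_E p]; exact (pin_in_dot_abs pin_pc_norm_E.le).trans hd
    · rw [← pin_pc_dot_U p]; exact (pin_in_dot_abs pin_pc_norm_U.le).trans hd
  refine ⟨by positivity, by positivity, hl, hM2, hM3, hM4, hbd _ pin_pc_norm_E.le, hbd _ pin_pc_norm_U.le, hbd _ pin_pc_norm_U'.le, ?_, ?_, ?_, ?_, ?_, ?_⟩
  · intro c hc
    obtain ⟨p, hp, h1, -⟩ := hE _ c hc
    have := h .T p hp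
    linarith [(abs_le.1 h1).1]
  · intro c hc
    obtain ⟨p, hp, h1, -⟩ := hE _ c hc
    have := h .B p hp
    linarith [(abs_le.1 h1).2]
  · intro f hT hB' c hc
    obtain ⟨p, hp, h1, -⟩ := hE _ c hc
    have h1' := abs_le.1 h1
    cases f
    · exact absurd rfl hT
    · exact absurd rfl hB'
    · have := h .L p hp
      exact ⟨by linarith [this.1], by linarith [this.2.1]⟩
    · have := h .R p hp
      exact ⟨by linarith [this.1], by linarith [this.2.1]⟩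
    · have := h .K p hp
      exact ⟨by linarith [this.1], by linarith [this.2.1]⟩
  · intro c hc
    obtain ⟨p, hp, -, h1⟩ := hE _ c hc
    have := (h .R p hp).2.2
    linarith [(abs_le.1 h1).1]
  · intro c hc
    obtain ⟨p, hp, -, h1⟩ := hE _ c hc
    have := (h .L p hp).2.2
    linarith [(abs_le.1 h1).2]
  · intro c hc
    obtain ⟨p, hp, -, h1⟩ := hE _ c hc
    have h2 := abs_le.1 (h .K p hp).2.2
    have h1' := abs_le.1 h1
    rw [abs_le]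
    constructor <;> linarith [h2.1, h2.2, h1'.1, h1'.2]

/-! ## 3. the scene of a standing arrangement `PinStd` at a fixed gap -/

theorem PinSc.mono {M κ ρ U0 lm lp : ℝ} {obj obj' : PinKind → Set ℂ} (h : PinSc M κ ρ U0 lm lp obj) (ho : ∀ f, obj' f ⊆ obj f) : PinSc M κ ρ U0 lm lp obj' :=
  ⟨h.κ0, h.ρ0, h.lml, h.U0M, h.lpM, h.lmM, fun f p hp => h.bdE f p (ho f hp), fun f p hp => h.bdU f p (ho f hp), fun f p hp => h.bdU' f p (ho f hp),
    fun p hp => h.T p (ho _ hp), fun p hp => h.B p (ho _ hp), fun f h1 h2 p hp => h.mid f h1 h2 p (ho f hp), fun p hp => h.R p (ho _ hp),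
    fun p hp => h.L p (ho _ hp), fun p hp => h.K p (ho _ hp)⟩

theorem pin_in_fat_mono {r r' : ℝ} (h : r ≤ r') (X : Set ℂ) : pinFat r X ⊆ pinFat r' X := fun _ ⟨x, hx, hd⟩ => ⟨x, hx, hd.trans h⟩

theorem PinInAt.anti {S : Set (ℝ × ℝ)} {z0 : ℝ × ℝ} {ρ lm lp κ κ' : ℝ} {f : PinKind} (h : PinInAt S z0 ρ lm lp κ f) (hκ : κ' ≤ κ) : PinInAt S z0 ρ lm lp κ' f := by
  cases f
  · exact fun p hp => by linarith [h p hp]
  · exact fun p hp => by linarith [h p hp]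
  · exact fun p hp => ⟨by linarith [(h p hp).1], by linarith [(h p hp).2.1], (h p hp).2.2⟩
  · exact fun p hp => ⟨by linarith [(h p hp).1], by linarith [(h p hp).2.1], (h p hp).2.2⟩
  · exact fun p hp => ⟨by linarith [(h p hp).1], by linarith [(h p hp).2.1], (h p hp).2.2⟩

section std

variable {D : Set (ℝ × ℝ)} {δ : ℕ → ℝ} {F : ℕ → Finset TV} {γ : Circle → ℝ × ℝ} {γs : ℕ → Circle → ℝ × ℝ} {CC0 : Finset Circle} {t : ℕ → ℝ}
  {z0 : ℝ × ℝ} {ρ : ℝ} {q : ℕ} {φ : ℝ × ℝ → ℝ} {g : Fin q → ℝ × ℝ → ℝ} {lm lp : ℝ}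

/-- positions of the arcs, of the spectator disks and of the core with ONE margin -/
theorem pin_in_std_pos (H : PinStd D δ F γ γs CC0 t z0 ρ q φ g lm lp) {a : ℝ} (ha : 0 < a) :
    ∃ (κ : ℝ) (fam : ℕ → PinKind) (fs : Fin q → PinKind) (cen : Fin q → ℝ × ℝ) (rad : Fin q → ℝ), 0 < κ ∧
      (∀ i, i < CC0.card → fam i ≠ .K ∧ PinInAt (γ '' pinGeoArc t a i) z0 ρ lm lp κ (fam i)) ∧
      (∀ l, fs l ≠ .K ∧ PinInAt (pinGeoDisk (cen l) (rad l)) z0 ρ lm lp κ (fs l) ∧ pinGeoDisk (cen l) (rad l) ⊆ D ∧ ∀ y, y ∉ pinGeoDisk (cen l) (rad l) → g l y = 0) ∧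
      PinInAt (pinGeoDisk z0 (ρ / 1000)) z0 ρ lm lp κ .K := by
  have hρ := H.arr.rho_pos
  have hlp : z0.2 ≤ lp ∧ lp < z0.2 + ρ / 20 := ⟨by linarith [H.hlp.1], H.hlp.2⟩
  have hlm : z0.2 - ρ / 20 < lm ∧ lm ≤ z0.2 := ⟨H.hlm.1, by linarith [H.hlm.2]⟩
  obtain ⟨κ1, hκ1, h1⟩ := pin_geo_arc_pos H.dom.1 H.dat.bd.1 H.dat.bd.2.2.1 hρ H.arr.ball hlp hlm H.marks H.dat.ang ha
  choose cen rad hs using H.spec
  have h2 : ∀ l, ∃ κ : ℝ, 0 < κ ∧ PinGeoPos (pinGeoDisk (cen l) (rad l)) z0 ρ lm lp κ := fun l =>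
    pin_geo_disk_pos hρ (hs l).1.le (hs l).2.2.1 hlp hlm (hs l).2.2.2.2.1 (hs l).2.2.2.2.2
  choose κ2 hκ2 h2' using h2
  obtain ⟨κ3, hκ3, hκ3'⟩ := pin_pc_pos_inf κ2 hκ2
  obtain ⟨κ, hκ, k1, k2, k3⟩ : ∃ κ : ℝ, 0 < κ ∧ κ ≤ κ1 ∧ κ ≤ κ3 ∧ κ ≤ ρ / 50 :=
    ⟨min (min κ1 κ3) (ρ / 50), lt_min (lt_min hκ1 hκ3) (by positivity), (min_le_left _ _).trans (min_le_left _ _),
      (min_le_left _ _).trans (min_le_right _ _), min_le_right _ _⟩
  have h3 : ∀ i, ∃ f : PinKind, i < CC0.card → f ≠ .K ∧ PinInAt (γ '' pinGeoArc t a i) z0 ρ lm lp κ f := by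
    intro i
    by_cases hi : i < CC0.card
    · obtain ⟨f, hf, hf'⟩ := pin_in_at_of_pos (h1 i hi)
      exact ⟨f, fun _ => ⟨hf, hf'.anti k1⟩⟩
    · exact ⟨.T, fun h => absurd h hi⟩
  choose fam hfam using h3
  choose fs hfs hfs' using fun l => pin_in_at_of_pos (h2' l)
  refine ⟨κ, fam, fs, cen, rad, hκ, hfam, fun l => ⟨hfs l, (hfs' l).anti (k2.trans (hκ3' l)), (hs l).2.1, (hs l).2.2.2.1⟩, ?_⟩
  intro p hp
  obtain ⟨c1, c2⟩ := pin_geo_core hρ hp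
  have c1' := abs_le.1 c1
  exact ⟨by linarith [H.hlm.2, c1'.1], by linarith [H.hlp.1, c1'.2], c2⟩

/-- there is a group above the upper level and a group below the lower level (so that both sides of every move are height-localized) -/
theorem pin_in_std_TB (H : PinStd D δ F γ γs CC0 t z0 ρ q φ g lm lp) {a : ℝ} (ha : 0 < a) (hgap : ∀ i, i < CC0.card → 2 * a ≤ t (i + 1) - t i) :
    (∃ i, i < CC0.card ∧ ∃ θ ∈ pinGeoArc t a i, lp < (γ θ).2) ∧ ∃ i, i < CC0.card ∧ ∃ θ ∈ pinGeoArc t a i, (γ θ).2 < lm := by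
  have hρ := H.arr.rho_pos
  have hlp : z0.2 ≤ lp ∧ lp < z0.2 + ρ / 20 := ⟨by linarith [H.hlp.1], H.hlp.2⟩
  have hlm : z0.2 - ρ / 20 < lm ∧ lm ≤ z0.2 := ⟨H.hlm.1, by linarith [H.hlm.2]⟩
  have hl : lm ≤ lp := hlm.2.trans hlp.1
  obtain ⟨a0, ha0, hTB⟩ := pin_geo_arc_top_bottom H.dom.1 H.dom.2.1 H.dat.bd.1 H.dat.bd.2.2.1 hρ H.arr.ball hlp hlm H.marks
  have ha' : 0 < min a a0 := lt_min ha ha0
  obtain ⟨κ', hκ', hpos⟩ := pin_geo_arc_pos H.dom.1 H.dat.bd.1 H.dat.bd.2.2.1 hρ H.arr.ball hlp hlm H.marks H.dat.ang ha'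
  obtain ⟨⟨i, hi, θ, hθ, h1⟩, ⟨j, hj, θ', hθ', h2⟩⟩ := hTB t H.dat.ang _ ha' (min_le_right _ _)
  constructor
  · obtain ⟨θ0, hθ0⟩ := pin_win_arc_nonempty (hgap i hi)
    refine ⟨i, hi, θ0, hθ0, ?_⟩
    have := (hpos i hi).isT hκ'.le hl (mem_image_of_mem γ hθ) (by linarith [hlp.2]) _ (mem_image_of_mem γ (pin_geo_arc_mono t (min_le_left a a0) i hθ0))
    linarith
  · obtain ⟨θ0, hθ0⟩ := pin_win_arc_nonempty (hgap j hj)
    refine ⟨j, hj, θ0, hθ0, ?_⟩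
    have := (hpos j hj).isB hκ'.le hl (mem_image_of_mem γ hθ') (by linarith [hlm.1]) _ (mem_image_of_mem γ (pin_geo_arc_mono t (min_le_left a a0) j hθ0))
    linarith

end std

/-! ## 4. (I2) the initial picture -/

theorem pin_in_at_iff {S : Set (ℝ × ℝ)} {z0 : ℝ × ℝ} {ρ lm lp κ : ℝ} {f : PinKind} : PinInAt S z0 ρ lm lp κ f ↔ ∀ p ∈ S, PinInAt {p} z0 ρ lm lp κ f := by
  cases f <;> simp [PinInAt]

theorem pin_in_norm_C (p : ℝ × ℝ) : ‖pinC p‖ ≤ 2 * ‖p‖ := by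
  have h := Complex.norm_le_abs_re_add_abs_im (pinC p)
  have h1 : |p.1| ≤ ‖p‖ := norm_fst_le p
  have h2 : |p.2| ≤ ‖p‖ := norm_snd_le p
  have e1 : (pinC p).re = p.1 := rfl
  have e2 : (pinC p).im = p.2 := rfl
  rw [e1, e2] at h
  linarith

section std

variable {D : Set (ℝ × ℝ)} {δ : ℕ → ℝ} {F : ℕ → Finset TV} {γ : Circle → ℝ × ℝ} {γs : ℕ → Circle → ℝ × ℝ} {CC0 : Finset Circle} {t : ℕ → ℝ}
  {z0 : ℝ × ℝ} {ρ : ℝ} {q : ℕ} {φ : ℝ × ℝ → ℝ} {g : Fin q → ℝ × ℝ → ℝ} {lm lp : ℝ}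

/-- **the scene of a standing arrangement at the gap `a`**: families of the groups and of the spectators, enlarged supports `obj f` (enlargement `r`) -/
theorem pin_in_std_scene (H : PinStd D δ F γ γs CC0 t z0 ρ q φ g lm lp) {a : ℝ} (ha : 0 < a) (hgap : ∀ i, i < CC0.card → 2 * a ≤ t (i + 1) - t i) :
    ∃ (fam : ℕ → PinKind) (fs : Fin q → PinKind) (obj : PinKind → Set ℂ) (M κ r : ℝ), 0 < r ∧ PinSc M κ (ρ / 2) (pinGeoU z0) lm lp obj ∧
      (∀ i, i < CC0.card → fam i ≠ .K ∧ pinFat r (pinInArc γ t a i) ⊆ obj (fam i)) ∧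
      (∀ l, fs l ≠ .K ∧ ∀ y, g l y ≠ 0 → pinFat r {pinC y} ⊆ obj (fs l)) ∧
      pinFat r (pinC '' pinGeoDisk z0 (ρ / 1000)) ⊆ obj .K ∧
      (∃ i, i < CC0.card ∧ fam i = .T) ∧ ∃ i, i < CC0.card ∧ fam i = .B := by
  have hρ := H.arr.rho_pos
  have hl : lm ≤ lp := by linarith [H.hlp.1, H.hlm.2]
  obtain ⟨κ, fam, fs, cen, rad, hκ, h1, h2, h3⟩ := pin_in_std_pos H ha
  obtain ⟨Sf, hSf⟩ : ∃ Sf : PinKind → Set (ℝ × ℝ), Sf = fun f => {p | (∃ i, i < CC0.card ∧ fam i = f ∧ p ∈ γ '' pinGeoArc t a i) ∨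
      (∃ l, fs l = f ∧ p ∈ pinGeoDisk (cen l) (rad l)) ∨ (f = .K ∧ p ∈ pinGeoDisk z0 (ρ / 1000))} := ⟨_, rfl⟩
  have hat : ∀ f, PinInAt (Sf f) z0 ρ lm lp κ f := by
    intro f
    rw [pin_in_at_iff, hSf]
    rintro p (⟨i, hi, rfl, hp⟩ | ⟨l, rfl, hp⟩ | ⟨rfl, hp⟩)
    · exact pin_in_at_iff.1 (h1 i hi).2 p hp
    · exact pin_in_at_iff.1 (h2 l).2.1 p hp
    · exact pin_in_at_iff.1 h3 p hp
  obtain ⟨B0, hB0⟩ := H.dom.2.1.closure.exists_norm_le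
  have hB : ∀ f, ∀ p ∈ Sf f, ‖pinC p‖ ≤ 2 * B0 := by
    intro f p hp
    have hpD : p ∈ closure D := by
      rw [hSf] at hp
      rcases hp with ⟨i, -, -, θ, -, rfl⟩ | ⟨l, -, hp⟩ | ⟨-, hp⟩
      · have : γ θ ∈ frontier D := H.dat.bd.2.2.1 ▸ mem_range_self θ
        exact frontier_subset_closure this
      · exact subset_closure ((h2 l).2.2.1 hp)
      · refine subset_closure (H.arr.ball ?_)
        have h4 : sqDist p z0 ≤ (ρ / 1000) ^ 2 := hp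
        show sqDist p z0 ≤ ρ ^ 2
        nlinarith
    linarith [pin_in_norm_C p, hB0 p hpD]
  obtain ⟨r, hr, hr1, hr2⟩ : ∃ r : ℝ, 0 < r ∧ r ≤ κ / 2 ∧ r ≤ ρ / 10 :=
    ⟨min (κ / 2) (ρ / 10), lt_min (by positivity) (by positivity), min_le_left _ _, min_le_right _ _⟩
  obtain ⟨M, hM1, hM2, hM3, hM4⟩ : ∃ M : ℝ, 2 * B0 + r ≤ M ∧ |pinGeoU z0| + ρ / 2 ≤ M ∧ |lp| + κ / 2 ≤ M ∧ |lm| + κ / 2 ≤ M :=
    ⟨max (max (2 * B0 + r) (|pinGeoU z0| + ρ / 2)) (max (|lp| + κ / 2) (|lm| + κ / 2)), (le_max_left _ _).trans (le_max_left _ _),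
      (le_max_right _ _).trans (le_max_left _ _), (le_max_left _ _).trans (le_max_right _ _), (le_max_right _ _).trans (le_max_right _ _)⟩
  have hS := pin_in_scene_fat hat hB hκ hρ hr1 hr2 hl hM1 hM2 hM3 hM4
  have hfat : ∀ {X Y : Set ℂ}, X ⊆ Y → pinFat r X ⊆ pinFat r Y := fun hXY _ ⟨x, hx, hd⟩ => ⟨x, hXY hx, hd⟩
  obtain ⟨⟨i, hi, θ, hθ, hT⟩, ⟨j, hj, θ', hθ', hBt⟩⟩ := pin_in_std_TB H ha hgap
  refine ⟨fam, fs, _, M, κ / 2, r, hr, hS, fun i hi => ⟨(h1 i hi).1, hfat (image_mono ?_)⟩, fun l => ⟨(h2 l).1, fun y hy => hfat ?_⟩, hfat (image_mono ?_),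
    ⟨i, hi, ?_⟩, ⟨j, hj, ?_⟩⟩
  · intro p hp
    rw [hSf]
    exact Or.inl ⟨i, hi, rfl, hp⟩
  · rw [singleton_subset_iff]
    refine mem_image_of_mem pinC ?_
    rw [hSf]
    refine Or.inr (Or.inl ⟨l, rfl, ?_⟩)
    by_contra hc
    exact hy ((h2 l).2.2.2 y hc)
  · intro p hp
    rw [hSf]
    exact Or.inr (Or.inr ⟨rfl, hp⟩)
  · have h5 := (h1 i hi).2
    have h6 := (h1 i hi).1
    have hm := mem_image_of_mem γ hθ
    revert h5 h6
    cases fam i <;> intro h5 h6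
    · rfl
    · have := h5 _ hm; linarith
    · have := (h5 _ hm).2.1; linarith
    · have := (h5 _ hm).2.1; linarith
    · exact absurd rfl h6
  · have h5 := (h1 j hj).2
    have h6 := (h1 j hj).1
    have hm := mem_image_of_mem γ hθ'
    revert h5 h6
    cases fam j <;> intro h5 h6
    · have := h5 _ hm; linarith
    · rfl
    · have := (h5 _ hm).1; linarith
    · have := (h5 _ hm).1; linarith
    · exact absurd rfl h6

end std

/-! ## 5. the initial picture on the lattice; integer projections -/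

section std

variable {D : Set (ℝ × ℝ)} {δ : ℕ → ℝ} {F : ℕ → Finset TV} {γ : Circle → ℝ × ℝ} {γs : ℕ → Circle → ℝ × ℝ} {CC0 : Finset Circle} {t : ℕ → ℝ}
  {z0 : ℝ × ℝ} {ρ : ℝ} {q : ℕ} {φ : ℝ × ℝ → ℝ} {g : Fin q → ℝ × ℝ → ℝ} {lm lp : ℝ}

/-- **(I2) THE INITIAL PICTURE.**  At fixed gaps `a ≤ ε`, for every `(κp, n0)`: families, a scene `PinSc`, and eventually in `n` collars `U i` of the groups with `PinFam`, all the sites of the collar `i` in `obj (fam i)`,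
all the sites of the support of the spectator `l` in `obj (fs l)`, all the sites within `ρ/1000 + r` of `z0` in `obj K`. -/
theorem pin_in_picture (H : PinStd D δ F γ γs CC0 t z0 ρ q φ g lm lp) {a ε : ℝ} (ha : 0 < a) (hae : a ≤ ε)
    (hgap : ∀ i, i < CC0.card → 2 * ε ≤ t (i + 1) - t i) (κp n0 : ℕ) :
    ∃ (fam : ℕ → PinKind) (fs : Fin q → PinKind) (obj : PinKind → Set ℂ) (M κ r : ℝ) (N : ℕ), 0 < r ∧ PinSc M κ (ρ / 2) (pinGeoU z0) lm lp obj ∧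
      (∀ i, i < CC0.card → fam i ≠ .K) ∧ (∀ l, fs l ≠ .K) ∧ (∃ i, i < CC0.card ∧ fam i = .T) ∧ (∃ i, i < CC0.card ∧ fam i = .B) ∧
      ∀ᶠ n in atTop,
        (∃ U : Fin CC0.card → Finset TV,
          PinFam κp n0 N (fun i : Fin CC0.card => pinGp δ F γs t a n i) (fun i : Fin CC0.card => pinGp δ F γs t ε n i) U ∧
          ∀ i, ∀ u ∈ U i, pinP (δ n) u ∈ obj (fam i)) ∧
        (∀ l u, g l (triPos (δ n) u) ≠ 0 → pinP (δ n) u ∈ obj (fs l)) ∧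
        ∀ u, hgE (triPos (δ n) u) z0 ≤ ρ / 1000 + r → pinP (δ n) u ∈ obj .K := by
  have hρ := H.arr.rho_pos
  obtain ⟨fam, fs, obj, M, κ, r, hr, hS, h1, h2, h3, hT, hB⟩ := pin_in_std_scene H ha (fun i hi => by linarith [hgap i hi])
  obtain ⟨N, hN⟩ := pin_in_fam H.dat ha hae hgap κp n0 hr
  refine ⟨fam, fs, obj, M, κ, r, N, hr, hS, fun i hi => (h1 i hi).1, fun l => (h2 l).1, hT, hB, ?_⟩
  filter_upwards [hN] with n ⟨U, hU, hUr⟩
  refine ⟨⟨U, hU, fun i u hu => ?_⟩, fun l u hu => ?_, fun u hu => ?_⟩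
  · obtain ⟨θ, hθ, hd⟩ := hUr i u hu
    refine (h1 i i.2).2 ⟨pinC (γ θ), mem_image_of_mem pinC (mem_image_of_mem γ hθ), ?_⟩
    show dist (pinC _) (pinC _) ≤ r
    rw [pin_in_dist]; exact hd
  · exact (h2 l).2 _ hu ⟨_, rfl, by
      show dist (pinP (δ n) u) (pinP (δ n) u) ≤ r
      rw [dist_self]; exact hr.le⟩
  · -- the point of the segment from `z0` at the distance `min 1 ((ρ/1000) / d)`
    refine h3 ?_
    obtain ⟨d, hd⟩ : ∃ d, d = hgE (triPos (δ n) u) z0 := ⟨_, rfl⟩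
    rw [← hd] at hu
    have hd' : dist (pinP (δ n) u) (pinC z0) = d := by rw [hd]; exact pin_in_dist _ _
    rcases le_total d (ρ / 1000) with hc | hc
    · refine ⟨pinP (δ n) u, mem_image_of_mem pinC ?_, by rw [dist_self]; exact hr.le⟩
      show sqDist _ _ ≤ _
      rw [← pin_sh_dist_le_iff _ _ (by positivity)]
      exact hd'.le.trans hc
    · have hd0 : 0 < d := lt_of_lt_of_le (by positivity) hc
      obtain ⟨s, hs⟩ : ∃ s : ℝ, s = ρ / 1000 / d := ⟨_, rfl⟩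
      have hs0 : 0 ≤ s := by rw [hs]; positivity
      have hs1 : s ≤ 1 := by rw [hs, div_le_one hd0]; exact hc
      have hsd : s * d = ρ / 1000 := by rw [hs]; field_simp
      obtain ⟨w, hw⟩ := pin_sh_C_surj (pinC z0 + (s : ℂ) * (pinP (δ n) u - pinC z0))
      have e1 : dist (pinC w) (pinC z0) = ρ / 1000 := by
        rw [hw, dist_eq_norm, add_sub_cancel_left, norm_mul, Complex.norm_real, Real.norm_of_nonneg hs0, ← dist_eq_norm, hd', hsd]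
      have e2 : dist (pinP (δ n) u) (pinC w) = d - ρ / 1000 := by
        have e3 : pinP (δ n) u - (pinC z0 + (s : ℂ) * (pinP (δ n) u - pinC z0)) = ((1 - s : ℝ) : ℂ) * (pinP (δ n) u - pinC z0) := by
          push_cast; ring
        rw [hw, dist_eq_norm, e3, norm_mul, Complex.norm_real, Real.norm_of_nonneg (by linarith), ← dist_eq_norm, hd']
        linarith
      refine ⟨pinC w, mem_image_of_mem pinC ?_, by rw [e2]; linarith⟩
      show sqDist _ _ ≤ _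
      rw [← pin_sh_dist_le_iff _ _ (by positivity)]
      exact e1.le

end std

/-! ### integer projections (unit `√3/2 δ`): `pe u = u.2`, `pu u = u.1 + u.2`, `pv u = - u.1` -/

theorem pin_in_pe (δ : ℝ) (u : TV) : pinDot (pinP δ u) pinE = Real.sqrt 3 / 2 * δ * (u.2 : ℝ) := by
  simp only [pinDot, pinE, pin_pc_P_re, pin_pc_P_im]; ring

theorem pin_in_pu (δ : ℝ) (u : TV) : pinDot (pinP δ u) pinU = Real.sqrt 3 / 2 * δ * ((u.1 + u.2 : ℤ) : ℝ) := by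
  simp only [pinDot, pinU, pin_pc_P_re, pin_pc_P_im]; push_cast; ring

theorem pin_in_pv (δ : ℝ) (u : TV) : pinDot (pinP δ u) pinU' = Real.sqrt 3 / 2 * δ * ((-u.1 : ℤ) : ℝ) := by
  simp only [pinDot, pinU', pin_pc_P_re, pin_pc_P_im]; push_cast; ring

/-- from a real gap to an integer gap -/
theorem pin_in_int_gap {c : ℝ} (hc : 0 < c) {i j mu : ℤ} {x : ℝ} (hmu : c * mu ≤ x) (h : c * i + x ≤ c * j) : i + mu ≤ j := by
  have h' : c * ((i + mu : ℤ) : ℝ) ≤ c * (j : ℝ) := by push_cast; linarith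
  exact_mod_cast le_of_mul_le_mul_left h' hc

theorem pin_in_int_abs {c : ℝ} (hc : 0 < c) {i Lam : ℤ} {M : ℝ} (hL : M ≤ c * Lam) (h : |c * i| ≤ M) : |i| ≤ Lam := by
  have h1 := abs_le.1 h
  rw [abs_le]
  constructor
  · have h' : c * ((-Lam : ℤ) : ℝ) ≤ c * (i : ℝ) := by push_cast; linarith [h1.1]
    exact_mod_cast le_of_mul_le_mul_left h' hc
  · have h' : c * (i : ℝ) ≤ c * (Lam : ℝ) := by linarith [h1.2]
    exact_mod_cast le_of_mul_le_mul_left h' hc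

/-- **the scene in integers**: `mu` rows fit in the margins, `Lam` rows bound all the projections -/
theorem pin_in_int {M κ ρ U0 lm lp : ℝ} {obj : PinKind → Set ℂ} (hS : PinSc M κ ρ U0 lm lp obj) {δ : ℝ} (hδ : 0 < δ) {mu Lam : ℤ}
    (hmu : Real.sqrt 3 / 2 * δ * mu ≤ min (2 * κ) (ρ / 4)) (hLam : M ≤ Real.sqrt 3 / 2 * δ * Lam) :
    (∀ f u, pinP δ u ∈ obj f → |u.2| ≤ Lam ∧ |u.1 + u.2| ≤ Lam ∧ |-u.1| ≤ Lam) ∧
    (∀ f u v, f ≠ .B → pinP δ u ∈ obj .B → pinP δ v ∈ obj f → u.2 + mu ≤ v.2) ∧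
    (∀ f u v, f ≠ .T → pinP δ u ∈ obj f → pinP δ v ∈ obj .T → u.2 + mu ≤ v.2) ∧
    (∀ u v, pinP δ u ∈ obj .L → pinP δ v ∈ obj .K → u.1 + u.2 + mu ≤ v.1 + v.2) ∧
    (∀ u v, pinP δ u ∈ obj .K → pinP δ v ∈ obj .R → u.1 + u.2 + mu ≤ v.1 + v.2) := by
  have hc : 0 < Real.sqrt 3 / 2 * δ := by positivity
  have m1 := hmu.trans (min_le_left _ _)
  have m2 := hmu.trans (min_le_right _ _)
  have hκ := hS.κ0
  have hl := hS.lml
  refine ⟨fun f u hu => ⟨?_, ?_, ?_⟩, fun f u v hf hu hv => ?_, fun f u v hf hu hv => ?_, fun u v hu hv => ?_, fun u v hu hv => ?_⟩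
  · exact pin_in_int_abs hc hLam (by rw [← pin_in_pe]; exact hS.bdE f _ hu)
  · exact pin_in_int_abs hc hLam (by rw [← pin_in_pu]; exact hS.bdU f _ hu)
  · exact pin_in_int_abs hc hLam (by rw [← pin_in_pv]; exact hS.bdU' f _ hu)
  · refine pin_in_int_gap hc m1 ?_
    rw [← pin_in_pe, ← pin_in_pe]
    have h1 := hS.B _ hu
    by_cases hT : f = .T
    · subst hT
      linarith [hS.T _ hv]
    · linarith [(hS.mid f hT hf _ hv).1]
  · refine pin_in_int_gap hc m1 ?_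
    rw [← pin_in_pe, ← pin_in_pe]
    have h1 := hS.T _ hv
    by_cases hB : f = .B
    · subst hB
      linarith [hS.B _ hu]
    · linarith [(hS.mid f hf hB _ hu).2]
  · refine pin_in_int_gap hc m2 ?_
    have e1 := pin_in_pu δ u
    have e2 := pin_in_pu δ v
    rw [← e1, ← e2]
    linarith [hS.L _ hu, (abs_le.1 (hS.K _ hv)).1]
  · refine pin_in_int_gap hc m2 ?_
    have e1 := pin_in_pu δ u
    have e2 := pin_in_pu δ v
    rw [← e1, ← e2]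
    linarith [hS.R _ hv, (abs_le.1 (hS.K _ hu)).2]

/-- the integer sequences: `mu n` rows fit in `x`, `mu n δ n → x / (√3/2)`; `Lam n` rows cover `M`, `Lam n δ n` bounded -/
theorem pin_in_seq {δ : ℕ → ℝ} (hδ : ∀ n, 0 < δ n) (hδ0 : Tendsto δ atTop (𝓝 0)) {x M : ℝ} (hx : 0 ≤ x) :
    ∃ mu Lam : ℕ → ℕ, (∀ n, Real.sqrt 3 / 2 * δ n * (mu n : ℝ) ≤ x) ∧ Tendsto (fun n => Real.sqrt 3 / 2 * δ n * (mu n : ℝ)) atTop (𝓝 x) ∧
      (∀ n, M ≤ Real.sqrt 3 / 2 * δ n * (Lam n : ℝ)) ∧ ∀ n, Real.sqrt 3 / 2 * δ n * (Lam n : ℝ) ≤ max M 0 + Real.sqrt 3 / 2 * δ n := by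
  have hb : ∀ n, 0 < Real.sqrt 3 / 2 * δ n := fun n => by have := hδ n; positivity
  have hb0 : Tendsto (fun n => Real.sqrt 3 / 2 * δ n) atTop (𝓝 0) := by
    have := hδ0.const_mul (Real.sqrt 3 / 2)
    rwa [mul_zero] at this
  obtain ⟨mu, h1, h2⟩ := pin_pc_steps hb hb0 hx
  refine ⟨mu, fun n => ⌈max M 0 / (Real.sqrt 3 / 2 * δ n)⌉₊, fun n => by linarith [h2 n], h1.congr fun n => by ring, fun n => ?_, fun n => ?_⟩
  · have := Nat.le_ceil (max M 0 / (Real.sqrt 3 / 2 * δ n))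
    rw [div_le_iff₀ (hb n)] at this
    linarith [le_max_left M 0]
  · have := (Nat.ceil_lt_add_one (div_nonneg (le_max_right M 0) (hb n).le)).le
    have h := mul_le_mul_of_nonneg_left this (hb n).le
    rw [mul_add, mul_div_cancel₀ _ (hb n).ne', mul_one] at h
    exact h

end Claimed.Agent.R291
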