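import Claimed.Agent.R291.Defs.PinTop
import Claimed.Agent.R291.Pin.Gap
import Claimed.Agent.R291.Wick.Green

/-!
# Row 291 (S0539), unit PIN (05-pins), Pin/InstG : THE GAP INSTANCE      (OWNER helper100; head of PIN: helper34; consumer: helper76 `exit_pin_gap`; prefix `pin_ig_`, defs `pinIg*`)

From the standing data `PinStd` (Defs/PinTop) to the hypotheses of `pin_gap_main` (Pin/Gap) which are pure geometry.      TEX[pins:gap-closing] (geometry), TEX[lem:boundary-walk], l.779-790.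
* `pinIgT δ F φ g n`    the test sites: the sites of `latInt (F n)` which carry a nonzero face weight of `lap2 φ` or of a spectator
* `pinIgZ δ p`          a site whose face contains `p`;      `pinIgPv m` the cyclic predecessor on `Fin m`
* sec. 1  `pin_ig_range_univ`, `pin_ig_cyc`, `pin_ig_bd_conn` (the boundary layer is connected), `pin_ig_card_pos`
* sec. 2  the tests: `pin_ig_Kt` (ONE compact subset of `D` which contains all the supports), `pin_ig_T_meets`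
* sec. 3  **`pin_ig_at`** : `∃ r0, ∀ η < r0, ∃ a0, ∀ a ≤ min a0 ε`, eventually `PinGapAt` with `r1 = ⌈η/δ⌉`, `r2 = ⌊r0/δ⌋`, and `r1 ≤ (2η/r0) r2`;      `pin_ig_theta` : the same for every ratio `θ`
* sec. 4  the observables: **`pin_ig_X`**, `pin_ig_g`, **`pin_ig_Phi`** (`HtLoc (T n)`, `HtGrad` eventually, bound `M ^ q`)
* sec. 5  **`pin_ig_gap`** : ONE statement in the shape consumed by helper76 (existential `T z r1 r2`)
-/

set_option autoImplicit false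

namespace Claimed.Agent.R291

open MeasureTheory Filter Topology Set
open scoped ContDiff
open Claims Claims.C0467

/-! ## 0. definitions -/

open Classical in
/-- the test sites at mesh `n` -/
noncomputable def pinIgT (δ : ℕ → ℝ) (F : ℕ → Finset TV) {q : ℕ} (φ : ℝ × ℝ → ℝ) (g : Fin q → ℝ × ℝ → ℝ) (n : ℕ) : Finset TV :=
  (latInt (F n)).filter fun u => latW (δ n) (lap2 φ) u ≠ 0 ∨ ∃ l, latW (δ n) (g l) u ≠ 0

open Classical in
/-- a site whose face contains `p` -/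
noncomputable def pinIgZ (δ : ℝ) (p : ℝ × ℝ) : TV := if h : ∃ u : TV, p ∈ hexFace δ u then h.choose else 0

/-- the cyclic predecessor -/
def pinIgPv (m : ℕ) (c : Fin m) : Fin m := ⟨pinWinPrev m c, pin_win_prev_lt c.2⟩

theorem pin_ig_eqns_cite : True := by
  have := @pinIgT.eq_1
  have := @pinIgZ.eq_1
  have := @pinIgPv.eq_1
  trivial

/-! ## 1. small tools -/

theorem pin_ig_Z_mem {δ : ℝ} (hδ : 0 < δ) (p : ℝ × ℝ) : p ∈ hexFace δ (pinIgZ δ p) := by
  unfold pinIgZ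
  rw [dif_pos (hg_cover hδ p)]
  exact (hg_cover hδ p).choose_spec

theorem pin_ig_range_univ (m : ℕ) (f : ℕ → Finset TV) : (Finset.range m).biUnion f = (Finset.univ : Finset (Fin m)).biUnion fun i => f i := by
  ext u
  simp only [Finset.mem_biUnion, Finset.mem_range, Finset.mem_univ, true_and]
  exact ⟨fun ⟨i, hi, h⟩ => ⟨⟨i, hi⟩, h⟩, fun ⟨i, h⟩ => ⟨i, i.2, h⟩⟩

/-- a function which is invariant under the cyclic predecessor is constant -/
theorem pin_ig_cyc (m : ℕ) (f : Fin m → ℤ) (h : ∀ c, f c = f (pinIgPv m c)) (i j : Fin m) : f i = f j := by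
  have hm : 0 < m := lt_of_le_of_lt (Nat.zero_le _) i.2
  have key : ∀ (k : ℕ) (hk : k < m), f ⟨k, hk⟩ = f ⟨0, hm⟩ := by
    intro k
    induction k with
    | zero => intro _; rfl
    | succ k ih =>
      intro hk
      rw [h ⟨k + 1, hk⟩, ← ih (by omega)]
      congr 1
  rw [key i i.2, key j j.2]

/-- the boundary layer = the faces visited by the whole boundary walk -/
theorem pin_ig_bd_univ {δ : ℝ} (hδ : 0 < δ) {F : Finset TV} {g : Circle → ℝ × ℝ} (hg : Set.range g = frontier (faceRegion δ F)) :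
    latBd F = pinWinV δ F g Set.univ := by
  ext u
  constructor
  · intro hu
    obtain ⟨huF, v, huv, hv⟩ := lat_mem_bd.1 hu
    obtain ⟨-, θ, -, hθ⟩ := hg_boundary_vis hδ hg huF hv huv
    exact pin_win_mem.2 ⟨huF, θ, Set.mem_univ _, hθ⟩
  · exact fun hu => pin_win_sub_bd hδ hg _ hu

/-- the boundary layer is connected -/
theorem pin_ig_bd_conn {δ : ℝ} (hδ : 0 < δ) {F : Finset TV} {g : Circle → ℝ × ℝ} (hgc : Continuous g) (hg : Set.range g = frontier (faceRegion δ F)) :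
    TscConn tscG (latBd F : Set TV) := by
  rw [pin_ig_bd_univ hδ hg]
  exact pin_win_conn hδ hgc hg isPreconnected_univ

theorem pin_ig_card_pos {CC0 : Finset Circle} {t : ℕ → ℝ} (h : PinGeoAng CC0 t) : 0 < CC0.card := by
  rcases Nat.eq_zero_or_pos CC0.card with h0 | h0
  · have h1 := h.top
    rw [h0] at h1
    linarith [Real.pi_pos]
  · exact h0

/-! ## 2. the tests -/

section std

variable {D : Set (ℝ × ℝ)} {δ : ℕ → ℝ} {F : ℕ → Finset TV} {γ : Circle → ℝ × ℝ} {γs : ℕ → Circle → ℝ × ℝ} {CC0 : Finset Circle} {t : ℕ → ℝ}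
  {z0 : ℝ × ℝ} {ρ : ℝ} {q : ℕ} {φ : ℝ × ℝ → ℝ} {g : Fin q → ℝ × ℝ → ℝ} {lm lp : ℝ}

/-- ONE compact subset of `D` which contains all the supports -/
theorem pin_ig_Kt (H : PinStd D δ F γ γs CC0 t z0 ρ q φ g lm lp) :
    ∃ Kt : Set (ℝ × ℝ), IsCompact Kt ∧ Kt ⊆ D ∧ (∀ y, lap2 φ y ≠ 0 → y ∈ Kt) ∧ ∀ l y, g l y ≠ 0 → y ∈ Kt := by
  choose c s hs using H.spec
  refine ⟨wkBall z0 ρ ∪ ⋃ l, wkBall (c l) (s l), ?_, ?_, ?_, ?_⟩
  · exact (wk_ball_compact z0 H.arr.rho_pos.le).union (isCompact_iUnion fun l => wk_ball_compact (c l) (hs l).1.le)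
  · exact Set.union_subset H.arr.ball (Set.iUnion_subset fun l => (hs l).2.1)
  · intro y hy
    left
    have h1 : y ∈ tsupport φ := wkg_lap_tsupport φ (subset_tsupport _ hy)
    by_contra hn
    have h2 : ρ ^ 2 < sqDist y z0 := not_le.1 hn
    refine H.arr.phi_supp y ?_ h1
    have h3 : (ρ / 1000) ^ 2 ≤ ρ ^ 2 := pow_le_pow_left₀ (by have := H.arr.rho_pos; positivity) (by have := H.arr.rho_pos; linarith) 2
    linarith
  · intro l y hy
    right
    refine Set.mem_iUnion.2 ⟨l, ?_⟩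
    by_contra hn
    exact hy ((hs l).2.2.2.1 y hn)

/-- the face of a test site meets every set which contains the supports -/
theorem pin_ig_T_meets {Kt : Set (ℝ × ℝ)} (h1 : ∀ y, lap2 φ y ≠ 0 → y ∈ Kt) (h2 : ∀ l y, g l y ≠ 0 → y ∈ Kt) {n : ℕ} {u : TV}
    (hu : u ∈ pinIgT δ F φ g n) : (hexFace (δ n) u ∩ Kt).Nonempty := by
  classical
  unfold pinIgT at hu
  rcases (Finset.mem_filter.1 hu).2 with h | ⟨l, h⟩
  · by_contra hcon
    refine h (hg_latW_eq_zero fun y hy => ?_)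
    by_contra hne
    exact hcon ⟨y, hy, h1 y hne⟩
  · by_contra hcon
    refine h (hg_latW_eq_zero fun y hy => ?_)
    by_contra hne
    exact hcon ⟨y, hy, h2 l y hne⟩

/-! ## 3. the geometry of the gaps at one mesh -/

/-- **THE GAP INSTANCE.**      `r0` = big radius (depends on `ε` and on the tests), `η` = small radius, `a0 = a0(η)`. -/
theorem pin_ig_at (H : PinStd D δ F γ γs CC0 t z0 ρ q φ g lm lp) {ε : ℝ} (hε0 : 0 < ε) (hε : ∀ i, i < CC0.card → 2 * ε ≤ t (i + 1) - t i) :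
    ∃ r0 : ℝ, 0 < r0 ∧ ∀ η : ℝ, 0 < η → η < r0 → ∃ a0 : ℝ, 0 < a0 ∧ ∀ a : ℝ, 0 < a → a ≤ a0 → a ≤ ε → ∀ᶠ n in atTop,
      PinGapAt (fun i : Fin CC0.card => pinGp δ F γs t a n i) (fun i : Fin CC0.card => pinGp δ F γs t ε n i)
        (fun c : Fin CC0.card => pinWinV (δ n) (F n) (γs n) (pinGeoWin t a c)) (latBd (F n)) (pinIgT δ F φ g n)
        (fun c : Fin CC0.card => pinIgZ (δ n) (γ (Circle.exp (t c)))) ⌈η / δ n⌉₊ ⌊r0 / δ n⌋₊ (pinIgPv CC0.card) ∧
      ((⌈η / δ n⌉₊ : ℕ) : ℝ) ≤ 2 * η / r0 * ((⌊r0 / δ n⌋₊ : ℕ) : ℝ) := by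
  obtain ⟨Kt, hKc, hKD, hK1, hK2⟩ := pin_ig_Kt H
  obtain ⟨r0, hr0, hbig⟩ := pin_win_big H.dat H.dom.1 hε0 hKc hKD
  refine ⟨r0, hr0, fun η hη hηr => ?_⟩
  obtain ⟨a0, ha0, hsmall⟩ := pin_win_small H.dat hη
  refine ⟨a0, ha0, fun a ha haa haε => ?_⟩
  have hd1 : ∀ᶠ n in atTop, δ n < min (r0 - η) (η / 3) :=
    H.dat.app.2.1.eventually (gt_mem_nhds (lt_min (by linarith) (by positivity)))
  filter_upwards [hbig, hsmall, hd1] with n hb hs hd
  have hδ : 0 < δ n := H.dat.pos n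
  have hd2 : δ n < r0 - η := hd.trans_le (min_le_left _ _)
  have hd3 : δ n < η / 3 := hd.trans_le (min_le_right _ _)
  -- the two radii
  have c1 : η / δ n ≤ (⌈η / δ n⌉₊ : ℝ) := Nat.le_ceil _
  have c2 : (⌈η / δ n⌉₊ : ℝ) < η / δ n + 1 := Nat.ceil_lt_add_one (by positivity)
  have f1 : (⌊r0 / δ n⌋₊ : ℝ) ≤ r0 / δ n := Nat.floor_le (by positivity)
  have f2 : r0 / δ n < (⌊r0 / δ n⌋₊ : ℝ) + 1 := Nat.lt_floor_add_one _
  have k1 : η ≤ (⌈η / δ n⌉₊ : ℝ) * δ n := by rwa [← div_le_iff₀ hδ]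
  have k2 : (⌊r0 / δ n⌋₊ : ℝ) * δ n ≤ r0 := by rwa [← le_div_iff₀ hδ]
  have e1 : η / δ n + 1 ≤ r0 / δ n := by
    rw [div_add_one hδ.ne']
    exact div_le_div_of_nonneg_right (by linarith) hδ.le
  have e3 : 3 < η / δ n := by rw [lt_div_iff₀ hδ]; linarith
  have hmem : ∀ c : Fin CC0.card, Circle.exp (t c) ∈ CC0 := fun c => (H.dat.ang.mem _).2 ⟨c, c.2, rfl⟩
  have hz : ∀ c : Fin CC0.card, γ (Circle.exp (t c)) ∈ hexFace (δ n) (pinIgZ (δ n) (γ (Circle.exp (t c)))) := fun c => pin_ig_Z_mem hδ _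
  refine ⟨⟨fun i => ⟨?_, ?_, ?_, ?_⟩, ?_, ?_, ?_, ?_, fun c => ?_, fun c l => ?_, fun c => ?_, fun c => ?_, fun c => ?_, pin_ig_cyc _⟩, ?_⟩
  · exact pin_win_mono (pin_geo_arc_mono t haε i)
  · exact pin_win_nonempty hδ (H.dat.rng n) (pin_win_arc_nonempty (hε i i.2))
  · exact pin_win_conn hδ (H.dat.cont n) (H.dat.rng n) (pin_geo_arc_preconnected t a i)
  · exact pin_win_conn hδ (H.dat.cont n) (H.dat.rng n) (pin_geo_arc_preconnected t ε i)
  · rw [pin_win_bd_eq hδ (H.dat.rng n) H.dat.ang ha, pin_ig_range_univ, pin_ig_range_univ]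
    rfl
  · exact pin_ig_bd_conn hδ (H.dat.cont n) (H.dat.rng n)
  · exact Nat.ceil_pos.2 (by positivity)
  · have : (⌈η / δ n⌉₊ : ℝ) < (⌊r0 / δ n⌋₊ : ℝ) + 1 := by linarith
    have h2 : ⌈η / δ n⌉₊ < ⌊r0 / δ n⌋₊ + 1 := by exact_mod_cast this
    omega
  · exact (hs a ha haa c c.2 _ (hz c) _ k1).1
  · exact ((hb _ (hmem c) _ (hz c) _ k2).1 l l.2).symm
  · rw [Finset.disjoint_left]
    intro u hu hu'
    obtain ⟨y, hy1, hy2⟩ := pin_ig_T_meets hK1 hK2 hu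
    exact Set.disjoint_left.1 ((hb _ (hmem c) _ (hz c) _ k2).2.1 u hu') hy1 hy2
  · exact (hs a ha haa c c.2 _ (hz c) _ k1).2.1
  · exact (hs a ha haa c c.2 _ (hz c) _ k1).2.2
  · have h1 : 2 * η / r0 * (r0 / δ n - 1) ≤ 2 * η / r0 * (⌊r0 / δ n⌋₊ : ℝ) :=
      mul_le_mul_of_nonneg_left (by linarith) (by positivity)
    have h2 : 2 * η / r0 * (r0 / δ n - 1) = 2 * (η / δ n) - 2 * η / r0 := by
      field_simp
    have h3 : 2 * η / r0 < 2 := by rw [div_lt_iff₀ hr0]; linarith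
    linarith

/-- the same for every ratio `θ` (the first conjunct of `hgap` in `pin_gap_main`) -/
theorem pin_ig_theta (H : PinStd D δ F γ γs CC0 t z0 ρ q φ g lm lp) {ε : ℝ} (hε0 : 0 < ε) (hε : ∀ i, i < CC0.card → 2 * ε ≤ t (i + 1) - t i)
    {θ : ℝ} (hθ : 0 < θ) :
    ∃ a : ℝ, 0 < a ∧ a ≤ ε ∧ ∃ r1 r2 : ℕ → ℕ, ∀ᶠ n in atTop,
      PinGapAt (fun i : Fin CC0.card => pinGp δ F γs t a n i) (fun i : Fin CC0.card => pinGp δ F γs t ε n i)
        (fun c : Fin CC0.card => pinWinV (δ n) (F n) (γs n) (pinGeoWin t a c)) (latBd (F n)) (pinIgT δ F φ g n)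
        (fun c : Fin CC0.card => pinIgZ (δ n) (γ (Circle.exp (t c)))) (r1 n) (r2 n) (pinIgPv CC0.card) ∧ (r1 n : ℝ) ≤ θ * r2 n := by
  obtain ⟨r0, hr0, h⟩ := pin_ig_at H hε0 hε
  set η : ℝ := min (r0 / 2) (θ * r0 / 2) with hη
  have hη0 : 0 < η := lt_min (by positivity) (by positivity)
  have hη1 : η < r0 := (min_le_left _ _).trans_lt (by linarith)
  have hη2 : 2 * η / r0 ≤ θ := by
    rw [div_le_iff₀ hr0]
    linarith [min_le_right (r0 / 2) (θ * r0 / 2)]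
  obtain ⟨a0, ha0, h⟩ := h η hη0 hη1
  refine ⟨min a0 ε, lt_min ha0 hε0, min_le_right _ _, fun n => ⌈η / δ n⌉₊, fun n => ⌊r0 / δ n⌋₊, ?_⟩
  filter_upwards [h (min a0 ε) (lt_min ha0 hε0) (min_le_left _ _) (min_le_right _ _)] with n hn
  exact ⟨hn.1, hn.2.trans (mul_le_mul_of_nonneg_right hη2 (Nat.cast_nonneg _))⟩

/-! ## 4. the observables -/

/-- a smeared field reads the heights on the sites of nonzero weight only -/
theorem pin_ig_sm_loc {f : ℝ × ℝ → ℝ} {n : ℕ} {S : Finset TV} (hS : ∀ u ∈ latInt (F n), latW (δ n) f u ≠ 0 → u ∈ S) :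
    HtLoc S (htSm (δ n) (F n) f) := by
  intro h h' hh
  rw [ht_sm_def, ht_sm_def]
  refine Finset.sum_congr rfl fun u hu => ?_
  by_cases h0 : latW (δ n) f u = 0
  · rw [h0, zero_mul, zero_mul]
  · rw [hh u (hS u hu h0)]

/-- a smeared field of total weight zero is a gradient observable -/
theorem pin_ig_sm_grad {f : ℝ × ℝ → ℝ} {n : ℕ} (h0 : ∑ u ∈ latInt (F n), latW (δ n) f u = 0) : HtGrad (htSm (δ n) (F n) f) := by
  intro h c
  rw [ht_sm_def, ht_sm_def]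
  have e : ∀ u ∈ latInt (F n), latW (δ n) f u * (((h u + c : ℤ)) : ℝ) = latW (δ n) f u * (h u : ℝ) + latW (δ n) f u * (c : ℝ) := by
    intro u _
    push_cast
    ring
  rw [Finset.sum_congr rfl e, Finset.sum_add_distrib, ← Finset.sum_mul, h0, zero_mul, add_zero]

/-- eventually the weights of a test of integral zero carried by `Kt` have total zero on the interior sites -/
theorem pin_ig_tot (H : PinStd D δ F γ γs CC0 t z0 ρ q φ g lm lp) {Kt : Set (ℝ × ℝ)} (hKc : IsCompact Kt) (hKD : Kt ⊆ D) :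
    ∀ᶠ n in atTop, ∀ f : ℝ × ℝ → ℝ, Integrable f → (∀ y, f y ≠ 0 → y ∈ Kt) → ∑ u ∈ latInt (F n), latW (δ n) f u = ∫ y, f y := by
  filter_upwards [hg_faces_meeting_compact H.dom.1 H.dat.app hKc hKD] with n hn f hf hK
  refine hg_sum_latW_eq_of_meets (H.dat.pos n) hf fun u hu => ?_
  obtain ⟨y, hy1, hy2⟩ := hu
  exact lat_mem_int.2 (hn u ⟨y, hy1, hK y hy2⟩)

theorem pin_ig_int_lap {φ : ℝ × ℝ → ℝ} (hφ : ContDiff ℝ ∞ φ) (hc : HasCompactSupport φ) : ∫ y, lap2 φ y = 0 := by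
  have := wkg_green (D := univ) isOpen_univ (u := fun _ => 1) contDiffOn_const (hφ.of_le (by norm_cast)) hc (subset_univ _)
  have e : lap2 (fun _ : ℝ × ℝ => (1 : ℝ)) = fun _ => 0 := by
    funext z; simp [lap2]
  simpa [e] using this

/-- the insertion has compact support -/
theorem pin_ig_phi_compact (H : PinStd D δ F γ γs CC0 t z0 ρ q φ g lm lp) : HasCompactSupport φ := by
  refine (wk_ball_compact z0 H.arr.rho_pos.le).of_isClosed_subset (isClosed_tsupport φ) fun y hy => ?_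
  by_contra hn
  have h2 : ρ ^ 2 < sqDist y z0 := not_le.1 hn
  refine H.arr.phi_supp y ?_ hy
  have h3 : (ρ / 1000) ^ 2 ≤ ρ ^ 2 := pow_le_pow_left₀ (by have := H.arr.rho_pos; positivity) (by have := H.arr.rho_pos; linarith) 2
  linarith

/-- the spectators have compact support -/
theorem pin_ig_g_compact (H : PinStd D δ F γ γs CC0 t z0 ρ q φ g lm lp) (l : Fin q) : HasCompactSupport (g l) := by
  obtain ⟨c, s, hs, -, -, h0, -⟩ := H.spec l
  refine HasCompactSupport.intro (wk_ball_compact c hs.le) fun y hy => h0 y hy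

/-- **the insertion** `X_n = htSm (lap2 φ)` is a local gradient observable of the test sites -/
theorem pin_ig_X (H : PinStd D δ F γ γs CC0 t z0 ρ q φ g lm lp) :
    ∀ᶠ n in atTop, HtLoc (pinIgT δ F φ g n) (htSm (δ n) (F n) (lap2 φ)) ∧ HtGrad (htSm (δ n) (F n) (lap2 φ)) := by
  classical
  obtain ⟨Kt, hKc, hKD, hK1, hK2⟩ := pin_ig_Kt H
  have hc := pin_ig_phi_compact H
  have hi : Integrable (lap2 φ) :=
    (wkg_lap_continuous (H.arr.phi_smooth.of_le (by norm_cast))).integrable_of_hasCompactSupport (wkg_lap_compact hc)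
  filter_upwards [pin_ig_tot H hKc hKD] with n hn
  refine ⟨pin_ig_sm_loc fun u hu h0 => ?_, pin_ig_sm_grad ?_⟩
  · unfold pinIgT
    exact Finset.mem_filter.2 ⟨hu, Or.inl h0⟩
  · rw [hn _ hi hK1, pin_ig_int_lap H.arr.phi_smooth hc]

/-- **the spectators** `Φ_n = ∏ limTr M (htSm (g l))` -/
theorem pin_ig_Phi (H : PinStd D δ F γ γs CC0 t z0 ρ q φ g lm lp) {M : ℝ} (hM : 0 < M) :
    ∀ᶠ n in atTop, HtLoc (pinIgT δ F φ g n) (fun h => ∏ l, limTr M (htSm (δ n) (F n) (g l) h)) ∧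
      HtGrad (fun h => ∏ l, limTr M (htSm (δ n) (F n) (g l) h)) ∧ ∀ h, |∏ l, limTr M (htSm (δ n) (F n) (g l) h)| ≤ M ^ q := by
  classical
  obtain ⟨Kt, hKc, hKD, hK1, hK2⟩ := pin_ig_Kt H
  filter_upwards [pin_ig_tot H hKc hKD] with n hn
  have hloc : ∀ l, HtLoc (pinIgT δ F φ g n) (htSm (δ n) (F n) (g l)) := fun l => pin_ig_sm_loc fun u hu h0 => by
    unfold pinIgT
    exact Finset.mem_filter.2 ⟨hu, Or.inr ⟨l, h0⟩⟩
  have hgr : ∀ l, HtGrad (htSm (δ n) (F n) (g l)) := fun l => pin_ig_sm_grad (by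
    rw [hn _ ((H.arr.g_cont l).integrable_of_hasCompactSupport (pin_ig_g_compact H l)) (hK2 l), H.arr.g_zero l])
  refine ⟨fun h h' hh => ?_, fun h c => ?_, fun h => ?_⟩
  · exact Finset.prod_congr rfl fun l _ => by rw [hloc l h h' hh]
  · exact Finset.prod_congr rfl fun l _ => by rw [hgr l h c]
  · rw [Finset.abs_prod]
    calc ∏ l, |limTr M (htSm (δ n) (F n) (g l) h)| ≤ ∏ _l : Fin q, M :=
          Finset.prod_le_prod (fun _ _ => abs_nonneg _) fun l _ => lim_tr_abs_le hM.le _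
      _ = M ^ q := by simp

/-- each spectator field is a local gradient observable of the test sites -/
theorem pin_ig_g (H : PinStd D δ F γ γs CC0 t z0 ρ q φ g lm lp) (l : Fin q) :
    ∀ᶠ n in atTop, HtLoc (pinIgT δ F φ g n) (htSm (δ n) (F n) (g l)) ∧ HtGrad (htSm (δ n) (F n) (g l)) := by
  classical
  obtain ⟨Kt, hKc, hKD, hK1, hK2⟩ := pin_ig_Kt H
  filter_upwards [pin_ig_tot H hKc hKD] with n hn
  refine ⟨pin_ig_sm_loc fun u hu h0 => ?_, pin_ig_sm_grad ?_⟩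
  · unfold pinIgT
    exact Finset.mem_filter.2 ⟨hu, Or.inr ⟨l, h0⟩⟩
  · rw [hn _ ((H.arr.g_cont l).integrable_of_hasCompactSupport (pin_ig_g_compact H l)) (hK2 l), H.arr.g_zero l]

/-! ## 5. the statement consumed by `exit_pin_gap` -/

/-- **THE GEOMETRY OF THE GAP CLOSING**, shape of helper76 -/
theorem pin_ig_gap (H : PinStd D δ F γ γs CC0 t z0 ρ q φ g lm lp) {ε : ℝ} (hε0 : 0 < ε) (hε : ∀ i, i < CC0.card → 2 * ε ≤ t (i + 1) - t i) :
    ∃ T : ℕ → Finset TV,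
      (∀ᶠ n in atTop, HtLoc (T n) (htSm (δ n) (F n) (lap2 φ)) ∧ HtGrad (htSm (δ n) (F n) (lap2 φ))) ∧
      (∀ l, ∀ᶠ n in atTop, HtLoc (T n) (htSm (δ n) (F n) (g l)) ∧ HtGrad (htSm (δ n) (F n) (g l))) ∧
      ∀ θ : ℝ, 0 < θ → ∃ a : ℝ, 0 < a ∧ a ≤ ε ∧ ∃ (z : ℕ → Fin CC0.card → TV) (r1 r2 : ℕ → ℕ), ∀ᶠ n in atTop,
        PinGapAt (fun i : Fin CC0.card => pinGp δ F γs t a n i) (fun i : Fin CC0.card => pinGp δ F γs t ε n i)
          (fun c : Fin CC0.card => pinWinV (δ n) (F n) (γs n) (pinGeoWin t a c)) (latBd (F n)) (T n) (z n) (r1 n) (r2 n)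
          (fun c : Fin CC0.card => ⟨pinWinPrev CC0.card c, pin_win_prev_lt c.isLt⟩) ∧ (r1 n : ℝ) ≤ θ * r2 n := by
  refine ⟨pinIgT δ F φ g, pin_ig_X H, pin_ig_g H, fun θ hθ => ?_⟩
  obtain ⟨a, ha, haε, r1, r2, h⟩ := pin_ig_theta H hε0 hε hθ
  exact ⟨a, ha, haε, fun n c => pinIgZ (δ n) (γ (Circle.exp (t c))), r1, r2, h⟩

end std

end Claimed.Agent.R291
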