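import Claimed.Agent.R291.Defs.Pin
import Claimed.Agent.R291.Ht.Basic
import Claimed.Agent.R291.Bdy.HInv

/-!
# Row 291 (S0539), Pin/Dlr : THE CORE OF NODE N2 OF PIN: THE PLANE LAW GIVEN ITS TRACE ON A BOUNDARY LAYER IS THE HEIGHT LAW      (owner helper138; head helper34; prefix `pin_dlr_`)

TEX[def:brackets], TEX[pins:bracket-order] (05-pins.tex): "the law of the filled bracket = mixture of the weighted height laws over the traces".   HEIGHT-ONLY (design D4 of helper48): no spin, no cell.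
Only hypothesis on the plane: `PinHl x` = the field `lim` of `LimPlane` (existence of `htPl x` on local gradient observables).

* `pin_dlr_bc`       (1) the law in `A` reads the boundary function on `S \ A` only, for `G` local in `S ⊇ latOut A`
* `pin_dlr_fin`      (2) finite volume: on `{h - h v = t - t v on latBd F}` the anchored heights in `latInt F` have the law `htE x (latInt F) t`
* `pin_dlr_pl`       (3) the same for `htPl x`
* `pin_dlr_p_*`         (4) `htPl x` is linear, normalised, monotone on local gradient observables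
* `pin_dlr_h_eq`       `∑ᶠ c` collapses: `pinHat x (Φ * 1{h = t on S}) = htPl x (1{h - h v = t - t v on S} * Φ (h - h v + t v))`
* `pin_dlr_hat`      `pinHat x (G * 1{h = t on latBd F}) = pinHat x (1{h = t on latBd F}) * htE x (latInt F) t G`
* `pinTrS B D`       the finite set of the traces (`{0,1}` on `B`, `0` on `D` and off `B`);   `pin_dlr_abs_sum` : `1{PinAbs B D} = ∑_t 1{h = t on B}`
* `pinNu x F D`      THE TRACE LAW of the upper filled bracket;   **`pin_dlr_mix`** : `pinMix x F (pinTrS ..) (pinNu ..) G = pinHat x (G * 1{PinAbs}) / pinHat x (1{PinAbs})`,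
  `pin_dlr_law` : `PinTrLaw δ F P r (pinTrS ..) (pinNu ..)` as soon as the pin has positive mass and `D` contains the sites of the layer off the windows.
-/

set_option autoImplicit false

namespace Claimed.Agent.R291

open Filter Topology
open Claims Claims.C0467

/-- the plane limit exists on local gradient observables (= the field `lim` of `LimPlane`) -/
def PinHl (x : ℝ) : Prop :=
  ∀ (S : Finset TV) (G : (TV → ℤ) → ℝ), HtLoc S G → HtGrad G → Tendsto (fun R : ℕ => htE x (latBall 0 R) 0 G) atTop (𝓝 (htPl x G))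

/-- `h = t` on `S` -/
def PinTrEq (S : Finset TV) (t h : TV → ℤ) : Prop := ∀ u ∈ S, h u = t u

/-- `h = t` on `S` up to a constant, anchored at `v` -/
def PinTrAt (S : Finset TV) (v : TV) (t h : TV → ℤ) : Prop := ∀ u ∈ S, h u - h v = t u - t v

open Classical in
/-- the traces: values in `{0,1}`, `0` off `B` and on `D` -/
noncomputable def pinTrS (B D : Finset TV) : Finset (TV → ℤ) := (B \ D).powerset.image fun s u => if u ∈ s then 1 else 0

/-- the trace law of the upper filled bracket -/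
noncomputable def pinNu (x : ℝ) (F D : Finset TV) (t : TV → ℤ) : ℝ :=
  pinHat x (fun h => pinI (PinTrEq (latBd F) t h)) / pinHat x (fun h => pinI (PinAbs (latBd F) D h))

theorem pin_dlr_eqns_cite : True := by
  have := @PinHl.eq_1; have := @PinTrEq.eq_1; have := @PinTrAt.eq_1; have := @pinTrS.eq_1; have := @pinNu.eq_1
  trivial

theorem pin_dlr_hl_of_plane {x v : ℝ} (h : LimPlane x v) : PinHl x := h.lim

/-! ## 0. indicators -/

theorem pin_dlr_I_pos {p : Prop} (h : p) : pinI p = 1 := by unfold pinI; rw [if_pos h]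

theorem pin_dlr_I_neg {p : Prop} (h : ¬ p) : pinI p = 0 := by unfold pinI; rw [if_neg h]

theorem pin_dlr_I_nonneg (p : Prop) : 0 ≤ pinI p := by
  by_cases h : p
  · rw [pin_dlr_I_pos h]; exact zero_le_one
  · rw [pin_dlr_I_neg h]

theorem pin_dlr_I_le_one (p : Prop) : pinI p ≤ 1 := by
  by_cases h : p
  · rw [pin_dlr_I_pos h]
  · rw [pin_dlr_I_neg h]; exact zero_le_one

theorem pin_dlr_I_congr {p q : Prop} (h : p ↔ q) : pinI p = pinI q := by rw [propext h]

/-- indicators of pairwise exclusive events add up to the indicator of their union -/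
theorem pin_dlr_I_sum {ι : Type*} (T : Finset ι) (P : ι → Prop) (hu : ∀ a ∈ T, ∀ b ∈ T, P a → P b → a = b) :
    ∑ a ∈ T, pinI (P a) = pinI (∃ a ∈ T, P a) := by
  by_cases h : ∃ a ∈ T, P a
  · obtain ⟨a, ha, hp⟩ := h
    rw [pin_dlr_I_pos ⟨a, ha, hp⟩, Finset.sum_eq_single a, pin_dlr_I_pos hp]
    · intro b hb hne
      exact pin_dlr_I_neg fun hq => hne (hu b hb a ha hq hp)
    · intro hn; exact absurd ha hn
  · rw [pin_dlr_I_neg h]
    exact Finset.sum_eq_zero fun a ha => pin_dlr_I_neg fun hp => h ⟨a, ha, hp⟩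

/-! ## 1. the boundary function -/

/-- **(1)** -/
theorem pin_dlr_bc (x : ℝ) {A S : Finset TV} (hS : latOut A ⊆ S) {b b' : TV → ℤ} (hb : ∀ u ∈ S, u ∉ A → b u = b' u)
    {G : (TV → ℤ) → ℝ} (hG : HtLoc S G) : htE x A b G = htE x A b' G := by
  refine bdy_E_bc x A (fun u hu => hb u (hS hu) (bdy_mem_out.1 hu).1) fun h h' hh hh' he => hG h h' fun u hu => ?_
  by_cases hA : u ∈ A
  · exact he u hA
  · rw [hh.1 u hA, hh'.1 u hA, hb u hu hA]

theorem pin_dlr_out_int (F : Finset TV) : latOut (latInt F) ⊆ F := fun _ hu =>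
  lat_cl_int_sub F (bdy_cl_eq.2 (Or.inr hu))

theorem pin_dlr_bd_not_int {F : Finset TV} {u : TV} (hu : u ∈ latBd F) : u ∉ latInt F := by
  rw [lat_int_eq, Finset.mem_sdiff]
  exact fun h => h.2 hu

theorem pin_dlr_bd_of_not_int {F : Finset TV} {u : TV} (hu : u ∈ F) (h : u ∉ latInt F) : u ∈ latBd F := by
  by_contra hn
  exact h (by rw [lat_int_eq, Finset.mem_sdiff]; exact ⟨hu, hn⟩)

/-! ## 2. finite volume -/

theorem pin_dlr_at_off {F : Finset TV} {v : TV} (hv : v ∈ latBd F) (t : TV → ℤ) {g h : TV → ℤ} (hgh : ∀ u, u ∉ latInt F → g u = h u) :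
    pinI (PinTrAt (latBd F) v t g) = pinI (PinTrAt (latBd F) v t h) := by
  refine pin_dlr_I_congr (forall_congr' fun u => forall_congr' fun hu => ?_)
  rw [hgh u (pin_dlr_bd_not_int hu), hgh v (pin_dlr_bd_not_int hv)]

/-- the conditional law -/
theorem pin_dlr_in (x : ℝ) {F : Finset TV} {v : TV} (hv : v ∈ latBd F) {t h : TV → ℤ} (hp : PinTrAt (latBd F) v t h)
    {G : (TV → ℤ) → ℝ} (hG : HtLoc F G) :
    htE x (latInt F) h (fun g => G fun u => g u - g v + t v) = htE x (latInt F) t G := by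
  have e1 : htE x (latInt F) h (fun g => G fun u => g u - g v + t v)
      = htE x (latInt F) h (fun g => G fun u => g u + (t v - h v)) := by
    refine ht_E_congr x _ _ fun g hg => ?_
    rw [hg.1 v (pin_dlr_bd_not_int hv)]
    congr 1
    funext u
    ring
  rw [e1, ← ht_E_shift]
  refine pin_dlr_bc x (pin_dlr_out_int F) (fun u hu hn => ?_) hG
  have := hp u (pin_dlr_bd_of_not_int hu hn)
  linarith

/-- **(2)** finite volume, any ambient free set `A ⊇ latInt F`, any boundary function -/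
theorem pin_dlr_fin {x : ℝ} (hx : 0 < x) {F A : Finset TV} (hFA : latInt F ⊆ A) {v : TV} (hv : v ∈ latBd F) (t b : TV → ℤ)
    {G : (TV → ℤ) → ℝ} (hG : HtLoc F G) :
    htE x A b (fun h => pinI (PinTrAt (latBd F) v t h) * G fun u => h u - h v + t v)
      = htE x A b (fun h => pinI (PinTrAt (latBd F) v t h)) * htE x (latInt F) t G := by
  rw [ht_dlr_mul hx hFA b (U := fun h => pinI (PinTrAt (latBd F) v t h)) (fun g h hgh => pin_dlr_at_off hv t hgh)
    (fun h => G fun u => h u - h v + t v), ← ht_E_mul_const]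
  refine ht_E_congr x A b fun h _ => ?_
  by_cases hp : PinTrAt (latBd F) v t h
  · rw [pin_dlr_in x hv hp hG]
  · rw [pin_dlr_I_neg hp, zero_mul, zero_mul]

/-! ## 3. the plane functional -/

theorem pin_dlr_ball_ex (S : Finset TV) : ∃ R0 : ℕ, ∀ R, R0 ≤ R → S ⊆ latBall 0 R := by
  refine ⟨S.sup latN, fun R hR u hu => ?_⟩
  rw [lat_mem_ball, sub_zero]
  exact (Finset.le_sup (f := latN) hu).trans hR

section plane

variable {x : ℝ}

theorem pin_dlr_p_congr {G1 G2 : (TV → ℤ) → ℝ} (h : ∀ H, G1 H = G2 H) : htPl x G1 = htPl x G2 := by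
  rw [show G1 = G2 from funext h]

theorem pin_dlr_p_const (hx : 0 < x) (hl : PinHl x) (c : ℝ) : htPl x (fun _ => c) = c := by
  refine tendsto_nhds_unique (hl ∅ _ (fun _ _ _ => rfl) (fun _ _ => rfl)) ?_
  refine tendsto_const_nhds.congr fun R => ?_
  rw [ht_E_const hx (ht_adm_zero _)]

theorem pin_dlr_p_mono (hx : 0 < x) (hl : PinHl x) {S : Finset TV} {G1 G2 : (TV → ℤ) → ℝ} (l1 : HtLoc S G1) (g1 : HtGrad G1)
    (l2 : HtLoc S G2) (g2 : HtGrad G2) (h : ∀ H, G1 H ≤ G2 H) : htPl x G1 ≤ htPl x G2 :=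
  le_of_tendsto_of_tendsto' (hl S G1 l1 g1) (hl S G2 l2 g2) fun _ => ht_E_mono hx _ _ fun H _ => h H

theorem pin_dlr_p_nonneg (hx : 0 < x) (hl : PinHl x) {S : Finset TV} {G : (TV → ℤ) → ℝ} (l : HtLoc S G) (g : HtGrad G)
    (h : ∀ H, 0 ≤ G H) : 0 ≤ htPl x G :=
  ge_of_tendsto' (hl S G l g) fun _ => ht_E_nonneg hx _ _ fun H _ => h H

theorem pin_dlr_p_smul (hl : PinHl x) {S : Finset TV} {G : (TV → ℤ) → ℝ} (l : HtLoc S G) (g : HtGrad G) (c : ℝ) :
    htPl x (fun H => c * G H) = c * htPl x G := by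
  refine tendsto_nhds_unique (hl S _ (fun H H' hh => by show c * G H = c * G H'; rw [l H H' hh])
    (fun H a => by show c * G (fun u => H u + a) = c * G H; rw [g H a])) ?_
  refine ((hl S G l g).const_mul c).congr fun R => ?_
  rw [ht_E_smul]

theorem pin_dlr_p_mul_const (hl : PinHl x) {S : Finset TV} {G : (TV → ℤ) → ℝ} (l : HtLoc S G) (g : HtGrad G) (c : ℝ) :
    htPl x (fun H => G H * c) = htPl x G * c := by
  rw [mul_comm, ← pin_dlr_p_smul hl l g c]
  exact pin_dlr_p_congr fun H => mul_comm _ _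

/-- **(4)** finite sums -/
theorem pin_dlr_p_sum (hl : PinHl x) {S : Finset TV} {ι : Type*} (s : Finset ι) {G : ι → (TV → ℤ) → ℝ} (l : ∀ i ∈ s, HtLoc S (G i))
    (g : ∀ i ∈ s, HtGrad (G i)) : htPl x (fun H => ∑ i ∈ s, G i H) = ∑ i ∈ s, htPl x (G i) := by
  refine tendsto_nhds_unique (hl S _ (fun H H' hh => Finset.sum_congr rfl fun i hi => l i hi H H' hh)
    (fun H a => Finset.sum_congr rfl fun i hi => g i hi H a)) ?_
  refine (tendsto_finsetSum s fun i hi => hl S (G i) (l i hi) (g i hi)).congr fun R => ?_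
  rw [ht_E_sum]

theorem pin_dlr_p_add (hl : PinHl x) {S : Finset TV} {G1 G2 : (TV → ℤ) → ℝ} (l1 : HtLoc S G1) (g1 : HtGrad G1)
    (l2 : HtLoc S G2) (g2 : HtGrad G2) : htPl x (fun H => G1 H + G2 H) = htPl x G1 + htPl x G2 := by
  refine tendsto_nhds_unique (hl S _ (fun H H' hh => by show G1 H + G2 H = G1 H' + G2 H'; rw [l1 H H' hh, l2 H H' hh])
    (fun H a => by show G1 (fun u => H u + a) + G2 (fun u => H u + a) = G1 H + G2 H; rw [g1 H a, g2 H a])) ?_
  refine ((hl S G1 l1 g1).add (hl S G2 l2 g2)).congr fun R => ?_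
  rw [ht_E_add]

end plane

/-! ## 4. anchored observables -/

theorem pin_dlr_at_loc {S F : Finset TV} (hS : S ⊆ F) {v : TV} (hv : v ∈ F) (t : TV → ℤ) {Φ : (TV → ℤ) → ℝ} (hΦ : HtLoc F Φ) (c : ℤ) :
    HtLoc F fun h => pinI (PinTrAt S v t h) * Φ fun u => h u - h v + c := by
  intro h h' hh
  have e1 : pinI (PinTrAt S v t h) = pinI (PinTrAt S v t h') :=
    pin_dlr_I_congr (forall_congr' fun u => forall_congr' fun hu => by rw [hh u (hS hu), hh v hv])
  have e2 : Φ (fun u => h u - h v + c) = Φ fun u => h' u - h' v + c :=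
    hΦ _ _ fun u hu => by rw [hh u hu, hh v hv]
  show pinI (PinTrAt S v t h) * Φ (fun u => h u - h v + c) = pinI (PinTrAt S v t h') * Φ fun u => h' u - h' v + c
  rw [e1, e2]

theorem pin_dlr_at_grad (S : Finset TV) (v : TV) (t : TV → ℤ) (Φ : (TV → ℤ) → ℝ) (c : ℤ) :
    HtGrad fun h => pinI (PinTrAt S v t h) * Φ fun u => h u - h v + c := by
  intro h a
  have e1 : pinI (PinTrAt S v t fun u => h u + a) = pinI (PinTrAt S v t h) :=
    pin_dlr_I_congr (forall_congr' fun u => forall_congr' fun _ => by rw [add_sub_add_right_eq_sub])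
  have e2 : (fun u => h u + a - (h v + a) + c) = fun u => h u - h v + c := by
    funext u; rw [add_sub_add_right_eq_sub]
  show pinI (PinTrAt S v t fun u => h u + a) * Φ (fun u => h u + a - (h v + a) + c) = pinI (PinTrAt S v t h) * Φ fun u => h u - h v + c
  rw [e1, e2]

theorem pin_dlr_at_loc1 {S F : Finset TV} (hS : S ⊆ F) {v : TV} (hv : v ∈ F) (t : TV → ℤ) : HtLoc F fun h => pinI (PinTrAt S v t h) := by
  have := pin_dlr_at_loc hS hv t (Φ := fun _ => 1) (fun _ _ _ => rfl) 0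
  simpa using this

theorem pin_dlr_at_grad1 (S : Finset TV) (v : TV) (t : TV → ℤ) : HtGrad fun h => pinI (PinTrAt S v t h) := by
  have := pin_dlr_at_grad S v t (fun _ => 1) 0
  simpa using this

/-- **(3)** the plane law -/
theorem pin_dlr_pl {x : ℝ} (hx : 0 < x) (hl : PinHl x) {F : Finset TV} {v : TV} (hv : v ∈ latBd F) (t : TV → ℤ)
    {G : (TV → ℤ) → ℝ} (hG : HtLoc F G) :
    htPl x (fun h => pinI (PinTrAt (latBd F) v t h) * G fun u => h u - h v + t v)
      = htPl x (fun h => pinI (PinTrAt (latBd F) v t h)) * htE x (latInt F) t G := by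
  have hvF := lat_bd_sub F hv
  refine tendsto_nhds_unique (hl F _ (pin_dlr_at_loc (lat_bd_sub F) hvF t hG (t v)) (pin_dlr_at_grad _ v t G (t v))) ?_
  refine ((hl F _ (pin_dlr_at_loc1 (lat_bd_sub F) hvF t) (pin_dlr_at_grad1 _ v t)).mul_const (htE x (latInt F) t G)).congr' ?_
  obtain ⟨R0, hR0⟩ := pin_dlr_ball_ex (latInt F)
  filter_upwards [eventually_ge_atTop R0] with R hR
  exact (pin_dlr_fin hx (hR0 R hR) hv t 0 hG).symm

/-! ## 5. absolute heights -/

/-- the sum over the shifts has one term -/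
theorem pin_dlr_h_sum {S : Finset TV} {v : TV} (hv : v ∈ S) (t h : TV → ℤ) (Φ : (TV → ℤ) → ℝ) :
    ∑ᶠ c : ℤ, Φ (fun u => h u + c) * pinI (PinTrEq S t fun u => h u + c) = pinI (PinTrAt S v t h) * Φ fun u => h u - h v + t v := by
  rw [finsum_eq_single _ (t v - h v)]
  · have e1 : (fun u => h u + (t v - h v)) = fun u => h u - h v + t v := by funext u; ring
    have e2 : pinI (PinTrEq S t fun u => h u - h v + t v) = pinI (PinTrAt S v t h) :=
      pin_dlr_I_congr (forall_congr' fun u => forall_congr' fun _ => ⟨fun e => by linarith, fun e => by linarith⟩)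
    rw [e1, e2, mul_comm]
  · intro c hc
    rw [pin_dlr_I_neg, mul_zero]
    intro e
    exact hc (by have := e v hv; linarith)

theorem pin_dlr_h_supp {S : Finset TV} {v : TV} (hv : v ∈ S) (t h : TV → ℤ) (Φ : (TV → ℤ) → ℝ) :
    (Function.support fun c : ℤ => Φ (fun u => h u + c) * pinI (PinTrEq S t fun u => h u + c)).Finite := by
  refine (Set.finite_singleton (t v - h v)).subset fun c hc => ?_
  by_contra hne
  apply hc
  show Φ (fun u => h u + c) * pinI (PinTrEq S t fun u => h u + c) = 0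
  rw [pin_dlr_I_neg, mul_zero]
  intro e
  exact hne (by have := e v hv; show c = t v - h v; linarith)

theorem pin_dlr_h_eq (x : ℝ) {S : Finset TV} {v : TV} (hv : v ∈ S) (t : TV → ℤ) (Φ : (TV → ℤ) → ℝ) :
    pinHat x (fun h => Φ h * pinI (PinTrEq S t h)) = htPl x fun h => pinI (PinTrAt S v t h) * Φ fun u => h u - h v + t v := by
  unfold pinHat
  exact pin_dlr_p_congr fun h => pin_dlr_h_sum hv t h Φ

theorem pin_dlr_h_eq1 (x : ℝ) {S : Finset TV} {v : TV} (hv : v ∈ S) (t : TV → ℤ) :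
    pinHat x (fun h => pinI (PinTrEq S t h)) = htPl x fun h => pinI (PinTrAt S v t h) := by
  have := pin_dlr_h_eq x hv t fun _ => 1
  simpa using this

/-- **the plane measure on absolute heights given the trace** -/
theorem pin_dlr_hat {x : ℝ} (hx : 0 < x) (hl : PinHl x) {F : Finset TV} {v : TV} (hv : v ∈ latBd F) (t : TV → ℤ)
    {G : (TV → ℤ) → ℝ} (hG : HtLoc F G) :
    pinHat x (fun h => G h * pinI (PinTrEq (latBd F) t h)) = pinHat x (fun h => pinI (PinTrEq (latBd F) t h)) * htE x (latInt F) t G := by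
  rw [pin_dlr_h_eq x hv, pin_dlr_h_eq1 x hv, pin_dlr_pl hx hl hv t hG]

theorem pin_dlr_h_eq_nonneg {x : ℝ} (hx : 0 < x) (hl : PinHl x) {F : Finset TV} {v : TV} (hv : v ∈ latBd F) (t : TV → ℤ) :
    0 ≤ pinHat x (fun h => pinI (PinTrEq (latBd F) t h)) := by
  rw [pin_dlr_h_eq1 x hv]
  exact pin_dlr_p_nonneg hx hl (pin_dlr_at_loc1 (lat_bd_sub F) (lat_bd_sub F hv) t) (pin_dlr_at_grad1 _ v t) fun _ => pin_dlr_I_nonneg _

/-! ## 6. the traces -/

theorem pin_dlr_mem_trS {B D : Finset TV} {t : TV → ℤ} :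
    t ∈ pinTrS B D ↔ (∀ u, t u = 0 ∨ t u = 1) ∧ (∀ u, u ∉ B → t u = 0) ∧ ∀ u ∈ D, t u = 0 := by
  classical
  unfold pinTrS
  rw [Finset.mem_image]
  constructor
  · rintro ⟨s, hs, rfl⟩
    rw [Finset.mem_powerset] at hs
    refine ⟨fun u => ?_, fun u hu => ?_, fun u hu => ?_⟩
    · by_cases h : u ∈ s
      · right; exact if_pos h
      · left; exact if_neg h
    · exact if_neg fun h => hu (Finset.mem_sdiff.1 (hs h)).1
    · exact if_neg fun h => (Finset.mem_sdiff.1 (hs h)).2 hu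
  · rintro ⟨h1, h2, h3⟩
    refine ⟨(B \ D).filter fun u => t u = 1, Finset.mem_powerset.2 (Finset.filter_subset _ _), ?_⟩
    funext u
    by_cases h : t u = 1
    · have hB : u ∈ B := by
        by_contra hn
        rw [h2 u hn] at h
        exact zero_ne_one h
      have hD : u ∉ D := fun hd => by
        rw [h3 u hd] at h
        exact zero_ne_one h
      rw [if_pos (Finset.mem_filter.2 ⟨Finset.mem_sdiff.2 ⟨hB, hD⟩, h⟩), h]
    · have hm : u ∉ (B \ D).filter fun u => t u = 1 := fun hm => h (Finset.mem_filter.1 hm).2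
      rw [if_neg hm]
      exact ((h1 u).resolve_right h).symm

/-- **the pin is the disjoint union of the trace events** -/
theorem pin_dlr_abs_sum {B D : Finset TV} (hD : D ⊆ B) (h : TV → ℤ) : pinI (PinAbs B D h) = ∑ t ∈ pinTrS B D, pinI (PinTrEq B t h) := by
  classical
  rw [pin_dlr_I_sum]
  · refine pin_dlr_I_congr ⟨fun hp => ?_, ?_⟩
    · refine ⟨fun u => if u ∈ B then h u else 0, pin_dlr_mem_trS.2 ⟨fun u => ?_, fun u hu => if_neg hu, fun u hu => ?_⟩, fun u hu => ?_⟩
      · by_cases hu : u ∈ B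
        · simp only [if_pos hu]; exact hp.1 u hu
        · left; exact if_neg hu
      · simp only [if_pos (hD hu)]; exact hp.2 u hu
      · simp only [if_pos hu]
    · rintro ⟨t, ht, he⟩
      obtain ⟨h1, -, h3⟩ := pin_dlr_mem_trS.1 ht
      exact ⟨fun u hu => by rw [he u hu]; exact h1 u, fun u hu => by rw [he u (hD hu)]; exact h3 u hu⟩
  · intro t ht t' ht' he he'
    funext u
    by_cases hu : u ∈ B
    · rw [← he u hu, ← he' u hu]
    · rw [(pin_dlr_mem_trS.1 ht).2.1 u hu, (pin_dlr_mem_trS.1 ht').2.1 u hu]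

/-- the plane measure of the pin, with an observable, is the sum over the traces -/
theorem pin_dlr_h_abs {x : ℝ} (hl : PinHl x) {F D : Finset TV} {v : TV} (hv : v ∈ latBd F) (hD : D ⊆ latBd F)
    {G : (TV → ℤ) → ℝ} (hG : HtLoc F G) :
    pinHat x (fun h => G h * pinI (PinAbs (latBd F) D h)) = ∑ t ∈ pinTrS (latBd F) D, pinHat x fun h => G h * pinI (PinTrEq (latBd F) t h) := by
  have e : ∀ h : TV → ℤ, ∑ᶠ c : ℤ, G (fun u => h u + c) * pinI (PinAbs (latBd F) D fun u => h u + c)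
      = ∑ t ∈ pinTrS (latBd F) D, pinI (PinTrAt (latBd F) v t h) * G fun u => h u - h v + t v := by
    intro h
    have e1 : (fun c : ℤ => G (fun u => h u + c) * pinI (PinAbs (latBd F) D fun u => h u + c))
        = fun c : ℤ => ∑ t ∈ pinTrS (latBd F) D, G (fun u => h u + c) * pinI (PinTrEq (latBd F) t fun u => h u + c) := by
      funext c
      rw [pin_dlr_abs_sum hD, Finset.mul_sum]
    rw [e1, finsum_sum_comm _ _ fun t _ => pin_dlr_h_supp hv t h G]
    exact Finset.sum_congr rfl fun t _ => pin_dlr_h_sum hv t h G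
  have hvF := lat_bd_sub F hv
  unfold pinHat
  rw [pin_dlr_p_congr e, pin_dlr_p_sum hl _ (fun t _ => pin_dlr_at_loc (lat_bd_sub F) hvF t hG (t v)) fun t _ => pin_dlr_at_grad _ v t G (t v)]
  exact Finset.sum_congr rfl fun t _ => pin_dlr_p_congr fun h => (pin_dlr_h_sum hv t h G).symm

theorem pin_dlr_h_abs1 {x : ℝ} (hl : PinHl x) {F D : Finset TV} {v : TV} (hv : v ∈ latBd F) (hD : D ⊆ latBd F) :
    pinHat x (fun h => pinI (PinAbs (latBd F) D h)) = ∑ t ∈ pinTrS (latBd F) D, pinHat x fun h => pinI (PinTrEq (latBd F) t h) := by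
  have := pin_dlr_h_abs hl hv hD (G := fun _ => 1) fun _ _ _ => rfl
  simpa using this

/-! ## 7. THE MIXTURE -/

theorem pin_dlr_nu_nonneg {x : ℝ} (hx : 0 < x) (hl : PinHl x) {F D : Finset TV} {v : TV} (hv : v ∈ latBd F) (hD : D ⊆ latBd F) (t : TV → ℤ) :
    0 ≤ pinNu x F D t := by
  unfold pinNu
  refine div_nonneg (pin_dlr_h_eq_nonneg hx hl hv t) ?_
  rw [pin_dlr_h_abs1 hl hv hD]
  exact Finset.sum_nonneg fun t _ => pin_dlr_h_eq_nonneg hx hl hv t

theorem pin_dlr_nu_mass {x : ℝ} (hl : PinHl x) {F D : Finset TV} {v : TV} (hv : v ∈ latBd F) (hD : D ⊆ latBd F)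
    (hZ : 0 < pinHat x fun h => pinI (PinAbs (latBd F) D h)) : ∑ t ∈ pinTrS (latBd F) D, pinNu x F D t = 1 := by
  unfold pinNu
  rw [← Finset.sum_div, ← pin_dlr_h_abs1 hl hv hD]
  exact div_self hZ.ne'

/-- **N2, THE IDENTITY**: the upper filled bracket = the plane measure on absolute heights conditioned on the pin -/
theorem pin_dlr_mix {x : ℝ} (hx : 0 < x) (hl : PinHl x) {F D : Finset TV} {v : TV} (hv : v ∈ latBd F) (hD : D ⊆ latBd F)
    {G : (TV → ℤ) → ℝ} (hG : HtLoc F G) :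
    pinMix x F (pinTrS (latBd F) D) (pinNu x F D) G
      = pinHat x (fun h => G h * pinI (PinAbs (latBd F) D h)) / pinHat x (fun h => pinI (PinAbs (latBd F) D h)) := by
  unfold pinMix pinNu
  rw [pin_dlr_h_abs hl hv hD hG, Finset.sum_div]
  refine Finset.sum_congr rfl fun t _ => ?_
  rw [pin_dlr_hat hx hl hv t hG]
  ring

/-- the traces are upper bracket traces as soon as `D` contains the sites of the layer off the windows -/
theorem pin_dlr_tr01 {δ : ℝ} {F D : Finset TV} {P : Finset (ℝ × ℝ)} {r : ℝ}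
    (hw : ∀ u ∈ latBd F, (∀ c ∈ P, r ^ 2 ≤ sqDist (triPos δ u) c) → u ∈ D) {t : TV → ℤ} (ht : t ∈ pinTrS (latBd F) D) :
    PinTr01 δ F P r t := by
  obtain ⟨h1, h2, h3⟩ := pin_dlr_mem_trS.1 ht
  refine ⟨h1, h2, fun u hu => ?_⟩
  by_cases hb : u ∈ latBd F
  · exact h3 u (hw u hb hu)
  · exact h2 u hb

/-- **N2, THE LAW** -/
theorem pin_dlr_law {x : ℝ} (hx : 0 < x) (hl : PinHl x) {δ : ℝ} {F D : Finset TV} {P : Finset (ℝ × ℝ)} {r : ℝ} {v : TV} (hv : v ∈ latBd F)
    (hD : D ⊆ latBd F) (hw : ∀ u ∈ latBd F, (∀ c ∈ P, r ^ 2 ≤ sqDist (triPos δ u) c) → u ∈ D)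
    (hZ : 0 < pinHat x fun h => pinI (PinAbs (latBd F) D h)) : PinTrLaw δ F P r (pinTrS (latBd F) D) (pinNu x F D) where
  nonneg := pin_dlr_nu_nonneg hx hl hv hD
  mass := pin_dlr_nu_mass hl hv hD hZ
  tr := fun _ ht => pin_dlr_tr01 hw ht

/-- the observables of `PinIns` are local in `F` -/
theorem pin_dlr_sm_loc (δ : ℝ) (F : Finset TV) (f : ℝ × ℝ → ℝ) : HtLoc F (htSm δ F f) := by
  intro h h' hh
  rw [ht_sm_def, ht_sm_def]
  exact Finset.sum_congr rfl fun u hu => by rw [hh u (lat_int_sub F hu)]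

theorem pin_dlr_obs_loc (δ : ℝ) (F : Finset TV) (f : ℝ × ℝ → ℝ) {q : ℕ} (g : Fin q → ℝ × ℝ → ℝ) (M : ℝ) :
    HtLoc F fun h => htSm δ F f h * ∏ l, limTr M (htSm δ F (g l) h) := by
  intro h h' hh
  show htSm δ F f h * ∏ l, limTr M (htSm δ F (g l) h) = htSm δ F f h' * ∏ l, limTr M (htSm δ F (g l) h')
  rw [pin_dlr_sm_loc δ F f h h' hh]
  congr 1
  exact Finset.prod_congr rfl fun l _ => by rw [pin_dlr_sm_loc δ F (g l) h h' hh]

end Claimed.Agent.R291
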