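import Claimed.Agent.R291.Pin.Rp
import Claimed.Agent.R291.Pin.Dlr
import Claimed.Agent.R291.Pin.Mom
import Claimed.Agent.R291.Exit.MomSmear
import Claimed.Agent.R291.Exit.DisCutPin
import Claimed.Agent.R291.Exit.DisRare
import Claimed.Agent.R291.Exit.DisPinPos

/-!
# Row 291 (S0539), Pin/MomHt : PIN MOMENTS, HEIGHT-ONLY (node N3 of unit PIN)      (owner helper39; prefix `pin_mo_`, defs `pinAv`, `PinCutC`, `PinRareC`, `PinPosC`, `PinCom`)
TEX[prop:pin-moments], TEX[pins:gap-closing] l.858-880 (uniform moments on the common offset event).      0 sorry in this file.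

Design D5 of helper48 + ruling 3 of helper34 + repair of helper39: NO collar switch, NO parity classes, NO cells.  The gradient pin event `PinGr G D` (`h ∈ t + {0,1}` on `G`, `h = t` on `D`, ANY integer `t`)
is closed under both rounded midpoints (`pin_mo_gr_mid`), so the amplification lemma runs with ONE class in the zero boundary hexagons `latBall 0 R` and passes to the limit `htPl`.

* Sec. 1  deterministic: midpoints, locality, shifts; `pin_mo_sp_iff` : on Lipschitz heights the spin event `PinSp (⋃ G) (⋃ D)` = `∀ i, PinLoc (G i) (D i)`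
* Sec. 2  `PinLG` of the observables; `pinAv` = integrand of `pinPer`; `pin_mo_per_lg/mono/congr/add/nonneg`, `pin_mo_per_le_pl`, `pin_mo_pl_le_per`
* Sec. 3  CORE `pin_mo_amp_fin` (finite volume, any free set and boundary function), `pin_mo_amp_pl` (plane): midpoint closed local gradient event + central mass `c` => all moments `≤ mdpC 1 (c/2) p M^p`
* Sec. 4  `pin_mo_smear_half` : window `|Y| ≤ C A` has probability `≥ 1/2` in every height problem with a trace in one pair (from `exit_mom_smear`, `p = 2`, + Chebyshev)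
* Sec. 5  the contracts with NAMED constants `PinCutC x L1 ρ0`, `PinRareC x κ n0`, `PinPosC x` (= bodies of `exit_dis_cut_pin`, `exit_dis_rare`, `exit_dis_pin_pos`: `pin_mo_exit_cut/rare/pos`);
          `pin_mo_cen` : central mass of the spin pin event, no separation needed
* Sec. 6  **N3a** `pin_mo_gr` (gradient form), `pin_mo_gr_prod` (bound by `∏ p_i`), `pin_mo_loc` (pair law, the statement of the paper)
* Sec. 7  **N3b** `pin_mo_eq` (common offset event `PinGr (⋃ G) (⋃ D)`, uniform in the gaps, hypothesis: synchronisation defect `≤ η`), `pin_mo_fill` (filled pin: no hypothesis)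
-/

set_option autoImplicit false

namespace Claimed.Agent.R291

open Claims Claims.C0467 Filter Topology

/-! ## 1. the pin events: midpoints, locality, gradient invariance -/

theorem pin_mo_I_mono {p q : Prop} (h : p → q) : pinI p ≤ pinI q := by
  by_cases hp : p
  · rw [pin_dlr_I_pos hp, pin_dlr_I_pos (h hp)]
  · rw [pin_dlr_I_neg hp]; exact pin_dlr_I_nonneg q

/-- **the gradient pin event is closed under both rounded midpoints** (ONE class: design D5 of helper48).      TEX (pins:offset-midpoint) -/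
theorem pin_mo_gr_mid {G D : Finset TV} {s t : TV → ℤ} (hs : PinGr G D s) (ht : PinGr G D t) :
    PinGr G D (midL s t) ∧ PinGr G D (midU s t) := by
  obtain ⟨a, ha1, ha2⟩ := hs
  obtain ⟨b, hb1, hb2⟩ := ht
  refine ⟨⟨(a + b) / 2, fun u hu => ?_, fun u hu => ?_⟩, ⟨(a + b + 1) / 2, fun u hu => ?_, fun u hu => ?_⟩⟩
  · have h1 : s u - a = 0 ∨ s u - a = 1 := ha1 u hu
    have h2 : t u - b = 0 ∨ t u - b = 1 := hb1 u hu
    show (s u + t u) / 2 - (a + b) / 2 = 0 ∨ (s u + t u) / 2 - (a + b) / 2 = 1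
    omega
  · have h1 : s u - a = 0 := ha2 u hu
    have h2 : t u - b = 0 := hb2 u hu
    show (s u + t u) / 2 - (a + b) / 2 = 0
    omega
  · have h1 : s u - a = 0 ∨ s u - a = 1 := ha1 u hu
    have h2 : t u - b = 0 ∨ t u - b = 1 := hb1 u hu
    show (s u + t u + 1) / 2 - (a + b + 1) / 2 = 0 ∨ (s u + t u + 1) / 2 - (a + b + 1) / 2 = 1
    omega
  · have h1 : s u - a = 0 := ha2 u hu
    have h2 : t u - b = 0 := hb2 u hu
    show (s u + t u + 1) / 2 - (a + b + 1) / 2 = 0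
    omega

theorem pin_mo_abs_congr {G D : Finset TV} {h h' : TV → ℤ} (hh : ∀ u ∈ G ∪ D, h u = h' u) : PinAbs G D h ↔ PinAbs G D h' := by
  unfold PinAbs
  constructor
  · rintro ⟨h1, h2⟩
    exact ⟨fun u hu => by rw [← hh u (Finset.mem_union_left _ hu)]; exact h1 u hu,
      fun u hu => by rw [← hh u (Finset.mem_union_right _ hu)]; exact h2 u hu⟩
  · rintro ⟨h1, h2⟩
    exact ⟨fun u hu => by rw [hh u (Finset.mem_union_left _ hu)]; exact h1 u hu,
      fun u hu => by rw [hh u (Finset.mem_union_right _ hu)]; exact h2 u hu⟩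

theorem pin_mo_gr_congr {G D : Finset TV} {h h' : TV → ℤ} (hh : ∀ u ∈ G ∪ D, h u = h' u) : PinGr G D h ↔ PinGr G D h' := by
  unfold PinGr
  exact exists_congr fun t => pin_mo_abs_congr fun u hu => by rw [hh u hu]

theorem pin_mo_loc_congr {G D : Finset TV} {h h' : TV → ℤ} (hh : ∀ u ∈ G ∪ D, h u = h' u) : PinLoc G D h ↔ PinLoc G D h' := by
  unfold PinLoc
  exact exists_congr fun t => pin_mo_abs_congr fun u hu => by rw [hh u hu]

theorem pin_mo_gr_shift (G D : Finset TV) (h : TV → ℤ) (c : ℤ) : PinGr G D (fun u => h u + c) ↔ PinGr G D h := by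
  unfold PinGr
  constructor
  · rintro ⟨t, ht⟩
    exact ⟨t - c, by convert ht using 2; ring⟩
  · rintro ⟨t, ht⟩
    exact ⟨t + c, by convert ht using 2; ring⟩

theorem pin_mo_loc_shift4 (G D : Finset TV) (h : TV → ℤ) : PinLoc G D (fun u => h u + 4) ↔ PinLoc G D h := by
  unfold PinLoc
  constructor
  · rintro ⟨t, ht⟩
    exact ⟨t - 1, by convert ht using 2; ring⟩
  · rintro ⟨t, ht⟩
    exact ⟨t + 1, by convert ht using 2; ring⟩

theorem pin_mo_loc_gr {G D : Finset TV} {h : TV → ℤ} (hh : PinLoc G D h) : PinGr G D h := by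
  obtain ⟨t, ht⟩ := hh
  exact ⟨4 * t, ht⟩

/-- the pin on a union of groups with ONE offset -/
theorem pin_mo_abs_union {k : ℕ} (G D : Fin k → Finset TV) (h : TV → ℤ) :
    PinAbs (Finset.univ.biUnion G) (Finset.univ.biUnion D) h ↔ ∀ i, PinAbs (G i) (D i) h := by
  unfold PinAbs
  simp only [Finset.mem_biUnion, Finset.mem_univ, true_and]
  constructor
  · rintro ⟨h1, h2⟩ i
    exact ⟨fun u hu => h1 u ⟨i, hu⟩, fun u hu => h2 u ⟨i, hu⟩⟩
  · intro H
    exact ⟨fun u ⟨i, hu⟩ => (H i).1 u hu, fun u ⟨i, hu⟩ => (H i).2 u hu⟩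

/-- **spin event = local pin event** on Lipschitz heights, one connected group.      TEX[pins:bracket-order] l.186-193 -/
theorem pin_mo_sp_loc {G D : Finset TV} (hO : PinOb G D) {h : TV → ℤ} (hL : PinLip h) : PinSp G D h ↔ PinLoc G D h := by
  constructor
  · rintro ⟨h1, h2⟩
    obtain ⟨v, hv⟩ := hO.ne
    have hvG := hO.sub hv
    refine ⟨h v / 4, fun u hu => ?_, fun u hu => ?_⟩
    · have := pin_mo_pair_conn hO.connG h (fun a _ b _ hab => ?_) (fun a ha => h1 a ha) hu hvG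
      · have h3 := h1 u hu
        unfold momB at h3
        show h u - 4 * (h v / 4) = 0 ∨ h u - 4 * (h v / 4) = 1
        omega
      · have hd : b - a ∈ latDirs := (lat_adj_iff a b).1 hab
        have := hL a (b - a) hd
        rw [add_sub_cancel] at this
        rwa [abs_sub_comm]
    · have := pin_mo_pair_conn hO.connG h (fun a _ b _ hab => ?_) (fun a ha => h1 a ha) (hO.sub hu) hvG
      · have h3 := h2 u hu
        show h u - 4 * (h v / 4) = 0
        omega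
      · have hd : b - a ∈ latDirs := (lat_adj_iff a b).1 hab
        have := hL a (b - a) hd
        rw [add_sub_cancel] at this
        rwa [abs_sub_comm]
  · rintro ⟨t, h1, h2⟩
    refine ⟨fun u hu => ?_, fun u hu => ?_⟩
    · have : h u - 4 * t = 0 ∨ h u - 4 * t = 1 := h1 u hu
      unfold momB
      omega
    · have : h u - 4 * t = 0 := h2 u hu
      omega

theorem pin_mo_sp_union {k : ℕ} (G D : Fin k → Finset TV) (h : TV → ℤ) :
    PinSp (Finset.univ.biUnion G) (Finset.univ.biUnion D) h ↔ ∀ i, PinSp (G i) (D i) h := by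
  unfold PinSp
  simp only [Finset.mem_biUnion, Finset.mem_univ, true_and]
  constructor
  · rintro ⟨h1, h2⟩ i
    exact ⟨fun u hu => h1 u ⟨i, hu⟩, fun u hu => h2 u ⟨i, hu⟩⟩
  · intro H
    exact ⟨fun u ⟨i, hu⟩ => (H i).1 u hu, fun u ⟨i, hu⟩ => (H i).2 u hu⟩

/-- **the spin pin event of a family of groups** on Lipschitz heights -/
theorem pin_mo_sp_iff {k : ℕ} {G D : Fin k → Finset TV} (hO : ∀ i, PinOb (G i) (D i)) {h : TV → ℤ} (hL : PinLip h) :
    PinSp (Finset.univ.biUnion G) (Finset.univ.biUnion D) h ↔ ∀ i, PinLoc (G i) (D i) h := by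
  rw [pin_mo_sp_union]
  exact forall_congr' fun i => pin_mo_sp_loc (hO i) hL

theorem pin_mo_lip_shift {h : TV → ℤ} (hL : PinLip h) (c : ℤ) : PinLip (fun u => h u + c) := by
  intro u d hd
  have := hL u d hd
  simpa using this

/-! ## 2. local gradient observables -/

theorem pin_mo_lg_ev {E : (TV → ℤ) → Prop} (S : Finset TV) (h1 : ∀ h h' : TV → ℤ, (∀ u ∈ S, h u = h' u) → (E h ↔ E h'))
    (h2 : ∀ (h : TV → ℤ) (c : ℤ), E (fun u => h u + c) ↔ E h) : PinLG (fun h => pinI (E h)) :=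
  ⟨⟨S, fun h h' hh => pin_dlr_I_congr (h1 h h' hh)⟩, fun h c => pin_dlr_I_congr (h2 h c)⟩

theorem pin_mo_lc_ev {E : (TV → ℤ) → Prop} (S : Finset TV) (h1 : ∀ h h' : TV → ℤ, (∀ u ∈ S, h u = h' u) → (E h ↔ E h')) :
    PinLc (fun h => pinI (E h)) := ⟨S, fun h h' hh => pin_dlr_I_congr (h1 h h' hh)⟩

theorem pin_mo_lg_gr (G D : Finset TV) : PinLG (fun h => pinI (PinGr G D h)) :=
  pin_mo_lg_ev (G ∪ D) (fun _ _ hh => pin_mo_gr_congr hh) (pin_mo_gr_shift G D)

theorem pin_mo_lg_all {k : ℕ} (G D : Fin k → Finset TV) : PinLG (fun h => pinI (∀ i, PinGr (G i) (D i) h)) :=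
  pin_mo_lg_ev (Finset.univ.biUnion fun i => G i ∪ D i)
    (fun _ _ hh => forall_congr' fun i => pin_mo_gr_congr fun u hu => hh u (Finset.mem_biUnion.2 ⟨i, Finset.mem_univ _, hu⟩))
    (fun h c => forall_congr' fun i => pin_mo_gr_shift (G i) (D i) h c)

theorem pin_mo_arr_shift (w : TV →₀ ℝ) (h : TV → ℤ) (c : ℤ) : latArr w (fun u => h u + c) = latArr w h + c * latTot w := by
  unfold latArr latTot Finsupp.sum
  rw [Finset.mul_sum, ← Finset.sum_add_distrib]
  refine Finset.sum_congr rfl fun u _ => ?_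
  push_cast
  ring

theorem pin_mo_arr_loc (w : TV →₀ ℝ) : HtLoc w.support (latArr w) := by
  intro h h' hh
  unfold latArr Finsupp.sum
  exact Finset.sum_congr rfl fun u hu => by show w u * (h u : ℝ) = w u * (h' u : ℝ); rw [hh u hu]

theorem pin_mo_lg_arr {w : TV →₀ ℝ} (hw : latTot w = 0) : PinLG (latArr w) :=
  ⟨⟨_, pin_mo_arr_loc w⟩, fun h c => by rw [pin_mo_arr_shift, hw, mul_zero, add_zero]⟩

/-- the central window of a zero total statistic -/
theorem pin_mo_lg_win {w : TV →₀ ℝ} (hw : latTot w = 0) (M : ℝ) : PinLG (fun h => pinI (|latArr w h| ≤ M)) :=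
  (pin_mo_lg_arr hw).map1 fun y => pinI (|y| ≤ M)

theorem pin_mo_grad_of_step {F : (TV → ℤ) → ℝ} (h1 : ∀ h : TV → ℤ, F (fun u => h u + 1) = F h) : HtGrad F := by
  intro h c
  induction c using Int.induction_on with
  | zero => simp
  | succ n ih =>
    have := h1 (fun u => h u + (n : ℤ))
    rw [ih] at this
    rw [← this]
    congr 1
    funext u
    ring
  | pred n ih =>
    have := h1 (fun u => h u + (-(n : ℤ) - 1))
    rw [← ih, ← this]
    congr 1
    funext u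
    ring

/-- the integrand of `pinPer` -/
noncomputable def pinAv (K : (TV → ℤ) → ℝ) : (TV → ℤ) → ℝ := fun h => (∑ c ∈ Finset.range 4, K fun u => h u + (c : ℤ)) / 4

theorem pin_mo_per_eq (x : ℝ) (K : (TV → ℤ) → ℝ) : pinPer x K = htPl x (pinAv K) := rfl

theorem pin_mo_av_four (K : (TV → ℤ) → ℝ) (h : TV → ℤ) :
    pinAv K h = (K h + K (fun u => h u + 1) + K (fun u => h u + 2) + K (fun u => h u + 3)) / 4 := by
  unfold pinAv
  simp [Finset.sum_range_succ]

theorem pin_mo_per_lg {K : (TV → ℤ) → ℝ} (hK : PinLc K) (pK : PinP4 K) : PinLG (pinAv K) := by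
  obtain ⟨S, hS⟩ := hK
  refine ⟨⟨S, fun a b hab => ?_⟩, pin_mo_grad_of_step fun h => ?_⟩
  · unfold pinAv
    congr 1
    exact Finset.sum_congr rfl fun c _ => hS _ _ fun u hu => by rw [hab u hu]
  · rw [pin_mo_av_four, pin_mo_av_four]
    have e2 : (fun u => h u + 1 + 1) = fun u => h u + 2 := by funext u; ring
    have e3 : (fun u => h u + 1 + 2) = fun u => h u + 3 := by funext u; ring
    have e4 : (fun u => h u + 1 + 3) = fun u => h u + 4 := by funext u; ring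
    rw [e2, e3, e4, pK h]
    ring

section per

variable {x : ℝ} (hP : PinPl x)
include hP

theorem pin_mo_per_mono {K K' : (TV → ℤ) → ℝ} (hK : PinLc K) (pK : PinP4 K) (hK' : PinLc K') (pK' : PinP4 K')
    (h : ∀ a, PinLip a → K a ≤ K' a) : pinPer x K ≤ pinPer x K' := by
  refine pin_pl_mono hP (pin_mo_per_lg hK pK) (pin_mo_per_lg hK' pK') fun a ha => ?_
  exact div_le_div_of_nonneg_right (Finset.sum_le_sum fun c _ => h _ (pin_mo_lip_shift ha c)) (by norm_num)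

theorem pin_mo_per_congr {K K' : (TV → ℤ) → ℝ} (hK : PinLc K) (pK : PinP4 K) (hK' : PinLc K') (pK' : PinP4 K')
    (h : ∀ a, PinLip a → K a = K' a) : pinPer x K = pinPer x K' :=
  le_antisymm (pin_mo_per_mono hP hK pK hK' pK' fun a ha => (h a ha).le) (pin_mo_per_mono hP hK' pK' hK pK fun a ha => (h a ha).ge)

theorem pin_mo_per_add {K K' : (TV → ℤ) → ℝ} (hK : PinLc K) (pK : PinP4 K) (hK' : PinLc K') (pK' : PinP4 K') :
    pinPer x (fun a => K a + K' a) = pinPer x K + pinPer x K' := by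
  rw [pin_mo_per_eq, pin_mo_per_eq, pin_mo_per_eq, ← pin_pl_add hP (pin_mo_per_lg hK pK) (pin_mo_per_lg hK' pK')]
  congr 1
  funext a
  unfold pinAv
  rw [Finset.sum_add_distrib, add_div]

theorem pin_mo_per_nonneg {K : (TV → ℤ) → ℝ} (hK : PinLc K) (pK : PinP4 K) (h : ∀ a, 0 ≤ K a) : 0 ≤ pinPer x K :=
  pin_pl_nonneg hP (pin_mo_per_lg hK pK) fun a _ => div_nonneg (Finset.sum_nonneg fun c _ => h _) (by norm_num)

/-- a 4-periodic observable below a gradient observable -/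
theorem pin_mo_per_le_pl {K F : (TV → ℤ) → ℝ} (hK : PinLc K) (pK : PinP4 K) (hF : PinLG F) (h : ∀ a, PinLip a → K a ≤ F a) :
    pinPer x K ≤ htPl x F := by
  refine pin_pl_mono hP (pin_mo_per_lg hK pK) hF fun a ha => ?_
  show (∑ c ∈ Finset.range 4, K fun u => a u + (c : ℤ)) / 4 ≤ F a
  rw [div_le_iff₀ (by norm_num : (0 : ℝ) < 4)]
  calc ∑ c ∈ Finset.range 4, K (fun u => a u + (c : ℤ)) ≤ ∑ c ∈ Finset.range 4, F a :=
        Finset.sum_le_sum fun c _ => (h _ (pin_mo_lip_shift ha c)).trans_eq (hF.2 a c)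
    _ = F a * 4 := by rw [Finset.sum_const, Finset.card_range, nsmul_eq_mul]; push_cast; ring

/-- a gradient observable below the sum of the four shifts of a 4-periodic observable -/
theorem pin_mo_pl_le_per {K F : (TV → ℤ) → ℝ} (hK : PinLc K) (pK : PinP4 K) (hF : PinLG F)
    (h : ∀ a, PinLip a → F a ≤ ∑ c ∈ Finset.range 4, K fun u => a u + (c : ℤ)) : htPl x F ≤ 4 * pinPer x K := by
  rw [pin_mo_per_eq, ← pin_pl_smul hP (pin_mo_per_lg hK pK)]
  refine pin_pl_mono hP hF ((pin_mo_per_lg hK pK).smul 4) fun a ha => ?_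
  unfold pinAv
  rw [mul_div_cancel₀ _ (by norm_num : (4 : ℝ) ≠ 0)]
  exact h a ha

end per

/-! ## 3. amplification on a midpoint closed event: finite volume, then the plane -/

open Classical in
theorem pin_mo_sum_ev (x : ℝ) (Λ : Finset TV) (b : TV → ℤ) (E : (TV → ℤ) → Prop) (g : (TV → ℤ) → ℝ) :
    ∑ h ∈ htCfg Λ b, htWt x Λ h * (g h * pinI (E h)) = ∑ h ∈ (htCfg Λ b).filter E, g h * htWt x Λ h := by
  rw [Finset.sum_filter]
  refine Finset.sum_congr rfl fun h _ => ?_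
  by_cases hE : E h
  · rw [pin_dlr_I_pos hE, if_pos hE]; ring
  · rw [pin_dlr_I_neg hE, if_neg hE]; ring

/-- **finite volume**: on a midpoint closed event a central mass `c` gives all the moments.      TEX[lem:midpoint-amplification] with ONE class -/
theorem pin_mo_amp_fin {x : ℝ} (hx0 : 0 < x) (hx1 : x ≤ 1) (Λ : Finset TV) (b : TV → ℤ) (E : (TV → ℤ) → Prop)
    (hE : ∀ s t, E s → E t → E (midL s t) ∧ E (midU s t)) (w : TV →₀ ℝ) {c M : ℝ} (hc : 0 < c) (hM : 0 < M)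
    (hw : (∑ u ∈ w.support, |w u|) / 2 ≤ M)
    (cen : c * htE x Λ b (fun h => pinI (E h)) ≤ htE x Λ b (fun h => pinI (|latArr w h| ≤ M) * pinI (E h))) (p : ℕ) :
    htE x Λ b (fun h => |latArr w h| ^ p * pinI (E h)) ≤ mdpC 1 c p * M ^ p * htE x Λ b (fun h => pinI (E h)) := by
  classical
  rcases (ht_Z_nonneg hx0 Λ b).eq_or_lt with hZ | hZ
  · simp only [htE, ← hZ, div_zero, mul_zero, le_refl]
  have e1 : ∀ g : (TV → ℤ) → ℝ, htE x Λ b (fun h => g h * pinI (E h)) = (∑ h ∈ (htCfg Λ b).filter E, g h * htWt x Λ h) / htZ x Λ b :=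
    fun g => by rw [htE, pin_mo_sum_ev]
  have e0 : htE x Λ b (fun h => pinI (E h)) = (∑ h ∈ (htCfg Λ b).filter E, htWt x Λ h) / htZ x Λ b := by
    have := e1 fun _ => 1
    simpa using this
  have key : MdpAmp ((htCfg Λ b).filter E) (htWt x Λ) (latArr w) (fun _ => ()) 1 c M := by
    refine mdp_amp_one (fun s _ => (ht_wt_pos hx0 Λ s).le) hM hc (fun s hs t ht _ _ => ?_) (fun s _ t _ _ _ => ?_) ?_
    · rw [Finset.mem_filter, ht_mem_cfg] at hs ht
      refine ⟨?_, ?_, mid_htWt hx0.le hx1 hs.1 ht.1⟩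
      · rw [Finset.mem_filter, ht_mem_cfg]; exact ⟨midL_htAdm_same hs.1 ht.1, (hE s t hs.2 ht.2).1⟩
      · rw [Finset.mem_filter, ht_mem_cfg]; exact ⟨midU_htAdm_same hs.1 ht.1, (hE s t hs.2 ht.2).2⟩
    · exact ⟨(midL_latArr w s t).trans hw, (midU_latArr w s t).trans hw⟩
    · rw [e0, e1, ← mul_div_assoc, div_le_div_iff_of_pos_right hZ] at cen
      refine cen.trans_eq ?_
      rw [Finset.sum_filter (fun s => |latArr w s| ≤ M)]
      refine Finset.sum_congr rfl fun s _ => ?_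
      by_cases hs : |latArr w s| ≤ M
      · rw [pin_dlr_I_pos hs, if_pos hs, one_mul]
      · rw [pin_dlr_I_neg hs, if_neg hs, zero_mul]
  rw [e0, e1, ← mul_div_assoc, div_le_div_iff_of_pos_right hZ]
  exact mdp_amp_mom key p

/-- **the plane**: a local gradient event closed under the rounded midpoints, of positive probability, with central mass `c`. -/
theorem pin_mo_amp_pl {x : ℝ} (hP : PinPl x) (hx1 : x ≤ 1) (E : (TV → ℤ) → Prop)
    (hE : ∀ s t, E s → E t → E (midL s t) ∧ E (midU s t)) (lgE : PinLG (fun h => pinI (E h))) {w : TV →₀ ℝ} (hw0 : latTot w = 0)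
    {c M : ℝ} (hc : 0 < c) (hM : 0 < M) (hw : (∑ u ∈ w.support, |w u|) / 2 ≤ M) (pos : 0 < htPl x (fun h => pinI (E h)))
    (cen : c * htPl x (fun h => pinI (E h)) ≤ htPl x (fun h => pinI (|latArr w h| ≤ M) * pinI (E h))) (p : ℕ) :
    htPl x (fun h => |latArr w h| ^ p * pinI (E h)) ≤ mdpC 1 (c / 2) p * M ^ p * htPl x (fun h => pinI (E h)) := by
  have T1 := pin_pl_lim hP lgE
  have T2 := pin_pl_lim hP ((pin_mo_lg_win hw0 M).mul lgE)
  have T3 := pin_pl_lim hP (((pin_mo_lg_arr hw0).map1 fun y => |y| ^ p).mul lgE)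
  have hlt : c / 2 * htPl x (fun h => pinI (E h)) < htPl x (fun h => pinI (|latArr w h| ≤ M) * pinI (E h)) := by
    refine lt_of_lt_of_le ?_ cen
    have := mul_pos hc pos
    nlinarith
  have ev := (T1.const_mul (c / 2)).eventually_lt T2 hlt
  refine le_of_tendsto_of_tendsto T3 (T1.const_mul (mdpC 1 (c / 2) p * M ^ p)) ?_
  filter_upwards [ev] with R hR
  exact pin_mo_amp_fin hP.pos hx1 _ _ E hE w (half_pos hc) hM hw hR.le p

/-! ## 4. the central window inside a cut: SMEAR + Chebyshev -/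

theorem pin_mo_adm_shift {F : Finset TV} {b h : TV → ℤ} (hh : HtAdm F b h) (j : ℤ) : HtAdm F (fun u => b u - j) (fun u => h u - j) := by
  refine ⟨fun u hu => by show h u - j = b u - j; rw [hh.1 u hu], fun u hu d hd => ?_⟩
  have := hh.2 u hu d hd
  simpa using this

theorem pin_mo_ball_not_sub (z0 : TV) (r : ℕ) {F : Finset TV} (hF : F ⊆ latBall z0 r) : ¬ latBall z0 (r + 1) ⊆ F := by
  intro h
  have h1 : z0 + ((r : ℤ) + 1, 0) ∈ latBall z0 (r + 1) := by
    rw [lat_mem_ball, add_sub_cancel_left]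
    unfold latN
    simp only [add_zero]
    omega
  have h2 := hF (h h1)
  rw [lat_mem_ball, add_sub_cancel_left] at h2
  unfold latN at h2
  simp only [add_zero] at h2
  omega

/-- **central window in an ordinary height problem with a trace in ONE pair**: constant `C (2 + √log(2 Kr + 1)) A`, probability `≥ 1/2`.      TEX[prop:pin-moments] l.405, TEX[prop:smearing] -/
theorem pin_mo_smear_half (x : ℝ) (hx1 : 1 / Real.sqrt 2 ≤ x) (hx2 : x ≤ 1) :
    ∃ C : ℝ, 0 < C ∧ ∀ (Kr : ℕ) (F : Finset TV) (b : TV → ℤ) (j : ℤ) (z0 : TV) (a ρ : ℕ) (A : ℝ) (w : TV →₀ ℝ),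
      MomCo F → latBall z0 ρ ⊆ F → F ⊆ latBall z0 (2 * ρ) → (htCfg F b).Nonempty → (∀ u ∈ latOut F, b u = j ∨ b u = j + 1) →
      1 ≤ a → 3 * a ≤ ρ → ρ ≤ Kr * a → 0 < A → MomSm z0 a A w → latTot w = 0 →
      1 / 2 ≤ htE x F b (fun h => pinI (|latArr w h| ≤ C * (2 + Real.sqrt (Real.log (2 * Kr + 1))) * A)) := by
  have hx0 : 0 < x := lt_of_lt_of_le (by positivity) hx1
  obtain ⟨C, hC, H⟩ := exit_mom_smear x hx1 hx2 2
  refine ⟨2 * C, by positivity, fun Kr F b j z0 a ρ A w hco h1 h2 hne hb ha h3 hK hA hw hw0 => ?_⟩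
  obtain ⟨h0, hh0⟩ := hne
  rw [ht_mem_cfg] at hh0
  set b' : TV → ℤ := fun u => b u - j with hb'
  have hadm : HtAdm F b' (fun u => h0 u - j) := pin_mo_adm_shift hh0 j
  set M : ℝ := 2 * C * (2 + Real.sqrt (Real.log (2 * Kr + 1))) * A with hMdef
  have hs0 : 0 ≤ Real.sqrt (Real.log (2 * Kr + 1)) := Real.sqrt_nonneg _
  have hM : 0 < M := by positivity
  have eb : b = fun u => b' u + j := by funext u; simp [hb']
  rw [eb, ht_E_grad x F b' j (pin_mo_lg_win hw0 M).2]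
  have haR : (0 : ℝ) < a := by exact_mod_cast ha
  have sm := H F b' 1 z0 a (2 * ρ + 1) A w hco (fun u hu => by
      rcases hb u hu with h | h <;> simp [hb', h]) ha ((mom_sm_ball_mono z0 h3).trans h1) (pin_mo_ball_not_sub z0 _ h2) hw
  have hratio : (((2 * ρ + 1 : ℕ) : ℝ)) / a ≤ 2 * Kr + 1 := by
    rw [div_le_iff₀ haR]
    have h4 : (ρ : ℝ) ≤ Kr * a := by exact_mod_cast hK
    have h5 : (1 : ℝ) ≤ a := by exact_mod_cast ha
    push_cast
    nlinarith
  have hlog : Real.sqrt (Real.log (((2 * ρ + 1 : ℕ) : ℝ) / a)) ≤ Real.sqrt (Real.log (2 * Kr + 1)) :=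
    Real.sqrt_le_sqrt (Real.log_le_log (by positivity) hratio)
  have sm2 : htE x F b' (fun h => |latArr w h| ^ 2) ≤ (M / 2) ^ 2 := by
    refine sm.trans (pow_le_pow_left₀ (by positivity) ?_ 2)
    rw [hMdef]
    have : C * A * (1 + 1 + Real.sqrt (Real.log (((2 * ρ + 1 : ℕ) : ℝ) / a))) ≤ C * A * (1 + 1 + Real.sqrt (Real.log (2 * Kr + 1))) :=
      mul_le_mul_of_nonneg_left (by linarith) (by positivity)
    linarith
  have mk := ht_P_markov hx0 F b' (G := fun h => |latArr w h| ^ 2) (fun _ _ => by positivity) (t := M ^ 2) (by positivity)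
  have mk2 : htP x F b' (fun H => M ^ 2 ≤ |latArr w H| ^ 2) ≤ 1 / 4 := by
    refine mk.trans ?_
    rw [div_le_iff₀ (by positivity)]
    nlinarith
  have nt := ht_P_not hx0 hadm (fun H => M ^ 2 ≤ |latArr w H| ^ 2)
  have : htP x F b' (fun H => ¬ M ^ 2 ≤ |latArr w H| ^ 2) ≤ htE x F b' (fun h => pinI (|latArr w h| ≤ M)) := by
    unfold htP
    refine ht_E_mono hx0 F b' fun H _ => ?_
    split_ifs with hH
    · rw [pin_dlr_I_pos]
      exact (lt_of_pow_lt_pow_left₀ 2 hM.le (not_le.1 hH)).le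
    · exact pin_dlr_I_nonneg _
  linarith

/-! ## 5. the contracts PIN <- DIS with NAMED constants (all the consumers of PIN share the same `L1 ρ0 κ n0`) -/

/-- the body of `exit_dis_cut_pin` -/
def PinCutC (x : ℝ) (L1 ρ0 : ℕ) : Prop :=
  ∀ k : ℕ, ∃ c1 : ℝ, 0 < c1 ∧ ∀ (G : Finset TV) (L : Fin k → Finset TV) (z0 : TV) (ρ : ℕ) (φ : (TV → ℤ) → ℝ) (m : ℝ),
    (∀ l, TscConn tscG (L l : Set TV)) → ρ0 ≤ ρ → Disjoint G (latBall z0 (L1 * ρ)) → (∀ l, Disjoint (L l) (latBall z0 (L1 * ρ))) →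
    (∀ h, 0 ≤ φ h) → HtLoc (latBall z0 ρ) φ → HtGrad φ →
    (∀ (F : Finset TV) (b : TV → ℤ) (j : ℤ), MomCo F → latBall z0 ρ ⊆ F → F ⊆ latBall z0 (2 * ρ) →
      (htCfg F b).Nonempty → (∀ u ∈ latOut F, b u = j ∨ b u = j + 1) → m ≤ htE x F b φ) →
    c1 * m * (pinPer x fun h => pinI (PinSp G (Finset.univ.biUnion L) h)) ≤ pinPer x fun h => φ h * pinI (PinSp G (Finset.univ.biUnion L) h)

/-- the body of `exit_dis_rare` -/
def PinRareC (x : ℝ) (κ n0 : ℕ) : Prop :=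
  ∀ k N : ℕ, ∃ c C : ℝ, 0 < c ∧ 0 < C ∧ ∀ G D U : Fin k → Finset TV, PinFam κ n0 N G D U →
    ((htPl x fun h => pinI (∀ i, PinGr (G i) (D i) h)) ≤ C * ∏ i, (htPl x fun h => pinI (PinGr (G i) (D i) h))) ∧
    c * ∏ i, (htPl x fun h => pinI (PinGr (G i) (D i) h)) ≤ pinPer x fun h => pinI (∀ i, PinLoc (G i) (D i) h)

/-- the statement of `exit_dis_pin_pos` -/
def PinPosC (x : ℝ) : Prop := ∀ G D : Finset TV, 0 < htPl x fun h => pinI (PinGr G D h)

theorem pin_mo_sp_congr {G D : Finset TV} {h h' : TV → ℤ} (hh : ∀ u ∈ G ∪ D, h u = h' u) : PinSp G D h ↔ PinSp G D h' := by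
  unfold PinSp
  constructor
  · rintro ⟨h1, h2⟩
    exact ⟨fun u hu => by rw [← hh u (Finset.mem_union_left _ hu)]; exact h1 u hu,
      fun u hu => by rw [← hh u (Finset.mem_union_right _ hu)]; exact h2 u hu⟩
  · rintro ⟨h1, h2⟩
    exact ⟨fun u hu => by rw [hh u (Finset.mem_union_left _ hu)]; exact h1 u hu,
      fun u hu => by rw [hh u (Finset.mem_union_right _ hu)]; exact h2 u hu⟩

theorem pin_mo_sp_shift4 (G D : Finset TV) (h : TV → ℤ) : PinSp G D (fun u => h u + 4) ↔ PinSp G D h := by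
  unfold PinSp momB
  beta_reduce
  constructor
  · rintro ⟨h1, h2⟩
    exact ⟨fun u hu => by have := h1 u hu; omega, fun u hu => by have := h2 u hu; omega⟩
  · rintro ⟨h1, h2⟩
    exact ⟨fun u hu => by have := h1 u hu; omega, fun u hu => by have := h2 u hu; omega⟩

theorem pin_mo_p4_ev {E : (TV → ℤ) → Prop} (h : ∀ a : TV → ℤ, E (fun u => a u + 4) ↔ E a) : PinP4 (fun a => pinI (E a)) :=
  fun a => pin_dlr_I_congr (h a)

theorem pin_mo_p4_mul {F K : (TV → ℤ) → ℝ} (hF : HtGrad F) (pK : PinP4 K) : PinP4 (fun a => F a * K a) :=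
  fun a => by show F _ * K _ = F a * K a; rw [hF a 4, pK a]

theorem pin_mo_p4_add {K K' : (TV → ℤ) → ℝ} (pK : PinP4 K) (pK' : PinP4 K') : PinP4 (fun a => K a + K' a) :=
  fun a => by show K _ + K' _ = K a + K' a; rw [pK a, pK' a]

theorem pin_mo_lc_sp (G D : Finset TV) : PinLc (fun h => pinI (PinSp G D h)) := pin_mo_lc_ev (G ∪ D) fun _ _ hh => pin_mo_sp_congr hh

theorem pin_mo_p4_sp (G D : Finset TV) : PinP4 (fun h => pinI (PinSp G D h)) := pin_mo_p4_ev (pin_mo_sp_shift4 G D)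

theorem pin_mo_lc_locs {k : ℕ} (G D : Fin k → Finset TV) : PinLc (fun h => pinI (∀ i, PinLoc (G i) (D i) h)) :=
  pin_mo_lc_ev (Finset.univ.biUnion fun i => G i ∪ D i)
    (fun _ _ hh => forall_congr' fun i => pin_mo_loc_congr fun u hu => hh u (Finset.mem_biUnion.2 ⟨i, Finset.mem_univ _, hu⟩))

theorem pin_mo_p4_locs {k : ℕ} (G D : Fin k → Finset TV) : PinP4 (fun h => pinI (∀ i, PinLoc (G i) (D i) h)) :=
  pin_mo_p4_ev fun a => forall_congr' fun i => pin_mo_loc_shift4 (G i) (D i) a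

/-- **central mass of the spin pin event** (no separation of the groups: uniform when the gaps close).      TEX[prop:pin-moments] l.392-412, TEX[pins:gap-closing] l.858-880 -/
theorem pin_mo_cen {x : ℝ} (hx1 : 1 / Real.sqrt 2 ≤ x) (hx2 : x ≤ 1) (hP : PinPl x) {L1 ρ0 : ℕ} (hC : PinCutC x L1 ρ0) (k Kr : ℕ) :
    ∃ c Cm : ℝ, 0 < c ∧ 1 / 2 ≤ Cm ∧ ∀ (G D : Fin k → Finset TV) (z0 : TV) (a ρ : ℕ) (A : ℝ) (w : TV →₀ ℝ),
      (∀ i, PinOb (G i) (D i)) → 1 ≤ a → 3 * a ≤ ρ → ρ0 ≤ ρ → ρ ≤ Kr * a → (∀ i, Disjoint (G i) (latBall z0 (L1 * ρ))) →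
      0 < A → MomSm z0 a A w → latTot w = 0 →
      c * (pinPer x fun h => pinI (∀ i, PinLoc (G i) (D i) h)) ≤
        pinPer x fun h => pinI (|latArr w h| ≤ Cm * A) * pinI (∀ i, PinLoc (G i) (D i) h) := by
  have hx0 : 0 < x := hP.pos
  obtain ⟨Cs, hCs, HS⟩ := pin_mo_smear_half x hx1 hx2
  obtain ⟨c1, hc1, HC⟩ := hC k
  refine ⟨c1 * (1 / 2), max (1 / 2) (Cs * (2 + Real.sqrt (Real.log (2 * Kr + 1)))), by positivity, le_max_left _ _,
    fun G D z0 a ρ A w hO ha h3 hρ0 hK hdis hA hw hw0 => ?_⟩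
  set Cm : ℝ := max (1 / 2) (Cs * (2 + Real.sqrt (Real.log (2 * Kr + 1)))) with hCm
  have lgφ := pin_mo_lg_win hw0 (Cm * A)
  have locφ : HtLoc (latBall z0 ρ) (fun h => pinI (|latArr w h| ≤ Cm * A)) := by
    intro h h' hh
    have : latArr w h = latArr w h' :=
      pin_mo_arr_loc w h h' fun u hu => hh u (mom_sm_ball_mono z0 (by omega : a ≤ ρ) (hw.supp hu))
    show pinI (|latArr w h| ≤ Cm * A) = pinI (|latArr w h'| ≤ Cm * A)
    rw [this]
  have main := HC (Finset.univ.biUnion G) D z0 ρ (fun h => pinI (|latArr w h| ≤ Cm * A)) (1 / 2) (fun l => (hO l).connD) hρ0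
    (by
      rw [Finset.disjoint_biUnion_left]
      exact fun i _ => hdis i)
    (fun l => Finset.disjoint_of_subset_left (hO l).sub (hdis l)) (fun h => pin_dlr_I_nonneg _) locφ lgφ.2
    (fun F b j hco h1 h2 hne hb => by
      refine (HS Kr F b j z0 a ρ A w hco h1 h2 hne hb ha h3 hK hA hw hw0).trans (ht_E_mono hx0 F b fun H _ => ?_)
      refine pin_mo_I_mono fun h => h.trans ?_
      exact mul_le_mul_of_nonneg_right (le_max_right _ _) hA.le)
  have e1 : (pinPer x fun h => pinI (PinSp (Finset.univ.biUnion G) (Finset.univ.biUnion D) h)) =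
      pinPer x fun h => pinI (∀ i, PinLoc (G i) (D i) h) :=
    pin_mo_per_congr hP (pin_mo_lc_sp _ _) (pin_mo_p4_sp _ _) (pin_mo_lc_locs G D) (pin_mo_p4_locs G D)
      fun a ha => pin_dlr_I_congr (pin_mo_sp_iff hO ha)
  have e2 : (pinPer x fun h => pinI (|latArr w h| ≤ Cm * A) * pinI (PinSp (Finset.univ.biUnion G) (Finset.univ.biUnion D) h)) =
      pinPer x fun h => pinI (|latArr w h| ≤ Cm * A) * pinI (∀ i, PinLoc (G i) (D i) h) :=
    pin_mo_per_congr hP (lgφ.1.mul (pin_mo_lc_sp _ _)) (pin_mo_p4_mul lgφ.2 (pin_mo_p4_sp _ _)) (lgφ.1.mul (pin_mo_lc_locs G D))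
      (pin_mo_p4_mul lgφ.2 (pin_mo_p4_locs G D)) fun a ha => by rw [pin_dlr_I_congr (pin_mo_sp_iff hO ha)]
  rw [e1, e2] at main
  exact main

theorem pin_mo_half_l1 {z0 : TV} {a : ℕ} {A Cm : ℝ} {w : TV →₀ ℝ} (hw : MomSm z0 a A w) (hA : 0 < A) (hCm : 1 / 2 ≤ Cm) :
    (∑ u ∈ w.support, |w u|) / 2 ≤ Cm * A := by
  have := hw.l1
  nlinarith

/-! ## 6. N3a : separated groups, every group with its own integer offset -/

/-- **N3a, PIN MOMENTS** (gradient form, all integer offsets).  `C` depends on `x`, the number `k` of groups, the size `N` of the necklaces, the ratio `Kr` and `p` only.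
      TEX[prop:pin-moments] -/
theorem pin_mo_gr {x : ℝ} (hx1 : 1 / Real.sqrt 2 ≤ x) (hx2 : x ≤ 1) (hP : PinPl x) {L1 ρ0 κ n0 : ℕ} (hC : PinCutC x L1 ρ0)
    (hR : PinRareC x κ n0) (hpos : PinPosC x) (k N Kr p : ℕ) :
    ∃ C : ℝ, 0 < C ∧ ∀ (G D U : Fin k → Finset TV) (z0 : TV) (a ρ : ℕ) (A : ℝ) (w : TV →₀ ℝ), PinFam κ n0 N G D U →
      1 ≤ a → 3 * a ≤ ρ → ρ0 ≤ ρ → ρ ≤ Kr * a → (∀ i, Disjoint (G i) (latBall z0 (L1 * ρ))) → 0 < A → MomSm z0 a A w → latTot w = 0 →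
      (htPl x fun h => |latArr w h| ^ p * pinI (∀ i, PinGr (G i) (D i) h)) ≤ C * A ^ p * htPl x fun h => pinI (∀ i, PinGr (G i) (D i) h) := by
  obtain ⟨c, Cm, hc, hCm, H⟩ := pin_mo_cen hx1 hx2 hP hC k Kr
  obtain ⟨cr, Cr, hcr, hCr, HR⟩ := hR k N
  have hCm0 : 0 < Cm := lt_of_lt_of_le (by norm_num) hCm
  refine ⟨mdpC 1 (c * (cr / Cr) / 2) p * Cm ^ p, mul_pos (mdpC_pos _ _ _) (pow_pos hCm0 p),
    fun G D U z0 a ρ A w hF ha h3 hρ0 hK hdis hA hw hw0 => ?_⟩
  obtain ⟨up, lo⟩ := HR G D U hF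
  have cen := H G D z0 a ρ A w hF.ob ha h3 hρ0 hK hdis hA hw hw0
  have lgφ := pin_mo_lg_win hw0 (Cm * A)
  have lgE := pin_mo_lg_all G D
  have prodpos : 0 < ∏ i, (htPl x fun h => pinI (PinGr (G i) (D i) h)) := Finset.prod_pos fun i _ => hpos _ _
  have le1 : (pinPer x fun h => pinI (∀ i, PinLoc (G i) (D i) h)) ≤ htPl x fun h => pinI (∀ i, PinGr (G i) (D i) h) :=
    pin_mo_per_le_pl hP (pin_mo_lc_locs G D) (pin_mo_p4_locs G D) lgE fun a _ => pin_mo_I_mono fun h i => pin_mo_loc_gr (h i)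
  have le2 : (pinPer x fun h => pinI (|latArr w h| ≤ Cm * A) * pinI (∀ i, PinLoc (G i) (D i) h)) ≤
      htPl x fun h => pinI (|latArr w h| ≤ Cm * A) * pinI (∀ i, PinGr (G i) (D i) h) :=
    pin_mo_per_le_pl hP (lgφ.1.mul (pin_mo_lc_locs G D)) (pin_mo_p4_mul lgφ.2 (pin_mo_p4_locs G D)) (lgφ.mul lgE) fun a _ =>
      mul_le_mul_of_nonneg_left (pin_mo_I_mono fun h i => pin_mo_loc_gr (h i)) (pin_dlr_I_nonneg _)
  have pos : 0 < htPl x fun h => pinI (∀ i, PinGr (G i) (D i) h) := lt_of_lt_of_le (mul_pos hcr prodpos) (lo.trans le1)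
  have ratio : cr / Cr * (htPl x fun h => pinI (∀ i, PinGr (G i) (D i) h)) ≤ pinPer x fun h => pinI (∀ i, PinLoc (G i) (D i) h) := by
    refine le_trans ?_ lo
    rw [div_mul_eq_mul_div, div_le_iff₀ hCr]
    calc cr * (htPl x fun h => pinI (∀ i, PinGr (G i) (D i) h)) ≤ cr * (Cr * ∏ i, (htPl x fun h => pinI (PinGr (G i) (D i) h))) :=
          mul_le_mul_of_nonneg_left up hcr.le
      _ = cr * (∏ i, (htPl x fun h => pinI (PinGr (G i) (D i) h))) * Cr := by ring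
  have cen' : c * (cr / Cr) * (htPl x fun h => pinI (∀ i, PinGr (G i) (D i) h)) ≤
      htPl x fun h => pinI (|latArr w h| ≤ Cm * A) * pinI (∀ i, PinGr (G i) (D i) h) := by
    rw [mul_assoc]
    exact ((mul_le_mul_of_nonneg_left ratio hc.le).trans cen).trans le2
  have := pin_mo_amp_pl hP hx2 (fun h => ∀ i, PinGr (G i) (D i) h)
    (fun s t hs ht => ⟨fun i => (pin_mo_gr_mid (hs i) (ht i)).1, fun i => (pin_mo_gr_mid (hs i) (ht i)).2⟩) lgE hw0
    (by positivity : 0 < c * (cr / Cr)) (mul_pos hCm0 hA) (pin_mo_half_l1 hw hA hCm) pos cen' p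
  rw [mul_pow, ← mul_assoc] at this
  exact this

/-- N3a in the form of ruling 3 of helper34: bound by the product of the single pin probabilities -/
theorem pin_mo_gr_prod {x : ℝ} (hx1 : 1 / Real.sqrt 2 ≤ x) (hx2 : x ≤ 1) (hP : PinPl x) {L1 ρ0 κ n0 : ℕ} (hC : PinCutC x L1 ρ0)
    (hR : PinRareC x κ n0) (hpos : PinPosC x) (k N Kr p : ℕ) :
    ∃ C : ℝ, 0 < C ∧ ∀ (G D U : Fin k → Finset TV) (z0 : TV) (a ρ : ℕ) (A : ℝ) (w : TV →₀ ℝ), PinFam κ n0 N G D U →
      1 ≤ a → 3 * a ≤ ρ → ρ0 ≤ ρ → ρ ≤ Kr * a → (∀ i, Disjoint (G i) (latBall z0 (L1 * ρ))) → 0 < A → MomSm z0 a A w → latTot w = 0 →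
      (htPl x fun h => |latArr w h| ^ p * pinI (∀ i, PinGr (G i) (D i) h)) ≤ C * A ^ p * ∏ i, (htPl x fun h => pinI (PinGr (G i) (D i) h)) := by
  obtain ⟨C, hC0, H⟩ := pin_mo_gr hx1 hx2 hP hC hR hpos k N Kr p
  obtain ⟨cr, Cr, hcr, hCr, HR⟩ := hR k N
  refine ⟨C * Cr, mul_pos hC0 hCr, fun G D U z0 a ρ A w hF ha h3 hρ0 hK hdis hA hw hw0 => ?_⟩
  refine (H G D U z0 a ρ A w hF ha h3 hρ0 hK hdis hA hw hw0).trans ?_
  calc C * A ^ p * (htPl x fun h => pinI (∀ i, PinGr (G i) (D i) h)) ≤ C * A ^ p * (Cr * ∏ i, (htPl x fun h => pinI (PinGr (G i) (D i) h))) :=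
        mul_le_mul_of_nonneg_left (HR G D U hF).1 (by positivity)
    _ = C * Cr * A ^ p * ∏ i, (htPl x fun h => pinI (PinGr (G i) (D i) h)) := by ring

/-- N3a for the plane PAIR law (the statement of the paper: offsets in `4ℤ`) -/
theorem pin_mo_loc {x : ℝ} (hx1 : 1 / Real.sqrt 2 ≤ x) (hx2 : x ≤ 1) (hP : PinPl x) {L1 ρ0 κ n0 : ℕ} (hC : PinCutC x L1 ρ0)
    (hR : PinRareC x κ n0) (hpos : PinPosC x) (k N Kr p : ℕ) :
    ∃ C : ℝ, 0 < C ∧ ∀ (G D U : Fin k → Finset TV) (z0 : TV) (a ρ : ℕ) (A : ℝ) (w : TV →₀ ℝ), PinFam κ n0 N G D U →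
      1 ≤ a → 3 * a ≤ ρ → ρ0 ≤ ρ → ρ ≤ Kr * a → (∀ i, Disjoint (G i) (latBall z0 (L1 * ρ))) → 0 < A → MomSm z0 a A w → latTot w = 0 →
      (pinPer x fun h => |latArr w h| ^ p * pinI (∀ i, PinLoc (G i) (D i) h)) ≤ C * A ^ p * pinPer x fun h => pinI (∀ i, PinLoc (G i) (D i) h) := by
  obtain ⟨C, hC0, H⟩ := pin_mo_gr_prod hx1 hx2 hP hC hR hpos k N Kr p
  obtain ⟨cr, Cr, hcr, hCr, HR⟩ := hR k N
  refine ⟨C / cr, div_pos hC0 hcr, fun G D U z0 a ρ A w hF ha h3 hρ0 hK hdis hA hw hw0 => ?_⟩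
  have lgY : PinLG (fun h => |latArr w h| ^ p) := (pin_mo_lg_arr hw0).map1 fun y => |y| ^ p
  have le2 : (pinPer x fun h => |latArr w h| ^ p * pinI (∀ i, PinLoc (G i) (D i) h)) ≤
      htPl x fun h => |latArr w h| ^ p * pinI (∀ i, PinGr (G i) (D i) h) :=
    pin_mo_per_le_pl hP (lgY.1.mul (pin_mo_lc_locs G D)) (pin_mo_p4_mul lgY.2 (pin_mo_p4_locs G D)) (lgY.mul (pin_mo_lg_all G D)) fun a _ =>
      mul_le_mul_of_nonneg_left (pin_mo_I_mono fun h i => pin_mo_loc_gr (h i)) (by positivity)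
  refine (le2.trans (H G D U z0 a ρ A w hF ha h3 hρ0 hK hdis hA hw hw0)).trans ?_
  calc C * A ^ p * ∏ i, (htPl x fun h => pinI (PinGr (G i) (D i) h)) = C / cr * A ^ p * (cr * ∏ i, (htPl x fun h => pinI (PinGr (G i) (D i) h))) := by
        field_simp
    _ ≤ C / cr * A ^ p * pinPer x fun h => pinI (∀ i, PinLoc (G i) (D i) h) :=
        mul_le_mul_of_nonneg_left (HR G D U hF).2 (by positivity)

/-! ## 7. N3b : the common offset event, uniformly in the gaps -/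

/-- all the groups carry the same offset -/
def PinCom {k : ℕ} (G D : Fin k → Finset TV) (h : TV → ℤ) : Prop := ∃ t : ℤ, ∀ l, PinAbs (G l) (D l) (fun u => h u - t)

theorem pin_mo_com_iff {k : ℕ} (G D : Fin k → Finset TV) (h : TV → ℤ) :
    PinCom G D h ↔ PinGr (Finset.univ.biUnion G) (Finset.univ.biUnion D) h :=
  exists_congr fun t => (pin_mo_abs_union G D fun u => h u - t).symm

theorem pin_mo_com_congr {k : ℕ} {G D : Fin k → Finset TV} {h h' : TV → ℤ} (hh : ∀ u ∈ Finset.univ.biUnion fun i => G i ∪ D i, h u = h' u) :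
    PinCom G D h ↔ PinCom G D h' :=
  exists_congr fun t => forall_congr' fun l => pin_mo_abs_congr fun u hu => by
    rw [hh u (Finset.mem_biUnion.2 ⟨l, Finset.mem_univ _, hu⟩)]

theorem pin_mo_com_shift {k : ℕ} (G D : Fin k → Finset TV) (h : TV → ℤ) (c : ℤ) : PinCom G D (fun u => h u + c) ↔ PinCom G D h := by
  rw [pin_mo_com_iff, pin_mo_com_iff]
  exact pin_mo_gr_shift _ _ h c

/-- a common offset becomes a common offset in `4ℤ` after one of the four shifts -/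
theorem pin_mo_com_four {k : ℕ} {G D : Fin k → Finset TV} {h : TV → ℤ} (hh : PinCom G D h) :
    (1 : ℝ) ≤ ∑ c ∈ Finset.range 4, pinI (∀ l, PinLoc (G l) (D l) fun u => h u + (c : ℤ)) := by
  obtain ⟨t, ht⟩ := hh
  have hc : ((-t) % 4).toNat ∈ Finset.range 4 := by rw [Finset.mem_range]; omega
  refine le_trans ?_ (Finset.single_le_sum (f := fun c : ℕ => pinI (∀ l, PinLoc (G l) (D l) fun u => h u + (c : ℤ)))
    (fun c _ => pin_dlr_I_nonneg _) hc)
  refine (pin_dlr_I_pos fun l => ⟨((-t) % 4 + t) / 4, ?_⟩).ge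
  convert ht l using 2
  have : (((-t) % 4).toNat : ℤ) = (-t) % 4 := Int.toNat_of_nonneg (by omega)
  beta_reduce
  rw [this]
  omega

/-- **N3b, UNIFORM MOMENTS ON THE COMMON OFFSET EVENT.**  No separation of the groups: only the number `k` of groups enters.  `η` = admissible defect of synchronisation (from `exit_dis_sync` along a chain).
Central mass: `P(|Y| ≤ M, P_=) ≥ P(|Y| ≤ M, P_loc) - P(P_loc \ P_=) ≥ (c - η) P(P_loc) ≥ (c - η)/4 · htPl(1_{E_=})`.      TEX[pins:gap-closing] l.858-880 -/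
theorem pin_mo_eq {x : ℝ} (hx1 : 1 / Real.sqrt 2 ≤ x) (hx2 : x ≤ 1) (hP : PinPl x) {L1 ρ0 : ℕ} (hC : PinCutC x L1 ρ0) (hpos : PinPosC x)
    (k Kr : ℕ) :
    ∃ η : ℝ, 0 < η ∧ ∀ p : ℕ, ∃ C : ℝ, 0 < C ∧ ∀ (G D : Fin k → Finset TV) (z0 : TV) (a ρ : ℕ) (A : ℝ) (w : TV →₀ ℝ),
      (∀ i, PinOb (G i) (D i)) → 1 ≤ a → 3 * a ≤ ρ → ρ0 ≤ ρ → ρ ≤ Kr * a → (∀ i, Disjoint (G i) (latBall z0 (L1 * ρ))) →
      0 < A → MomSm z0 a A w → latTot w = 0 →
      (pinPer x fun h => pinI ((∀ l, PinLoc (G l) (D l) h) ∧ ¬ PinCom G D h)) ≤ η * (pinPer x fun h => pinI (∀ l, PinLoc (G l) (D l) h)) →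
      (htPl x fun h => |latArr w h| ^ p * pinI (PinGr (Finset.univ.biUnion G) (Finset.univ.biUnion D) h)) ≤
        C * A ^ p * htPl x fun h => pinI (PinGr (Finset.univ.biUnion G) (Finset.univ.biUnion D) h) := by
  obtain ⟨c, Cm, hc, hCm, H⟩ := pin_mo_cen hx1 hx2 hP hC k Kr
  have hCm0 : 0 < Cm := lt_of_lt_of_le (by norm_num) hCm
  refine ⟨c / 2, half_pos hc, fun p => ⟨mdpC 1 (c / 8 / 2) p * Cm ^ p, mul_pos (mdpC_pos _ _ _) (pow_pos hCm0 p),
    fun G D z0 a ρ A w hO ha h3 hρ0 hK hdis hA hw hw0 hsync => ?_⟩⟩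
  have cen := H G D z0 a ρ A w hO ha h3 hρ0 hK hdis hA hw hw0
  have lgφ := pin_mo_lg_win hw0 (Cm * A)
  have lgE := pin_mo_lg_gr (Finset.univ.biUnion G) (Finset.univ.biUnion D)
  -- the two pieces of the spin pin event
  have lcQ : PinLc (fun h => pinI ((∀ l, PinLoc (G l) (D l) h) ∧ PinCom G D h)) :=
    pin_mo_lc_ev (Finset.univ.biUnion fun i => G i ∪ D i) fun _ _ hh => and_congr
      (forall_congr' fun i => pin_mo_loc_congr fun u hu => hh u (Finset.mem_biUnion.2 ⟨i, Finset.mem_univ _, hu⟩)) (pin_mo_com_congr hh)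
  have p4Q : PinP4 (fun h => pinI ((∀ l, PinLoc (G l) (D l) h) ∧ PinCom G D h)) :=
    pin_mo_p4_ev fun a => and_congr (forall_congr' fun i => pin_mo_loc_shift4 (G i) (D i) a) (pin_mo_com_shift G D a 4)
  have lcN : PinLc (fun h => pinI ((∀ l, PinLoc (G l) (D l) h) ∧ ¬ PinCom G D h)) :=
    pin_mo_lc_ev (Finset.univ.biUnion fun i => G i ∪ D i) fun _ _ hh => and_congr
      (forall_congr' fun i => pin_mo_loc_congr fun u hu => hh u (Finset.mem_biUnion.2 ⟨i, Finset.mem_univ _, hu⟩)) (not_congr (pin_mo_com_congr hh))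
  have p4N : PinP4 (fun h => pinI ((∀ l, PinLoc (G l) (D l) h) ∧ ¬ PinCom G D h)) :=
    pin_mo_p4_ev fun a => and_congr (forall_congr' fun i => pin_mo_loc_shift4 (G i) (D i) a) (not_congr (pin_mo_com_shift G D a 4))
  have split : (pinPer x fun h => pinI (|latArr w h| ≤ Cm * A) * pinI (∀ i, PinLoc (G i) (D i) h)) ≤
      (pinPer x fun h => pinI (|latArr w h| ≤ Cm * A) * pinI ((∀ l, PinLoc (G l) (D l) h) ∧ PinCom G D h)) +
        pinPer x fun h => pinI ((∀ l, PinLoc (G l) (D l) h) ∧ ¬ PinCom G D h) := by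
    rw [← pin_mo_per_add hP (lgφ.1.mul lcQ) (pin_mo_p4_mul lgφ.2 p4Q) lcN p4N]
    refine pin_mo_per_mono hP (lgφ.1.mul (pin_mo_lc_locs G D)) (pin_mo_p4_mul lgφ.2 (pin_mo_p4_locs G D)) ((lgφ.1.mul lcQ).add lcN)
      (pin_mo_p4_add (pin_mo_p4_mul lgφ.2 p4Q) p4N) fun a _ => ?_
    have h1 := pin_dlr_I_nonneg (|latArr w a| ≤ Cm * A)
    have h2 := pin_dlr_I_le_one (|latArr w a| ≤ Cm * A)
    by_cases hp : ∀ i, PinLoc (G i) (D i) a
    · by_cases hq : PinCom G D a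
      · rw [pin_dlr_I_pos hp, pin_dlr_I_pos (⟨hp, hq⟩ : (∀ l, PinLoc (G l) (D l) a) ∧ PinCom G D a)]
        have := pin_dlr_I_nonneg ((∀ l, PinLoc (G l) (D l) a) ∧ ¬ PinCom G D a)
        linarith
      · rw [pin_dlr_I_pos hp, pin_dlr_I_pos (⟨hp, hq⟩ : (∀ l, PinLoc (G l) (D l) a) ∧ ¬ PinCom G D a)]
        have := pin_dlr_I_nonneg ((∀ l, PinLoc (G l) (D l) a) ∧ PinCom G D a)
        nlinarith
    · rw [pin_dlr_I_neg hp, mul_zero]
      have h3 := pin_dlr_I_nonneg ((∀ l, PinLoc (G l) (D l) a) ∧ PinCom G D a)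
      have h4 := pin_dlr_I_nonneg ((∀ l, PinLoc (G l) (D l) a) ∧ ¬ PinCom G D a)
      positivity
  have le2 : (pinPer x fun h => pinI (|latArr w h| ≤ Cm * A) * pinI ((∀ l, PinLoc (G l) (D l) h) ∧ PinCom G D h)) ≤
      htPl x fun h => pinI (|latArr w h| ≤ Cm * A) * pinI (PinGr (Finset.univ.biUnion G) (Finset.univ.biUnion D) h) :=
    pin_mo_per_le_pl hP (lgφ.1.mul lcQ) (pin_mo_p4_mul lgφ.2 p4Q) (lgφ.mul lgE) fun a _ =>
      mul_le_mul_of_nonneg_left (pin_mo_I_mono fun h => (pin_mo_com_iff G D a).1 h.2) (pin_dlr_I_nonneg _)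
  have le4 : (htPl x fun h => pinI (PinGr (Finset.univ.biUnion G) (Finset.univ.biUnion D) h)) ≤
      4 * pinPer x fun h => pinI (∀ l, PinLoc (G l) (D l) h) :=
    pin_mo_pl_le_per hP (pin_mo_lc_locs G D) (pin_mo_p4_locs G D) lgE fun a _ => by
      by_cases hq : PinGr (Finset.univ.biUnion G) (Finset.univ.biUnion D) a
      · rw [pin_dlr_I_pos hq]
        exact pin_mo_com_four ((pin_mo_com_iff G D a).2 hq)
      · rw [pin_dlr_I_neg hq]
        exact Finset.sum_nonneg fun c _ => pin_dlr_I_nonneg _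
  have cen' : c / 8 * (htPl x fun h => pinI (PinGr (Finset.univ.biUnion G) (Finset.univ.biUnion D) h)) ≤
      htPl x fun h => pinI (|latArr w h| ≤ Cm * A) * pinI (PinGr (Finset.univ.biUnion G) (Finset.univ.biUnion D) h) := by
    nlinarith
  have := pin_mo_amp_pl hP hx2 (fun h => PinGr (Finset.univ.biUnion G) (Finset.univ.biUnion D) h)
    (fun s t hs ht => pin_mo_gr_mid hs ht) lgE hw0 (by positivity : 0 < c / 8) (mul_pos hCm0 hA) (pin_mo_half_l1 hw hA hCm) (hpos _ _) cen' p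
  rw [mul_pow, ← mul_assoc] at this
  exact this

theorem pin_mo_per_zero {x : ℝ} (hP : PinPl x) : pinPer x (fun _ => 0) = 0 := by
  rw [pin_mo_per_eq]
  have : pinAv (fun _ => 0) = fun _ => 0 := by funext h; simp [pinAv]
  rw [this, pin_pl_const hP]

/-- **the filled pin**: ONE connected first colour set `G`, `k ≥ 1` connected sets of double pins inside: the offset is automatically common. -/
theorem pin_mo_fill {x : ℝ} (hx1 : 1 / Real.sqrt 2 ≤ x) (hx2 : x ≤ 1) (hP : PinPl x) {L1 ρ0 : ℕ} (hC : PinCutC x L1 ρ0) (hpos : PinPosC x)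
    (k Kr p : ℕ) (hk : 0 < k) :
    ∃ C : ℝ, 0 < C ∧ ∀ (G : Finset TV) (D : Fin k → Finset TV) (z0 : TV) (a ρ : ℕ) (A : ℝ) (w : TV →₀ ℝ),
      (∀ i, PinOb G (D i)) → 1 ≤ a → 3 * a ≤ ρ → ρ0 ≤ ρ → ρ ≤ Kr * a → Disjoint G (latBall z0 (L1 * ρ)) →
      0 < A → MomSm z0 a A w → latTot w = 0 →
      (htPl x fun h => |latArr w h| ^ p * pinI (PinGr G (Finset.univ.biUnion D) h)) ≤ C * A ^ p * htPl x fun h => pinI (PinGr G (Finset.univ.biUnion D) h) := by
  obtain ⟨η, hη, H⟩ := pin_mo_eq hx1 hx2 hP hC hpos k Kr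
  obtain ⟨C, hC0, H⟩ := H p
  refine ⟨C, hC0, fun G D z0 a ρ A w hO ha h3 hρ0 hK hdis hA hw hw0 => ?_⟩
  have eG : (Finset.univ.biUnion fun _ : Fin k => G) = G := by
    ext u
    simp only [Finset.mem_biUnion, Finset.mem_univ, true_and, exists_const_iff, and_iff_right_iff_imp]
    exact fun _ => ⟨⟨0, hk⟩⟩
  have := H (fun _ => G) D z0 a ρ A w hO ha h3 hρ0 hK (fun _ => hdis) hA hw hw0 (by
    have e0 : (fun h : TV → ℤ => pinI ((∀ l, PinLoc G (D l) h) ∧ ¬ PinCom (fun _ => G) D h)) = fun _ => 0 := by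
      funext h
      refine pin_dlr_I_neg ?_
      rintro ⟨h1, h2⟩
      apply h2
      obtain ⟨t0, ht0⟩ := h1 ⟨0, hk⟩
      refine ⟨4 * t0, fun l => ?_⟩
      obtain ⟨t, ht⟩ := h1 l
      obtain ⟨v, hv⟩ := (hO l).ne
      have a1 : h v - 4 * t0 = 0 ∨ h v - 4 * t0 = 1 := ht0.1 v ((hO l).sub hv)
      have a2 : h v - 4 * t = 0 ∨ h v - 4 * t = 1 := ht.1 v ((hO l).sub hv)
      have : t = t0 := by omega
      rw [← this]
      exact ht
    rw [e0, pin_mo_per_zero hP]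
    exact mul_nonneg hη.le (pin_mo_per_nonneg hP (pin_mo_lc_locs _ D) (pin_mo_p4_locs _ D) fun a => pin_dlr_I_nonneg _))
  rw [eG] at this
  exact this

/-! ## 8. the contracts are the exits (guards against drift of the statements) -/

theorem pin_mo_exit_cut (x : ℝ) (hx1 : 1 / Real.sqrt 2 ≤ x) (hx2 : x ≤ 1) : ∃ L1 ρ0 : ℕ, PinCutC x L1 ρ0 := exit_dis_cut_pin x hx1 hx2

theorem pin_mo_exit_rare (x : ℝ) (hx1 : 1 / Real.sqrt 2 ≤ x) (hx2 : x ≤ 1) : ∃ κ n0 : ℕ, PinRareC x κ n0 := exit_dis_rare x hx1 hx2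

theorem pin_mo_exit_pos (x : ℝ) (hx1 : 1 / Real.sqrt 2 ≤ x) (hx2 : x ≤ 1) : PinPosC x := exit_dis_pin_pos x hx1 hx2

/-- house rule: the equation lemmas of the defs of this file are generated HERE -/
theorem pin_mo_ht_eqns_cite : True := by
  have := @pinAv.eq_1
  have := @PinCutC.eq_1
  have := @PinRareC.eq_1
  have := @PinPosC.eq_1
  have := @PinCom.eq_1
  trivial

end Claimed.Agent.R291
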