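import Claimed.Agent.R291.Pin.Iso
import Claimed.Agent.R291.Pin.MomHt

/-!
# Row 291 (S0539), unit PIN (05-pins), Pin/Dbl : THE DOUBLED ARRANGEMENT      (OWNER helper138; head of PIN: helper34, deputy helper48)      0 sorry

TEX[pins:side-norm] (proof): "the reflected arrangement consists of two copies of every obstacle ... (pins:multiplicative) bounds the probability of the doubled pin event by `C J²` ...
Proposition pin-moments in this doubled arrangement".     PRODUCES the hypothesis `hC` of `pin_side` / `pin_last` (Pin/Side, helper48) in his vocabulary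
(`s : Finset α`, `pinAg`, `pinAl`, `image`, `Θ = g⁻¹ ∘ latRefl ∘ g`) from `PinFs` (Pin/Iso) + the NAMED contracts `PinRareC`, `PinCutC`, `PinPosC` and N3a `pin_mo_gr_prod` of helper39 (Pin/MomHt).
* sec. 1  `pin_db_neck_sub` (`PinNeck κ n0 N K U → K ⊆ U`), `PinSd g s U` (the collars are at least two rows away from the row `0` of the chart `g`, all on ONE side), `pin_db_far`, `pin_db_disj`.
* sec. 2  Finset forms of RARE and N3a: `pin_db_up`, `pin_db_lo`, `pin_db_mom` (constants depend on `s.card` only), `pin_db_J_pos`.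
* sec. 3  **`pin_db_one`** (`hC` of `pin_last`), **`pin_db_one'`** (`hC` of `pin_side`, `Y = 1`), **`pin_db_arr`** (`hC` of `pin_side`, `Y = latArr w` a smearing `MomSm z0 a A w` of total mass `0`),
          `pin_db_gen` (`hC` of `pin_side` from ANY second moment bound on the doubled family, e.g. Pin/Test of helper94).
* sec. 4  ready to use: **`pin_db_side_one`**, **`pin_db_side_arr`** (`pinHat (A ΘA) ≤ c² C`), **`pin_db_last`**.
* sec. 5  placements: **`PinFs.disp`** (obstacle `i` translated by `v i`), `pin_db_J_disp` (the normalisation does not move), `PinFs.of_parts`, `PinSd.mono`.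
-/

set_option autoImplicit false
set_option linter.unusedVariables false
set_option linter.unusedSectionVars false

namespace Claimed.Agent.R291

open Claims Claims.C0467 Filter Topology

/-! ## 1. geometry of the doubled family -/

/-- the obstacle lies in its collar region -/
theorem pin_db_neck_sub {κ n0 N : ℕ} {K U : Finset TV} (h : PinNeck κ n0 N K U) : K ⊆ U := by
  obtain ⟨J, _, _, h3⟩ := h
  intro a ha
  by_contra hb
  obtain ⟨p, _, u, hu, _⟩ := h3 ∅ a a ha hb (tsc_R_refl a)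
  exact hu

/-- the regions `U i`, `i ∈ s`, are at least two rows away from the row `0` of the chart `g`, all on the same side `σ` (`true` = above) -/
def PinSd {α : Type} (g : TV ≃ TV) (σ : Bool) (s : Finset α) (U : α → Finset TV) : Prop :=
  ∀ i ∈ s, ∀ u ∈ U i, if σ then 2 ≤ (g u).2 else (g u).2 ≤ -2

theorem pin_db_far {α : Type} {g : TV ≃ TV} (hg : PinIso g) {σ : Bool} {s : Finset α} {U : α → Finset TV} (h : PinSd g σ s U) :
    ∀ i ∈ s, ∀ j ∈ s, ∀ u ∈ U i, ∀ v ∈ U j, 4 ≤ latDist u (pinThE g v) := by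
  intro i hi j hj u hu v hv
  have h1 := h i hi u hu
  have h2 := h j hj v hv
  cases σ
  · exact pin_iso_far_dn hg (by simpa using h1) (by simpa using h2)
  · exact pin_iso_far_up hg (by simpa using h1) (by simpa using h2)

/-- the reflected obstacles do not meet a set which lies on the closed side of the family -/
theorem pin_db_disj {α : Type} {g : TV ≃ TV} {σ : Bool} {s : Finset α} {U : α → Finset TV} (h : PinSd g σ s U) {G : α → Finset TV}
    (hGU : ∀ i ∈ s, G i ⊆ U i) {T : Finset TV} (hT : ∀ u ∈ T, if σ then 0 ≤ (g u).2 else (g u).2 ≤ 0) {i : α} (hi : i ∈ s) :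
    Disjoint ((G i).image (pinThE g)) T := by
  rw [Finset.disjoint_left]
  intro u hu huT
  obtain ⟨v, hv, rfl⟩ := Finset.mem_image.1 hu
  have h1 := h i hi v (hGU i hi hv)
  have h2 := hT _ huT
  rw [pin_iso_th_apply, Equiv.apply_symm_apply, pin_refl_snd] at h2
  cases σ
  · simp only [Bool.false_eq_true, if_false] at h1 h2; omega
  · simp only [if_true] at h1 h2; omega

/-! ## 2. RARE and N3a for families indexed by a finite set -/

section named

variable {x : ℝ} {κ n0 : ℕ}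

theorem pin_db_up (hR : PinRareC x κ n0) (k N : ℕ) :
    ∃ C : ℝ, 0 < C ∧ ∀ {α : Type} (s : Finset α) (G D U : α → Finset TV), s.card = k → PinFs κ n0 N s G D U →
      htPl x (pinAg s G D) ≤ C * ∏ i ∈ s, pinPr x (G i) (D i) := by
  obtain ⟨c, C, hc, hC, H⟩ := hR k N
  exact ⟨C, hC, fun s G D U hk h => pin_fs_up h hk fun G D U hF => (H G D U hF).1⟩

theorem pin_db_lo (hR : PinRareC x κ n0) (k N : ℕ) :
    ∃ c : ℝ, 0 < c ∧ ∀ {α : Type} (s : Finset α) (G D U : α → Finset TV), s.card = k → PinFs κ n0 N s G D U →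
      c * ∏ i ∈ s, pinPr x (G i) (D i) ≤ pinPer x fun h => pinI (∀ i ∈ s, PinLoc (G i) (D i) h) := by
  obtain ⟨c, C, hc, hC, H⟩ := hR k N
  exact ⟨c, hc, fun s G D U hk h => pin_fs_lo h hk fun G D U hF => (H G D U hF).2⟩

theorem pin_db_J_pos (hpos : PinPosC x) {α : Type} (s : Finset α) (G D : α → Finset TV) : 0 < ∏ i ∈ s, pinPr x (G i) (D i) :=
  Finset.prod_pos fun i _ => hpos _ _

/-- N3a (`pin_mo_gr_prod` of helper39) for a family indexed by a finite set -/
theorem pin_db_mom (hx1 : 1 / Real.sqrt 2 ≤ x) (hx2 : x ≤ 1) (hP : PinPl x) {L1 ρ0 : ℕ} (hC : PinCutC x L1 ρ0)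
    (hR : PinRareC x κ n0) (hpos : PinPosC x) (k N Kr p : ℕ) :
    ∃ C : ℝ, 0 < C ∧ ∀ {α : Type} (s : Finset α) (G D U : α → Finset TV) (z0 : TV) (a ρ : ℕ) (A : ℝ) (w : TV →₀ ℝ), s.card = k →
      PinFs κ n0 N s G D U → 1 ≤ a → 3 * a ≤ ρ → ρ0 ≤ ρ → ρ ≤ Kr * a → (∀ i ∈ s, Disjoint (G i) (latBall z0 (L1 * ρ))) → 0 < A →
      MomSm z0 a A w → latTot w = 0 →
      (htPl x fun h => |latArr w h| ^ p * pinAg s G D h) ≤ C * A ^ p * ∏ i ∈ s, pinPr x (G i) (D i) := by
  obtain ⟨C, hC0, H⟩ := pin_mo_gr_prod hx1 hx2 hP hC hR hpos k N Kr p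
  refine ⟨C, hC0, fun {α} s G D U z0 a ρ A w hk hF ha h3 hρ0 hK hdis hA hw hw0 => ?_⟩
  subst hk
  have e : Fin s.card ≃ s := s.equivFin.symm
  have := H _ _ _ z0 a ρ A w (pin_fs_fin hF e) ha h3 hρ0 hK (fun i => hdis _ (e i).2) hA hw hw0
  rw [pin_fs_prod e fun i => htPl x fun h => pinI (PinGr (G i) (D i) h)] at this
  refine le_trans (le_of_eq ?_) this
  congr 1
  funext b
  congr 1
  exact pin_dlr_I_congr (pin_fs_forall e fun i => PinGr (G i) (D i) b).symm

end named

/-! ## 3. the hypothesis `hC` of `pin_side` and `pin_last` -/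

section hC

variable {x : ℝ} {κ n0 : ℕ}

/-- **`hC` of `pin_last`**: the doubled gradient pin event has probability `≤ C J²` -/
theorem pin_db_one (hP : PinPl x) (hR : PinRareC x κ n0) (k N : ℕ) :
    ∃ C : ℝ, 0 < C ∧ ∀ {α : Type} (s : Finset α) (G D U : α → Finset TV) (g : TV ≃ TV) (σ : Bool), s.card + s.card = k →
      PinFs κ n0 N s G D U → PinIso g → PinIvr x g → PinSd g σ s U →
      htPl x (fun h => pinAg s G D h * pinAg s (fun i => (G i).image fun u => g.symm (latRefl (g u)))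
        (fun i => (D i).image fun u => g.symm (latRefl (g u))) h) ≤ C * (∏ i ∈ s, pinPr x (G i) (D i)) ^ 2 := by
  obtain ⟨c, C, hc, hC, H⟩ := hR k N
  refine ⟨C, hC, fun {α} s G D U g σ hk hF hg hI hS => ?_⟩
  have key := pin_fs_dbl hF (pin_iso_th hg) (pin_iso_th_ivr hP hI) (pin_db_far hg hS) hk fun G D U hF => (H G D U hF).1
  have e : (⇑(pinThE g) : TV → TV) = fun u => g.symm (latRefl (g u)) := rfl
  rw [e] at key
  exact key

/-- **`hC` of `pin_side`** without insertion (`Y = 1`) -/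
theorem pin_db_one' (hP : PinPl x) (hR : PinRareC x κ n0) (k N : ℕ) :
    ∃ C : ℝ, 0 < C ∧ ∀ {α : Type} (s : Finset α) (G D U : α → Finset TV) (g : TV ≃ TV) (σ : Bool), s.card + s.card = k →
      PinFs κ n0 N s G D U → PinIso g → PinIvr x g → PinSd g σ s U →
      htPl x (fun h => (1 : ℝ) ^ 2 * (pinAg s G D h * pinAg s (fun i => (G i).image fun u => g.symm (latRefl (g u)))
        (fun i => (D i).image fun u => g.symm (latRefl (g u))) h)) ≤ C * (∏ i ∈ s, pinPr x (G i) (D i)) ^ 2 := by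
  obtain ⟨C, hC, H⟩ := pin_db_one hP hR k N
  refine ⟨C, hC, fun {α} s G D U g σ hk hF hg hI hS => ?_⟩
  simp only [one_pow, one_mul]
  exact H s G D U g σ hk hF hg hI hS

/-- **`hC` of `pin_side`** from ANY second moment bound on the doubled family (stated on the disjoint sum) -/
theorem pin_db_gen (hP : PinPl x) {α : Type} (s : Finset α) (G D : α → Finset TV) (Θ : TV → TV) (Y : (TV → ℤ) → ℝ) {B : ℝ}
    (hY : htPl x (fun h => Y h ^ 2 * pinAg (s.disjSum s) (Sum.elim G fun i => (G i).image Θ) (Sum.elim D fun i => (D i).image Θ) h) ≤ B) :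
    htPl x (fun h => Y h ^ 2 * (pinAg s G D h * pinAg s (fun i => (G i).image Θ) (fun i => (D i).image Θ) h)) ≤ B := by
  simp only [pin_fs_ag_sum]
  exact hY

/-- **`hC` of `pin_side`** with the insertion `Y = latArr w`, a smearing of total mass `0` whose protected ball lies on the closed side of the family and misses the obstacles -/
theorem pin_db_arr (hx1 : 1 / Real.sqrt 2 ≤ x) (hx2 : x ≤ 1) (hP : PinPl x) {L1 ρ0 : ℕ} (hC : PinCutC x L1 ρ0)
    (hR : PinRareC x κ n0) (hpos : PinPosC x) (k N Kr : ℕ) :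
    ∃ C : ℝ, 0 < C ∧ ∀ {α : Type} (s : Finset α) (G D U : α → Finset TV) (g : TV ≃ TV) (σ : Bool) (z0 : TV) (a ρ : ℕ) (A : ℝ) (w : TV →₀ ℝ),
      s.card + s.card = k → PinFs κ n0 N s G D U → PinIso g → PinIvr x g → PinSd g σ s U →
      (∀ u ∈ latBall z0 (L1 * ρ), if σ then 0 ≤ (g u).2 else (g u).2 ≤ 0) →
      1 ≤ a → 3 * a ≤ ρ → ρ0 ≤ ρ → ρ ≤ Kr * a → (∀ i ∈ s, Disjoint (G i) (latBall z0 (L1 * ρ))) → 0 < A → MomSm z0 a A w → latTot w = 0 →
      htPl x (fun h => latArr w h ^ 2 * (pinAg s G D h * pinAg s (fun i => (G i).image fun u => g.symm (latRefl (g u)))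
        (fun i => (D i).image fun u => g.symm (latRefl (g u))) h)) ≤ C * A ^ 2 * (∏ i ∈ s, pinPr x (G i) (D i)) ^ 2 := by
  obtain ⟨C, hC0, H⟩ := pin_db_mom hx1 hx2 hP hC hR hpos k N Kr 2
  refine ⟨C, hC0, fun {α} s G D U g σ z0 a ρ A w hk hF hg hI hS hB ha h3 hρ0 hK hdis hA hw hw0 => ?_⟩
  have hΘ := pin_iso_th hg
  have hGU : ∀ i ∈ s, G i ⊆ U i := fun i hi => pin_db_neck_sub (hF.neck i hi)
  have hF2 := hF.sum (hF.image hΘ) (fun i hi j hj u hu v hv => by
    obtain ⟨v', hv', rfl⟩ := Finset.mem_image.1 hv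
    exact pin_db_far hg hS i hi j hj u hu v' hv')
  have key := H (s.disjSum s) _ _ _ z0 a ρ A w (by rw [Finset.card_disjSum, hk]) hF2 ha h3 hρ0 hK (by
    rintro (i | i) hi
    · exact hdis i (Finset.inl_mem_disjSum.1 hi)
    · exact pin_db_disj hS hGU hB (Finset.inr_mem_disjSum.1 hi)) hA hw hw0
  rw [Finset.prod_disjSum] at key
  simp only [Sum.elim_inl, Sum.elim_inr, pin_iso_p (pin_iso_th_ivr hP hI), sq_abs] at key
  rw [← sq] at key
  have e : (⇑(pinThE g) : TV → TV) = fun u => g.symm (latRefl (g u)) := rfl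
  rw [e] at key
  exact pin_db_gen hP s G D _ _ key

end hC

/-! ## 4. ready to use: the side norms and the last step -/

section ready

variable {x : ℝ} {κ n0 : ℕ}

theorem pin_db_th2 (g : TV ≃ TV) (u : TV) : g.symm (latRefl (g (g.symm (latRefl (g u))))) = u := pin_iso_th_th g u

theorem pin_db_ne {N : ℕ} {α : Type} {s : Finset α} {G D U : α → Finset TV} (hF : PinFs κ n0 N s G D U) (hs : s.Nonempty) :
    ∃ i ∈ s, (D i).Nonempty := by
  obtain ⟨i, hi⟩ := hs
  exact ⟨i, hi, (hF.ob i hi).ne⟩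

/-- **side norm of a family without insertion**: `A = S 1_abs / J`, `S` bounded spectators -/
theorem pin_db_side_one (hP : PinPl x) (hR : PinRareC x κ n0) (hpos : PinPosC x) (k N : ℕ) :
    ∃ C : ℝ, 0 < C ∧ ∀ {α : Type} (s : Finset α) (G D U : α → Finset TV) (g : TV ≃ TV) (σ : Bool) (S : (TV → ℤ) → ℝ) (c : ℝ),
      s.card + s.card = k → s.Nonempty → PinFs κ n0 N s G D U → PinIso g → PinIvr x g → PinSd g σ s U → PinLG S → (∀ h, |S h| ≤ c) →
      pinHat x (fun h => (1 * S h * pinAl s G D h / ∏ i ∈ s, pinPr x (G i) (D i)) *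
        pinMp (fun u => g.symm (latRefl (g u))) (fun h => 1 * S h * pinAl s G D h / ∏ i ∈ s, pinPr x (G i) (D i)) h) ≤ c ^ 2 * C := by
  obtain ⟨C, hC, H⟩ := pin_db_one' hP hR k N
  refine ⟨C, hC, fun {α} s G D U g σ S c hk hs hF hg hI hS hSl hSb => ?_⟩
  exact pin_side hP (Θ := fun u => g.symm (latRefl (g u))) (pin_db_th2 g) (pin_iso_th_ivr hP hI) s G D (pin_db_ne hF hs)
    (Y := fun _ => 1) (PinLG.const 1) hSl hSb (pin_db_J_pos hpos s G D) (H s G D U g σ hk hF hg hI hS)

/-- **side norm of a family with the insertion** `Y = latArr w` -/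
theorem pin_db_side_arr (hx1 : 1 / Real.sqrt 2 ≤ x) (hx2 : x ≤ 1) (hP : PinPl x) {L1 ρ0 : ℕ} (hC : PinCutC x L1 ρ0)
    (hR : PinRareC x κ n0) (hpos : PinPosC x) (k N Kr : ℕ) :
    ∃ C : ℝ, 0 < C ∧ ∀ {α : Type} (s : Finset α) (G D U : α → Finset TV) (g : TV ≃ TV) (σ : Bool) (z0 : TV) (a ρ : ℕ) (A : ℝ) (w : TV →₀ ℝ)
      (S : (TV → ℤ) → ℝ) (c : ℝ),
      s.card + s.card = k → s.Nonempty → PinFs κ n0 N s G D U → PinIso g → PinIvr x g → PinSd g σ s U →
      (∀ u ∈ latBall z0 (L1 * ρ), if σ then 0 ≤ (g u).2 else (g u).2 ≤ 0) →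
      1 ≤ a → 3 * a ≤ ρ → ρ0 ≤ ρ → ρ ≤ Kr * a → (∀ i ∈ s, Disjoint (G i) (latBall z0 (L1 * ρ))) → 0 < A → MomSm z0 a A w → latTot w = 0 →
      PinLG S → (∀ h, |S h| ≤ c) →
      pinHat x (fun h => (latArr w h * S h * pinAl s G D h / ∏ i ∈ s, pinPr x (G i) (D i)) *
        pinMp (fun u => g.symm (latRefl (g u))) (fun h => latArr w h * S h * pinAl s G D h / ∏ i ∈ s, pinPr x (G i) (D i)) h) ≤ c ^ 2 * (C * A ^ 2) := by
  obtain ⟨C, hC0, H⟩ := pin_db_arr hx1 hx2 hP hC hR hpos k N Kr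
  refine ⟨C, hC0, fun {α} s G D U g σ z0 a ρ A w S c hk hs hF hg hI hS hB ha h3 hρ0 hK hdis hA hw hw0 hSl hSb => ?_⟩
  exact pin_side hP (Θ := fun u => g.symm (latRefl (g u))) (pin_db_th2 g) (pin_iso_th_ivr hP hI) s G D (pin_db_ne hF hs)
    (pin_mo_lg_arr hw0) hSl hSb (pin_db_J_pos hpos s G D) (H s G D U g σ z0 a ρ A w hk hF hg hI hS hB ha h3 hρ0 hK hdis hA hw hw0)

/-- **the last step**: the insertion `X` alone above the row `0` of the chart `g`, everything else at least two rows below -/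
theorem pin_db_last (hP : PinPl x) (hR : PinRareC x κ n0) (hpos : PinPosC x) (k N : ℕ) :
    ∃ C : ℝ, 0 < C ∧ ∀ {α : Type} (s : Finset α) (G D U : α → Finset TV) (g : TV ≃ TV) (X S : (TV → ℤ) → ℝ) (c : ℝ) (SX SR : Finset TV),
      s.card + s.card = k → s.Nonempty → PinFs κ n0 N s G D U → PinIso g → PinIvr x g → PinSd g false s U → PinLG X → PinLG S → (∀ h, |S h| ≤ c) →
      HtLoc SX X → HtLoc SR S → (∀ i ∈ s, G i ∪ D i ⊆ SR) → (∀ u ∈ SX, 0 ≤ (g u).2) → (∀ u ∈ SR, (g u).2 ≤ 0) →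
      pinHat x (fun h => X h * (S h * pinAl s G D h / ∏ i ∈ s, pinPr x (G i) (D i))) ^ 2
        ≤ htPl x (fun h => X h * pinMp (fun u => g.symm (latRefl (g u))) X h) * (c ^ 2 * C) := by
  obtain ⟨C, hC, H⟩ := pin_db_one hP hR k N
  refine ⟨C, hC, fun {α} s G D U g X S c SX SR hk hs hF hg hI hS hX hSl hSb lX lS lG sX sR => ?_⟩
  exact pin_last hP (g := g) (g' := g.symm) (fun u => g.apply_symm_apply u) hI s G D (pin_db_ne hF hs) hX hSl hSb
    (pin_db_J_pos hpos s G D) lX lS lG sX sR (H s G D U g false hk hF hg hI hS)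

end ready

/-! ## 5. displaced families (the placements of the five moves) -/

section disp

variable {x : ℝ} {κ n0 N : ℕ} {α : Type} {s : Finset α} {G D U : α → Finset TV}

theorem pin_db_tr_coe (a : TV) : (⇑(pinTrE a) : TV → TV) = fun u => u + a := rfl

/-- every obstacle `i` is translated by `v i`: obstacles with the same displacement keep their distances, the others must be checked -/
theorem PinFs.disp (h : PinFs κ n0 N s G D U) (v : α → TV)
    (hx : ∀ i ∈ s, ∀ j ∈ s, v i ≠ v j → ∀ u ∈ U i, ∀ w ∈ U j, 4 ≤ latDist (u + v i) (w + v j)) :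
    PinFs κ n0 N s (fun i => (G i).image fun u => u + v i) (fun i => (D i).image fun u => u + v i) (fun i => (U i).image fun u => u + v i) := by
  refine ⟨fun i hi => ?_, fun i hi => ?_, fun i hi j hj hij u hu w hw => ?_⟩
  · have := pin_iso_ob (pin_iso_tr (v i)).aut (h.ob i hi)
    rwa [Finset.map_eq_image, Finset.map_eq_image] at this
  · have := pin_iso_neck (pin_iso_tr (v i)) (h.neck i hi)
    rwa [Finset.map_eq_image, Finset.map_eq_image] at this
  · obtain ⟨u', hu', rfl⟩ := Finset.mem_image.1 hu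
    obtain ⟨w', hw', rfl⟩ := Finset.mem_image.1 hw
    by_cases hv : v i = v j
    · have := pin_iso_dist (pin_iso_tr (v j)) u' w'
      rw [hv]
      show 4 ≤ latDist (pinTrE (v j) u') (pinTrE (v j) w')
      rw [this]
      exact h.far i hi j hj hij u' hu' w' hw'
    · exact hx i hi j hj hv u' hu' w' hw'

/-- the normalisation does not depend on the placement -/
theorem pin_db_J_disp (hP : PinPl x) (s : Finset α) (G D : α → Finset TV) (v : α → TV) :
    ∏ i ∈ s, pinPr x ((G i).image fun u => u + v i) ((D i).image fun u => u + v i) = ∏ i ∈ s, pinPr x (G i) (D i) :=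
  Finset.prod_congr rfl fun i _ => pin_iso_p (pin_inv_tr hP (v i)) (G i) (D i)

/-- a family is separated as soon as its parts are and the parts are far from each other -/
theorem PinFs.of_parts {ι : Type} [DecidableEq ι] (fam : α → ι) (hin : ∀ f, PinFs κ n0 N (s.filter fun i => fam i = f) G D U)
    (hx : ∀ i ∈ s, ∀ j ∈ s, fam i ≠ fam j → ∀ u ∈ U i, ∀ w ∈ U j, 4 ≤ latDist u w) : PinFs κ n0 N s G D U := by
  refine ⟨fun i hi => (hin (fam i)).ob i (Finset.mem_filter.2 ⟨hi, rfl⟩), fun i hi => (hin (fam i)).neck i (Finset.mem_filter.2 ⟨hi, rfl⟩),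
    fun i hi j hj hij u hu w hw => ?_⟩
  by_cases hf : fam i = fam j
  · exact (hin (fam j)).far i (Finset.mem_filter.2 ⟨hi, hf⟩) j (Finset.mem_filter.2 ⟨hj, rfl⟩) hij u hu w hw
  · exact hx i hi j hj hf u hu w hw

theorem PinSd.mono {g : TV ≃ TV} {σ : Bool} (h : PinSd g σ s U) {s' : Finset α} (hs : s' ⊆ s) : PinSd g σ s' U :=
  fun i hi => h i (hs hi)

end disp

theorem pin_db_eqns_cite : True := by
  have := @PinSd.eq_1
  trivial

end Claimed.Agent.R291
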