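import Claimed.Agent.R291.Pin.Side
import Claimed.Agent.R291.Pin.Shell
import Claimed.Agent.R291.Pin.MomHt
import Claimed.Agent.R291.Pin.Dbl
import Claimed.Agent.R291.Pln.PcvA
import Claimed.Agent.R291.Wick.Multi
import Claimed.Agent.R291.Geo.Lat

/-!
# Row 291 (S0539), unit PIN (05-pins), Pin/Test : PIN MOMENTS OF THE SMEARED INSERTION `X = h(Δφ)`      (OWNER helper94; posted by helper48; head of PIN: helper34)

TEX[prop:pin-moments] as used in TEX[pins:side-norm], TEX[pins:three-moves], TEX[pins:gap-closing] for the insertion `X_n = h(Δφ)`, `φ` a FIXED test function (its support is NOT small with respect to the distance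
to the pins in units of the constant `L1` of the stopped cut).   `Δφ = ∑_j Δ(χ_j φ)`: every piece has total mass zero and a small support (`wk_localize` of helper108: no partition of unity), then N3 of helper39 on each piece.
GENERIC IN THE EVENT (asked by helper34, helper76): `Q ≥ 0` = any local gradient weight.
* `PinSmB x L1 ρ0 p C0 δ K c0 Q`   the small-smearing bound for the weight `Q`: `htPl (|latArr w|^p Q) ≤ C0 A^p htPl Q` for every `MomSm z0 a A w` of total mass zero, `ρ0 ≤ 3 a`, the face of `z0` meets `K`, `L1 (3 a) δ ≤ c0`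
* sec. 1  arrays: `latArr` is additive, local, a gradient observable on arrays of total mass zero; `plnW δ (lap2 ψ)` has total mass zero
* sec. 2  `pin_te_local`  one small piece: lattice radius `a = ⌈2 d / δ⌉ + 4`, `ρ = 3 a`, weight bound `A = 1764 M d² + 1`
* sec. 3  **`pin_test_gen`**  `PinSmB .. δ (tsupport φ) c0 Q  ⟹  htPl (|X|^p Q) ≤ C htPl Q`, `X = latArr (plnW δ (lap2 φ))`, `C` uniform in `δ ≤ δ0` and in `Q`;
          **`pin_test_J`** = the same with an arbitrary normalisation `J ≥ 0` instead of `htPl Q` on both right sides (`PinSmJ`)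
* sec. 4  consumer forms: **`pin_test_gr`** (N3a: separated gradient pins `PinFam κ n0 N` at Euclidean distance `≥ c0` from `tsupport φ`; consumers 48, 138), `pin_test_lat` (pins off a lattice ball),
          **`pin_test_sm`** (`X = htSm (δ n) (F n) (lap2 φ)`, free balls = balls inside `latInt (F n)`; consumer 76: N3b `pin_mo_eq`, `pin_mo_fill`), `pin_test_bd` (= `PinGiTest` of 76),
          **`pin_test_db`** (doubled arrangement, vocabulary of 138: `pin_db_arr` with the insertion instead of `latArr w`)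
-/

set_option autoImplicit false

namespace Claimed.Agent.R291

open Claims Claims.C0467 Filter Topology MeasureTheory
open scoped ContDiff

/-- the small-smearing bound for the weight `Q` -/
def PinSmB (x : ℝ) (L1 ρ0 p : ℕ) (C0 δ : ℝ) (K : Set (ℝ × ℝ)) (c0 : ℝ) (Q : (TV → ℤ) → ℝ) : Prop :=
  ∀ (z0 : TV) (a : ℕ) (A : ℝ) (w : TV →₀ ℝ), 1 ≤ a → ρ0 ≤ 3 * a → (hexFace δ z0 ∩ K).Nonempty → ((L1 * (3 * a) : ℕ) : ℝ) * δ ≤ c0 →
    0 < A → MomSm z0 a A w → latTot w = 0 → htPl x (fun h => |latArr w h| ^ p * Q h) ≤ C0 * A ^ p * htPl x Q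

/-- the small-smearing bound for the weight `Q`, with an arbitrary normalisation `J` on the right side -/
def PinSmJ (x : ℝ) (L1 ρ0 p : ℕ) (C0 δ : ℝ) (K : Set (ℝ × ℝ)) (c0 : ℝ) (Q : (TV → ℤ) → ℝ) (J : ℝ) : Prop :=
  ∀ (z0 : TV) (a : ℕ) (A : ℝ) (w : TV →₀ ℝ), 1 ≤ a → ρ0 ≤ 3 * a → (hexFace δ z0 ∩ K).Nonempty → ((L1 * (3 * a) : ℕ) : ℝ) * δ ≤ c0 →
    0 < A → MomSm z0 a A w → latTot w = 0 → htPl x (fun h => |latArr w h| ^ p * Q h) ≤ C0 * A ^ p * J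

theorem pin_te_eqns_cite : True := by
  have := @PinSmB.eq_1
  have := @PinSmJ.eq_1
  trivial

/-! ## 1. arrays -/

theorem pin_te_arr_add (a a' : TV →₀ ℝ) (h : TV → ℤ) : latArr (a + a') h = latArr a h + latArr a' h := by
  unfold latArr
  exact Finsupp.sum_add_index' (fun _ => by simp) (fun _ _ _ => by ring)

theorem pin_te_arr_zero (h : TV → ℤ) : latArr 0 h = 0 := by
  unfold latArr; exact Finsupp.sum_zero_index

theorem pin_te_arr_loc (w : TV →₀ ℝ) : HtLoc w.support (latArr w) := by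
  intro h h' e
  unfold latArr Finsupp.sum
  exact Finset.sum_congr rfl fun u hu => by
    show w u * (h u : ℝ) = w u * (h' u : ℝ)
    rw [e u hu]

theorem pin_te_arr_grad {w : TV →₀ ℝ} (hw : latTot w = 0) : HtGrad (latArr w) := by
  intro h c
  unfold latArr latTot Finsupp.sum at *
  have : ∑ u ∈ w.support, w u * ((h u + c : ℤ) : ℝ) = ∑ u ∈ w.support, w u * (h u : ℝ) + (∑ u ∈ w.support, w u) * c := by
    rw [Finset.sum_mul, ← Finset.sum_add_distrib]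
    exact Finset.sum_congr rfl fun u _ => by push_cast; ring
  rw [this, hw, zero_mul, add_zero]

theorem pin_te_arr_LG {w : TV →₀ ℝ} (hw : latTot w = 0) : PinLG (latArr w) := ⟨⟨_, pin_te_arr_loc w⟩, pin_te_arr_grad hw⟩

theorem pin_te_I_LG {k : ℕ} (G D : Fin k → Finset TV) : PinLG (fun h => pinI (∀ i, PinGr (G i) (D i) h)) := by
  have := pin_sd_ag_LG Finset.univ G D
  have e : pinAg Finset.univ G D = fun h => pinI (∀ i, PinGr (G i) (D i) h) := by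
    funext h
    unfold pinAg
    exact pin_sd_I_congr ⟨fun H i => H i (Finset.mem_univ i), fun H i _ => H i⟩
  rwa [e] at this

theorem pin_te_obs_LG {w : TV →₀ ℝ} (hw : latTot w = 0) (p : ℕ) {Q : (TV → ℤ) → ℝ} (hQ : PinLG Q) :
    PinLG (fun h => |latArr w h| ^ p * Q h) :=
  ((pin_te_arr_LG hw).map1 (fun t => |t| ^ p)).mul hQ

/-- the Laplacian of a test function is a test of integral zero -/
theorem pin_te_lap {ψ : ℝ × ℝ → ℝ} (h : ContDiff ℝ ∞ ψ) (hc : HasCompactSupport ψ) : PcvT (lap2 ψ) ∧ ∫ z, lap2 ψ z = 0 := by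
  have h2 : ContDiff ℝ 2 ψ := h.of_le (WithTop.coe_le_coe.2 le_top)
  refine ⟨⟨wkg_lap_continuous h2, wkg_lap_compact hc⟩, ?_⟩
  have := wkg_green (D := Set.univ) isOpen_univ (u := fun _ => (1 : ℝ)) contDiffOn_const h2 hc (Set.subset_univ _)
  have e : lap2 (fun _ : ℝ × ℝ => (1 : ℝ)) = fun _ => 0 := by
    funext z
    simp [lap2]
  simpa [e] using this

theorem pin_te_tot {ψ : ℝ × ℝ → ℝ} (h : ContDiff ℝ ∞ ψ) (hc : HasCompactSupport ψ) {δ : ℝ} (hδ : 0 < δ) :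
    latTot (plnW δ (lap2 ψ)) = 0 := by
  obtain ⟨h1, h2⟩ := pin_te_lap h hc
  rw [pcv_W_tot hδ h1, h2]

theorem pin_te_pow_add (a b : ℝ) (p : ℕ) : |a + b| ^ p ≤ 2 ^ p * (|a| ^ p + |b| ^ p) := by
  have h1 : |a + b| ≤ 2 * max |a| |b| := by
    have := abs_add_le a b
    have := le_max_left |a| |b|
    have := le_max_right |a| |b|
    linarith
  have h2 : (max |a| |b|) ^ p ≤ |a| ^ p + |b| ^ p := by
    rcases le_total |a| |b| with h | h
    · rw [max_eq_right h]; have := pow_nonneg (abs_nonneg a) p; linarith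
    · rw [max_eq_left h]; have := pow_nonneg (abs_nonneg b) p; linarith
  calc |a + b| ^ p ≤ (2 * max |a| |b|) ^ p := pow_le_pow_left₀ (abs_nonneg _) h1 p
    _ = 2 ^ p * (max |a| |b|) ^ p := mul_pow _ _ _
    _ ≤ _ := mul_le_mul_of_nonneg_left h2 (by positivity)

/-! ## 2. one small piece -/

theorem pin_te_face {δ : ℝ} (hδ : 0 < δ) {u : TV} {y : ℝ × ℝ} (hy : y ∈ hexFace δ u) : dist (pinC y) (pinP δ u) ≤ δ := by
  unfold pinP
  rw [pin_sh_dist_le_iff _ _ hδ.le]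
  have := hg_hexFace_sqDist_le hδ hy
  nlinarith [sq_nonneg δ]

theorem pin_te_local {x : ℝ} (L1 ρ0 p : ℕ) {c0 C0 : ℝ} (hc0 : 0 < c0) (hC0 : 0 < C0) {K : Set (ℝ × ℝ)}
    {z : ℝ × ℝ} (hz : z ∈ K) {ψ : ℝ × ℝ → ℝ} (hψ : ContDiff ℝ ∞ ψ) (hc : HasCompactSupport ψ)
    (hs : tsupport ψ ⊆ wkBall z (c0 / (21 * L1 + 2))) :
    ∃ C δ0 : ℝ, 0 < C ∧ 0 < δ0 ∧ ∀ δ : ℝ, 0 < δ → δ ≤ δ0 → ∀ (Q : (TV → ℤ) → ℝ) (J : ℝ),
      PinSmJ x L1 ρ0 p C0 δ K c0 Q J →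
      htPl x (fun h => |latArr (plnW δ (lap2 ψ)) h| ^ p * Q h) ≤ C * J := by
  set d : ℝ := c0 / (21 * L1 + 2) with hd
  have hL : (0 : ℝ) < 21 * L1 + 2 := by positivity
  have hd0 : 0 < d := by positivity
  have hdc : (21 * L1 + 2) * d = c0 := by rw [hd]; field_simp
  obtain ⟨hT, hT0⟩ := pin_te_lap hψ hc
  obtain ⟨M, hM0, hM⟩ := wkg_bdd hT.cont hT.comp
  set A : ℝ := 1764 * M * d ^ 2 + 1 with hA
  have hA0 : 0 < A := by positivity
  refine ⟨C0 * A ^ p, min d (6 * d / (ρ0 + 1)), by positivity, by positivity, fun δ hδ hδ0 Q J H => ?_⟩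
  have hδd : δ ≤ d := hδ0.trans (min_le_left _ _)
  have hδρ : (ρ0 + 1) * δ ≤ 6 * d := by
    have := hδ0.trans (min_le_right _ _)
    rwa [le_div_iff₀ (by positivity), mul_comm] at this
  obtain ⟨z0, hz0⟩ := hg_cover hδ z
  set a : ℕ := ⌈2 * d / δ⌉₊ + 4 with ha
  have ha1 : (a : ℝ) * δ ≤ 7 * d := by
    have h1 : ((⌈2 * d / δ⌉₊ : ℕ) : ℝ) < 2 * d / δ + 1 := Nat.ceil_lt_add_one (by positivity)
    have h2 : (a : ℝ) < 2 * d / δ + 5 := by rw [ha]; push_cast; linarith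
    have h3 : (a : ℝ) * δ < (2 * d / δ + 5) * δ := mul_lt_mul_of_pos_right h2 hδ
    have h4 : (2 * d / δ + 5) * δ = 2 * d + 5 * δ := by field_simp
    linarith
  have ha2 : 2 * d + 4 * δ ≤ (a : ℝ) * δ := by
    have h1 : 2 * d / δ ≤ ((⌈2 * d / δ⌉₊ : ℕ) : ℝ) := Nat.le_ceil _
    have h2 : 2 * d / δ + 4 ≤ (a : ℝ) := by rw [ha]; push_cast; linarith
    have h3 : (2 * d / δ + 4) * δ ≤ (a : ℝ) * δ := mul_le_mul_of_nonneg_right h2 hδ.le
    have h4 : (2 * d / δ + 4) * δ = 2 * d + 4 * δ := by field_simp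
    linarith
  have ha0 : 1 ≤ a := by rw [ha]; omega
  set w := plnW δ (lap2 ψ) with hw
  have hwu : ∀ u, |w u| ≤ 4 * δ ^ 2 * M := fun u => by rw [hw, pcv_W_apply hδ hT]; exact pcv_latW_abs_le hδ hM u
  have hzz : dist (pinC z) (pinP δ z0) ≤ δ := pin_te_face hδ hz0
  have hsupp : w.support ⊆ latBall z0 a := by
    intro u hu
    have h1 : latW δ (lap2 ψ) u ≠ 0 := by
      rw [← pcv_W_apply hδ hT]; exact Finsupp.mem_support_iff.1 hu
    obtain ⟨y, hy, hy0⟩ := pcv_latW_supp h1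
    have h2 : y ∈ wkBall z d := hs (wkg_lap_tsupport ψ (subset_tsupport _ hy0))
    have h3 : dist (pinC y) (pinC z) ≤ d := (pin_sh_dist_le_iff _ _ hd0.le).2 h2
    have h4 : dist (pinC y) (pinP δ u) ≤ δ := pin_te_face hδ hy
    have h5 : dist (pinP δ z0) (pinP δ u) ≤ d + 2 * δ := by
      calc dist (pinP δ z0) (pinP δ u) ≤ dist (pinP δ z0) (pinC z) + dist (pinC z) (pinC y) + dist (pinC y) (pinP δ u) :=
            dist_triangle4 _ _ _ _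
        _ ≤ δ + d + δ := by
            rw [dist_comm (pinP δ z0), dist_comm (pinC z) (pinC y)]
            exact add_le_add (add_le_add hzz h3) h4
        _ = d + 2 * δ := by ring
    have h6 := pin_sh_P_ge hδ.le z0 u
    have h7 : δ * (latN (u - z0) : ℝ) ≤ δ * a := by nlinarith
    have h8 : (latN (u - z0) : ℝ) ≤ a := le_of_mul_le_mul_left h7 hδ
    exact lat_mem_ball.2 (by exact_mod_cast h8)
  have hsm : MomSm z0 a A w := by
    have hq : (a * δ) ^ 2 ≤ 49 * d ^ 2 := by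
      have : (a * δ) ^ 2 ≤ (7 * d) ^ 2 := pow_le_pow_left₀ (by positivity) ha1 2
      nlinarith
    refine ⟨hsupp, ?_, fun u => ?_⟩
    · have hcard : ((latBall z0 a).card : ℝ) ≤ (3 * (a : ℝ)) ^ 2 := by
        have h1 : ((latBall z0 a).card : ℝ) ≤ (2 * (a : ℝ) + 1) ^ 2 := by
          have : (latBall z0 a).card ≤ (2 * a + 1) ^ 2 := by
            unfold latBall
            refine (Finset.card_filter_le _ _).trans ?_
            rw [Finset.card_product, Int.card_Icc, Int.card_Icc, sq]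
            apply le_of_eq
            congr 1 <;> omega
          exact_mod_cast this
        have h2 : (1 : ℝ) ≤ a := by exact_mod_cast ha0
        refine h1.trans (pow_le_pow_left₀ (by positivity) (by linarith) 2)
      calc ∑ u ∈ w.support, |w u| ≤ ∑ _u ∈ latBall z0 a, 4 * δ ^ 2 * M :=
            (Finset.sum_le_sum_of_subset_of_nonneg hsupp fun _ _ _ => abs_nonneg _).trans (Finset.sum_le_sum fun u _ => hwu u)
        _ = (latBall z0 a).card * (4 * δ ^ 2 * M) := by rw [Finset.sum_const, nsmul_eq_mul]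
        _ ≤ (3 * (a : ℝ)) ^ 2 * (4 * δ ^ 2 * M) := mul_le_mul_of_nonneg_right hcard (by positivity)
        _ = 36 * M * (a * δ) ^ 2 := by ring
        _ ≤ 36 * M * (49 * d ^ 2) := mul_le_mul_of_nonneg_left hq (by positivity)
        _ ≤ A := by rw [hA]; nlinarith
    · calc |w u| * (a : ℝ) ^ 2 ≤ 4 * δ ^ 2 * M * (a : ℝ) ^ 2 := mul_le_mul_of_nonneg_right (hwu u) (by positivity)
        _ = 4 * M * (a * δ) ^ 2 := by ring
        _ ≤ 4 * M * (49 * d ^ 2) := mul_le_mul_of_nonneg_left hq (by positivity)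
        _ ≤ A := by rw [hA]; nlinarith [mul_nonneg hM0 (sq_nonneg d)]
  have hρ0 : ρ0 ≤ 3 * a := by
    have h1 : ((ρ0 : ℝ) + 1) * δ ≤ (3 * (a : ℝ)) * δ := by nlinarith
    have h2 : (ρ0 : ℝ) + 1 ≤ 3 * (a : ℝ) := le_of_mul_le_mul_right h1 hδ
    have h3 : (ρ0 : ℝ) ≤ ((3 * a : ℕ) : ℝ) := by push_cast; linarith
    exact_mod_cast h3
  have hfr : ((L1 * (3 * a) : ℕ) : ℝ) * δ ≤ c0 := by
    calc ((L1 * (3 * a) : ℕ) : ℝ) * δ = 3 * L1 * (a * δ) := by push_cast; ring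
      _ ≤ 3 * L1 * (7 * d) := mul_le_mul_of_nonneg_left ha1 (by positivity)
      _ ≤ c0 := by rw [← hdc]; nlinarith
  exact H z0 a A w ha0 hρ0 ⟨z, hz0, hz⟩ hfr hA0 hsm (pin_te_tot hψ hc hδ)

/-! ## 3. the fixed test -/

/-- **pin moments of the insertion** `X = h(Δφ)`, generic in the weight `Q` and in the normalisation `J`: uniform in the mesh, in `Q` and in `J` -/
theorem pin_test_J {x : ℝ} (hP : PinPl x) (L1 ρ0 : ℕ) {p : ℕ} (hp : p ≠ 0) {φ : ℝ × ℝ → ℝ} (hφ : ContDiff ℝ ∞ φ) (hc : HasCompactSupport φ)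
    {c0 C0 : ℝ} (hc0 : 0 < c0) (hC0 : 0 < C0) :
    ∃ C δ0 : ℝ, 0 < C ∧ 0 < δ0 ∧ ∀ δ : ℝ, 0 < δ → δ ≤ δ0 → ∀ (Q : (TV → ℤ) → ℝ) (J : ℝ), PinLG Q → (∀ h, 0 ≤ Q h) → 0 ≤ J →
      PinSmJ x L1 ρ0 p C0 δ (tsupport φ) c0 Q J →
      htPl x (fun h => |latArr (plnW δ (lap2 φ)) h| ^ p * Q h) ≤ C * J := by
  refine wk_localize (fun ψ => ContDiff ℝ ∞ ψ ∧ HasCompactSupport ψ)
    (fun ψ => ∃ C δ0 : ℝ, 0 < C ∧ 0 < δ0 ∧ ∀ δ : ℝ, 0 < δ → δ ≤ δ0 → ∀ (Q : (TV → ℤ) → ℝ) (J : ℝ), PinLG Q → (∀ h, 0 ≤ Q h) → 0 ≤ J →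
      PinSmJ x L1 ρ0 p C0 δ (tsupport φ) c0 Q J →
      htPl x (fun h => |latArr (plnW δ (lap2 ψ)) h| ^ p * Q h) ≤ C * J)
    (fun ψ χ hψ hχ => ⟨hψ.1.mul hχ, hψ.2.mul_right⟩) ?_ ?_ ⟨hφ, hc⟩ hc
    (d := c0 / (21 * L1 + 2)) (by positivity) ?_
  · -- the zero function
    intro ψ hψ
    refine ⟨1, 1, one_pos, one_pos, fun δ hδ _ Q J hQ hQ0 hJ _ => ?_⟩
    have e0 : ψ = fun _ => 0 := funext hψ
    have e1 : plnW δ (lap2 ψ) = 0 := by
      rw [e0, wkg_lap_zero]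
      ext u
      have hT : PcvT (fun _ : ℝ × ℝ => (0 : ℝ)) := ⟨continuous_const, HasCompactSupport.zero⟩
      rw [pcv_W_apply hδ hT]
      simp [latW]
    have e2 : (fun h => |latArr (plnW δ (lap2 ψ)) h| ^ p * Q h) = fun _ => (0 : ℝ) := by
      funext h
      rw [e1, pin_te_arr_zero, abs_zero, zero_pow hp, zero_mul]
    rw [e2, pin_pl_const hP, one_mul]
    exact hJ
  · -- sums
    rintro ψ χ ⟨hψ, hψc⟩ ⟨hχ, hχc⟩ ⟨C1, δ1, hC1, hδ1, H1⟩ ⟨C2, δ2, hC2, hδ2, H2⟩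
    refine ⟨2 ^ p * (C1 + C2), min δ1 δ2, by positivity, by positivity, fun δ hδ hδ0 Q J hQ hQ0 hJ hB => ?_⟩
    have b1 := H1 δ hδ (hδ0.trans (min_le_left _ _)) Q J hQ hQ0 hJ hB
    have b2 := H2 δ hδ (hδ0.trans (min_le_right _ _)) Q J hQ hQ0 hJ hB
    have hψ2 : ContDiff ℝ 2 ψ := hψ.of_le (WithTop.coe_le_coe.2 le_top)
    have hχ2 : ContDiff ℝ 2 χ := hχ.of_le (WithTop.coe_le_coe.2 le_top)
    have e1 : lap2 (fun y => ψ y + χ y) = fun y => lap2 ψ y + lap2 χ y := by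
      funext y
      exact wkg_lap_add hψ2.contDiffAt hχ2.contDiffAt
    have e2 : plnW δ (lap2 (fun y => ψ y + χ y)) = plnW δ (lap2 ψ) + plnW δ (lap2 χ) := by
      rw [e1]; exact pcv_W_add hδ (pin_te_lap hψ hψc).1 (pin_te_lap hχ hχc).1
    have t1 := pin_te_tot hψ hψc hδ
    have t2 := pin_te_tot hχ hχc hδ
    have t3 : latTot (plnW δ (lap2 ψ) + plnW δ (lap2 χ)) = 0 := by rw [pcv_tot_add, t1, t2, add_zero]
    rw [e2]
    have l1 := pin_te_obs_LG t1 p hQ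
    have l2 := pin_te_obs_LG t2 p hQ
    calc htPl x (fun h => |latArr (plnW δ (lap2 ψ) + plnW δ (lap2 χ)) h| ^ p * Q h)
        ≤ htPl x (fun h => 2 ^ p * (|latArr (plnW δ (lap2 ψ)) h| ^ p * Q h + |latArr (plnW δ (lap2 χ)) h| ^ p * Q h)) := by
          refine pin_pl_mono hP (pin_te_obs_LG t3 p hQ) ((l1.add l2).smul _) fun a _ => ?_
          rw [pin_te_arr_add, ← add_mul, ← mul_assoc]
          exact mul_le_mul_of_nonneg_right (pin_te_pow_add _ _ p) (hQ0 a)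
      _ = 2 ^ p * (htPl x (fun h => |latArr (plnW δ (lap2 ψ)) h| ^ p * Q h) + htPl x (fun h => |latArr (plnW δ (lap2 χ)) h| ^ p * Q h)) := by
          rw [pin_pl_smul hP (l1.add l2), pin_pl_add hP l1 l2]
      _ ≤ 2 ^ p * (C1 * J + C2 * J) := mul_le_mul_of_nonneg_left (add_le_add b1 b2) (by positivity)
      _ = _ := by ring
  · -- small pieces
    rintro z hz ψ ⟨hψ, hψc⟩ hs
    obtain ⟨C, δ0, hC, hδ0, H⟩ := pin_te_local (x := x) L1 ρ0 p hc0 hC0 hz hψ hψc hs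
    exact ⟨C, δ0, hC, hδ0, fun δ hδ hδ' Q J _ _ _ hB => H δ hδ hδ' Q J hB⟩

/-- `pin_test_J` with `J = htPl Q` -/
theorem pin_test_gen {x : ℝ} (hP : PinPl x) (L1 ρ0 p : ℕ) {φ : ℝ × ℝ → ℝ} (hφ : ContDiff ℝ ∞ φ) (hc : HasCompactSupport φ)
    {c0 C0 : ℝ} (hc0 : 0 < c0) (hC0 : 0 < C0) :
    ∃ C δ0 : ℝ, 0 < C ∧ 0 < δ0 ∧ ∀ δ : ℝ, 0 < δ → δ ≤ δ0 → ∀ Q : (TV → ℤ) → ℝ, PinLG Q → (∀ h, 0 ≤ Q h) →
      PinSmB x L1 ρ0 p C0 δ (tsupport φ) c0 Q →
      htPl x (fun h => |latArr (plnW δ (lap2 φ)) h| ^ p * Q h) ≤ C * htPl x Q := by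
  rcases Nat.eq_zero_or_pos p with rfl | hp
  · refine ⟨1, 1, one_pos, one_pos, fun δ _ _ Q _ _ _ => ?_⟩
    simp only [pow_zero, one_mul]
    exact le_rfl
  · obtain ⟨C, δ0, hC, hδ0, T⟩ := pin_test_J hP L1 ρ0 hp.ne' hφ hc hc0 hC0
    exact ⟨C, δ0, hC, hδ0, fun δ hδ hδ' Q hQ hQ0 hB =>
      T δ hδ hδ' Q _ hQ hQ0 (pin_pl_nonneg hP hQ fun a _ => hQ0 a) hB⟩

/-! ## 4. consumer forms -/

/-- **N3a for the insertion**: separated gradient pins at Euclidean distance `≥ c0` from the support of `φ` (any placement) -/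
theorem pin_test_gr {x : ℝ} (hx1 : 1 / Real.sqrt 2 ≤ x) (hx2 : x ≤ 1) (hP : PinPl x) {L1 ρ0 κ n0 : ℕ} (hC : PinCutC x L1 ρ0)
    (hR : PinRareC x κ n0) (hpos : PinPosC x) (k N p : ℕ) {φ : ℝ × ℝ → ℝ} (hφ : ContDiff ℝ ∞ φ) (hc : HasCompactSupport φ)
    {c0 : ℝ} (hc0 : 0 < c0) :
    ∃ C δ0 : ℝ, 0 < C ∧ 0 < δ0 ∧ ∀ δ : ℝ, 0 < δ → δ ≤ δ0 → ∀ G D U : Fin k → Finset TV, PinFam κ n0 N G D U →
      (∀ i, ∀ u ∈ G i, ∀ y ∈ tsupport φ, c0 ^ 2 ≤ sqDist (triPos δ u) y) →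
      htPl x (fun h => |latArr (plnW δ (lap2 φ)) h| ^ p * pinI (∀ i, PinGr (G i) (D i) h))
        ≤ C * htPl x (fun h => pinI (∀ i, PinGr (G i) (D i) h)) := by
  obtain ⟨C3, hC3, H⟩ := pin_mo_gr hx1 hx2 hP hC hR hpos k N 3 p
  obtain ⟨C, δ0, hC', hδ0, T⟩ := pin_test_gen hP L1 ρ0 p hφ hc (half_pos hc0) hC3
  refine ⟨C, min δ0 (c0 / 4), hC', by positivity, fun δ hδ hδ' G D U hfam hfar => ?_⟩
  refine T δ hδ (hδ'.trans (min_le_left _ _)) _ (pin_te_I_LG G D) (fun _ => pin_sd_I_nonneg _) ?_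
  rintro z0 a A w ha hρ ⟨y, hy1, hy2⟩ hfr hA hsm ht
  refine H G D U z0 a (3 * a) A w hfam ha le_rfl hρ le_rfl (fun i => ?_) hA hsm ht
  rw [Finset.disjoint_left]
  intro u hu hub
  have h1 : (latN (u - z0) : ℝ) ≤ ((L1 * (3 * a) : ℕ) : ℝ) := by exact_mod_cast lat_mem_ball.1 hub
  have h2 := pin_sh_P_le hδ.le z0 u
  have h3 : dist (pinP δ z0) (pinP δ u) ≤ c0 / 2 := by
    refine h2.trans (le_trans ?_ hfr)
    rw [mul_comm]
    exact mul_le_mul_of_nonneg_right h1 hδ.le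
  have h4 : dist (pinP δ u) (pinC y) < c0 := by
    calc dist (pinP δ u) (pinC y) ≤ dist (pinP δ u) (pinP δ z0) + dist (pinP δ z0) (pinC y) := dist_triangle _ _ _
      _ ≤ c0 / 2 + δ := by
          rw [dist_comm (pinP δ u), dist_comm (pinP δ z0) (pinC y)]
          exact add_le_add h3 (pin_te_face hδ hy1)
      _ < c0 := by have := hδ'.trans (min_le_right _ _); linarith
  have h5 : sqDist (triPos δ u) y < c0 ^ 2 := (pin_sh_dist_lt_iff _ _ hc0.le).1 h4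
  exact absurd (hfar i u hu y hy2) (not_le.2 h5)

/-- `pin_test_gr` with the pins off a LATTICE ball: `tsupport φ` in the disc of radius `r0` about `zc`, `c` = the site of `zc`, `2 (r0 + c0 + δ) ≤ δ Λ` -/
theorem pin_test_lat {x : ℝ} (hx1 : 1 / Real.sqrt 2 ≤ x) (hx2 : x ≤ 1) (hP : PinPl x) {L1 ρ0 κ n0 : ℕ} (hC : PinCutC x L1 ρ0)
    (hR : PinRareC x κ n0) (hpos : PinPosC x) (k N p : ℕ) {φ : ℝ × ℝ → ℝ} (hφ : ContDiff ℝ ∞ φ) (hc : HasCompactSupport φ)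
    {zc : ℝ × ℝ} {r0 c0 : ℝ} (hr0 : 0 ≤ r0) (hc0 : 0 < c0) (hs : tsupport φ ⊆ wkBall zc r0) :
    ∃ C δ0 : ℝ, 0 < C ∧ 0 < δ0 ∧ ∀ δ : ℝ, 0 < δ → δ ≤ δ0 → ∀ (c : TV) (Λ : ℕ), zc ∈ hexFace δ c → 2 * (r0 + c0 + δ) ≤ δ * Λ →
      ∀ G D U : Fin k → Finset TV, PinFam κ n0 N G D U → (∀ i, Disjoint (G i) (latBall c Λ)) →
      htPl x (fun h => |latArr (plnW δ (lap2 φ)) h| ^ p * pinI (∀ i, PinGr (G i) (D i) h))
        ≤ C * htPl x (fun h => pinI (∀ i, PinGr (G i) (D i) h)) := by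
  obtain ⟨C, δ0, hC', hδ0, T⟩ := pin_test_gr hx1 hx2 hP hC hR hpos k N p hφ hc hc0
  refine ⟨C, δ0, hC', hδ0, fun δ hδ hδ' c Λ hzc hΛ G D U hfam hdis => T δ hδ hδ' G D U hfam fun i u hu y hy => ?_⟩
  have h1 : Λ < latN (u - c) := by
    by_contra hn
    exact Finset.disjoint_left.1 (hdis i) hu (lat_mem_ball.2 (not_lt.1 hn))
  have h2 : (Λ : ℝ) ≤ latN (u - c) := by exact_mod_cast h1.le
  have h3 := pin_sh_P_ge hδ.le c u
  have h4 : r0 + c0 + δ ≤ dist (pinP δ c) (pinP δ u) := by nlinarith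
  have h5 : dist (pinC y) (pinC zc) ≤ r0 := (pin_sh_dist_le_iff _ _ hr0).2 (hs hy)
  have h6 : dist (pinC zc) (pinP δ c) ≤ δ := pin_te_face hδ hzc
  have h7 : dist (pinP δ c) (pinP δ u) ≤ dist (pinP δ c) (pinC zc) + dist (pinC zc) (pinC y) + dist (pinC y) (pinP δ u) :=
    dist_triangle4 _ _ _ _
  rw [dist_comm (pinP δ c) (pinC zc), dist_comm (pinC zc) (pinC y), dist_comm (pinC y) (pinP δ u)] at h7
  have h8 : c0 ≤ dist (pinP δ u) (pinC y) := by linarith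
  by_contra hn
  exact absurd ((pin_sh_dist_lt_iff _ _ hc0.le).2 (not_le.1 hn)) (not_lt.2 h8)

/-- the array of face weights paired with a height = the smeared field, when the faces which meet the support are free -/
theorem pin_te_arr_eq {δ : ℝ} (hδ : 0 < δ) {f : ℝ × ℝ → ℝ} (hf : PcvT f) {F : Finset TV}
    (hS : ∀ w, (hexFace δ w ∩ tsupport f).Nonempty → w ∈ latInt F) (h : TV → ℤ) : htSm δ F f h = latArr (plnW δ f) h := by
  unfold htSm latArr latPair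
  rw [Finsupp.sum_of_support_subset (plnW δ f) (s := latInt F) ?_ (fun u c => c * (h u : ℝ)) (fun i _ => zero_mul _)]
  · exact Finset.sum_congr rfl fun u _ => by rw [pcv_W_apply hδ hf]
  · intro u hu
    rw [Finsupp.mem_support_iff, pcv_W_apply hδ hf] at hu
    obtain ⟨z, hz, hfz⟩ := pcv_latW_supp hu
    exact hS u ⟨z, hz, subset_tsupport f hfz⟩

/-- **the insertion in the domain**: `X_n = htSm (δ n) (F n) (lap2 φ)`, weight `Q` = ANY local gradient weight for which the small-smearing bound holds on the balls inside `latInt (F n)` -/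
theorem pin_test_sm {x : ℝ} (hP : PinPl x) {D : Set (ℝ × ℝ)} (hD : IsOpen D) {δ : ℕ → ℝ} {F : ℕ → Finset TV}
    (hF : IsInsideApprox D δ F) (L1 ρ0 p : ℕ) {φ : ℝ × ℝ → ℝ} (hφ : ContDiff ℝ ∞ φ) (hc : HasCompactSupport φ)
    (hφD : tsupport φ ⊆ D) {C0 : ℝ} (hC0 : 0 < C0) :
    ∃ C : ℝ, 0 < C ∧ ∀ᶠ n in atTop, ∀ Q : (TV → ℤ) → ℝ, PinLG Q → (∀ h, 0 ≤ Q h) →
      (∀ (z0 : TV) (a : ℕ) (A : ℝ) (w : TV →₀ ℝ), 1 ≤ a → ρ0 ≤ 3 * a → latBall z0 (L1 * (3 * a)) ⊆ latInt (F n) →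
        0 < A → MomSm z0 a A w → latTot w = 0 → htPl x (fun h => |latArr w h| ^ p * Q h) ≤ C0 * A ^ p * htPl x Q) →
      htPl x (fun h => |htSm (δ n) (F n) (lap2 φ) h| ^ p * Q h) ≤ C * htPl x Q := by
  obtain ⟨c, hc0, hin⟩ := hg_latBall_subset_int hD hF hc hφD
  obtain ⟨C, δ0, hC, hδ0, T⟩ := pin_test_gen hP L1 ρ0 p hφ hc (half_pos hc0) hC0
  refine ⟨C, hC, ?_⟩
  have e1 : ∀ᶠ n in atTop, δ n < min δ0 (c / 2) := hF.2.1.eventually (gt_mem_nhds (by positivity))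
  filter_upwards [hin, e1] with n hn1 hn2 Q hQ hQ0 hB
  have hδ := hF.1 n
  have hδ1 : δ n ≤ δ0 := hn2.le.trans (min_le_left _ _)
  have hδ2 : δ n ≤ c / 2 := hn2.le.trans (min_le_right _ _)
  have e : (fun h => |htSm (δ n) (F n) (lap2 φ) h| ^ p * Q h) = fun h => |latArr (plnW (δ n) (lap2 φ)) h| ^ p * Q h := by
    funext h
    rw [pin_te_arr_eq hδ (pin_te_lap hφ hc).1 (fun w hw => ?_) h]
    obtain ⟨y, hy1, hy2⟩ := hw
    have := hn1 w ⟨y, hy1, wkg_lap_tsupport φ hy2⟩ 0 (by push_cast; linarith)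
    exact this (lat_mem_ball.2 (by simp [latN]))
  rw [e]
  refine T (δ n) hδ hδ1 Q hQ hQ0 ?_
  intro z0 a A w ha hρ hne hfr hA hsm ht
  exact hB z0 a A w ha hρ (hn1 z0 hne _ (by linarith)) hA hsm ht

/-- `pin_test_sm` for the second moment, without absolute values -/
theorem pin_test_sm2 {x : ℝ} (hP : PinPl x) {D : Set (ℝ × ℝ)} (hD : IsOpen D) {δ : ℕ → ℝ} {F : ℕ → Finset TV}
    (hF : IsInsideApprox D δ F) (L1 ρ0 : ℕ) {φ : ℝ × ℝ → ℝ} (hφ : ContDiff ℝ ∞ φ) (hc : HasCompactSupport φ)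
    (hφD : tsupport φ ⊆ D) {C0 : ℝ} (hC0 : 0 < C0) :
    ∃ C : ℝ, 0 < C ∧ ∀ᶠ n in atTop, ∀ Q : (TV → ℤ) → ℝ, PinLG Q → (∀ h, 0 ≤ Q h) →
      (∀ (z0 : TV) (a : ℕ) (A : ℝ) (w : TV →₀ ℝ), 1 ≤ a → ρ0 ≤ 3 * a → latBall z0 (L1 * (3 * a)) ⊆ latInt (F n) →
        0 < A → MomSm z0 a A w → latTot w = 0 → htPl x (fun h => |latArr w h| ^ 2 * Q h) ≤ C0 * A ^ 2 * htPl x Q) →
      htPl x (fun h => htSm (δ n) (F n) (lap2 φ) h ^ 2 * Q h) ≤ C * htPl x Q := by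
  obtain ⟨C, hC, H⟩ := pin_test_sm hP hD hF L1 ρ0 2 hφ hc hφD hC0
  refine ⟨C, hC, H.mono fun n hn Q hQ hQ0 hB => ?_⟩
  have := hn Q hQ hQ0 hB
  simpa only [sq_abs] using this

/-- `pin_test_sm2` in the shape `PinGiTest` of helper76 (Pin/GapInst): free balls = balls which miss the boundary layer -/
theorem pin_test_bd {x : ℝ} (hP : PinPl x) {D : Set (ℝ × ℝ)} (hD : IsOpen D) {δ : ℕ → ℝ} {F : ℕ → Finset TV}
    (hF : IsInsideApprox D δ F) (L1 ρ0 : ℕ) {φ : ℝ × ℝ → ℝ} (hφ : ContDiff ℝ ∞ φ) (hc : HasCompactSupport φ) (hφD : tsupport φ ⊆ D) :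
    ∃ Kr : ℕ, ∀ C0 : ℝ, 0 < C0 → ∃ Cm : ℝ, 0 ≤ Cm ∧ ∀ᶠ n in atTop, ∀ Q : (TV → ℤ) → ℝ, PinLG Q → (∀ h, 0 ≤ Q h) →
      (∀ (z0 : TV) (a ρ : ℕ) (A : ℝ) (w : TV →₀ ℝ), 1 ≤ a → 3 * a ≤ ρ → ρ0 ≤ ρ → ρ ≤ Kr * a → Disjoint (latBd (F n)) (latBall z0 (L1 * ρ)) →
        0 < A → MomSm z0 a A w → latTot w = 0 → (htPl x fun h => |latArr w h| ^ 2 * Q h) ≤ C0 * A ^ 2 * htPl x Q) →
      (htPl x fun h => htSm (δ n) (F n) (lap2 φ) h ^ 2 * Q h) ≤ Cm * htPl x Q := by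
  refine ⟨3, fun C0 hC0 => ?_⟩
  obtain ⟨C, hC, H⟩ := pin_test_sm2 hP hD hF L1 ρ0 hφ hc hφD hC0
  refine ⟨C, hC.le, H.mono fun n hn Q hQ hQ0 hB => hn Q hQ hQ0 fun z0 a A w ha hρ hsub hA hsm ht => ?_⟩
  refine hB z0 a (3 * a) A w ha le_rfl hρ le_rfl ?_ hA hsm ht
  rw [Finset.disjoint_left]
  intro u hu hub
  obtain ⟨_, v, hv, hvF⟩ := lat_mem_bd.1 hu
  exact hvF ((lat_mem_int.1 (hsub hub)).2 v hv)

/-- **the insertion on a doubled arrangement** (vocabulary of helper138, Pin/Dbl; = `pin_db_arr` with `latArr w` replaced by the insertion): `hC` of `pin_side` for `Y = h(Δφ)`.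
Geometric input: every lattice ball of physical radius `≤ c0` about a face which meets `tsupport φ` lies on the closed side of the row and misses the obstacles. -/
theorem pin_test_db {x : ℝ} (hx1 : 1 / Real.sqrt 2 ≤ x) (hx2 : x ≤ 1) (hP : PinPl x) {L1 ρ0 κ n0 : ℕ} (hC : PinCutC x L1 ρ0)
    (hR : PinRareC x κ n0) (hpos : PinPosC x) (k N : ℕ) {φ : ℝ × ℝ → ℝ} (hφ : ContDiff ℝ ∞ φ) (hc : HasCompactSupport φ)
    {c0 : ℝ} (hc0 : 0 < c0) :
    ∃ C δ0 : ℝ, 0 < C ∧ 0 < δ0 ∧ ∀ δ : ℝ, 0 < δ → δ ≤ δ0 → ∀ {α : Type} (s : Finset α) (G D U : α → Finset TV) (g : TV ≃ TV) (σ : Bool),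
      s.card + s.card = k → PinFs κ n0 N s G D U → PinIso g → PinIvr x g → PinSd g σ s U →
      (∀ (z0 : TV) (R : ℕ), (hexFace δ z0 ∩ tsupport φ).Nonempty → (R : ℝ) * δ ≤ c0 →
        (∀ u ∈ latBall z0 R, if σ then 0 ≤ (g u).2 else (g u).2 ≤ 0) ∧ ∀ i ∈ s, Disjoint (G i) (latBall z0 R)) →
      htPl x (fun h => latArr (plnW δ (lap2 φ)) h ^ 2 * (pinAg s G D h * pinAg s (fun i => (G i).image fun u => g.symm (latRefl (g u)))
        (fun i => (D i).image fun u => g.symm (latRefl (g u))) h)) ≤ C * (∏ i ∈ s, pinPr x (G i) (D i)) ^ 2 := by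
  obtain ⟨C3, hC3, H⟩ := pin_db_arr hx1 hx2 hP hC hR hpos k N 3
  obtain ⟨C, δ0, hC', hδ0, T⟩ := pin_test_J hP L1 ρ0 (p := 2) (by norm_num) hφ hc hc0 hC3
  refine ⟨C, δ0, hC', hδ0, fun δ hδ hδ' {α} s G D U g σ hk hFs hg hI hS hgeo => ?_⟩
  have key := T δ hδ hδ' (fun h => pinAg s G D h * pinAg s (fun i => (G i).image fun u => g.symm (latRefl (g u)))
      (fun i => (D i).image fun u => g.symm (latRefl (g u))) h) ((∏ i ∈ s, pinPr x (G i) (D i)) ^ 2)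
    ((pin_sd_ag_LG s G D).mul (pin_sd_ag_LG s _ _)) (fun h => mul_nonneg (pin_sd_I_nonneg _) (pin_sd_I_nonneg _)) (sq_nonneg _) (by
      intro z0 a A w ha hρ hne hfr hA hsm ht
      obtain ⟨g1, g2⟩ := hgeo z0 _ hne hfr
      have := H s G D U g σ z0 a (3 * a) A w hk hFs hg hI hS g1 ha le_rfl hρ le_rfl g2 hA hsm ht
      simpa only [sq_abs] using this)
  simpa only [sq_abs] using key

end Claimed.Agent.R291
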