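import Claimed.Agent.R291.Defs.PinTop
import Claimed.Agent.R291.Pin.Gap
import Claimed.Agent.R291.Pin.MomHt
import Claimed.Agent.R291.Pin.Inst
import Claimed.Agent.R291.Pin.InstG
import Claimed.Agent.R291.Pin.Test
import Claimed.Agent.R291.Exit.PlnHt

/-!
# Row 291 (S0539), unit PIN (05-pins), Pin/GapInst : `exit_pin_gap` FROM `pin_gap_main`      (OWNER helper76; head of PIN: helper34; prefix `pin_gi_`, `PinGi`)

TEX[pins:gap-closing] + TEX[prop:bracket-insertion] on the concrete instance of Defs/PinTop (`pinGp`, `pinLab`, `pinObs`, `PinSepAt`, `PinFillAt`).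
THREE TYPED INPUTS (Prop valued, producers named):
* `PinGiGeo δ F γs t m φ g ε`      (helper100, Pin/InstG `pin_ig_gap`)  test sites `T n`; locality / gradient property of the smeared fields; for every ratio `θ` a gap `a ≤ ε` with `PinGapAt` eventually
* `PinGiFam δ F γs t m ε`          (helper72, Pin/Inst (I1))            necklaces around the groups at a fixed gap: `PinFam`
* `PinGiTest x δ F φ L1 ρ0`        (helper94, Pin/Test)                 from the lattice smearings `latArr w` to the insertion `htSm (lap2 φ)`, generic in the weight `Q`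
PROVED HERE: `pin_gi_pl` (`PinPl x` from `exit_pln_ht`), adapters `range m ↔ Fin m`, `pin_gi_sep` (`PinSepAt` in the normalisation of `pin_gap_main`), `pin_gi_mom0`, `pin_gi_momE` (second moments from
`pin_mo_fill`, `pin_mo_eq` of helper39 + the synchronisation chain `pin_gap_sync_gr`), **`pin_gi_main`**.
-/

set_option autoImplicit false

namespace Claimed.Agent.R291

open MeasureTheory Filter Topology Set
open Claims Claims.C0467

/-- the plane package of Sec. 5 -/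
theorem pin_gi_pl (x : ℝ) (hx1 : 1 / Real.sqrt 2 ≤ x) (hx2 : x ≤ 1) : PinPl x :=
  ⟨lt_of_lt_of_le (by positivity) hx1, (exit_pln_ht x hx1 hx2).lim, (exit_pln_ht x hx1 hx2).trans⟩

/-- the cyclic predecessor on `Fin m` -/
def pinGiPv (m : ℕ) (c : Fin m) : Fin m := ⟨pinWinPrev m c, pin_win_prev_lt c.isLt⟩

/-- INPUT (helper100, Pin/InstG): the geometry of the gaps on the standing data -/
def PinGiGeo (δ : ℕ → ℝ) (F : ℕ → Finset TV) (γs : ℕ → Circle → ℝ × ℝ) (t : ℕ → ℝ) (m : ℕ) {q : ℕ} (φ : ℝ × ℝ → ℝ) (g : Fin q → ℝ × ℝ → ℝ) (ε : ℝ) : Prop :=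
  ∃ T : ℕ → Finset TV,
    (∀ᶠ n in atTop, HtLoc (T n) (htSm (δ n) (F n) (lap2 φ)) ∧ HtGrad (htSm (δ n) (F n) (lap2 φ))) ∧
    (∀ l, ∀ᶠ n in atTop, HtLoc (T n) (htSm (δ n) (F n) (g l)) ∧ HtGrad (htSm (δ n) (F n) (g l))) ∧
    ∀ θ : ℝ, 0 < θ → ∃ a : ℝ, 0 < a ∧ a ≤ ε ∧ ∃ (z : ℕ → Fin m → TV) (r1 r2 : ℕ → ℕ), ∀ᶠ n in atTop,
      PinGapAt (fun i : Fin m => pinGp δ F γs t a n i) (fun i : Fin m => pinGp δ F γs t ε n i)
        (fun c : Fin m => pinWinV (δ n) (F n) (γs n) (pinGeoWin t a c)) (latBd (F n)) (T n) (z n) (r1 n) (r2 n) (pinGiPv m) ∧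
      (r1 n : ℝ) ≤ θ * r2 n

/-- INPUT (helper72, Pin/Inst (I1)): necklaces around the groups at a fixed gap -/
def PinGiFam (δ : ℕ → ℝ) (F : ℕ → Finset TV) (γs : ℕ → Circle → ℝ × ℝ) (t : ℕ → ℝ) (m : ℕ) (ε : ℝ) : Prop :=
  ∀ a : ℝ, 0 < a → a ≤ ε → ∀ κ n0 : ℕ, ∃ N : ℕ, ∀ᶠ n in atTop, ∃ U : Fin m → Finset TV,
    PinFam κ n0 N (fun i : Fin m => pinGp δ F γs t a n i) (fun i : Fin m => pinGp δ F γs t ε n i) U

/-- INPUT (helper94, Pin/Test): second moment of the insertion from the second moments of the lattice smearings whose `L1 ρ`-ball misses the boundary layer; generic in the weight `Q` -/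
def PinGiTest (x : ℝ) (δ : ℕ → ℝ) (F : ℕ → Finset TV) (φ : ℝ × ℝ → ℝ) (L1 ρ0 : ℕ) : Prop :=
  ∃ Kr : ℕ, ∀ C0 : ℝ, 0 < C0 → ∃ Cm : ℝ, 0 ≤ Cm ∧ ∀ᶠ n in atTop, ∀ Q : (TV → ℤ) → ℝ, PinLG Q → (∀ h, 0 ≤ Q h) →
    (∀ (z0 : TV) (a ρ : ℕ) (A : ℝ) (w : TV →₀ ℝ), 1 ≤ a → 3 * a ≤ ρ → ρ0 ≤ ρ → ρ ≤ Kr * a → Disjoint (latBd (F n)) (latBall z0 (L1 * ρ)) →
      0 < A → MomSm z0 a A w → latTot w = 0 → (htPl x fun h => |latArr w h| ^ 2 * Q h) ≤ C0 * A ^ 2 * htPl x Q) →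
    (htPl x fun h => htSm (δ n) (F n) (lap2 φ) h ^ 2 * Q h) ≤ Cm * htPl x Q

theorem pin_gi_eqns_cite : True := by
  have := @pinGiPv.eq_1
  have := @PinGiGeo.eq_1
  have := @PinGiFam.eq_1
  have := @PinGiTest.eq_1
  trivial

/-! ## adapters -/

theorem pin_gi_biUnion (f : ℕ → Finset TV) (m : ℕ) : (Finset.range m).biUnion f = Finset.univ.biUnion fun i : Fin m => f i := by
  ext u
  simp only [Finset.mem_biUnion, Finset.mem_range, Finset.mem_univ, true_and]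
  exact ⟨fun ⟨i, hi, hu⟩ => ⟨⟨i, hi⟩, hu⟩, fun ⟨i, hu⟩ => ⟨i, i.isLt, hu⟩⟩

theorem PinGapAt.sub0 {k : ℕ} {G D E : Fin k → Finset TV} {G0 T : Finset TV} {z : Fin k → TV} {r1 r2 : ℕ} {pv : Fin k → Fin k}
    (H : PinGapAt G D E G0 T z r1 r2 pv) (i : Fin k) : G i ⊆ G0 := by
  rw [H.fill]
  exact fun u hu => Finset.mem_union_left _ (Finset.mem_biUnion.2 ⟨i, Finset.mem_univ i, hu⟩)

theorem PinGapAt.ob0 {k : ℕ} {G D E : Fin k → Finset TV} {G0 T : Finset TV} {z : Fin k → TV} {r1 r2 : ℕ} {pv : Fin k → Fin k}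
    (H : PinGapAt G D E G0 T z r1 r2 pv) (i : Fin k) : PinOb G0 (D i) :=
  ⟨(H.ob i).sub.trans (H.sub0 i), (H.ob i).ne, H.conn, (H.ob i).connD⟩

/-- a small ratio of the radii makes the defect of synchronisation small -/
theorem PinGapAt.ratio {k : ℕ} {G D E : Fin k → Finset TV} {G0 T : Finset TV} {z : Fin k → TV} {r1 r2 : ℕ} {pv : Fin k → Fin k}
    (H : PinGapAt G D E G0 T z r1 r2 pv) {θ α C η : ℝ} (hα : 0 < α) (hC : 0 ≤ C) (hr : (r1 : ℝ) ≤ θ * r2) (hθ : k * C * θ ^ α ≤ η) :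
    k * (C * ((r1 : ℝ) / r2) ^ α) ≤ η := by
  have h2 : (0 : ℝ) < r2 := by exact_mod_cast (lt_of_lt_of_le Nat.one_pos (H.one_le.trans H.le))
  have h3 : (r1 : ℝ) / r2 ≤ θ := by rw [div_le_iff₀ h2]; exact hr
  have h4 : (0 : ℝ) ≤ (r1 : ℝ) / r2 := by positivity
  refine le_trans ?_ hθ
  rw [← mul_assoc]
  exact mul_le_mul_of_nonneg_left (Real.rpow_le_rpow h4 h3 hα.le) (by positivity)

/-- bounded spectators -/
theorem pin_gi_spec_bound {q : ℕ} {M : ℝ} (hM : 0 < M) (y : Fin q → ℝ) : |∏ l, limTr M (y l)| ≤ M ^ q := by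
  rw [Finset.abs_prod]
  calc ∏ l, |limTr M (y l)| ≤ ∏ _l : Fin q, M := Finset.prod_le_prod (fun _ _ => abs_nonneg _) fun l _ => lim_tr_abs_le hM.le _
    _ = M ^ q := by rw [Finset.prod_const, Finset.card_univ, Fintype.card_fin]

/-- **the separated insertion in the normalisation of `pin_gap_main`** -/
theorem pin_gi_sep {x : ℝ} (hP : PinPl x) {δ : ℕ → ℝ} {F : ℕ → Finset TV} {γs : ℕ → Circle → ℝ × ℝ} {t : ℕ → ℝ} {m : ℕ} {q : ℕ} {φ : ℝ × ℝ → ℝ}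
    {g : Fin q → ℝ × ℝ → ℝ} {a ε M : ℝ} (hM : 0 < M) (hsep : PinSepAt x δ F γs t m φ g a ε)
    (hne : ∀ᶠ n in atTop, ∀ i : Fin m, (pinGp δ F γs t ε n i).Nonempty) :
    Tendsto (fun n => pinHat x (fun h => htSm (δ n) (F n) (lap2 φ) h * (∏ l, limTr M (htSm (δ n) (F n) (g l) h)) *
        ∏ i : Fin m, pinI (PinAbs (pinGp δ F γs t a n i) (pinGp δ F γs t ε n i) h)) /
      ∏ i : Fin m, htPl x fun h => pinI (PinGr (pinGp δ F γs t a n i) (pinGp δ F γs t ε n i) h)) atTop (𝓝 0) := by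
  have h1 := (hsep M hM).mul_const ((1 / 4 : ℝ) ^ m)
  rw [zero_mul] at h1
  refine h1.congr' ?_
  filter_upwards [hne] with n hn
  have e1 : (fun h : TV → ℤ => (∏ i ∈ Finset.range m, pinI (PinAbs (pinGp δ F γs t a n i) (pinGp δ F γs t ε n i) h)) * pinObs δ F φ g M n h) =
      fun h => htSm (δ n) (F n) (lap2 φ) h * (∏ l, limTr M (htSm (δ n) (F n) (g l) h)) *
        ∏ i : Fin m, pinI (PinAbs (pinGp δ F γs t a n i) (pinGp δ F γs t ε n i) h) := by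
    funext h
    rw [← Fin.prod_univ_eq_prod_range (fun i => pinI (PinAbs (pinGp δ F γs t a n i) (pinGp δ F γs t ε n i) h)) m, mul_comm]
    rfl
  have e2 : ∏ i ∈ Finset.range m, (pinPer x fun h => pinI (PinLoc (pinGp δ F γs t a n i) (pinGp δ F γs t ε n i) h)) =
      (∏ i : Fin m, htPl x fun h => pinI (PinGr (pinGp δ F γs t a n i) (pinGp δ F γs t ε n i) h)) * (1 / 4 : ℝ) ^ m := by
    rw [← Fin.prod_univ_eq_prod_range (fun i => pinPer x fun h => pinI (PinLoc (pinGp δ F γs t a n i) (pinGp δ F γs t ε n i) h)) m,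
      Finset.prod_congr rfl fun (i : Fin m) _ => (pin_gap_per_loc_one hP (G := pinGp δ F γs t a n i) (hn i)).trans (div_eq_mul_one_div _ (4 : ℝ))]
    rw [Finset.prod_mul_distrib, Finset.prod_const, Finset.card_univ, Fintype.card_fin]
  rw [e1, e2]
  have h4 : ((1 / 4 : ℝ) ^ m) ≠ 0 := by positivity
  rw [div_mul_eq_div_div, div_mul_cancel₀ _ h4]

/-- **`exit_pin_gap` from the three inputs** -/
theorem pin_gi_main (x : ℝ) (hx1 : 1 / Real.sqrt 2 ≤ x) (hx2 : x ≤ 1) {δ : ℕ → ℝ} {F : ℕ → Finset TV} {γs : ℕ → Circle → ℝ × ℝ} {t : ℕ → ℝ} {m : ℕ} (hm : 0 < m)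
    {q : ℕ} {φ : ℝ × ℝ → ℝ} {g : Fin q → ℝ × ℝ → ℝ} {ε : ℝ} (hgeo : PinGiGeo δ F γs t m φ g ε) (hfam : PinGiFam δ F γs t m ε)
    (htest : ∀ L1 ρ0 : ℕ, PinGiTest x δ F φ L1 ρ0) (hsep : ∀ a : ℝ, 0 < a → a ≤ ε → PinSepAt x δ F γs t m φ g a ε) :
    PinFillAt x δ F γs t m φ g ε := by
  intro M hM
  have hP := pin_gi_pl x hx1 hx2
  have hpos : PinPosC x := pin_mo_exit_pos x hx1 hx2
  obtain ⟨L1, ρ0, hC⟩ := pin_mo_exit_cut x hx1 hx2
  obtain ⟨Kr, hT⟩ := htest L1 ρ0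
  obtain ⟨Cfl, hCfl, Hfl⟩ := pin_mo_fill hx1 hx2 hP hC hpos m Kr 2 hm
  obtain ⟨η, hη, Heq⟩ := pin_mo_eq hx1 hx2 hP hC hpos m Kr
  obtain ⟨Ceq, hCeq, Heq⟩ := Heq 2
  obtain ⟨Cm1, hCm1, T1⟩ := hT Cfl hCfl
  obtain ⟨Cm2, hCm2, T2⟩ := hT Ceq hCeq
  obtain ⟨αs, hαs, hs⟩ := exit_dis_sync x hx1 hx2
  obtain ⟨Cs, hCs, hS'⟩ := hs m
  have hS : PinGapSync x αs Cs m := hS'
  obtain ⟨T, hX, hg, hG⟩ := hgeo
  obtain ⟨θ0, hθ0, hθ0', -⟩ := pin_gap_ratio (a := m * Cs) (b := 0) hαs hαs hη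
  have key := pin_gap_main x hx1 hx2 hP hm (pinGiPv m) (fun n (i : Fin m) => pinGp δ F γs t ε n i) (fun n => latBd (F n)) T
    (fun n => htSm (δ n) (F n) (lap2 φ)) (fun n h => ∏ l, limTr M (htSm (δ n) (F n) (g l) h)) (M ^ q) (max Cm1 Cm2) (pow_pos hM q)
    (le_max_of_le_left hCm1) hX ?_ ?_ ?_
  · refine key.congr fun n => ?_
    have eL : pinLab δ F γs t m ε n = Finset.univ.biUnion fun i : Fin m => pinGp δ F γs t ε n i := pin_gi_biUnion _ m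
    rw [eL]
    congr 2
    funext h
    rw [mul_comm]
    rfl
  · -- the spectators
    filter_upwards [eventually_all.2 hg] with n hn
    refine ⟨fun h h' hh => Finset.prod_congr rfl fun l _ => by rw [(hn l).1 h h' hh], fun h c => Finset.prod_congr rfl fun l _ => by rw [(hn l).2 h c],
      fun h => pin_gi_spec_bound hM _⟩
  · -- the second moment in the filled bracket
    obtain ⟨a, -, -, z, r1, r2, hA⟩ := hG 1 one_pos
    filter_upwards [hA, T1] with n hn hT1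
    refine (hT1 (fun h => pinI (PinGr (latBd (F n)) (Finset.univ.biUnion fun i : Fin m => pinGp δ F γs t ε n i) h)) (pin_gap_gr_LG _ _)
      (fun h => pin_gap_I_nonneg _) fun z0 a' ρ A w h1 h3 h0 hK hdis hA' hw hw0 =>
        Hfl (latBd (F n)) (fun i : Fin m => pinGp δ F γs t ε n i) z0 a' ρ A w hn.1.ob0 h1 h3 h0 hK hdis hA' hw hw0).trans ?_
    exact mul_le_mul_of_nonneg_right (le_max_left _ _) (hpos _ _).le
  · -- the gaps
    intro θ hθ
    obtain ⟨a, ha, haε, z, r1, r2, hA⟩ := hG (min θ θ0) (lt_min hθ hθ0)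
    refine ⟨fun n (i : Fin m) => pinGp δ F γs t a n i, fun n (c : Fin m) => pinWinV (δ n) (F n) (γs n) (pinGeoWin t a c), z, r1, r2, ?_,
      hfam a ha haε, ?_, ?_⟩
    · filter_upwards [hA] with n hn
      exact ⟨hn.1, hn.2.trans (mul_le_mul_of_nonneg_right (min_le_left _ _) (Nat.cast_nonneg _))⟩
    · filter_upwards [hA, T2] with n hn hT2
      have hdef : m * (Cs * ((r1 n : ℝ) / r2 n) ^ αs) ≤ η :=
        hn.1.ratio hαs hCs.le (hn.2.trans (mul_le_mul_of_nonneg_right (min_le_right _ _) (Nat.cast_nonneg _))) hθ0'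
      have hsync := (pin_gap_sync_gr hP hS hn.1).trans (mul_le_mul_of_nonneg_right hdef (pin_gap_pA_pos hP hpos hm hn.1).le)
      refine (hT2 (fun h => pinI (PinGr (Finset.univ.biUnion fun i : Fin m => pinGp δ F γs t a n i)
        (Finset.univ.biUnion fun i : Fin m => pinGp δ F γs t ε n i) h)) (pin_gap_gr_LG _ _)
        (fun h => pin_gap_I_nonneg _) fun z0 a' ρ A w h1 h3 h0 hK hdis hA' hw hw0 =>
          Heq (fun i : Fin m => pinGp δ F γs t a n i) (fun i : Fin m => pinGp δ F γs t ε n i) z0 a' ρ A w hn.1.ob h1 h3 h0 hK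
            (fun i => Finset.disjoint_of_subset_left (hn.1.sub0 i) hdis) hA' hw hw0 hsync).trans ?_
      exact mul_le_mul_of_nonneg_right (le_max_right _ _) (hpos _ _).le
    · exact pin_gi_sep hP hM (hsep a ha haε) (hA.mono fun n hn i => (hn.1.ob i).ne)

/-- the marked set is not empty -/
theorem pin_gi_card_pos {CC0 : Finset Circle} {t : ℕ → ℝ} (h : PinGeoAng CC0 t) : 0 < CC0.card := by
  rcases Nat.eq_zero_or_pos CC0.card with h0 | h0
  · exfalso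
    have h1 := h.top
    rw [h0] at h1
    have := Real.pi_pos
    linarith
  · exact h0

/-- **`exit_pin_gap` on the standing data, from the three inputs** (the exit cites this with `pin_ig_gap` (100), `pin_in_fam` (72), `pin_test` (94)) -/
theorem pin_gi_exit (x : ℝ) (hx1 : 1 / Real.sqrt 2 ≤ x) (hx2 : x ≤ 1) {D : Set (ℝ × ℝ)} {δ : ℕ → ℝ} {F : ℕ → Finset TV} {γ : Circle → ℝ × ℝ}
    {γs : ℕ → Circle → ℝ × ℝ} {CC0 : Finset Circle} {t : ℕ → ℝ} {z0 : ℝ × ℝ} {ρ : ℝ} {q : ℕ} {φ : ℝ × ℝ → ℝ} {g : Fin q → ℝ × ℝ → ℝ} {lm lp : ℝ}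
    (H : PinStd D δ F γ γs CC0 t z0 ρ q φ g lm lp) {ε : ℝ} (hgeo : PinGiGeo δ F γs t CC0.card φ g ε) (hfam : PinGiFam δ F γs t CC0.card ε)
    (htest : ∀ L1 ρ0 : ℕ, PinGiTest x δ F φ L1 ρ0) (hsep : ∀ a : ℝ, 0 < a → a ≤ ε → PinSepAt x δ F γs t CC0.card φ g a ε) :
    PinFillAt x δ F γs t CC0.card φ g ε :=
  pin_gi_main x hx1 hx2 (pin_gi_card_pos H.dat.ang) hgeo hfam htest hsep

/-! ## the three inputs on the standing data -/

section std

variable {D : Set (ℝ × ℝ)} {δ : ℕ → ℝ} {F : ℕ → Finset TV} {γ : Circle → ℝ × ℝ} {γs : ℕ → Circle → ℝ × ℝ} {CC0 : Finset Circle} {t : ℕ → ℝ}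
  {z0 : ℝ × ℝ} {ρ : ℝ} {q : ℕ} {φ : ℝ × ℝ → ℝ} {g : Fin q → ℝ × ℝ → ℝ} {lm lp : ℝ}

/-- the geometry of the gaps: `pin_ig_gap` of helper100 -/
theorem pin_gi_geo (H : PinStd D δ F γ γs CC0 t z0 ρ q φ g lm lp) {ε : ℝ} (hε0 : 0 < ε) (hε : ∀ i, i < CC0.card → 2 * ε ≤ t (i + 1) - t i) :
    PinGiGeo δ F γs t CC0.card φ g ε :=
  pin_ig_gap H hε0 hε

/-- the necklaces: `pin_in_fam` of helper72 (collar width `1`, the position of the collars is not used) -/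
theorem pin_gi_fam (H : PinStd D δ F γ γs CC0 t z0 ρ q φ g lm lp) {ε : ℝ} (hε : ∀ i, i < CC0.card → 2 * ε ≤ t (i + 1) - t i) :
    PinGiFam δ F γs t CC0.card ε := by
  intro a ha hae κ n0
  obtain ⟨N, hN⟩ := pin_in_fam H.dat ha hae hε κ n0 one_pos
  exact ⟨N, hN.mono fun n ⟨U, hU, _⟩ => ⟨U, hU⟩⟩

/-- the support of the insertion lies in the domain -/
theorem pin_gi_phi_sub (H : PinStd D δ F γ γs CC0 t z0 ρ q φ g lm lp) : tsupport φ ⊆ D := by
  intro y hy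
  refine H.arr.ball ?_
  by_contra hn
  have h2 : ρ ^ 2 < sqDist y z0 := not_le.1 hn
  refine H.arr.phi_supp y ?_ hy
  have h3 : (ρ / 1000) ^ 2 ≤ ρ ^ 2 := pow_le_pow_left₀ (by have := H.arr.rho_pos; positivity) (by have := H.arr.rho_pos; linarith) 2
  linarith

/-- a set of interior sites misses the boundary layer -/
theorem pin_gi_int_disj {F0 B : Finset TV} (h : B ⊆ latInt F0) : Disjoint (latBd F0) B := by
  rw [Finset.disjoint_left]
  intro u hu hB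
  have := h hB
  rw [lat_int_eq, Finset.mem_sdiff] at this
  exact this.2 hu

/-- from the lattice smearings to the insertion: `pin_test_sm2` of helper94 (`Kr = 3`, `ρ = 3 a`) -/
theorem pin_gi_test {x : ℝ} (hP : PinPl x) (H : PinStd D δ F γ γs CC0 t z0 ρ q φ g lm lp) (L1 ρ0 : ℕ) : PinGiTest x δ F φ L1 ρ0 := by
  refine ⟨3, fun C0 hC0 => ?_⟩
  obtain ⟨C, hC, hT⟩ := pin_test_sm2 hP H.dom.1 H.dat.app L1 ρ0 H.arr.phi_smooth (pin_ig_phi_compact H) (pin_gi_phi_sub H) hC0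
  refine ⟨C, hC.le, hT.mono fun n hn Q hQ hQ0 hB => hn Q hQ hQ0 fun c a A w h1 h0 hin hA hw hw0 => ?_⟩
  exact hB c a (3 * a) A w h1 le_rfl h0 le_rfl (pin_gi_int_disj hin) hA hw hw0

/-- **`exit_pin_gap`** : gap closing and truncation on the standing data -/
theorem pin_gi_gap (x : ℝ) (hx1 : 1 / Real.sqrt 2 ≤ x) (hx2 : x ≤ 1) (H : PinStd D δ F γ γs CC0 t z0 ρ q φ g lm lp) {ε : ℝ} (hε0 : 0 < ε)
    (hε : ∀ i, i < CC0.card → 2 * ε ≤ t (i + 1) - t i) (hsep : ∀ a : ℝ, 0 < a → a ≤ ε → PinSepAt x δ F γs t CC0.card φ g a ε) :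
    PinFillAt x δ F γs t CC0.card φ g ε :=
  pin_gi_exit x hx1 hx2 H (pin_gi_geo H hε0 hε) (pin_gi_fam H hε) (pin_gi_test (pin_gi_pl x hx1 hx2) H) hsep

end std

end Claimed.Agent.R291
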