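import Claimed.Agent.R291.Dis.HtOrd
import Claimed.Agent.R291.Defs.Lim
import Claimed.Agent.R291.Defs.Pin

/-!
# Row 291 (S0539), unit PIN (05-pins), Pin/Rp : REFLECTION POSITIVITY ON ABSOLUTE HEIGHTS      (OWNER helper48; head of PIN: helper34)      0 sorry

TEX[prop:reflection-transfer] (the part consumed by Sec. 5), TEX[pins:haar-phase] REPLACED (design D4, `origin/helper48:notes/R291/sec5b_48.md`): no phases, no complex numbers.
Vocabulary = `Defs/Ht` (115), `Ht/Basic` (168), `Dis/HtOrd` (139).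
* sec. 1-2  GRAPH AUTOMORPHISMS act on the height laws: `PinAut g`, `pin_aut_N`, `pin_aut_adm`, `pin_aut_S`, **`pin_aut_E`**; instances `pin_aut_tr` (translations), `pin_aut_re` (`latRefl`), `pin_aut_ro` (`latRot`);
            `pin_ball_E_re`, `pin_ball_E_ro`, `pin_ball_E_tr` (zero boundary hexagons).
* sec. 3    **`pin_rp_fin`**: FINITE VOLUME RP across the row `n = 0` for any symmetric `(A, b)` and ANY observable of the closed upper half plane (`PinUp 0 F`): `0 ≤ htE x A b (θF * F)`.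
            Proof: swap of the lower halves on the fibres of the row restriction (`pin_rp_fibre`: conditional independence + symmetry as ONE identity of sums).
* sec. 4    `PinPl x` = what Sec. 5 uses of the plane law (existence of `htPl`, translation invariance); `PinLG` local gradient observables; `pin_pl_add/smul/sum/const/mono/nonneg/congr/tr/re/ro`.
* sec. 5    `pinSum K h = ∑_c K (h + c)`, **`pinHat x K = htPl x (pinSum K)`** = integral against `∑_c (plane gradient law shifted by c)` (sigma-finite measure on ABSOLUTE heights), used on `PinOk K` (local + height-localized);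
            `pin_hat_add/smul/sum/nonneg/mono/tr/re/ro/cs`, `pin_sum_anchor`, **`pin_hat_rp`**, **`pin_pl_rp`** (RP of the plane laws across the row `n = 0`).
-/

set_option autoImplicit false
set_option linter.unusedVariables false

namespace Claimed.Agent.R291

open Claims Claims.C0467 Filter Topology

/-! ## 1. graph automorphisms of the triangular lattice act on the height laws -/

/-- positive representative of the edge `{u, v}` -/
def pinOri (u v : TV) : TV × TV := if v - u ∈ latPos then (u, v - u) else (v, u - v)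

theorem pin_ori_pos_or {d : TV} (hd : d ∈ latDirs) : (d ∈ latPos ∧ -d ∉ latPos) ∨ (d ∉ latPos ∧ -d ∈ latPos) := by
  revert d; decide

theorem pin_ori_comm {u v : TV} (h : triAdj u v) : pinOri u v = pinOri v u := by
  rw [lat_adj_iff] at h
  unfold pinOri
  have e : u - v = -(v - u) := by abel
  rcases pin_ori_pos_or h with ⟨h1, h2⟩ | ⟨h1, h2⟩
  · rw [if_pos h1, e, if_neg h2]
  · rw [if_neg h1, e, if_pos h2]

theorem pin_ori_self {p : TV × TV} (hp : p.2 ∈ latPos) : pinOri p.1 (p.1 + p.2) = p := by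
  unfold pinOri
  rw [add_sub_cancel_left, if_pos hp]

theorem pin_ori_cases {u v : TV} (h : triAdj u v) :
    (pinOri u v).2 ∈ latPos ∧ (((pinOri u v).1 = u ∧ (pinOri u v).1 + (pinOri u v).2 = v) ∨
      ((pinOri u v).1 = v ∧ (pinOri u v).1 + (pinOri u v).2 = u)) := by
  rw [lat_adj_iff] at h
  unfold pinOri
  have e : u - v = -(v - u) := by abel
  rcases pin_ori_pos_or h with ⟨h1, h2⟩ | ⟨h1, h2⟩
  · rw [if_pos h1]; exact ⟨h1, Or.inl ⟨rfl, by simp⟩⟩
  · rw [if_neg h1]; exact ⟨by rw [e]; exact h2, Or.inr ⟨rfl, by simp⟩⟩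

/-- graph automorphism -/
def PinAut (g : TV ≃ TV) : Prop := ∀ u v, triAdj (g u) (g v) ↔ triAdj u v

theorem pin_aut_symm {g : TV ≃ TV} (hg : PinAut g) : PinAut g.symm := by
  intro u v
  have := hg (g.symm u) (g.symm v)
  simpa using this.symm

theorem pin_aut_N {g : TV ≃ TV} (hg : PinAut g) (A : Finset TV) (h : TV → ℤ) :
    htN (A.map g.toEmbedding) h = htN A (fun u => h (g u)) := by
  unfold htN
  symm
  have hadj : ∀ p : TV × TV, p.2 ∈ latPos → triAdj p.1 (p.1 + p.2) := fun p hp => lat_adj_add _ (lat_pos_sub hp)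
  refine Finset.sum_nbij' (fun p => pinOri (g p.1) (g (p.1 + p.2))) (fun q => pinOri (g.symm q.1) (g.symm (q.1 + q.2)))
    ?_ ?_ ?_ ?_ ?_
  · intro p hp
    obtain ⟨h1, h2⟩ := lat_mem_E.1 hp
    obtain ⟨c1, c2⟩ := pin_ori_cases ((hg _ _).2 (hadj p h1))
    refine lat_mem_E.2 ⟨c1, ?_⟩
    simp only [Finset.mem_map_equiv]
    rcases c2 with ⟨e1, e2⟩ | ⟨e1, e2⟩
    · rw [e2, e1]; simpa using h2
    · rw [e2, e1]; simpa using h2.symm
  · intro q hq
    obtain ⟨h1, h2⟩ := lat_mem_E.1 hq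
    obtain ⟨c1, c2⟩ := pin_ori_cases ((pin_aut_symm hg _ _).2 (hadj q h1))
    refine lat_mem_E.2 ⟨c1, ?_⟩
    simp only [Finset.mem_map_equiv] at h2
    rcases c2 with ⟨e1, e2⟩ | ⟨e1, e2⟩
    · rw [e2, e1]; exact h2
    · rw [e2, e1]; exact h2.symm
  · intro p hp
    obtain ⟨h1, h2⟩ := lat_mem_E.1 hp
    obtain ⟨c1, c2⟩ := pin_ori_cases ((hg _ _).2 (hadj p h1))
    rcases c2 with ⟨e1, e2⟩ | ⟨e1, e2⟩
    · show pinOri (g.symm _) (g.symm (_ + _)) = p
      rw [e2, e1, Equiv.symm_apply_apply, Equiv.symm_apply_apply]; exact pin_ori_self h1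
    · show pinOri (g.symm _) (g.symm (_ + _)) = p
      rw [e2, e1, Equiv.symm_apply_apply, Equiv.symm_apply_apply]
      rw [pin_ori_comm (lat_adj_symm (hadj p h1))]; exact pin_ori_self h1
  · intro q hq
    obtain ⟨h1, h2⟩ := lat_mem_E.1 hq
    obtain ⟨c1, c2⟩ := pin_ori_cases ((pin_aut_symm hg _ _).2 (hadj q h1))
    rcases c2 with ⟨e1, e2⟩ | ⟨e1, e2⟩
    · show pinOri (g _) (g (_ + _)) = q
      rw [e2, e1, Equiv.apply_symm_apply, Equiv.apply_symm_apply]; exact pin_ori_self h1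
    · show pinOri (g _) (g (_ + _)) = q
      rw [e2, e1, Equiv.apply_symm_apply, Equiv.apply_symm_apply]
      rw [pin_ori_comm (lat_adj_symm (hadj q h1))]; exact pin_ori_self h1
  · intro p hp
    obtain ⟨h1, h2⟩ := lat_mem_E.1 hp
    obtain ⟨c1, c2⟩ := pin_ori_cases ((hg _ _).2 (hadj p h1))
    rcases c2 with ⟨e1, e2⟩ | ⟨e1, e2⟩
    · rw [e2, e1]
    · rw [e2, e1]
      by_cases hc : h (g p.1) = h (g (p.1 + p.2))
      · simp [hc]
      · have hc' : h (g (p.1 + p.2)) ≠ h (g p.1) := fun h => hc h.symm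
        simp [hc, hc']

theorem pin_aut_adm {g : TV ≃ TV} (hg : PinAut g) (A : Finset TV) (b h : TV → ℤ) :
    HtAdm (A.map g.toEmbedding) b h ↔ HtAdm A (fun u => b (g u)) (fun u => h (g u)) := by
  unfold HtAdm
  constructor
  · rintro ⟨h1, h2⟩
    refine ⟨fun u hu => h1 _ (by simpa using hu), fun u hu d hd => ?_⟩
    have ha : triAdj (g u) (g (u + d)) := (hg _ _).2 (lat_adj_add u hd)
    have := h2 (g u) (by simpa using hu) (g (u + d) - g u) ((lat_adj_iff _ _).1 ha)
    rwa [add_sub_cancel] at this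
  · rintro ⟨h1, h2⟩
    refine ⟨fun u hu => ?_, fun u hu d hd => ?_⟩
    · have := h1 (g.symm u) (by simpa [Finset.mem_map_equiv] using hu)
      simpa using this
    · have ha : triAdj (g.symm u) (g.symm (u + d)) := (pin_aut_symm hg _ _).2 (lat_adj_add u hd)
      have := h2 (g.symm u) (by simpa [Finset.mem_map_equiv] using hu) (g.symm (u + d) - g.symm u) ((lat_adj_iff _ _).1 ha)
      rw [add_sub_cancel] at this
      simpa using this

/-- transport of the unnormalised expectation by a graph automorphism -/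
theorem pin_aut_S {g : TV ≃ TV} (hg : PinAut g) (x : ℝ) (A : Finset TV) (b : TV → ℤ) (G : (TV → ℤ) → ℝ) :
    htS x (A.map g.toEmbedding) b (fun h => G (fun u => h (g u))) = htS x A (fun u => b (g u)) G := by
  unfold htS
  refine Finset.sum_nbij' (fun h u => h (g u)) (fun h u => h (g.symm u)) ?_ ?_ ?_ ?_ ?_
  · intro h hh
    rw [ht_mem_cfg] at hh ⊢
    exact (pin_aut_adm hg A b h).1 hh
  · intro h hh
    rw [ht_mem_cfg] at hh ⊢
    refine (pin_aut_adm hg A b _).2 ?_
    simpa using hh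
  · intro h _; funext u; simp
  · intro h _; funext u; simp
  · intro h _
    unfold htWt
    rw [pin_aut_N hg]

theorem pin_aut_E {g : TV ≃ TV} (hg : PinAut g) (x : ℝ) (A : Finset TV) (b : TV → ℤ) (G : (TV → ℤ) → ℝ) :
    htE x (A.map g.toEmbedding) b (fun h => G (fun u => h (g u))) = htE x A (fun u => b (g u)) G := by
  rw [hto_E_eq, hto_E_eq, hto_Z_eq, hto_Z_eq, pin_aut_S hg, ← pin_aut_S hg x A b (fun _ => 1)]

/-! ## 2. the three kinds of automorphisms -/

/-- additive bijections preserving the six directions are automorphisms -/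
theorem pin_aut_of_add (g : TV ≃ TV) (hadd : ∀ u v, g (u + v) = g u + g v) (hd : ∀ d ∈ latDirs, g d ∈ latDirs)
    (hd' : ∀ d ∈ latDirs, g.symm d ∈ latDirs) : PinAut g := by
  have hsub : ∀ u v, g v - g u = g (v - u) := by
    intro u v
    have := hadd (v - u) u
    rw [sub_add_cancel] at this
    rw [this]; abel
  intro u v
  rw [lat_adj_iff, lat_adj_iff, hsub]
  constructor
  · intro h
    have := hd' _ h
    simpa using this
  · exact hd _

/-- translation -/
def pinTrE (a : TV) : TV ≃ TV := Equiv.addRight a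

theorem pin_aut_tr (a : TV) : PinAut (pinTrE a) := by
  intro u v
  exact lat_adj_shift a

/-- reflection in the horizontal axis -/
def pinReE : TV ≃ TV := ⟨latRefl, latRefl, lat_refl_refl, lat_refl_refl⟩

theorem pin_aut_re : PinAut pinReE :=
  pin_aut_of_add pinReE lat_refl_add (fun _ hd => lat_refl_dirs hd) (fun _ hd => lat_refl_dirs hd)

/-- inverse rotation -/
def pinRotI (u : TV) : TV := (u.1 + u.2, -u.1)

/-- rotation by 60 degrees -/
def pinRoE : TV ≃ TV := ⟨latRot, pinRotI, fun u => by simp [latRot, pinRotI], fun u => by simp [latRot, pinRotI]⟩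

theorem pin_aut_ro : PinAut pinRoE :=
  pin_aut_of_add pinRoE lat_rot_add (fun _ hd => lat_rot_dirs hd) (fun d hd => by
    show pinRotI d ∈ latDirs
    revert d; decide)

theorem pin_aut_trans {g g' : TV ≃ TV} (hg : PinAut g) (hg' : PinAut g') : PinAut (g.trans g') := by
  intro u v
  rw [Equiv.trans_apply, Equiv.trans_apply, hg', hg]

theorem pin_N_refl (u : TV) : latN (latRefl u) = latN u := by
  unfold latN latRefl
  simp only
  omega

theorem pin_N_rot (u : TV) : latN (latRot u) = latN u := by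
  unfold latN latRot
  simp only
  omega

theorem pin_ball_re (R : ℕ) : (latBall 0 R).map pinReE.toEmbedding = latBall 0 R := by
  ext u
  rw [Finset.mem_map_equiv, lat_mem_ball, lat_mem_ball, sub_zero, sub_zero]
  show latN (latRefl u) ≤ R ↔ _
  rw [pin_N_refl]

theorem pin_ball_ro (R : ℕ) : (latBall 0 R).map pinRoE.toEmbedding = latBall 0 R := by
  ext u
  rw [Finset.mem_map_equiv, lat_mem_ball, lat_mem_ball, sub_zero, sub_zero]
  have : latN (pinRoE.symm u) = latN (latRot (pinRoE.symm u)) := (pin_N_rot _).symm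
  rw [this]
  have e : latRot (pinRoE.symm u) = u := pinRoE.apply_symm_apply u
  rw [e]

theorem pin_ball_tr (c a : TV) (R : ℕ) : (latBall c R).map (pinTrE a).toEmbedding = latBall (c + a) R := by
  ext u
  rw [Finset.mem_map_equiv, lat_mem_ball, lat_mem_ball]
  have : (pinTrE a).symm u - c = u - (c + a) := by
    show u - a - c = _
    abel
  rw [this]

/-! ## 3. finite volume reflection positivity across the row `n = 0` -/

/-- `G` reads only the heights of the half plane `j ≤ n` -/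
def PinUp (j : ℤ) (G : (TV → ℤ) → ℝ) : Prop := ∀ h h' : TV → ℤ, (∀ u : TV, j ≤ u.2 → h u = h' u) → G h = G h'

/-- the reflected observable -/
def pinTh (G : (TV → ℤ) → ℝ) : (TV → ℤ) → ℝ := fun h => G (fun u => h (latRefl u))

/-- upper half of `h`, lower half of `g` -/
def pinGl (h g : TV → ℤ) : TV → ℤ := fun u => if 0 ≤ u.2 then h u else g u

theorem pin_gl_up (h g : TV → ℤ) {u : TV} (hu : 0 ≤ u.2) : pinGl h g u = h u := if_pos hu

theorem pin_gl_dn {h g : TV → ℤ} (hr : ∀ u : TV, u.2 = 0 → h u = g u) {u : TV} (hu : u.2 ≤ 0) : pinGl h g u = g u := by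
  unfold pinGl
  split_ifs with h0
  · exact hr u (le_antisymm hu h0)
  · rfl

theorem pin_gl_gl (h g : TV → ℤ) : pinGl (pinGl h g) (pinGl g h) = h := by
  funext u
  unfold pinGl
  split_ifs <;> rfl

theorem pin_dirs_snd {d : TV} (hd : d ∈ latDirs) : -1 ≤ d.2 ∧ d.2 ≤ 1 := by
  revert d; decide

/-- an edge lies in the closed upper or in the closed lower half plane -/
theorem pin_edge_side (u : TV) {d : TV} (hd : d ∈ latDirs) : (0 ≤ u.2 ∧ 0 ≤ (u + d).2) ∨ (u.2 ≤ 0 ∧ (u + d).2 ≤ 0) := by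
  obtain ⟨h1, h2⟩ := pin_dirs_snd hd
  simp only [Prod.snd_add]
  omega

theorem pin_gl_adm {A : Finset TV} {b h g : TV → ℤ} (hh : HtAdm A b h) (hg : HtAdm A b g)
    (hr : ∀ u : TV, u.2 = 0 → h u = g u) : HtAdm A b (pinGl h g) := by
  refine ⟨fun u hu => ?_, fun u hu d hd => ?_⟩
  · unfold pinGl
    split_ifs
    · exact hh.1 u hu
    · exact hg.1 u hu
  · rcases pin_edge_side u hd with ⟨h1, h2⟩ | ⟨h1, h2⟩
    · rw [pin_gl_up _ _ h1, pin_gl_up _ _ h2]; exact hh.2 u hu d hd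
    · rw [pin_gl_dn hr h1, pin_gl_dn hr h2]; exact hg.2 u hu d hd

theorem pin_gl_N (A : Finset TV) {h g : TV → ℤ} (hr : ∀ u : TV, u.2 = 0 → h u = g u) :
    htN A (pinGl h g) + htN A (pinGl g h) = htN A h + htN A g := by
  unfold htN
  rw [← Finset.sum_add_distrib, ← Finset.sum_add_distrib]
  refine Finset.sum_congr rfl fun p hp => ?_
  have hd := lat_pos_sub (lat_mem_E.1 hp).1
  have hr' : ∀ u : TV, u.2 = 0 → g u = h u := fun u hu => (hr u hu).symm
  rcases pin_edge_side p.1 hd with ⟨h1, h2⟩ | ⟨h1, h2⟩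
  · rw [pin_gl_up _ _ h1, pin_gl_up _ _ h2, pin_gl_up _ _ h1, pin_gl_up _ _ h2]
  · rw [pin_gl_dn hr h1, pin_gl_dn hr h2, pin_gl_dn hr' h1, pin_gl_dn hr' h2, add_comm]

theorem pin_gl_wt (x : ℝ) (A : Finset TV) {h g : TV → ℤ} (hr : ∀ u : TV, u.2 = 0 → h u = g u) :
    htWt x A (pinGl h g) * htWt x A (pinGl g h) = htWt x A h * htWt x A g := by
  unfold htWt
  rw [← pow_add, ← pow_add, pin_gl_N A hr]

theorem pin_refl_row {u : TV} (hu : u.2 = 0) : latRefl u = u := by
  unfold latRefl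
  ext <;> simp [hu]

open Classical in
/-- the admissible heights with the row values of `h0` -/
noncomputable def pinFib (A : Finset TV) (b h0 : TV → ℤ) : Finset (TV → ℤ) :=
  (htCfg A b).filter (fun h => ∀ u : TV, u.2 = 0 → h u = h0 u)

theorem pin_mem_fib {A : Finset TV} {b h0 h : TV → ℤ} : h ∈ pinFib A b h0 ↔ HtAdm A b h ∧ ∀ u : TV, u.2 = 0 → h u = h0 u := by
  classical
  unfold pinFib
  rw [Finset.mem_filter, ht_mem_cfg]

/-- the key identity on one fibre of the row restriction -/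
theorem pin_rp_fibre (x : ℝ) {A : Finset TV} {b : TV → ℤ} (hA : A.map pinReE.toEmbedding = A) (hb : ∀ u, b (latRefl u) = b u)
    (h0 : TV → ℤ) {F G : (TV → ℤ) → ℝ} (hF : PinUp 0 F) (hG : PinUp 0 G) :
    (∑ h ∈ pinFib A b h0, htWt x A h * (pinTh F h * G h)) * (∑ h ∈ pinFib A b h0, htWt x A h)
      = (∑ h ∈ pinFib A b h0, htWt x A h * F h) * (∑ h ∈ pinFib A b h0, htWt x A h * G h) := by
  set C := pinFib A b h0 with hC
  have hmem : ∀ h, h ∈ C ↔ HtAdm A b h ∧ ∀ u : TV, u.2 = 0 → h u = h0 u := fun h => pin_mem_fib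
  -- symmetry of the fibre
  have hsym : ∑ h ∈ C, htWt x A h * F h = ∑ h ∈ C, htWt x A h * pinTh F h := by
    refine Finset.sum_nbij' (fun h u => h (latRefl u)) (fun h u => h (latRefl u)) ?_ ?_ ?_ ?_ ?_
    · intro h hh
      rw [hmem] at hh ⊢
      refine ⟨?_, fun u hu => by rw [pin_refl_row hu]; exact hh.2 u hu⟩
      have h1 : HtAdm (A.map pinReE.toEmbedding) b h := by rw [hA]; exact hh.1
      have h2 := (pin_aut_adm pin_aut_re A b h).1 h1
      have e : (fun u => b (pinReE u)) = b := funext hb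
      rwa [e] at h2
    · intro h hh
      rw [hmem] at hh ⊢
      refine ⟨?_, fun u hu => by rw [pin_refl_row hu]; exact hh.2 u hu⟩
      have h1 : HtAdm (A.map pinReE.toEmbedding) b h := by rw [hA]; exact hh.1
      have h2 := (pin_aut_adm pin_aut_re A b h).1 h1
      have e : (fun u => b (pinReE u)) = b := funext hb
      rwa [e] at h2
    · intro h _; funext u; simp [lat_refl_refl]
    · intro h _; funext u; simp [lat_refl_refl]
    · intro h _
      have e1 : htWt x A (fun u => h (latRefl u)) = htWt x A h := by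
        unfold htWt
        have := pin_aut_N pin_aut_re A h
        rw [hA] at this
        rw [this]; rfl
      rw [e1]
      unfold pinTh
      simp [lat_refl_refl]
  rw [hsym, Finset.sum_mul_sum, Finset.sum_mul_sum, ← Finset.sum_product', ← Finset.sum_product']
  refine Finset.sum_nbij' (fun p => (pinGl p.2 p.1, pinGl p.1 p.2)) (fun p => (pinGl p.2 p.1, pinGl p.1 p.2)) ?_ ?_ ?_ ?_ ?_
  · intro p hp
    rw [Finset.mem_product, hmem, hmem] at hp ⊢
    obtain ⟨⟨a1, a2⟩, b1, b2⟩ := hp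
    have hr : ∀ u : TV, u.2 = 0 → p.1 u = p.2 u := fun u hu => by rw [a2 u hu, b2 u hu]
    have hr' : ∀ u : TV, u.2 = 0 → p.2 u = p.1 u := fun u hu => (hr u hu).symm
    exact ⟨⟨pin_gl_adm b1 a1 hr', fun u hu => (pin_gl_up p.2 p.1 hu.ge).trans (b2 u hu)⟩,
      pin_gl_adm a1 b1 hr, fun u hu => (pin_gl_up p.1 p.2 hu.ge).trans (a2 u hu)⟩
  · intro p hp
    rw [Finset.mem_product, hmem, hmem] at hp ⊢
    obtain ⟨⟨a1, a2⟩, b1, b2⟩ := hp
    have hr : ∀ u : TV, u.2 = 0 → p.1 u = p.2 u := fun u hu => by rw [a2 u hu, b2 u hu]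
    have hr' : ∀ u : TV, u.2 = 0 → p.2 u = p.1 u := fun u hu => (hr u hu).symm
    exact ⟨⟨pin_gl_adm b1 a1 hr', fun u hu => (pin_gl_up p.2 p.1 hu.ge).trans (b2 u hu)⟩,
      pin_gl_adm a1 b1 hr, fun u hu => (pin_gl_up p.1 p.2 hu.ge).trans (a2 u hu)⟩
  · intro p _
    ext1
    · exact pin_gl_gl _ _
    · exact pin_gl_gl _ _
  · intro p _
    ext1
    · exact pin_gl_gl _ _
    · exact pin_gl_gl _ _
  · intro p hp
    rw [Finset.mem_product, hmem, hmem] at hp
    obtain ⟨⟨a1, a2⟩, b1, b2⟩ := hp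
    have hr : ∀ u : TV, u.2 = 0 → p.1 u = p.2 u := fun u hu => by rw [a2 u hu, b2 u hu]
    have hr' : ∀ u : TV, u.2 = 0 → p.2 u = p.1 u := fun u hu => (hr u hu).symm
    have w := pin_gl_wt x A hr'
    -- `pinTh F` reads the lower half, `G` the upper half
    have e1 : pinTh F (pinGl p.2 p.1) = pinTh F p.1 := by
      unfold pinTh
      refine hF _ _ fun u hu => ?_
      refine pin_gl_dn hr' ?_
      show -u.2 ≤ 0
      omega
    have e2 : G (pinGl p.1 p.2) = G p.1 := hG _ _ fun u hu => pin_gl_up _ _ hu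
    show htWt x A p.1 * (pinTh F p.1 * G p.1) * htWt x A p.2 = htWt x A (pinGl p.2 p.1) * pinTh F (pinGl p.2 p.1) * (htWt x A (pinGl p.1 p.2) * G (pinGl p.1 p.2))
    rw [e1, e2]
    calc htWt x A p.1 * (pinTh F p.1 * G p.1) * htWt x A p.2 = (htWt x A p.2 * htWt x A p.1) * (pinTh F p.1 * G p.1) := by ring
      _ = (htWt x A (pinGl p.2 p.1) * htWt x A (pinGl p.1 p.2)) * (pinTh F p.1 * G p.1) := by rw [w]
      _ = _ := by ring

/-- restriction to the row -/
def pinRow (h : TV → ℤ) : TV → ℤ := fun u => if u.2 = 0 then h u else 0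

theorem pin_row_eq_iff (h h0 : TV → ℤ) : pinRow h = pinRow h0 ↔ ∀ u : TV, u.2 = 0 → h u = h0 u := by
  constructor
  · intro e u hu
    have := congrFun e u
    simpa [pinRow, hu] using this
  · intro e
    funext u
    unfold pinRow
    split_ifs with hu
    · exact e u hu
    · rfl

/-- decomposition of the unnormalised expectation along the row values -/
theorem pin_rp_decomp (x : ℝ) (A : Finset TV) (b : TV → ℤ) (K : (TV → ℤ) → ℝ) {c : ℝ}
    (hK : ∀ h0, HtAdm A b h0 → c ≤ ∑ h ∈ pinFib A b h0, htWt x A h * K h) (hc : c = 0) : 0 ≤ htS x A b K := by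
  classical
  unfold htS
  rw [← Finset.sum_fiberwise_of_maps_to (s := htCfg A b) (t := (htCfg A b).image pinRow) (g := pinRow)
    (fun h hh => Finset.mem_image_of_mem _ hh)]
  refine Finset.sum_nonneg fun ρ hρ => ?_
  obtain ⟨h0, hh0, rfl⟩ := Finset.mem_image.1 hρ
  have e : (htCfg A b).filter (fun h => pinRow h = pinRow h0) = pinFib A b h0 := by
    ext h
    rw [Finset.mem_filter, pin_mem_fib, ht_mem_cfg, pin_row_eq_iff]
  rw [e]
  rw [← hc]
  exact hK h0 (ht_mem_cfg.1 hh0)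

/-- **finite volume reflection positivity** across the row `n = 0` (unnormalised) -/
theorem pin_rp_fin_S {x : ℝ} (hx : 0 < x) {A : Finset TV} {b : TV → ℤ} (hA : A.map pinReE.toEmbedding = A)
    (hb : ∀ u, b (latRefl u) = b u) {F : (TV → ℤ) → ℝ} (hF : PinUp 0 F) : 0 ≤ htS x A b (fun h => pinTh F h * F h) := by
  refine pin_rp_decomp x A b _ (c := 0) (fun h0 hh0 => ?_) rfl
  have h1 := pin_rp_fibre x hA hb h0 hF hF
  have hz : 0 < ∑ h ∈ pinFib A b h0, htWt x A h :=
    Finset.sum_pos (fun g _ => ht_wt_pos hx A g) ⟨h0, pin_mem_fib.2 ⟨hh0, fun _ _ => rfl⟩⟩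
  have h2 : 0 ≤ (∑ h ∈ pinFib A b h0, htWt x A h * (pinTh F h * F h)) * (∑ h ∈ pinFib A b h0, htWt x A h) := by
    rw [h1]; exact mul_self_nonneg _
  exact nonneg_of_mul_nonneg_left h2 hz

/-- **finite volume reflection positivity** across the row `n = 0` -/
theorem pin_rp_fin {x : ℝ} (hx : 0 < x) {A : Finset TV} {b : TV → ℤ} (hA : A.map pinReE.toEmbedding = A)
    (hb : ∀ u, b (latRefl u) = b u) {F : (TV → ℤ) → ℝ} (hF : PinUp 0 F) : 0 ≤ htE x A b (fun h => pinTh F h * F h) := by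
  rw [hto_E_eq]
  exact div_nonneg (pin_rp_fin_S hx hA hb hF) (ht_Z_nonneg hx A b)

/-- zero boundary hexagons -/
theorem pin_rp_ball {x : ℝ} (hx : 0 < x) (R : ℕ) {F : (TV → ℤ) → ℝ} (hF : PinUp 0 F) :
    0 ≤ htE x (latBall 0 R) 0 (fun h => pinTh F h * F h) :=
  pin_rp_fin hx (pin_ball_re R) (fun _ => rfl) hF

/-- invariance of the zero boundary hexagons under the reflection -/
theorem pin_ball_E_re (x : ℝ) (R : ℕ) (G : (TV → ℤ) → ℝ) : htE x (latBall 0 R) 0 (pinTh G) = htE x (latBall 0 R) 0 G := by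
  have := pin_aut_E pin_aut_re x (latBall 0 R) 0 G
  rw [pin_ball_re] at this
  exact this

/-- invariance of the zero boundary hexagons under the rotation -/
theorem pin_ball_E_ro (x : ℝ) (R : ℕ) (G : (TV → ℤ) → ℝ) :
    htE x (latBall 0 R) 0 (fun h => G (fun u => h (latRot u))) = htE x (latBall 0 R) 0 G := by
  have := pin_aut_E pin_aut_ro x (latBall 0 R) 0 G
  rw [pin_ball_ro] at this
  exact this

/-- translation covariance -/
theorem pin_ball_E_tr (x : ℝ) (c a : TV) (R : ℕ) (G : (TV → ℤ) → ℝ) :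
    htE x (latBall (c + a) R) 0 (fun h => G (fun u => h (u + a))) = htE x (latBall c R) 0 G := by
  have := pin_aut_E (pin_aut_tr a) x (latBall c R) 0 G
  rw [pin_ball_tr] at this
  exact this

/-! ## 4. the plane functional on local gradient observables -/

/-- what Sec. 5 uses of the plane law -/
structure PinPl (x : ℝ) : Prop where
  pos : 0 < x
  lim : ∀ (S : Finset TV) (G : (TV → ℤ) → ℝ), HtLoc S G → HtGrad G →
    Tendsto (fun R : ℕ => htE x (latBall 0 R) 0 G) atTop (𝓝 (htPl x G))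
  tr : ∀ (S : Finset TV) (G : (TV → ℤ) → ℝ) (a : TV), HtLoc S G → HtGrad G →
    htPl x (fun h => G (fun u => h (u + a))) = htPl x G

/-- local observable -/
def PinLc (G : (TV → ℤ) → ℝ) : Prop := ∃ S : Finset TV, HtLoc S G

/-- local gradient observable -/
def PinLG (G : (TV → ℤ) → ℝ) : Prop := PinLc G ∧ HtGrad G

theorem pin_loc_mono {S S' : Finset TV} (h : S ⊆ S') {G : (TV → ℤ) → ℝ} (hG : HtLoc S G) : HtLoc S' G :=
  fun a b hab => hG a b fun u hu => hab u (h hu)

theorem PinLc.const (c : ℝ) : PinLc (fun _ => c) := ⟨∅, fun _ _ _ => rfl⟩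

theorem PinLc.map2 {F G : (TV → ℤ) → ℝ} (hF : PinLc F) (hG : PinLc G) (f : ℝ → ℝ → ℝ) : PinLc (fun h => f (F h) (G h)) := by
  classical
  obtain ⟨S, hS⟩ := hF
  obtain ⟨S', hS'⟩ := hG
  refine ⟨S ∪ S', fun a b hab => ?_⟩
  show f (F a) (G a) = f (F b) (G b)
  rw [hS a b fun u hu => hab u (Finset.mem_union_left _ hu), hS' a b fun u hu => hab u (Finset.mem_union_right _ hu)]

theorem PinLc.map1 {F : (TV → ℤ) → ℝ} (hF : PinLc F) (f : ℝ → ℝ) : PinLc (fun h => f (F h)) := by
  obtain ⟨S, hS⟩ := hF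
  exact ⟨S, fun a b hab => by show f (F a) = f (F b); rw [hS a b hab]⟩

theorem PinLc.add {F G : (TV → ℤ) → ℝ} (hF : PinLc F) (hG : PinLc G) : PinLc (fun h => F h + G h) := hF.map2 hG (· + ·)
theorem PinLc.mul {F G : (TV → ℤ) → ℝ} (hF : PinLc F) (hG : PinLc G) : PinLc (fun h => F h * G h) := hF.map2 hG (· * ·)
theorem PinLc.smul {F : (TV → ℤ) → ℝ} (hF : PinLc F) (c : ℝ) : PinLc (fun h => c * F h) := hF.map1 (c * ·)

theorem PinLc.sum {ι : Type*} (s : Finset ι) {F : ι → (TV → ℤ) → ℝ} (hF : ∀ i ∈ s, PinLc (F i)) :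
    PinLc (fun h => ∑ i ∈ s, F i h) := by
  classical
  induction s using Finset.induction_on with
  | empty => simpa using PinLc.const 0
  | insert a s ha ih =>
    simp only [Finset.sum_insert ha]
    exact (hF a (Finset.mem_insert_self _ _)).add (ih fun i hi => hF i (Finset.mem_insert_of_mem hi))

theorem PinLc.prod {ι : Type*} (s : Finset ι) {F : ι → (TV → ℤ) → ℝ} (hF : ∀ i ∈ s, PinLc (F i)) :
    PinLc (fun h => ∏ i ∈ s, F i h) := by
  classical
  induction s using Finset.induction_on with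
  | empty => simpa using PinLc.const 1
  | insert a s ha ih =>
    simp only [Finset.prod_insert ha]
    exact (hF a (Finset.mem_insert_self _ _)).mul (ih fun i hi => hF i (Finset.mem_insert_of_mem hi))

/-- transport of an observable by a map of the lattice: if `G` reads the site `s`, `pinMp g G` reads `g s` -/
def pinMp (g : TV → TV) (G : (TV → ℤ) → ℝ) : (TV → ℤ) → ℝ := fun h => G (fun u => h (g u))

theorem pin_mp_loc (g : TV → TV) {S : Finset TV} {G : (TV → ℤ) → ℝ} (hG : HtLoc S G) : HtLoc (S.image g) (pinMp g G) :=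
  fun a b hab => hG _ _ fun u hu => hab _ (Finset.mem_image_of_mem g hu)

theorem PinLc.mp {G : (TV → ℤ) → ℝ} (hG : PinLc G) (g : TV → TV) : PinLc (pinMp g G) := by
  obtain ⟨S, hS⟩ := hG
  exact ⟨_, pin_mp_loc g hS⟩

theorem pin_mp_grad (g : TV → TV) {G : (TV → ℤ) → ℝ} (hG : HtGrad G) : HtGrad (pinMp g G) :=
  fun h c => hG (fun u => h (g u)) c

theorem PinLG.mp {G : (TV → ℤ) → ℝ} (hG : PinLG G) (g : TV → TV) : PinLG (pinMp g G) := ⟨hG.1.mp g, pin_mp_grad g hG.2⟩

theorem PinLG.const (c : ℝ) : PinLG (fun _ => c) := ⟨PinLc.const c, fun _ _ => rfl⟩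

theorem PinLG.map2 {F G : (TV → ℤ) → ℝ} (hF : PinLG F) (hG : PinLG G) (f : ℝ → ℝ → ℝ) : PinLG (fun h => f (F h) (G h)) :=
  ⟨hF.1.map2 hG.1 f, fun h c => by show f (F _) (G _) = f (F h) (G h); rw [hF.2 h c, hG.2 h c]⟩

theorem PinLG.map1 {F : (TV → ℤ) → ℝ} (hF : PinLG F) (f : ℝ → ℝ) : PinLG (fun h => f (F h)) :=
  ⟨hF.1.map1 f, fun h c => by show f (F _) = f (F h); rw [hF.2 h c]⟩

theorem PinLG.add {F G : (TV → ℤ) → ℝ} (hF : PinLG F) (hG : PinLG G) : PinLG (fun h => F h + G h) := hF.map2 hG (· + ·)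
theorem PinLG.mul {F G : (TV → ℤ) → ℝ} (hF : PinLG F) (hG : PinLG G) : PinLG (fun h => F h * G h) := hF.map2 hG (· * ·)
theorem PinLG.smul {F : (TV → ℤ) → ℝ} (hF : PinLG F) (c : ℝ) : PinLG (fun h => c * F h) := hF.map1 (c * ·)

section plane

variable {x : ℝ} (hP : PinPl x)
include hP

theorem pin_pl_lim {G : (TV → ℤ) → ℝ} (hG : PinLG G) :
    Tendsto (fun R : ℕ => htE x (latBall 0 R) 0 G) atTop (𝓝 (htPl x G)) := by
  obtain ⟨⟨S, hS⟩, hg⟩ := hG
  exact hP.lim S G hS hg

theorem pin_pl_add {F G : (TV → ℤ) → ℝ} (hF : PinLG F) (hG : PinLG G) :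
    htPl x (fun h => F h + G h) = htPl x F + htPl x G := by
  refine tendsto_nhds_unique (pin_pl_lim hP (hF.add hG)) ?_
  refine ((pin_pl_lim hP hF).add (pin_pl_lim hP hG)).congr fun R => ?_
  rw [ht_E_add]

theorem pin_pl_smul {F : (TV → ℤ) → ℝ} (hF : PinLG F) (c : ℝ) : htPl x (fun h => c * F h) = c * htPl x F := by
  refine tendsto_nhds_unique (pin_pl_lim hP (hF.smul c)) ?_
  refine ((pin_pl_lim hP hF).const_mul c).congr fun R => ?_
  rw [ht_E_smul]

theorem pin_pl_const (c : ℝ) : htPl x (fun _ => c) = c := by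
  refine tendsto_nhds_unique (pin_pl_lim hP (PinLG.const c)) ?_
  refine tendsto_const_nhds.congr fun R => ?_
  rw [ht_E_const hP.pos (ht_adm_zero _)]

/-- globally 1-Lipschitz heights -/
def PinLip (h : TV → ℤ) : Prop := ∀ u, ∀ d ∈ latDirs, |h (u + d) - h u| ≤ 1

omit hP in
theorem pin_lip_of_adm {A : Finset TV} {h : TV → ℤ} (hh : HtAdm A 0 h) : PinLip h := by
  intro u d hd
  by_cases hu : u ∈ A
  · exact hh.2 u hu d hd
  · by_cases hv : u + d ∈ A
    · have := hh.2 (u + d) hv (-d) (lat_dirs_neg hd)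
      rw [add_neg_cancel_right, abs_sub_comm] at this
      exact this
    · rw [hh.1 u hu, hh.1 _ hv]; simp

theorem pin_pl_mono {F G : (TV → ℤ) → ℝ} (hF : PinLG F) (hG : PinLG G) (h : ∀ a, PinLip a → F a ≤ G a) :
    htPl x F ≤ htPl x G :=
  le_of_tendsto_of_tendsto' (pin_pl_lim hP hF) (pin_pl_lim hP hG) fun R =>
    ht_E_mono hP.pos _ _ fun H hH => h H (pin_lip_of_adm hH)

theorem pin_pl_nonneg {G : (TV → ℤ) → ℝ} (hG : PinLG G) (h : ∀ a, PinLip a → 0 ≤ G a) : 0 ≤ htPl x G := by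
  have := pin_pl_mono hP (PinLG.const 0) hG h
  rwa [pin_pl_const hP] at this

theorem pin_pl_congr {F G : (TV → ℤ) → ℝ} (hF : PinLG F) (hG : PinLG G) (h : ∀ a, PinLip a → F a = G a) :
    htPl x F = htPl x G :=
  le_antisymm (pin_pl_mono hP hF hG fun a ha => (h a ha).le) (pin_pl_mono hP hG hF fun a ha => (h a ha).ge)

theorem pin_pl_sum {ι : Type*} (s : Finset ι) {F : ι → (TV → ℤ) → ℝ} (hF : ∀ i ∈ s, PinLG (F i)) :
    PinLG (fun h => ∑ i ∈ s, F i h) ∧ htPl x (fun h => ∑ i ∈ s, F i h) = ∑ i ∈ s, htPl x (F i) := by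
  classical
  induction s using Finset.induction_on with
  | empty => simpa using ⟨PinLG.const 0, pin_pl_const hP 0⟩
  | insert a s ha ih =>
    obtain ⟨i1, i2⟩ := ih fun i hi => hF i (Finset.mem_insert_of_mem hi)
    have ha' := hF a (Finset.mem_insert_self _ _)
    simp only [Finset.sum_insert ha]
    exact ⟨ha'.add i1, by rw [pin_pl_add hP ha' i1, i2]⟩

theorem pin_pl_tr {G : (TV → ℤ) → ℝ} (hG : PinLG G) (a : TV) : htPl x (pinMp (· + a) G) = htPl x G := by
  obtain ⟨⟨S, hS⟩, hg⟩ := hG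
  exact hP.tr S G a hS hg

theorem pin_pl_re {G : (TV → ℤ) → ℝ} (hG : PinLG G) : htPl x (pinMp latRefl G) = htPl x G := by
  refine tendsto_nhds_unique (pin_pl_lim hP (hG.mp _)) ?_
  refine (pin_pl_lim hP hG).congr fun R => ?_
  exact (pin_ball_E_re x R G).symm

theorem pin_pl_ro {G : (TV → ℤ) → ℝ} (hG : PinLG G) : htPl x (pinMp latRot G) = htPl x G := by
  refine tendsto_nhds_unique (pin_pl_lim hP (hG.mp _)) ?_
  refine (pin_pl_lim hP hG).congr fun R => ?_
  exact (pin_ball_E_ro x R G).symm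

end plane

/-- Cauchy-Schwarz from the positivity of a quadratic polynomial -/
theorem pin_cs_of_quad {a b c : ℝ} (h : ∀ t : ℝ, 0 ≤ a + 2 * t * b + t ^ 2 * c) : b ^ 2 ≤ a * c := by
  have := discrim_le_zero (a := c) (b := 2 * b) (c := a) (fun t => by nlinarith [h t])
  unfold discrim at this
  nlinarith

/-! ## 5. the sigma-finite plane measure on ABSOLUTE heights -/

/-- height-localized observable: it vanishes unless one of finitely many heights is bounded -/
def PinLz (K : (TV → ℤ) → ℝ) : Prop := ∃ (S : Finset TV) (m : ℤ), ∀ h, K h ≠ 0 → ∃ v ∈ S, |h v| ≤ m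

/-- sum over all vertical shifts -/
noncomputable def pinSum (K : (TV → ℤ) → ℝ) : (TV → ℤ) → ℝ := fun h => ∑ᶠ c : ℤ, K (fun u => h u + c)

/-- `pinHat` of Defs/Pin (34) = integral against `∑_c (plane gradient law shifted by c)` -/
theorem pin_hat_eq (x : ℝ) (K : (TV → ℤ) → ℝ) : pinHat x K = htPl x (pinSum K) := rfl

theorem pin_lz_fin {K : (TV → ℤ) → ℝ} (hK : PinLz K) (h : TV → ℤ) :
    (Function.support fun c : ℤ => K (fun u => h u + c)).Finite := by
  obtain ⟨S, m, hS⟩ := hK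
  refine ((S.biUnion fun v => Finset.Icc (-m - h v) (m - h v)).finite_toSet).subset ?_
  intro c hc
  obtain ⟨v, hv, hb⟩ := hS _ hc
  rw [abs_le] at hb
  simp only [Finset.coe_biUnion, Set.mem_iUnion, Finset.coe_Icc, Set.mem_Icc]
  exact ⟨v, hv, by linarith [hb.1], by linarith [hb.2]⟩

theorem PinLz.mul_left {K : (TV → ℤ) → ℝ} (hK : PinLz K) (G : (TV → ℤ) → ℝ) : PinLz (fun h => G h * K h) := by
  obtain ⟨S, m, hS⟩ := hK
  exact ⟨S, m, fun h hh => hS h (right_ne_zero_of_mul hh)⟩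

theorem PinLz.mul_right {K : (TV → ℤ) → ℝ} (hK : PinLz K) (G : (TV → ℤ) → ℝ) : PinLz (fun h => K h * G h) := by
  obtain ⟨S, m, hS⟩ := hK
  exact ⟨S, m, fun h hh => hS h (left_ne_zero_of_mul hh)⟩

theorem PinLz.add {K K' : (TV → ℤ) → ℝ} (hK : PinLz K) (hK' : PinLz K') : PinLz (fun h => K h + K' h) := by
  classical
  obtain ⟨S, m, hS⟩ := hK
  obtain ⟨S', m', hS'⟩ := hK'
  refine ⟨S ∪ S', max m m', fun h hh => ?_⟩
  by_cases h1 : K h = 0
  · have h2 : K' h ≠ 0 := by
      intro h2; apply hh; show K h + K' h = 0; rw [h1, h2, add_zero]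
    obtain ⟨v, hv, hb⟩ := hS' h h2
    exact ⟨v, Finset.mem_union_right _ hv, hb.trans (le_max_right _ _)⟩
  · obtain ⟨v, hv, hb⟩ := hS h h1
    exact ⟨v, Finset.mem_union_left _ hv, hb.trans (le_max_left _ _)⟩

theorem PinLz.zero : PinLz (fun _ => 0) := ⟨∅, 0, fun _ h => absurd rfl h⟩

theorem PinLz.sum {ι : Type*} (s : Finset ι) {F : ι → (TV → ℤ) → ℝ} (hF : ∀ i ∈ s, PinLz (F i)) :
    PinLz (fun h => ∑ i ∈ s, F i h) := by
  classical
  induction s using Finset.induction_on with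
  | empty => simpa using PinLz.zero
  | insert a s ha ih =>
    simp only [Finset.sum_insert ha]
    exact (hF a (Finset.mem_insert_self _ _)).add (ih fun i hi => hF i (Finset.mem_insert_of_mem hi))

theorem PinLz.mp {K : (TV → ℤ) → ℝ} (hK : PinLz K) (g : TV → TV) : PinLz (pinMp g K) := by
  classical
  obtain ⟨S, m, hS⟩ := hK
  refine ⟨S.image g, m, fun h hh => ?_⟩
  obtain ⟨v, hv, hb⟩ := hS _ hh
  exact ⟨g v, Finset.mem_image_of_mem g hv, hb⟩

theorem pin_sum_grad (K : (TV → ℤ) → ℝ) : HtGrad (pinSum K) := by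
  intro h c
  unfold pinSum
  have := finsum_comp_equiv (Equiv.addLeft c) (f := fun c' : ℤ => K (fun u => h u + c'))
  rw [← this]
  refine finsum_congr fun c' => ?_
  simp only [Equiv.coe_addLeft, add_assoc]

theorem pin_sum_loc {S : Finset TV} {K : (TV → ℤ) → ℝ} (hK : HtLoc S K) : HtLoc S (pinSum K) := by
  intro a b hab
  unfold pinSum
  refine finsum_congr fun c => hK _ _ fun u hu => ?_
  rw [hab u hu]

theorem pin_sum_LG {K : (TV → ℤ) → ℝ} (hK : PinLc K) : PinLG (pinSum K) := by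
  obtain ⟨S, hS⟩ := hK
  exact ⟨⟨S, pin_sum_loc hS⟩, pin_sum_grad K⟩

theorem pin_sum_add {K K' : (TV → ℤ) → ℝ} (hK : PinLz K) (hK' : PinLz K') :
    pinSum (fun h => K h + K' h) = fun h => pinSum K h + pinSum K' h := by
  funext h
  exact finsum_add_distrib (pin_lz_fin hK h) (pin_lz_fin hK' h)

theorem pin_sum_smul (c : ℝ) (K : (TV → ℤ) → ℝ) : pinSum (fun h => c * K h) = fun h => c * pinSum K h := by
  funext h
  unfold pinSum
  have := smul_finsum c (fun c' : ℤ => K (fun u => h u + c'))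
  simpa [smul_eq_mul] using this.symm

theorem pin_sum_mul_grad {G : (TV → ℤ) → ℝ} (hG : HtGrad G) (K : (TV → ℤ) → ℝ) :
    pinSum (fun h => G h * K h) = fun h => G h * pinSum K h := by
  funext h
  unfold pinSum
  have := smul_finsum (G h) (fun c' : ℤ => K (fun u => h u + c'))
  rw [smul_eq_mul] at this
  rw [this]
  refine finsum_congr fun c => ?_
  show G _ * K _ = _
  rw [hG h c, smul_eq_mul]

theorem pin_sum_nonneg {K : (TV → ℤ) → ℝ} (hK : ∀ h, 0 ≤ K h) (h : TV → ℤ) : 0 ≤ pinSum K h :=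
  finsum_nonneg fun _ => hK _

theorem pin_sum_mp (g : TV → TV) (K : (TV → ℤ) → ℝ) : pinSum (pinMp g K) = pinMp g (pinSum K) := rfl

/-- anchored form -/
theorem pin_sum_anchor {K : (TV → ℤ) → ℝ} {v : TV} (hK : ∀ h, K h ≠ 0 → h v = 0) (h : TV → ℤ) :
    pinSum K h = K (fun u => h u - h v) := by
  unfold pinSum
  rw [finsum_eq_single _ (-h v)]
  · rfl
  · intro c hc
    by_contra hne
    have := hK _ hne
    apply hc
    linarith

/-- the sum over the shifts is a finite sum, uniformly over the configurations of a finite volume -/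
theorem pin_sum_E {K : (TV → ℤ) → ℝ} (hK : PinLz K) (x : ℝ) (A : Finset TV) (b : TV → ℤ) :
    ∃ I : Finset ℤ, htE x A b (pinSum K) = ∑ c ∈ I, htE x A b (fun h => K (fun u => h u + c)) := by
  classical
  refine ⟨(htCfg A b).biUnion fun h => (pin_lz_fin hK h).toFinset, ?_⟩
  rw [← ht_E_sum]
  refine ht_E_congr x A b fun H hH => ?_
  unfold pinSum
  refine finsum_eq_sum_of_support_subset _ ?_
  intro c hc
  simp only [Finset.coe_biUnion, Set.mem_iUnion, Set.Finite.coe_toFinset]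
  exact ⟨H, ht_mem_cfg.2 hH, hc⟩

/-- the class on which `pinHat` is used -/
def PinOk (K : (TV → ℤ) → ℝ) : Prop := PinLc K ∧ PinLz K

theorem PinOk.add {K K' : (TV → ℤ) → ℝ} (h : PinOk K) (h' : PinOk K') : PinOk (fun a => K a + K' a) := ⟨h.1.add h'.1, h.2.add h'.2⟩
theorem PinOk.smul {K : (TV → ℤ) → ℝ} (h : PinOk K) (c : ℝ) : PinOk (fun a => c * K a) := ⟨h.1.smul c, h.2.mul_left _⟩
theorem PinOk.mul_left {K G : (TV → ℤ) → ℝ} (h : PinOk K) (hG : PinLc G) : PinOk (fun a => G a * K a) := ⟨hG.mul h.1, h.2.mul_left _⟩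
theorem PinOk.mul_right {K G : (TV → ℤ) → ℝ} (h : PinOk K) (hG : PinLc G) : PinOk (fun a => K a * G a) := ⟨h.1.mul hG, h.2.mul_right _⟩
theorem PinOk.mp {K : (TV → ℤ) → ℝ} (h : PinOk K) (g : TV → TV) : PinOk (pinMp g K) := ⟨h.1.mp g, h.2.mp g⟩
theorem PinOk.sum {ι : Type*} (s : Finset ι) {F : ι → (TV → ℤ) → ℝ} (hF : ∀ i ∈ s, PinOk (F i)) : PinOk (fun h => ∑ i ∈ s, F i h) :=
  ⟨PinLc.sum s fun i hi => (hF i hi).1, PinLz.sum s fun i hi => (hF i hi).2⟩

section hat

variable {x : ℝ} (hP : PinPl x)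
include hP

theorem pin_hat_add {K K' : (TV → ℤ) → ℝ} (h : PinOk K) (h' : PinOk K') :
    pinHat x (fun a => K a + K' a) = pinHat x K + pinHat x K' := by
  rw [pin_hat_eq, pin_hat_eq, pin_hat_eq, pin_sum_add h.2 h'.2, pin_pl_add hP (pin_sum_LG h.1) (pin_sum_LG h'.1)]

theorem pin_hat_smul {K : (TV → ℤ) → ℝ} (h : PinOk K) (c : ℝ) : pinHat x (fun a => c * K a) = c * pinHat x K := by
  rw [pin_hat_eq, pin_hat_eq, pin_sum_smul, pin_pl_smul hP (pin_sum_LG h.1)]

theorem pin_hat_sum {ι : Type*} (s : Finset ι) {F : ι → (TV → ℤ) → ℝ} (hF : ∀ i ∈ s, PinOk (F i)) :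
    pinHat x (fun h => ∑ i ∈ s, F i h) = ∑ i ∈ s, pinHat x (F i) := by
  classical
  induction s using Finset.induction_on with
  | empty =>
    simp only [Finset.sum_empty]
    have := pin_hat_smul hP (K := fun _ => 0) ⟨PinLc.const 0, PinLz.zero⟩ 0
    simpa using this
  | insert a s ha ih =>
    simp only [Finset.sum_insert ha]
    rw [pin_hat_add hP (hF a (Finset.mem_insert_self _ _)) (PinOk.sum s fun i hi => hF i (Finset.mem_insert_of_mem hi)),
      ih fun i hi => hF i (Finset.mem_insert_of_mem hi)]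

theorem pin_hat_nonneg {K : (TV → ℤ) → ℝ} (h : PinLc K) (h0 : ∀ a, 0 ≤ K a) : 0 ≤ pinHat x K :=
  pin_pl_nonneg hP (pin_sum_LG h) fun a _ => pin_sum_nonneg h0 a

theorem pin_hat_mono {K K' : (TV → ℤ) → ℝ} (h : PinOk K) (h' : PinOk K') (hle : ∀ a, K a ≤ K' a) : pinHat x K ≤ pinHat x K' := by
  have h1 : PinOk (fun a => (-1) * K a) := h.smul (-1)
  have h2 := pin_hat_nonneg hP (K := fun a => K' a + (-1) * K a) (h'.1.add h1.1) (fun a => by linarith [hle a])
  rw [pin_hat_add hP h' h1, pin_hat_smul hP h] at h2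
  linarith

theorem pin_hat_tr {K : (TV → ℤ) → ℝ} (h : PinLc K) (a : TV) : pinHat x (pinMp (· + a) K) = pinHat x K := by
  rw [pin_hat_eq, pin_hat_eq, pin_sum_mp, pin_pl_tr hP (pin_sum_LG h)]

theorem pin_hat_re {K : (TV → ℤ) → ℝ} (h : PinLc K) : pinHat x (pinMp latRefl K) = pinHat x K := by
  rw [pin_hat_eq, pin_hat_eq, pin_sum_mp, pin_pl_re hP (pin_sum_LG h)]

theorem pin_hat_ro {K : (TV → ℤ) → ℝ} (h : PinLc K) : pinHat x (pinMp latRot K) = pinHat x K := by
  rw [pin_hat_eq, pin_hat_eq, pin_sum_mp, pin_pl_ro hP (pin_sum_LG h)]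

/-- Cauchy-Schwarz for `pinHat` -/
theorem pin_hat_cs {F G : (TV → ℤ) → ℝ} (hF : PinOk F) (hG : PinOk G) :
    pinHat x (fun a => F a * G a) ^ 2 ≤ pinHat x (fun a => F a * F a) * pinHat x (fun a => G a * G a) := by
  refine pin_cs_of_quad fun t => ?_
  have hFF : PinOk (fun a => F a * F a) := hF.mul_left hF.1
  have hFG : PinOk (fun a => F a * G a) := hG.mul_left hF.1
  have hGG : PinOk (fun a => G a * G a) := hG.mul_left hG.1
  have h0 := pin_hat_nonneg hP (K := fun a => F a * F a + ((2 * t) * (F a * G a) + t ^ 2 * (G a * G a)))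
    (hFF.1.add ((hFG.1.smul _).add (hGG.1.smul _))) (fun a => by nlinarith [sq_nonneg (F a + t * G a)])
  rw [pin_hat_add hP hFF ((hFG.smul _).add (hGG.smul _)), pin_hat_add hP (hFG.smul _) (hGG.smul _), pin_hat_smul hP hFG,
    pin_hat_smul hP hGG] at h0
  linarith

/-- **reflection positivity of the plane measure on absolute heights** across the row `n = 0` -/
theorem pin_hat_rp {F : (TV → ℤ) → ℝ} (hF : PinOk F) (hu : PinUp 0 F) : 0 ≤ pinHat x (fun a => pinMp latRefl F a * F a) := by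
  have hK : PinOk (fun a => pinMp latRefl F a * F a) := hF.mul_left (hF.1.mp _)
  rw [pin_hat_eq]
  refine ge_of_tendsto' (pin_pl_lim hP (pin_sum_LG hK.1)) fun R => ?_
  obtain ⟨I, hI⟩ := pin_sum_E hK.2 x (latBall 0 R) 0
  rw [hI]
  refine Finset.sum_nonneg fun c _ => ?_
  exact pin_rp_ball hP.pos R (F := fun h => F (fun u => h u + c)) (fun h h' hh => hu _ _ fun u hu' => by rw [hh u hu'])

/-- **reflection positivity of the plane gradient law** across the row `n = 0` -/
theorem pin_pl_rp {F : (TV → ℤ) → ℝ} (hF : PinLG F) (hu : PinUp 0 F) : 0 ≤ htPl x (fun a => pinMp latRefl F a * F a) :=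
  ge_of_tendsto' (pin_pl_lim hP ((hF.mp _).mul hF)) fun R => pin_rp_ball hP.pos R hu

end hat

theorem pin_rp_eqns_cite : True := by
  have := @pinOri.eq_1; have := @PinAut.eq_1; have := @pinTrE.eq_1; have := @pinReE.eq_1; have := @pinRotI.eq_1; have := @pinRoE.eq_1
  have := @PinUp.eq_1; have := @pinTh.eq_1; have := @pinGl.eq_1; have := @pinFib.eq_1; have := @pinRow.eq_1; have := @PinLc.eq_1
  have := @PinLG.eq_1; have := @pinMp.eq_1; have := @PinLip.eq_1; have := @PinLz.eq_1; have := @pinSum.eq_1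
  have := @PinOk.eq_1
  trivial

end Claimed.Agent.R291
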