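import Mathlib

/-!
# Row 291 (S0539), unit PIN (05-pins), second half: MODEL-FREE CORES      (OWNER helper48; head of PIN: helper34)

Mathlib only, 0 sorry.   TEX[lem:analytic-translation], TEX[pins:three-moves] (end of the proof), TEX[pins:fourier-projection], TEX[prop:bracket-insertion] (order of the limits).
* sec. 1  (D1 of 34) algebraic substitute of the analytic continuation: `pin_cont_alg`:
          `|⟨a, S^N b⟩| ≤ Σ_{i=1..L} C(L,i) |⟨a, S^(N + i r N) b⟩| + ‖a‖ ‖b‖ sup_{[0,1]} t (1 - t^r)^L`, `S` positive contraction; `pin_cont_kappa`: the sup tends to `0`.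
* sec. 2  numbers only: `PinTr C N M` (what a transfer representation gives; producer `pin_cont_tr_of_hilbert`), `pin_cont_lim` (removal of ONE move: half line of good translations),
          `PinMv`, `pin_cont_moves` (the `K` moves are removed in the reverse order; thresholds may depend on the earlier moves).
* sec. 3  `pin_four_proj`: bounded trigonometric polynomials on `ι → ℝ` tending to `0` pointwise have a `0`-th coefficient tending to `0`  (common offset event).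
* sec. 4  `pin_fill_lim`: mesh first, then the gap, then the truncation.
* sec. 5  FALLBACK (the paper's route): `pin_vit_vitali` (Vitali on half planes, ultrafilter proof), `pin_vit_at` (abstract Lemma 5.8 from a bounded holomorphic interpolation = Cor. 8.3; OPEN INTERVAL of good translations).
-/

set_option autoImplicit false

namespace Claimed.Agent.R291

open Filter Topology Set Metric Polynomial

/-! ## 1. the algebraic substitute of analytic continuation -/

section Hil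

variable {H : Type*} [NormedAddCommGroup H] [InnerProductSpace ℂ H] [CompleteSpace H]

/-- the polynomial `X^N (1 - X^(rN))^L` -/
noncomputable def pinQ (N r L : ℕ) : ℝ[X] := X ^ N * (1 - X ^ (r * N)) ^ L

theorem pin_cont_Q_expand (N r L : ℕ) :
    pinQ N r L = ∑ i ∈ Finset.range (L + 1), C ((-1 : ℝ) ^ i * (L.choose i : ℝ)) * X ^ (N + i * r * N) := by
  unfold pinQ
  rw [sub_eq_neg_add, add_pow, Finset.mul_sum]
  refine Finset.sum_congr rfl fun i _ => ?_
  rw [one_pow, mul_one, neg_pow, ← pow_mul, map_mul, map_pow, map_neg, map_one, map_natCast, pow_add]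
  have e : r * N * i = i * r * N := by ring
  rw [e]
  ring

theorem pin_cont_norm (S : H →L[ℂ] H) (hS : 0 ≤ S) (hS1 : ‖S‖ ≤ 1) (N r L : ℕ) {κ : ℝ}
    (hκ : ∀ t ∈ Icc (0:ℝ) 1, t * (1 - t ^ r) ^ L ≤ κ) : ‖aeval S (pinQ N r L)‖ ≤ κ := by
  have hsa : IsSelfAdjoint S := IsSelfAdjoint.of_nonneg hS
  rw [← cfc_polynomial _ S hsa]
  have hκ0 : 0 ≤ κ := by
    have := hκ 0 ⟨le_rfl, zero_le_one⟩
    simpa using this
  refine norm_cfc_le hκ0 fun t ht => ?_
  have h0 : 0 ≤ t := spectrum_nonneg_of_nonneg hS ht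
  have h1 : t ≤ 1 := by
    have h2 := spectrum.norm_le_norm_mul_of_mem ht
    rw [Real.norm_eq_abs] at h2
    have h3 : ‖(1 : H →L[ℂ] H)‖ ≤ 1 := ContinuousLinearMap.norm_id_le
    have h4 : ‖S‖ * ‖(1 : H →L[ℂ] H)‖ ≤ 1 * 1 := mul_le_mul hS1 h3 (norm_nonneg _) zero_le_one
    linarith [le_abs_self t]
  have hu0 : 0 ≤ t ^ N := pow_nonneg h0 N
  have hu1 : t ^ N ≤ 1 := pow_le_one₀ h0 h1
  have hp : 0 ≤ 1 - (t ^ N) ^ r := sub_nonneg.2 (pow_le_one₀ hu0 hu1)
  have e : (pinQ N r L).eval t = t ^ N * (1 - (t ^ N) ^ r) ^ L := by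
    unfold pinQ
    simp only [eval_mul, eval_X, eval_pow, eval_sub, eval_one]
    rw [← pow_mul, mul_comm N r]
  rw [e, Real.norm_eq_abs, abs_of_nonneg (by positivity)]
  exact hκ _ ⟨hu0, hu1⟩

/-- **(D1) of helper34: the algebraic substitute of analytic continuation.** -/
theorem pin_cont_alg (S : H →L[ℂ] H) (hS : 0 ≤ S) (hS1 : ‖S‖ ≤ 1) (a b : H) (N r L : ℕ) {κ : ℝ}
    (hκ : ∀ t ∈ Icc (0:ℝ) 1, t * (1 - t ^ r) ^ L ≤ κ) :
    ‖inner ℂ a ((S ^ N) b)‖ ≤ ∑ i ∈ Finset.range L, (L.choose (i + 1) : ℝ) * ‖inner ℂ a ((S ^ (N + (i + 1) * r * N)) b)‖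
      + ‖a‖ * ‖b‖ * κ := by
  have h1 := pin_cont_norm S hS hS1 N r L hκ
  have e : aeval S (pinQ N r L) = S ^ N
      + ∑ i ∈ Finset.range L, ((-1 : ℝ) ^ (i + 1) * (L.choose (i + 1) : ℝ)) • S ^ (N + (i + 1) * r * N) := by
    rw [pin_cont_Q_expand, map_sum, Finset.sum_range_succ', add_comm]
    congr 1
    · simp
    · refine Finset.sum_congr rfl fun i _ => ?_
      rw [map_mul, aeval_C, map_pow, aeval_X, Algebra.algebraMap_eq_smul_one, smul_mul_assoc, one_mul]
  have e2 : (S ^ N) b = aeval S (pinQ N r L) b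
      - ∑ i ∈ Finset.range L, ((-1 : ℝ) ^ (i + 1) * (L.choose (i + 1) : ℝ)) • (S ^ (N + (i + 1) * r * N)) b := by
    rw [e]
    simp
  rw [e2, inner_sub_right, inner_sum]
  refine (norm_sub_le _ _).trans ?_
  rw [add_comm]
  refine add_le_add ?_ ?_
  · refine (norm_sum_le _ _).trans (Finset.sum_le_sum fun i _ => ?_)
    rw [inner_smul_right_eq_smul, norm_smul, Real.norm_eq_abs, abs_mul, abs_pow, abs_neg, abs_one, one_pow, one_mul,
      Nat.abs_cast]
  · refine (norm_inner_le_norm _ _).trans ?_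
    rw [mul_assoc]
    refine mul_le_mul_of_nonneg_left ?_ (norm_nonneg _)
    refine (ContinuousLinearMap.le_opNorm _ _).trans ?_
    rw [mul_comm]
    exact mul_le_mul_of_nonneg_left h1 (norm_nonneg _)

end Hil

/-- `sup_{[0,1]} t (1 - t^r)^L → 0` as `L → ∞` -/
theorem pin_cont_kappa {r : ℕ} {ε : ℝ} (hε : 0 < ε) :
    ∃ L0 : ℕ, ∀ L ≥ L0, ∀ t ∈ Icc (0:ℝ) 1, t * (1 - t ^ r) ^ L ≤ ε := by
  obtain ⟨e, he⟩ : ∃ e, e = min ε 1 := ⟨_, rfl⟩
  have he0 : 0 < e := by rw [he]; exact lt_min hε one_pos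
  have he1 : e ≤ 1 := by rw [he]; exact min_le_right _ _
  have heε : e ≤ ε := by rw [he]; exact min_le_left _ _
  have hq0 : 0 ≤ 1 - e ^ r := sub_nonneg.2 (pow_le_one₀ he0.le he1)
  have hq1 : 1 - e ^ r < 1 := by have := pow_pos he0 r; linarith
  have hl := tendsto_pow_atTop_nhds_zero_of_lt_one hq0 hq1
  obtain ⟨L0, hL0⟩ := eventually_atTop.1 (hl.eventually (gt_mem_nhds hε))
  refine ⟨L0, fun L hL t ht => ?_⟩
  have hp : 0 ≤ 1 - t ^ r := sub_nonneg.2 (pow_le_one₀ ht.1 ht.2)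
  have hp1 : 1 - t ^ r ≤ 1 := by have := pow_nonneg ht.1 r; linarith
  rcases le_total t e with h | h
  · calc t * (1 - t ^ r) ^ L ≤ t * 1 := mul_le_mul_of_nonneg_left (pow_le_one₀ hp hp1) ht.1
      _ ≤ ε := by linarith
  · have h2 : 1 - t ^ r ≤ 1 - e ^ r := by
      have := pow_le_pow_left₀ he0.le h r
      linarith
    calc t * (1 - t ^ r) ^ L ≤ 1 * (1 - e ^ r) ^ L :=
          mul_le_mul ht.2 (pow_le_pow_left₀ hp h2 L) (pow_nonneg hp L) zero_le_one
      _ ≤ ε := by rw [one_mul]; exact (hL0 L hL).le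


/-! ## 2. the limit lemma and the induction over the moves (numbers only) -/

/-- what a transfer representation `M m = ⟨a, S^(m+N) b⟩`, `‖a‖ ‖b‖ ≤ C`, gives -/
def PinTr (C : ℝ) (N : ℕ) (M : ℕ → ℂ) : Prop :=
  ∀ (r L : ℕ) (κ : ℝ), (∀ t ∈ Icc (0:ℝ) 1, t * (1 - t ^ r) ^ L ≤ κ) →
    ‖M 0‖ ≤ ∑ i ∈ Finset.range L, (L.choose (i + 1) : ℝ) * ‖M ((i + 1) * r * N)‖ + C * κ

theorem pin_cont_tr_of_hilbert {H : Type*} [NormedAddCommGroup H] [InnerProductSpace ℂ H] [CompleteSpace H]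
    (S : H →L[ℂ] H) (hS : 0 ≤ S) (hS1 : ‖S‖ ≤ 1) (a b : H) {C : ℝ} (hC : ‖a‖ * ‖b‖ ≤ C) (N : ℕ) {M : ℕ → ℂ}
    (hM : ∀ m, M m = inner ℂ a ((S ^ (m + N)) b)) : PinTr C N M := by
  intro r L κ hκ
  have hκ0 : 0 ≤ κ := by
    have := hκ 0 ⟨le_rfl, zero_le_one⟩
    simpa using this
  have h := pin_cont_alg S hS hS1 a b N r L hκ
  rw [hM 0, zero_add]
  refine h.trans (add_le_add (le_of_eq ?_) (mul_le_mul_of_nonneg_right hC hκ0))
  refine Finset.sum_congr rfl fun i _ => ?_
  rw [hM, add_comm N]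

/-- **removal of one move**: if the normalized expectations tend to `0` for all translations beyond `d0`, they do at `0` -/
theorem pin_cont_lim {C η d0 : ℝ} (hC : 0 ≤ C) (hη : 0 < η) {b : ℕ → ℝ} {N : ℕ → ℕ}
    (hN : Tendsto (fun n => (N n : ℝ) * b n) atTop (𝓝 η)) {M : ℕ → ℕ → ℂ}
    (hTr : ∀ᶠ n in atTop, PinTr C (N n) (M n))
    (h0 : ∀ s, d0 < s → ∀ m : ℕ → ℕ, Tendsto (fun n => (m n : ℝ) * b n) atTop (𝓝 s) →
      Tendsto (fun n => M n (m n)) atTop (𝓝 0)) :
    Tendsto (fun n => M n 0) atTop (𝓝 0) := by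
  rw [tendsto_zero_iff_norm_tendsto_zero, Metric.tendsto_atTop]
  intro ε hε
  obtain ⟨r, hr⟩ : ∃ r : ℕ, max d0 0 < r * η := by
    obtain ⟨r, hr⟩ := exists_nat_gt (max d0 0 / η)
    exact ⟨r, by rwa [div_lt_iff₀ hη] at hr⟩
  have hrd : d0 < r * η := (le_max_left _ _).trans_lt hr
  have hr0 : 0 < r * η := (le_max_right _ _).trans_lt hr
  obtain ⟨L, hL⟩ := pin_cont_kappa (r := r) (ε := ε / (2 * (C + 1))) (by positivity)
  have hκ := hL L le_rfl
  have hsum : Tendsto (fun n => ∑ i ∈ Finset.range L, (L.choose (i + 1) : ℝ) * ‖M n ((i + 1) * r * N n)‖) atTop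
      (𝓝 (∑ i ∈ Finset.range L, (L.choose (i + 1) : ℝ) * 0)) := by
    refine tendsto_finsetSum _ fun i _ => Tendsto.const_mul _ ?_
    have hs : d0 < ((i : ℝ) + 1) * (r * η) := by
      have : (0 : ℝ) ≤ i := Nat.cast_nonneg i
      nlinarith
    have hm : Tendsto (fun n => (((i + 1) * r * N n : ℕ) : ℝ) * b n) atTop (𝓝 (((i : ℝ) + 1) * (r * η))) := by
      have := hN.const_mul (((i : ℝ) + 1) * r)
      rw [mul_assoc] at this
      refine this.congr fun n => ?_
      push_cast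
      ring
    have := (h0 _ hs _ hm).norm
    rwa [norm_zero] at this
  simp only [mul_zero, Finset.sum_const_zero] at hsum
  have hev := hsum.eventually (gt_mem_nhds (half_pos hε))
  obtain ⟨n0, hn0⟩ := eventually_atTop.1 (hev.and hTr)
  refine ⟨n0, fun n hn => ?_⟩
  obtain ⟨h1, h2⟩ := hn0 n hn
  have h3 := h2 r L _ hκ
  have h4 : C * (ε / (2 * (C + 1))) ≤ ε / 2 := by
    rw [← mul_div_assoc, div_le_div_iff₀ (by positivity) (by norm_num)]
    nlinarith
  rw [Real.dist_eq, sub_zero, abs_of_nonneg (norm_nonneg _)]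
  linarith

/-- the statement `S_j`: the normalized expectation tends to `0` at every placement whose first `j` moves are admissible and whose other moves are absent -/
def PinMv {K : ℕ} (b : ℕ → ℝ) (thr : Fin K → (Fin K → ℝ) → ℝ) (M : ℕ → (Fin K → ℕ) → ℂ) (j : ℕ) : Prop :=
  ∀ a : Fin K → ℝ, (∀ i : Fin K, i.val < j → thr i a < a i) → (∀ i : Fin K, j ≤ i.val → a i = 0) →
    ∀ k : ℕ → Fin K → ℕ, (∀ i, Tendsto (fun n => (k n i : ℝ) * b n) atTop (𝓝 (a i))) → (∀ n (i : Fin K), j ≤ i.val → k n i = 0) →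
      Tendsto (fun n => M n (k n)) atTop (𝓝 0)

/-- **the moves are removed in the reverse order** (end of the proof of Lemma 5.10) -/
theorem pin_cont_moves {K : ℕ} {b : ℕ → ℝ} {thr : Fin K → (Fin K → ℝ) → ℝ} {M : ℕ → (Fin K → ℕ) → ℂ}
    (hthr : ∀ (i : Fin K) (a a' : Fin K → ℝ), (∀ l : Fin K, l < i → a l = a' l) → thr i a = thr i a')
    (hfin : PinMv b thr M K)
    (hTr : ∀ (j : Fin K) (a : Fin K → ℝ), (∀ i : Fin K, i < j → thr i a < a i) → (∀ i : Fin K, j ≤ i → a i = 0) →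
      ∀ k : ℕ → Fin K → ℕ, (∀ i, Tendsto (fun n => (k n i : ℝ) * b n) atTop (𝓝 (a i))) → (∀ n (i : Fin K), j ≤ i → k n i = 0) →
        ∃ (C η : ℝ) (N : ℕ → ℕ), 0 ≤ C ∧ 0 < η ∧ Tendsto (fun n => (N n : ℝ) * b n) atTop (𝓝 η) ∧
          ∀ᶠ n in atTop, PinTr C (N n) (fun m => M n (Function.update (k n) j m))) :
    Tendsto (fun n => M n 0) atTop (𝓝 0) := by
  have key : ∀ d : ℕ, d ≤ K → PinMv b thr M (K - d) := by
    intro d
    induction d with
    | zero => intro _; exact hfin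
    | succ d ih =>
      intro hd
      have ih' := ih (by omega)
      obtain ⟨j, hj⟩ : ∃ j : Fin K, j.val = K - (d + 1) := ⟨⟨K - (d + 1), by omega⟩, rfl⟩
      have hj1 : K - d = j.val + 1 := by omega
      rw [← hj]
      rw [hj1] at ih'
      intro a ha1 ha2 k hk1 hk2
      obtain ⟨C, η, N, hC, hη, hN, hT⟩ := hTr j a (fun i hi => ha1 i hi) (fun i hi => ha2 i hi) k hk1
        (fun n i hi => hk2 n i hi)
      have h := pin_cont_lim (d0 := thr j a) hC hη hN hT (fun s hs m hm => by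
        refine ih' (Function.update a j s) ?_ ?_ (fun n => Function.update (k n) j (m n)) ?_ ?_
        · intro i hi
          have e : thr i (Function.update a j s) = thr i a := by
            refine hthr i _ _ fun l hl => ?_
            have : l ≠ j := by
              intro h
              rw [h] at hl
              have : j.val < i.val := hl
              omega
            rw [Function.update_of_ne this]
          rw [e]
          by_cases hij : i = j
          · rw [hij, Function.update_self]; exact hs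
          · rw [Function.update_of_ne hij]
            refine ha1 i ?_
            have : i.val ≠ j.val := fun h => hij (Fin.ext h)
            omega
        · intro i hi
          have hij : i ≠ j := by intro h; rw [h] at hi; omega
          rw [Function.update_of_ne hij]
          exact ha2 i (by omega)
        · intro i
          by_cases hij : i = j
          · subst hij
            simpa using hm
          · simpa [Function.update_of_ne hij] using hk1 i
        · intro n i hi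
          have hij : i ≠ j := by intro h; rw [h] at hi; omega
          rw [Function.update_of_ne hij]
          exact hk2 n i (by omega))
      refine h.congr fun n => ?_
      have : Function.update (k n) j 0 = k n := by
        rw [← hk2 n j le_rfl, Function.update_eq_self]
      rw [this]
  have h0 := key K le_rfl
  rw [Nat.sub_self] at h0
  exact h0 0 (fun i hi => absurd hi (Nat.not_lt_zero _)) (fun _ _ => rfl) (fun _ => 0) (fun i => by simp)
    (fun _ _ _ => rfl)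

/-! ## 3. phase projection: the Fourier coefficient at `0` of bounded trigonometric polynomials tending to `0` pointwise (5.25)-(5.27) -/

section Four

open MeasureTheory Complex

variable {ι : Type*} [Fintype ι]

/-- Lebesgue measure on the box `(0, 2π]^ι` -/
noncomputable def pinBox (ι : Type*) [Fintype ι] : Measure (ι → ℝ) :=
  Measure.pi fun _ => (volume : Measure ℝ).restrict (Ioc 0 (2 * Real.pi))

instance pin_box_finite : IsFiniteMeasure (pinBox ι) := by
  unfold pinBox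
  infer_instance

theorem pin_four_one (d : ℤ) :
    ∫ x in Ioc 0 (2 * Real.pi), cexp (I * ((x : ℂ) * (d : ℂ))) = if d = 0 then ((2 * Real.pi : ℝ) : ℂ) else 0 := by
  rw [← intervalIntegral.integral_of_le (by positivity)]
  split_ifs with h
  · subst h
    simp
  · have hc : I * (d : ℂ) ≠ 0 := mul_ne_zero I_ne_zero (by exact_mod_cast h)
    have e : (fun x : ℝ => cexp (I * ((x : ℂ) * (d : ℂ)))) = fun x : ℝ => cexp ((I * (d : ℂ)) * x) := by
      funext x; congr 1; ring
    rw [e, integral_exp_mul_complex hc]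
    have e2 : I * (d : ℂ) * ((2 * Real.pi : ℝ) : ℂ) = (d : ℂ) * (2 * Real.pi * I) := by push_cast; ring
    rw [e2, Complex.exp_int_mul_two_pi_mul_I]
    simp

theorem pin_four_char (d : ι → ℤ) :
    ∫ s, cexp (I * ∑ j, ((s j : ℝ) : ℂ) * (d j : ℂ)) ∂(pinBox ι)
      = if d = 0 then ((2 * Real.pi : ℝ) : ℂ) ^ Fintype.card ι else 0 := by
  have e : (fun s : ι → ℝ => cexp (I * ∑ j, ((s j : ℝ) : ℂ) * (d j : ℂ)))
      = fun s : ι → ℝ => ∏ j, cexp (I * (((s j : ℝ) : ℂ) * (d j : ℂ))) := by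
    funext s
    rw [Finset.mul_sum, Complex.exp_sum]
  rw [e]
  unfold pinBox
  rw [integral_fintype_prod_eq_prod (fun j (x : ℝ) => cexp (I * ((x : ℂ) * (d j : ℂ))))]
  simp only [pin_four_one]
  split_ifs with h
  · subst h
    simp
  · obtain ⟨j, hj⟩ : ∃ j, d j ≠ 0 := by
      by_contra hcon
      exact h (funext fun j => by_contra fun hj => hcon ⟨j, hj⟩)
    exact Finset.prod_eq_zero (Finset.mem_univ j) (by rw [if_neg hj])

/-- **phase projection** -/
theorem pin_four_proj [DecidableEq ι] (A : ℕ → Finset (ι → ℤ)) (c : ℕ → (ι → ℤ) → ℂ) {C : ℝ}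
    (hb : ∀ n (s : ι → ℝ), ‖∑ d ∈ A n, c n d * cexp (I * ∑ j, ((s j : ℝ) : ℂ) * (d j : ℂ))‖ ≤ C)
    (h0 : ∀ s : ι → ℝ, Tendsto (fun n => ∑ d ∈ A n, c n d * cexp (I * ∑ j, ((s j : ℝ) : ℂ) * (d j : ℂ))) atTop (𝓝 0)) :
    Tendsto (fun n => ∑ d ∈ (A n).filter (fun d => d = 0), c n d) atTop (𝓝 0) := by
  have hcont : ∀ d : ι → ℤ, Continuous fun s : ι → ℝ => cexp (I * ∑ j, ((s j : ℝ) : ℂ) * (d j : ℂ)) := by
    intro d
    fun_prop
  have hint : ∀ d : ι → ℤ, Integrable (fun s : ι → ℝ => cexp (I * ∑ j, ((s j : ℝ) : ℂ) * (d j : ℂ))) (pinBox ι) := by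
    intro d
    refine Integrable.of_bound (hcont d).aestronglyMeasurable 1 (ae_of_all _ fun s => ?_)
    have e : I * ∑ j, ((s j : ℝ) : ℂ) * (d j : ℂ) = ((∑ j, s j * (d j : ℝ) : ℝ) : ℂ) * I := by
      push_cast; ring
    rw [e, Complex.norm_exp_ofReal_mul_I]
  have hval : ∀ n, ∫ s, ∑ d ∈ A n, c n d * cexp (I * ∑ j, ((s j : ℝ) : ℂ) * (d j : ℂ)) ∂(pinBox ι)
      = ((2 * Real.pi : ℝ) : ℂ) ^ Fintype.card ι * ∑ d ∈ (A n).filter (fun d => d = 0), c n d := by
    intro n
    rw [integral_finsetSum _ fun d _ => (hint d).const_mul _, Finset.mul_sum, Finset.sum_filter]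
    refine Finset.sum_congr rfl fun d _ => ?_
    rw [integral_const_mul, pin_four_char]
    split_ifs <;> ring
  have hlim : Tendsto (fun n => ∫ s, ∑ d ∈ A n, c n d * cexp (I * ∑ j, ((s j : ℝ) : ℂ) * (d j : ℂ)) ∂(pinBox ι)) atTop
      (𝓝 (∫ _ : ι → ℝ, (0 : ℂ) ∂(pinBox ι))) := by
    refine tendsto_integral_of_dominated_convergence (fun _ => C) (fun n => ?_) (integrable_const C)
      (fun n => ae_of_all _ fun s => hb n s) (ae_of_all _ fun s => h0 s)
    exact (continuous_finsetSum _ fun d _ => continuous_const.mul (hcont d)).aestronglyMeasurable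
  rw [integral_zero] at hlim
  simp only [hval] at hlim
  have hne : ((2 * Real.pi : ℝ) : ℂ) ^ Fintype.card ι ≠ 0 :=
    pow_ne_zero _ (Complex.ofReal_ne_zero.2 (by positivity))
  have h2 := hlim.const_mul (((2 * Real.pi : ℝ) : ℂ) ^ Fintype.card ι)⁻¹
  rw [mul_zero] at h2
  refine h2.congr fun n => ?_
  rw [← mul_assoc, inv_mul_cancel₀ hne, one_mul]

end Four

/-! ## 4. closing the gaps: the order of the limits in the proof of Prop. 5.12 (numbers only) -/

/-- mesh first (at a fixed gap `a`), then `a ↓ 0`, then the truncation level `M → ∞` -/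
theorem pin_fill_lim {e0 : ℕ → ℝ} {eq tv : ℝ → ℕ → ℝ} {ω : ℝ → ℝ} {a0 K1 K2 : ℝ} (ha0 : 0 < a0) (hK1 : 0 ≤ K1)
    (hK2 : 0 ≤ K2) (hω : Tendsto ω (𝓝[>] 0) (𝓝 0))
    (heq : ∀ a ∈ Ioo 0 a0, Tendsto (eq a) atTop (𝓝 0))
    (htv : ∀ a ∈ Ioo 0 a0, ∀ ε > 0, ∀ᶠ n in atTop, tv a n ≤ ω a + ε)
    (hcmp : ∀ a ∈ Ioo 0 a0, ∀ M > 0, ∀ᶠ n in atTop, |eq a n - e0 n| ≤ K1 * M * tv a n + K2 / M) :
    Tendsto e0 atTop (𝓝 0) := by
  rw [Metric.tendsto_atTop]
  intro ε hε
  obtain ⟨M, hM⟩ : ∃ M, M = 4 * K2 / ε + 1 := ⟨_, rfl⟩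
  have hM0 : 0 < M := by rw [hM]; positivity
  have hKM : K2 / M ≤ ε / 4 := by
    rw [div_le_div_iff₀ hM0 (by norm_num), hM]
    have : ε * (4 * K2 / ε + 1) = 4 * K2 + ε := by field_simp
    nlinarith
  obtain ⟨θ, hθ⟩ : ∃ θ, θ = ε / (8 * (K1 * M + 1)) := ⟨_, rfl⟩
  have hθ0 : 0 < θ := by rw [hθ]; positivity
  have hKθ : K1 * M * (2 * θ) ≤ ε / 4 := by
    rw [hθ]
    have h1 : 0 ≤ K1 * M := by positivity
    rw [show K1 * M * (2 * (ε / (8 * (K1 * M + 1)))) = (K1 * M * ε) / (4 * (K1 * M + 1)) by field_simp; ring]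
    rw [div_le_div_iff₀ (by positivity) (by norm_num)]
    nlinarith
  have hev : ∀ᶠ a in 𝓝[>] (0 : ℝ), ω a < θ ∧ a ∈ Ioo 0 a0 :=
    (hω.eventually (gt_mem_nhds hθ0)).and (Ioo_mem_nhdsGT ha0)
  obtain ⟨a, ha1, ha2⟩ := hev.exists
  have h1 := (heq a ha2).eventually (Metric.ball_mem_nhds 0 (show 0 < ε / 4 by positivity))
  obtain ⟨n0, hn0⟩ := eventually_atTop.1 ((h1.and (htv a ha2 θ hθ0)).and (hcmp a ha2 M hM0))
  refine ⟨n0, fun n hn => ?_⟩
  obtain ⟨⟨b1, b2⟩, b3⟩ := hn0 n hn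
  rw [Real.dist_eq, sub_zero] at b1
  have b4 : K1 * M * tv a n ≤ K1 * M * (2 * θ) := mul_le_mul_of_nonneg_left (by linarith) (by positivity)
  rw [Real.dist_eq, sub_zero]
  have b5 : |e0 n| ≤ |eq a n| + |eq a n - e0 n| := by
    have : e0 n = eq a n - (eq a n - e0 n) := by ring
    calc |e0 n| = |eq a n - (eq a n - e0 n)| := by rw [← this]
      _ ≤ |eq a n| + |eq a n - e0 n| := abs_sub _ _
  linarith

/-! ## 5. fallback: Vitali on half planes and the analytic form of the translation lemma -/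


/-- the half plane `Re z > -η` -/
def pinHp (η : ℝ) : Set ℂ := {z | -η < z.re}

theorem pin_vit_eqns_cite : True := by
  have := @pinHp.eq_1
  trivial

theorem pin_vit_H_open (η : ℝ) : IsOpen (pinHp η) := isOpen_lt continuous_const Complex.continuous_re

theorem pin_vit_H_convex (η : ℝ) : Convex ℝ (pinHp η) := convex_halfSpace_re_gt _

theorem pin_vit_H_ball (η : ℝ) (c : ℂ) : ball c (c.re + η) ⊆ pinHp η := by
  intro w hw
  have h1 : |(w - c).re| ≤ ‖w - c‖ := Complex.abs_re_le_norm _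
  rw [mem_ball, dist_eq_norm] at hw
  have h2 := (abs_le.1 h1).1
  simp only [Complex.sub_re] at h2
  show -η < w.re
  linarith

/-- Schwarz: bounded holomorphic functions are equi-Lipschitz at every centre -/
theorem pin_vit_lip {η C : ℝ} {f : ℂ → ℂ} (hd : DifferentiableOn ℂ f (pinHp η)) (hb : ∀ z ∈ pinHp η, ‖f z‖ ≤ C) {c : ℂ} {r : ℝ}
    (hr : 0 < r) (hc : ball c r ⊆ pinHp η) {z : ℂ} (hz : z ∈ ball c r) : ‖f z - f c‖ ≤ 2 * C / r * ‖z - c‖ := by
  have h := Complex.dist_le_div_mul_dist_of_mapsTo_ball (f := f) (c := c) (R₁ := r) (R₂ := 2 * C) (hd.mono hc)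
    (fun w hw => by
      rw [mem_closedBall, dist_eq_norm]
      calc ‖f w - f c‖ ≤ ‖f w‖ + ‖f c‖ := norm_sub_le _ _
        _ ≤ C + C := add_le_add (hb w (hc hw)) (hb c (hc (mem_ball_self hr)))
        _ = 2 * C := by ring) hz
  simpa [dist_eq_norm] using h

/-- **Vitali**: uniformly bounded holomorphic functions on a half plane which tend to `0` on a real interval tend to `0` everywhere -/
theorem pin_vit_vitali {η C : ℝ} (f : ℕ → ℂ → ℂ) (hd : ∀ᶠ n in atTop, DifferentiableOn ℂ (f n) (pinHp η))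
    (hb : ∀ᶠ n in atTop, ∀ z ∈ pinHp η, ‖f n z‖ ≤ C) {p q : ℝ} (hpq : p < q) (hp : -η < p)
    (h0 : ∀ s ∈ Ioo p q, Tendsto (fun n => f n (s : ℂ)) atTop (𝓝 0)) {z : ℂ} (hz : z ∈ pinHp η) :
    Tendsto (fun n => f n z) atTop (𝓝 0) := by
  rw [tendsto_iff_ultrafilter]
  intro U hU
  have hdU : ∀ᶠ n in (U : Filter ℕ), DifferentiableOn ℂ (f n) (pinHp η) := hU hd
  have hbU : ∀ᶠ n in (U : Filter ℕ), ∀ z ∈ pinHp η, ‖f n z‖ ≤ C := hU hb
  -- pointwise limits
  have hex : ∀ w ∈ pinHp η, ∃ g, Tendsto (fun n => f n w) U (𝓝 g) := by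
    intro w hw
    have hm : ∀ᶠ n in (U : Filter ℕ), f n w ∈ closedBall (0 : ℂ) C := by
      filter_upwards [hbU] with n hn
      rw [mem_closedBall, dist_zero_right]
      exact hn w hw
    obtain ⟨g, -, hg⟩ := (isCompact_closedBall (0 : ℂ) C).ultrafilter_le_nhds (U.map fun n => f n w)
      (by rw [le_principal_iff]; exact hm)
    exact ⟨g, hg⟩
  obtain ⟨g, hg⟩ : ∃ g : ℂ → ℂ, ∀ w ∈ pinHp η, Tendsto (fun n => f n w) U (𝓝 (g w)) := by
    classical
    refine ⟨fun w => if h : w ∈ pinHp η then (hex w h).choose else 0, fun w hw => ?_⟩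
    simp only [dif_pos hw]
    exact (hex w hw).choose_spec
  -- locally uniform convergence
  have hloc : TendstoLocallyUniformlyOn f g U (pinHp η) := by
    rw [Metric.tendstoLocallyUniformlyOn_iff]
    intro ε hε x hx
    have hr : 0 < x.re + η := by have : -η < x.re := hx; linarith
    obtain ⟨r, hrdef⟩ : ∃ r, r = x.re + η := ⟨_, rfl⟩
    rw [← hrdef] at hr
    have hball : ball x r ⊆ pinHp η := by rw [hrdef]; exact pin_vit_H_ball η x
    obtain ⟨L, hL⟩ : ∃ L, L = |2 * C / r| := ⟨_, rfl⟩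
    have hL0 : 0 ≤ L := by rw [hL]; exact abs_nonneg _
    obtain ⟨ρ, hρdef⟩ : ∃ ρ, ρ = min r (ε / (3 * (L + 1))) := ⟨_, rfl⟩
    have hρ : 0 < ρ := by rw [hρdef]; exact lt_min hr (by positivity)
    have hsub : ball x ρ ⊆ ball x r := ball_subset_ball (by rw [hρdef]; exact min_le_left _ _)
    have hstep : ∀ᶠ n in (U : Filter ℕ), ∀ y ∈ ball x ρ, ‖f n y - f n x‖ ≤ ε / 3 := by
      filter_upwards [hdU, hbU] with n h1 h2 y hy
      have h3 := pin_vit_lip h1 h2 hr hball (hsub hy)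
      have h4 : ‖y - x‖ ≤ ε / (3 * (L + 1)) := by
        have : ‖y - x‖ < ρ := by rw [← dist_eq_norm]; exact hy
        exact this.le.trans (by rw [hρdef]; exact min_le_right _ _)
      calc ‖f n y - f n x‖ ≤ 2 * C / r * ‖y - x‖ := h3
        _ ≤ L * ‖y - x‖ := mul_le_mul_of_nonneg_right (by rw [hL]; exact le_abs_self _) (norm_nonneg _)
        _ ≤ L * (ε / (3 * (L + 1))) := mul_le_mul_of_nonneg_left h4 hL0
        _ ≤ ε / 3 := by
          rw [← mul_div_assoc, div_le_div_iff₀ (by positivity) (by norm_num)]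
          nlinarith
    have hglim : ∀ y ∈ ball x ρ, ‖g y - g x‖ ≤ ε / 3 := by
      intro y hy
      have hl := ((hg y (hball (hsub hy))).sub (hg x hx)).norm
      refine le_of_tendsto hl ?_
      filter_upwards [hstep] with n hn using hn y hy
    have hx3 : ∀ᶠ n in (U : Filter ℕ), ‖f n x - g x‖ < ε / 3 := by
      have := (Metric.tendsto_nhds.1 (hg x hx)) (ε / 3) (by positivity)
      filter_upwards [this] with n hn
      rwa [dist_eq_norm] at hn
    refine ⟨ball x ρ, mem_nhdsWithin_of_mem_nhds (ball_mem_nhds x hρ), ?_⟩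
    filter_upwards [hstep, hx3] with n h1 h2 y hy
    rw [dist_eq_norm]
    have e : g y - f n y = (g y - g x) - (f n x - g x) - (f n y - f n x) := by ring
    rw [e]
    calc ‖(g y - g x) - (f n x - g x) - (f n y - f n x)‖
        ≤ ‖(g y - g x) - (f n x - g x)‖ + ‖f n y - f n x‖ := norm_sub_le _ _
      _ ≤ ‖g y - g x‖ + ‖f n x - g x‖ + ‖f n y - f n x‖ := by gcongr; exact norm_sub_le _ _
      _ < ε / 3 + ε / 3 + ε / 3 := by
        have a1 := hglim y hy
        have a3 := h1 y hy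
        linarith
      _ = ε := by ring
  have hgd : DifferentiableOn ℂ g (pinHp η) := hloc.differentiableOn hdU (pin_vit_H_open η)
  have hga : AnalyticOnNhd ℂ g (pinHp η) := hgd.analyticOnNhd (pin_vit_H_open η)
  have hreal : ∀ s : ℝ, p < s → (s : ℂ) ∈ pinHp η := fun s hs => by
    show -η < (s : ℂ).re
    rw [Complex.ofReal_re]; linarith
  have hg0 : ∀ s ∈ Ioo p q, g (s : ℂ) = 0 := fun s hs =>
    tendsto_nhds_unique (hg _ (hreal s hs.1)) ((h0 s hs).mono_left hU)
  obtain ⟨m, hm⟩ : ∃ m, m = (p + q) / 2 := ⟨_, rfl⟩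
  have hmI : m ∈ Ioo p q := by rw [hm]; constructor <;> linarith
  have hcl : (m : ℂ) ∈ closure ({z | g z = 0} \ {(m : ℂ)}) := by
    have hseq : Tendsto (fun k : ℕ => ((m + (q - p) / 4 * (1 / ((k : ℝ) + 1)) : ℝ) : ℂ)) atTop (𝓝 (m : ℂ)) := by
      have h1 : Tendsto (fun k : ℕ => m + (q - p) / 4 * (1 / ((k : ℝ) + 1))) atTop (𝓝 (m + (q - p) / 4 * 0)) :=
        tendsto_const_nhds.add (tendsto_one_div_add_atTop_nhds_zero_nat.const_mul _)
      rw [mul_zero, add_zero] at h1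
      exact (Complex.continuous_ofReal.tendsto m).comp h1
    refine mem_closure_of_tendsto hseq (Eventually.of_forall fun k => ?_)
    have hk : 0 < 1 / ((k : ℝ) + 1) := by positivity
    have hk1 : 1 / ((k : ℝ) + 1) ≤ 1 := by
      rw [div_le_one (by positivity)]
      have : (0 : ℝ) ≤ k := Nat.cast_nonneg k
      linarith
    have hd' : 0 < (q - p) / 4 := by linarith
    have hpos : 0 < (q - p) / 4 * (1 / ((k : ℝ) + 1)) := mul_pos hd' hk
    have hle : (q - p) / 4 * (1 / ((k : ℝ) + 1)) ≤ (q - p) / 4 := by nlinarith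
    refine ⟨hg0 _ ⟨by rw [hm]; linarith, by rw [hm]; linarith⟩, ?_⟩
    rw [mem_singleton_iff, Complex.ofReal_inj]
    linarith
  have hz0 := hga.eqOn_zero_of_preconnected_of_mem_closure (pin_vit_H_convex η).isPreconnected (hreal m hmI.1) hcl hz
  have := hg z hz
  rw [hz0] at this
  exact this




/-- **abstract analytic translation.**   `M n m` = normalized expectation at mesh `n` after `m` normal steps of length `b n`;
`Φ n` = bounded holomorphic interpolation of the matrix elements `⟨A, S^j B⟩` (Cor. 8.3), `N n` = number of back-off steps. -/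
theorem pin_vit_at {C η : ℝ} (hη : 0 < η) {b : ℕ → ℝ} (hb : ∀ n, 0 < b n) (hb0 : Tendsto b atTop (𝓝 0))
    {N : ℕ → ℕ} (hN : Tendsto (fun n => (N n : ℝ) * b n) atTop (𝓝 η))
    {Φ : ℕ → ℂ → ℂ} (hΦd : ∀ᶠ n in atTop, DifferentiableOn ℂ (Φ n) (pinHp 0))
    (hΦb : ∀ᶠ n in atTop, ∀ w ∈ pinHp 0, ‖Φ n w‖ ≤ C)
    {M : ℕ → ℕ → ℂ} (hM : ∀ᶠ n in atTop, ∀ m, M n m = Φ n ((m + N n : ℕ) : ℂ))
    {p q : ℝ} (hp : 0 < p) (hpq : p < q)
    (h0 : ∀ s ∈ Ioo p q, ∀ m : ℕ → ℕ, Tendsto (fun n => (m n : ℝ) * b n) atTop (𝓝 s) →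
      Tendsto (fun n => M n (m n)) atTop (𝓝 0)) :
    Tendsto (fun n => M n 0) atTop (𝓝 0) := by
  obtain ⟨f, hf⟩ : ∃ f : ℕ → ℂ → ℂ, f = fun n z => Φ n ((z + ((N n : ℝ) * b n : ℝ)) / (b n : ℝ)) := ⟨_, rfl⟩
  have hNb : ∀ᶠ n in atTop, η / 2 < (N n : ℝ) * b n := hN.eventually (lt_mem_nhds (by linarith))
  have hmaps : ∀ᶠ n in atTop, ∀ z ∈ pinHp (η / 2), (z + ((N n : ℝ) * b n : ℝ)) / (b n : ℝ) ∈ pinHp 0 := by
    filter_upwards [hNb] with n hn z hz
    have hz' : -(η / 2) < z.re := hz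
    show -0 < ((z + ((N n : ℝ) * b n : ℝ)) / (b n : ℝ)).re
    rw [Complex.div_ofReal_re, Complex.add_re, Complex.ofReal_re, neg_zero]
    exact div_pos (by linarith) (hb n)
  have hd : ∀ᶠ n in atTop, DifferentiableOn ℂ (f n) (pinHp (η / 2)) := by
    filter_upwards [hmaps, hΦd] with n h1 h2
    rw [hf]
    refine h2.comp ?_ h1
    exact ((differentiable_id.add_const _).div_const _).differentiableOn
  have hbd : ∀ᶠ n in atTop, ∀ z ∈ pinHp (η / 2), ‖f n z‖ ≤ C := by
    filter_upwards [hmaps, hΦb] with n h1 h2 z hz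
    rw [hf]
    exact h2 _ (h1 z hz)
  have hval : ∀ᶠ n in atTop, ∀ m : ℕ, f n (((m : ℝ) * b n : ℝ) : ℂ) = M n m := by
    filter_upwards [hM] with n hn m
    rw [hn m, hf]
    have hbn : ((b n : ℝ) : ℂ) ≠ 0 := Complex.ofReal_ne_zero.2 (hb n).ne'
    push_cast
    field_simp
  have hI : ∀ s ∈ Ioo p q, Tendsto (fun n => f n (s : ℂ)) atTop (𝓝 0) := by
    intro s hs
    have hs0 : 0 < s := hp.trans hs.1
    obtain ⟨m, hm⟩ : ∃ m : ℕ → ℕ, m = fun n => ⌊s / b n⌋₊ := ⟨_, rfl⟩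
    have hmb : ∀ n, |(m n : ℝ) * b n - s| ≤ b n := by
      intro n
      have h1 : (m n : ℝ) ≤ s / b n := by rw [hm]; exact Nat.floor_le (div_nonneg hs0.le (hb n).le)
      have h2 : s / b n < (m n : ℝ) + 1 := by rw [hm]; exact Nat.lt_floor_add_one _
      rw [le_div_iff₀ (hb n)] at h1
      rw [div_lt_iff₀ (hb n)] at h2
      rw [abs_le]
      constructor <;> nlinarith [hb n]
    have hmt : Tendsto (fun n => (m n : ℝ) * b n) atTop (𝓝 s) := by
      rw [tendsto_iff_dist_tendsto_zero]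
      refine squeeze_zero (fun n => dist_nonneg) (fun n => ?_) hb0
      rw [Real.dist_eq]; exact hmb n
    have h1 := h0 s hs m hmt
    have hr : 0 < s + η / 2 := by linarith
    have hball : ball (s : ℂ) (s + η / 2) ⊆ pinHp (η / 2) := by
      have := pin_vit_H_ball (η / 2) (s : ℂ)
      rwa [Complex.ofReal_re] at this
    have hclose : ∀ᶠ n in atTop, ‖f n (((m n : ℝ) * b n : ℝ) : ℂ) - f n (s : ℂ)‖ ≤ 2 * C / (s + η / 2) * b n ∨ C < 0 := by
      have hsmall : ∀ᶠ n in atTop, b n < s + η / 2 := hb0.eventually (gt_mem_nhds hr)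
      filter_upwards [hd, hbd, hsmall] with n a1 a2 a3
      by_cases hC : C < 0
      · exact Or.inr hC
      left
      have hn : ‖(((m n : ℝ) * b n : ℝ) : ℂ) - (s : ℂ)‖ ≤ b n := by
        rw [← Complex.ofReal_sub, Complex.norm_real, Real.norm_eq_abs]; exact hmb n
      have hin : (((m n : ℝ) * b n : ℝ) : ℂ) ∈ ball (s : ℂ) (s + η / 2) := by
        rw [mem_ball, dist_eq_norm]; exact hn.trans_lt a3
      refine (pin_vit_lip a1 a2 hr hball hin).trans ?_
      exact mul_le_mul_of_nonneg_left hn (div_nonneg (by linarith [not_lt.1 hC]) hr.le)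
    have hCpos : ∀ᶠ _n : ℕ in atTop, ¬ C < 0 := by
      filter_upwards [hbd] with n a2
      have := (norm_nonneg _).trans (a2 (s : ℂ) (hball (mem_ball_self hr)))
      exact not_lt.2 this
    have h2 : Tendsto (fun n => f n (((m n : ℝ) * b n : ℝ) : ℂ) - f n (s : ℂ)) atTop (𝓝 0) := by
      rw [tendsto_zero_iff_norm_tendsto_zero]
      have hz : Tendsto (fun n => 2 * C / (s + η / 2) * b n) atTop (𝓝 0) := by
        have := hb0.const_mul (2 * C / (s + η / 2))
        rwa [mul_zero] at this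
      refine squeeze_zero' (Eventually.of_forall fun n => norm_nonneg _) ?_ hz
      filter_upwards [hclose, hCpos] with n a1 a2
      exact a1.resolve_right a2
    have h3 : Tendsto (fun n => f n (((m n : ℝ) * b n : ℝ) : ℂ)) atTop (𝓝 0) := by
      refine h1.congr' ?_
      filter_upwards [hval] with n hn
      exact (hn (m n)).symm
    have h4 := h3.sub h2
    rw [sub_zero] at h4
    refine h4.congr fun n => ?_
    ring
  have hz0 : (0 : ℂ) ∈ pinHp (η / 2) := by
    show -(η / 2) < (0 : ℂ).re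
    rw [Complex.zero_re]; linarith
  have hfin := pin_vit_vitali f hd hbd hpq (by linarith) hI hz0
  refine hfin.congr' ?_
  filter_upwards [hval] with n hn
  have := hn 0
  simpa using this

theorem pin_cont_eqns_cite : True := by
  have := @pinQ.eq_1
  have := @PinTr.eq_1
  have := @PinMv.eq_1
  have := @pinBox.eq_1.{0}
  trivial

end Claimed.Agent.R291
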