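/-
Row 291 (S0539), unit PIN (05-pins.tex), node N1 of `origin/helper34:notes/R291/sec5_34.md`.      Owner helper74.      Prefix `pin_geo_`, `pinGeo`.
GEOMETRY OF THE GRID AND OF THE FAMILIES.      Mathlib + frozen definitions (`Def_0467`) only.      TEX[pins:local-geometry], TEX[pins:middle-geometry]

* (a) `pin_geo_level`        in every interval there is a horizontal level which meets `∂D` in finitely many points (1-d Sard for the `C²` parametrisation + isolated zeros + compactness);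
      `pin_geo_level_param`  the same for the parameters of ANY injective parametrisation `γ : Circle → ℝ × ℝ` of `∂D`.
      REMARK: transversality is not used downstream: a connected arc of parameters which misses the (finite) level set stays strictly on one side (`pin_geo_side`), with a margin if it is compact (`pin_geo_margin`).
* (a2) `pin_geo_grid`        `q + 1` such levels in `(A, A + 2 (q+1) w)` with mutual distances `> w`;      `pin_geo_pigeon`  at most `q` intervals of half length `< w / 2` miss one of them.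
* (b) `pin_geo_strip`        a point outside the EUCLIDEAN ball of radius `ρ` (frozen `sqDist`) with `|y - y₀| < ρ / 20` has `u`-projection `> ρ / 2` or `< - ρ / 2` according to the sign of `x - x₀`;
      `pin_geo_LR`           a connected family in the strip is wholly `L` or wholly `R`;      `pinGeoDisk z r` Euclidean closed disk (convex, extents `pin_geo_disk_snd`, `pin_geo_disk_U`).
* (c) ARC KIT (design D2 of helper34: groups by PARAMETER ARCS): `PinGeoAng CC t` sorted angles `t 0 < … < t m = t 0 + 2π` of a `Finset Circle` (`pin_geo_angles`),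
      `pinGeoArc t a i = exp '' [t i + a, t (i+1) - a]`, `pinGeoWin t a i = exp '' (t i - a, t i + a)`: connected, compact, monotone in `a`, `cover`, `arc_win_disjoint`, `arc_arc_disjoint`, `arc_not_mem`,
      `subset_arc` (a connected set off the windows lies in ONE arc), `pin_geo_win_dist`, `pin_geo_win_small`, `pin_geo_sep` (disjoint compact sets of parameters have images at positive distance).
      The arc `i` and the arc `i + 1` are the two neighbours of the marked point `i + 1` (`pin_geo_arc_ends`): the chain of the gap closing.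
* (e) `pin_geo_ray`, `pin_geo_top_bottom`, `pin_geo_arc_top_bottom` (for small gaps there is an arc with a point above `z0.2 + ρ` and one with a point below `z0.2 - ρ`), `PinGeoPos.isT`, `PinGeoPos.isB`.
* EXIT: `PinGeoGrid`, `pin_geo_grid_exists`, `PinGeoGrid.choose`, `pin_geo_marks`, `PinGeoPos` (T / B / R / L with margin), `pin_geo_classify`, `pin_geo_arc_pos` (boundary groups), `pin_geo_disk_pos` (spectators), `pin_geo_core` (insertion disk).
-/
import Claimed.Agent.R291.Geo.Region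

set_option autoImplicit false
open Claims.C0467 MeasureTheory Filter Topology Set

namespace Claimed.Agent.R291

/-! ## (a) levels with a finite level set -/

/-- 1-d Sard: the critical values of a differentiable function on the line are a null set -/
theorem pin_geo_sard {g : ℝ → ℝ} (hg : Differentiable ℝ g) : volume (g '' {s | deriv g s = 0}) = 0 := by
  refine addHaar_image_eq_zero_of_det_fderivWithin_eq_zero (f' := fun _ => (0 : ℝ →L[ℝ] ℝ)) volume ?_ ?_
  · intro s hs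
    have h1 : HasDerivAt g (deriv g s) s := (hg s).hasDerivAt
    rw [show deriv g s = 0 from hs] at h1
    have h2 : HasFDerivAt g (ContinuousLinearMap.smulRight (1 : ℝ →L[ℝ] ℝ) (0 : ℝ)) s := h1.hasFDerivAt
    have e : ContinuousLinearMap.smulRight (1 : ℝ →L[ℝ] ℝ) (0 : ℝ) = 0 := by ext; simp
    rw [e] at h2
    exact h2.hasFDerivWithinAt
  · intro s _
    simp [ContinuousLinearMap.det]

/-- a regular level of a differentiable function meets a compact interval in a finite set -/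
theorem pin_geo_regular_finite {g : ℝ → ℝ} (hg : Differentiable ℝ g) {y : ℝ} (hy : ∀ s, g s = y → deriv g s ≠ 0) (a b : ℝ) :
    {s | s ∈ Icc a b ∧ g s = y}.Finite := by
  by_contra hinf
  have hcl : IsClosed {s | s ∈ Icc a b ∧ g s = y} := isClosed_Icc.inter (isClosed_eq hg.continuous continuous_const)
  have hK : IsCompact {s | s ∈ Icc a b ∧ g s = y} := isCompact_Icc.of_isClosed_subset hcl fun s hs => hs.1
  obtain ⟨s, hs, hacc⟩ := Set.Infinite.exists_accPt_of_subset_isCompact hinf hK subset_rfl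
  have h1 : ∀ᶠ z in 𝓝[≠] s, g z ≠ y := (hg s).hasDerivAt.eventually_ne (hy s hs.2)
  have h2 : ∃ᶠ z in 𝓝[≠] s, z ∈ {s | s ∈ Icc a b ∧ g s = y} := accPt_iff_frequently_nhdsNE.1 hacc
  obtain ⟨z, hz1, hz2⟩ := (h2.and_eventually h1).exists
  exact hz2 hz1.2

/-- **levels with a finite level set are dense** -/
theorem pin_geo_level {D : Set (ℝ × ℝ)} (hD : IsC2JordanDomain D) {a b : ℝ} (hab : a < b) :
    ∃ y ∈ Ioo a b, {p | p ∈ frontier D ∧ p.2 = y}.Finite := by
  obtain ⟨-, -, c, ℓ, hℓ, hc, hper, -, -, hr⟩ := hD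
  set g : ℝ → ℝ := fun s => (c s).2 with hgdef
  have hg : Differentiable ℝ g := (contDiff_snd.comp hc).differentiable (by norm_num)
  have hnull := pin_geo_sard hg
  have hex : ∃ y ∈ Ioo a b, y ∉ g '' {s | deriv g s = 0} := by
    by_contra hcon
    have hsub : Ioo a b ⊆ g '' {s | deriv g s = 0} := by
      intro y hy
      by_contra hy'
      exact hcon ⟨y, hy, hy'⟩
    have h1 : volume (Ioo a b) = 0 := measure_mono_null hsub hnull
    rw [Real.volume_Ioo] at h1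
    have : b - a ≤ 0 := ENNReal.ofReal_eq_zero.1 h1
    linarith
  obtain ⟨y, hy, hreg⟩ := hex
  refine ⟨y, hy, ?_⟩
  have hfin := pin_geo_regular_finite hg (y := y) (fun s hs h0 => hreg ⟨s, h0, hs⟩) 0 ℓ
  refine (hfin.image c).subset ?_
  rintro p ⟨hp, hpy⟩
  rw [← hr] at hp
  obtain ⟨s, rfl⟩ := hp
  obtain ⟨s', hs', hss'⟩ := hper.exists_mem_Ico₀ hℓ s
  refine ⟨s', ⟨⟨hs'.1, hs'.2.le⟩, ?_⟩, hss'.symm⟩
  show (c s').2 = y
  rw [← hss']
  exact hpy

/-- the same for the parameters of an injective parametrisation of the boundary -/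
theorem pin_geo_level_param {D : Set (ℝ × ℝ)} (hD : IsC2JordanDomain D) {γ : Circle → ℝ × ℝ} (hi : Function.Injective γ)
    (hr : Set.range γ = frontier D) {a b : ℝ} (hab : a < b) : ∃ y ∈ Ioo a b, {θ : Circle | (γ θ).2 = y}.Finite := by
  obtain ⟨y, hy, hfin⟩ := pin_geo_level hD hab
  refine ⟨y, hy, (hfin.preimage hi.injOn).subset ?_⟩
  intro θ hθ
  exact ⟨hr ▸ mem_range_self θ, hθ⟩

/-- a connected family which misses the level stays strictly on one side -/
theorem pin_geo_side {X : Type} [TopologicalSpace X] {g : X → ℝ × ℝ} {K : Set X} (hg : ContinuousOn g K) (hK : IsPreconnected K) {y : ℝ}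
    (hy : ∀ θ ∈ K, (g θ).2 ≠ y) : (∀ θ ∈ K, (g θ).2 < y) ∨ ∀ θ ∈ K, y < (g θ).2 := by
  by_contra hcon
  rw [not_or] at hcon
  obtain ⟨h1, h2⟩ := hcon
  simp only [not_forall, not_lt] at h1 h2
  obtain ⟨θ1, hθ1, h1⟩ := h1
  obtain ⟨θ2, hθ2, h2⟩ := h2
  have hcont : ContinuousOn (fun θ => (g θ).2) K := continuous_snd.comp_continuousOn hg
  obtain ⟨θ, hθ, hθy⟩ := hK.intermediate_value hθ2 hθ1 hcont ⟨h2, h1⟩
  exact hy θ hθ hθy

/-- with a margin on a compact family -/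
theorem pin_geo_margin {X : Type} [TopologicalSpace X] {g : X → ℝ × ℝ} {K : Set X} (hg : ContinuousOn g K) (hK : IsCompact K) {y : ℝ}
    (hy : ∀ θ ∈ K, (g θ).2 ≠ y) : ∃ κ : ℝ, 0 < κ ∧ ∀ θ ∈ K, κ ≤ |(g θ).2 - y| := by
  rcases K.eq_empty_or_nonempty with rfl | hne
  · exact ⟨1, one_pos, by simp⟩
  have hcont : ContinuousOn (fun θ => |(g θ).2 - y|) K := ((continuous_snd.comp_continuousOn hg).sub continuousOn_const).abs
  obtain ⟨θ0, hθ0, hmin⟩ := hK.exists_isMinOn hne hcont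
  exact ⟨|(g θ0).2 - y|, abs_pos.2 (sub_ne_zero.2 (hy θ0 hθ0)), fun θ hθ => hmin hθ⟩

/-! ## (a2) the grid and the choice of two levels -/

/-- `q + 1` levels with finite level sets, the `i`-th one in `(A + 2 w i, A + 2 w i + w / 2)` -/
theorem pin_geo_grid {D : Set (ℝ × ℝ)} (hD : IsC2JordanDomain D) {γ : Circle → ℝ × ℝ} (hi : Function.Injective γ)
    (hr : Set.range γ = frontier D) (A : ℝ) {w : ℝ} (hw : 0 < w) :
    ∃ lev : ℕ → ℝ, ∀ i, A + 2 * w * i < lev i ∧ lev i < A + 2 * w * i + w / 2 ∧ {θ : Circle | (γ θ).2 = lev i}.Finite := by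
  have h : ∀ i : ℕ, ∃ y, A + 2 * w * i < y ∧ y < A + 2 * w * i + w / 2 ∧ {θ : Circle | (γ θ).2 = y}.Finite := by
    intro i
    obtain ⟨y, hy, hfin⟩ := pin_geo_level_param hD hi hr (show A + 2 * w * i < A + 2 * w * i + w / 2 by linarith)
    exact ⟨y, hy.1, hy.2, hfin⟩
  choose lev hlev using h
  exact ⟨lev, hlev⟩

/-- the levels of the grid are `w`-separated -/
theorem pin_geo_grid_sep {A w : ℝ} (hw : 0 < w) {lev : ℕ → ℝ} (h : ∀ i : ℕ, A + 2 * w * i < lev i ∧ lev i < A + 2 * w * i + w / 2)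
    {i j : ℕ} (hij : i ≠ j) : w < |lev i - lev j| := by
  wlog hlt : i < j generalizing i j
  · rw [abs_sub_comm]
    exact this hij.symm (by omega)
  have h1 : (i : ℝ) + 1 ≤ j := by exact_mod_cast hlt
  have h2 := (h i).2
  have h3 := (h j).1
  have h4 : 2 * w * ((i : ℝ) + 1) ≤ 2 * w * j := mul_le_mul_of_nonneg_left h1 (by linarith)
  rw [abs_sub_comm, lt_abs]
  left
  nlinarith

/-- **pigeonhole**: at most `q` intervals of half length `< w / 2` miss one of `q + 1` levels which are `w`-separated -/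
theorem pin_geo_pigeon {w : ℝ} {q : ℕ} {lev : ℕ → ℝ} (hsep : ∀ i j : ℕ, i ≠ j → w < |lev i - lev j|) {k : ℕ} (hk : k ≤ q)
    (cen rad : Fin k → ℝ) (hrad : ∀ j, rad j < w / 2) : ∃ i, i ≤ q ∧ ∀ j, rad j < |lev i - cen j| := by
  by_contra hcon
  have h : ∀ i : Fin (q + 1), ∃ j : Fin k, |lev i - cen j| ≤ rad j := by
    intro i
    by_contra h'
    refine hcon ⟨i, by have := i.2; omega, fun j => ?_⟩
    by_contra h''
    exact h' ⟨j, not_lt.1 h''⟩
  choose f hf using h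
  obtain ⟨i, i', hne, he⟩ := Fintype.exists_ne_map_eq_of_card_lt f (by simp; omega)
  have h1 := hf i
  have h2 := hf i'
  rw [← he] at h2
  have h3 := hsep i i' (fun e => hne (Fin.ext e))
  have h4 : |lev i - lev i'| ≤ |lev i - cen (f i)| + |lev i' - cen (f i)| := by
    have e : lev i - lev i' = (lev i - cen (f i)) - (lev i' - cen (f i)) := by ring
    rw [e]
    exact abs_sub _ _
  have h5 := hrad (f i)
  linarith

/-! ## (b) the middle strip -/

/-- the projection on `u = (√3/2, 1/2)` -/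
noncomputable def pinGeoU (z : ℝ × ℝ) : ℝ := Real.sqrt 3 / 2 * z.1 + z.2 / 2

/-- the projection on `u' = (-√3/2, 1/2)` -/
noncomputable def pinGeoU' (z : ℝ × ℝ) : ℝ := -(Real.sqrt 3 / 2) * z.1 + z.2 / 2

theorem pin_geo_eqns_cite : True := by
  have := @pinGeoU.eq_1
  have := @pinGeoU'.eq_1
  trivial

theorem pin_geo_continuous_U : Continuous pinGeoU := by
  unfold pinGeoU
  fun_prop

/-- a projection on a unit vector is `1`-Lipschitz for the Euclidean distance -/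
theorem pin_geo_U_sq_le (z w : ℝ × ℝ) : (pinGeoU z - pinGeoU w) ^ 2 ≤ sqDist z w := by
  unfold pinGeoU sqDist
  have h3 := hg_sqrt3_sq
  nlinarith [sq_nonneg ((z.1 - w.1) / 2 - Real.sqrt 3 / 2 * (z.2 - w.2))]

/-- **the strip**: outside the Euclidean ball of radius `ρ`, at height `|y - y₀| < ρ / 20` -/
theorem pin_geo_strip {z0 p : ℝ × ℝ} {ρ : ℝ} (hρ : 0 < ρ) (hout : ρ ^ 2 ≤ sqDist p z0) (hy : |p.2 - z0.2| < ρ / 20) :
    (z0.1 < p.1 ∧ pinGeoU z0 + ρ / 2 < pinGeoU p) ∨ (p.1 < z0.1 ∧ pinGeoU p < pinGeoU z0 - ρ / 2) := by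
  have hs3 : (17 : ℝ) / 10 < Real.sqrt 3 := by
    rw [show (17 : ℝ) / 10 = Real.sqrt ((17 / 10) ^ 2) by rw [Real.sqrt_sq (by norm_num)]]
    exact Real.sqrt_lt_sqrt (by norm_num) (by norm_num)
  obtain ⟨hy1, hy2⟩ := abs_lt.1 hy
  unfold sqDist at hout
  have hx2 : (9 / 10 * ρ) ^ 2 < (p.1 - z0.1) ^ 2 := by nlinarith
  have hx : 9 / 10 * ρ < |p.1 - z0.1| := by
    have h1 := sq_lt_sq.1 hx2
    rwa [abs_of_pos (by positivity : (0 : ℝ) < 9 / 10 * ρ)] at h1
  unfold pinGeoU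
  rcases lt_abs.1 hx with h | h
  · left
    refine ⟨by linarith, ?_⟩
    nlinarith
  · right
    refine ⟨by linarith, ?_⟩
    nlinarith

/-- **a connected family in the strip is wholly `R` or wholly `L`** -/
theorem pin_geo_LR {X : Type} [TopologicalSpace X] {g : X → ℝ × ℝ} {K : Set X} (hg : ContinuousOn g K) (hK : IsPreconnected K)
    {z0 : ℝ × ℝ} {ρ : ℝ} (hρ : 0 < ρ) (hout : ∀ θ ∈ K, ρ ^ 2 ≤ sqDist (g θ) z0) (hy : ∀ θ ∈ K, |(g θ).2 - z0.2| < ρ / 20) :
    (∀ θ ∈ K, pinGeoU z0 + ρ / 2 < pinGeoU (g θ)) ∨ ∀ θ ∈ K, pinGeoU (g θ) < pinGeoU z0 - ρ / 2 := by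
  by_contra hcon
  rw [not_or] at hcon
  obtain ⟨h1, h2⟩ := hcon
  simp only [not_forall] at h1 h2
  obtain ⟨θ1, hθ1, h1⟩ := h1
  obtain ⟨θ2, hθ2, h2⟩ := h2
  have a1 : (g θ1).1 < z0.1 := by
    rcases pin_geo_strip hρ (hout θ1 hθ1) (hy θ1 hθ1) with h | h
    · exact absurd h.2 h1
    · exact h.1
  have a2 : z0.1 < (g θ2).1 := by
    rcases pin_geo_strip hρ (hout θ2 hθ2) (hy θ2 hθ2) with h | h
    · exact h.1
    · exact absurd h.2 h2
  have hcont : ContinuousOn (fun θ => (g θ).1) K := continuous_fst.comp_continuousOn hg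
  obtain ⟨θ, hθ, hθx⟩ := hK.intermediate_value hθ1 hθ2 hcont ⟨a1.le, a2.le⟩
  rcases pin_geo_strip hρ (hout θ hθ) (hy θ hθ) with h | h
  · exact absurd hθx h.1.ne'
  · exact absurd hθx h.1.ne

/-- the closed Euclidean disk -/
def pinGeoDisk (z : ℝ × ℝ) (r : ℝ) : Set (ℝ × ℝ) := {p | sqDist p z ≤ r ^ 2}

theorem pin_geo_eqns_cite2 : True := by
  have := @pinGeoDisk.eq_1
  trivial

theorem pin_geo_disk_convex (z : ℝ × ℝ) (r : ℝ) : Convex ℝ (pinGeoDisk z r) := by
  intro p hp p' hp' a b ha hb hab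
  unfold pinGeoDisk sqDist at *
  simp only [mem_ofPred_eq, Prod.fst_add, Prod.snd_add, Prod.smul_fst, Prod.smul_snd, smul_eq_mul] at *
  have hb' : b = 1 - a := by linarith
  subst hb'
  have e : (a * p.1 + (1 - a) * p'.1 - z.1) ^ 2 + (a * p.2 + (1 - a) * p'.2 - z.2) ^ 2
      = a * ((p.1 - z.1) ^ 2 + (p.2 - z.2) ^ 2) + (1 - a) * ((p'.1 - z.1) ^ 2 + (p'.2 - z.2) ^ 2)
        - a * (1 - a) * ((p.1 - p'.1) ^ 2 + (p.2 - p'.2) ^ 2) := by ring
  rw [e]
  have h1 : 0 ≤ a * (1 - a) * ((p.1 - p'.1) ^ 2 + (p.2 - p'.2) ^ 2) := by positivity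
  nlinarith

theorem pin_geo_disk_preconnected (z : ℝ × ℝ) (r : ℝ) : IsPreconnected (pinGeoDisk z r) := (pin_geo_disk_convex z r).isPreconnected

/-- vertical extent of a disk -/
theorem pin_geo_disk_snd {z p : ℝ × ℝ} {r : ℝ} (hr : 0 ≤ r) (hp : p ∈ pinGeoDisk z r) : |p.2 - z.2| ≤ r := by
  unfold pinGeoDisk sqDist at hp
  simp only [mem_ofPred_eq] at hp
  exact abs_le_of_sq_le_sq (by nlinarith [sq_nonneg (p.1 - z.1)]) hr

/-- extent of a disk in the `u`-projection -/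
theorem pin_geo_disk_U {z p : ℝ × ℝ} {r : ℝ} (hr : 0 ≤ r) (hp : p ∈ pinGeoDisk z r) : |pinGeoU p - pinGeoU z| ≤ r :=
  abs_le_of_sq_le_sq ((pin_geo_U_sq_le p z).trans hp) hr

/-- a level which misses the vertical projection of a disk leaves the disk strictly on one side, with the margin `|ℓ - y_j| - r_j` -/
theorem pin_geo_disk_side {z : ℝ × ℝ} {r : ℝ} (ℓ : ℝ) (hr : 0 ≤ r) :
    (∀ p ∈ pinGeoDisk z r, ℓ + (|ℓ - z.2| - r) ≤ p.2) ∨ ∀ p ∈ pinGeoDisk z r, p.2 ≤ ℓ - (|ℓ - z.2| - r) := by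
  rcases le_total ℓ z.2 with h0 | h0
  · left
    intro p hp
    have h1 := (abs_le.1 (pin_geo_disk_snd hr hp)).1
    rw [abs_of_nonpos (by linarith)]
    linarith
  · right
    intro p hp
    have h1 := (abs_le.1 (pin_geo_disk_snd hr hp)).2
    rw [abs_of_nonneg (by linarith)]
    linarith

/-- a horizontal line through a point of a bounded open set meets the frontier -/
theorem pin_geo_level_nonempty {D : Set (ℝ × ℝ)} (ho : IsOpen D) (hb : Bornology.IsBounded D) {p : ℝ × ℝ} (hp : p ∈ D) :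
    ∃ p' ∈ frontier D, p'.2 = p.2 := by
  by_contra hcon
  have hline : IsPreconnected (range fun x : ℝ => (x, p.2)) := isPreconnected_range (by fun_prop)
  obtain ⟨R, hR⟩ := hb.subset_closedBall (0 : ℝ × ℝ)
  have hout : ((|R| + 1, p.2) : ℝ × ℝ) ∉ closure D := by
    intro h
    have h1 := closure_minimal hR Metric.isClosed_closedBall h
    rw [Metric.mem_closedBall, dist_zero_right, Prod.norm_def] at h1
    have h2 : ‖|R| + 1‖ ≤ R := (le_max_left _ _).trans h1
    rw [Real.norm_eq_abs, abs_of_nonneg (by positivity)] at h2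
    have := le_abs_self R
    linarith
  obtain ⟨z, -, hz1, hz2⟩ := hline D (closure D)ᶜ ho isClosed_closure.isOpen_compl (by
      rintro _ ⟨x, rfl⟩
      by_cases h1 : ((x, p.2) : ℝ × ℝ) ∈ D
      · exact Or.inl h1
      · right
        intro h2
        refine hcon ⟨(x, p.2), ?_, rfl⟩
        rw [frontier, ho.interior_eq]
        exact ⟨h2, h1⟩) ⟨p, ⟨p.1, rfl⟩, hp⟩ ⟨_, ⟨|R| + 1, rfl⟩, hout⟩
  exact hz2 (subset_closure hz1)

/-! ## (c) arcs of parameters: finitely many marked points of the circle, their `a`-windows and the complementary closed arcs -/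

/-- sorted angles of a finite nonempty set of points of the circle: `t 0 < … < t (m-1) < t m = t 0 + 2π` -/
structure PinGeoAng (CC : Finset Circle) (t : ℕ → ℝ) : Prop where
  mono : ∀ i j, i < j → j ≤ CC.card → t i < t j
  top : t CC.card = t 0 + 2 * Real.pi
  mem : ∀ c, c ∈ CC ↔ ∃ i, i < CC.card ∧ Circle.exp (t i) = c

theorem pin_geo_angles (CC : Finset Circle) (hne : CC.Nonempty) : ∃ t : ℕ → ℝ, PinGeoAng CC t := by
  classical
  set T : Finset ℝ := CC.image (fun z : Circle => Complex.arg z) with hT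
  have hcard : T.card = CC.card := Finset.card_image_of_injective _ Circle.injective_arg
  have hm : 0 < CC.card := Finset.card_pos.2 hne
  set e := T.orderEmbOfFin hcard with he
  have hmemT : ∀ i, e i ∈ T := fun i => Finset.orderEmbOfFin_mem T hcard i
  have hrange : ∀ i, -Real.pi < e i ∧ e i ≤ Real.pi := by
    intro i
    obtain ⟨c, -, hc⟩ := Finset.mem_image.1 (hmemT i)
    rw [← hc]
    exact ⟨Complex.neg_pi_lt_arg _, Complex.arg_le_pi _⟩
  refine ⟨fun i => if h : i < CC.card then e ⟨i, h⟩ else e ⟨0, hm⟩ + 2 * Real.pi, ?_, ?_, ?_⟩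
  · intro i j hij hj
    have hi : i < CC.card := by omega
    simp only [dif_pos hi]
    by_cases hj' : j < CC.card
    · simp only [dif_pos hj']
      exact e.strictMono (by simpa using hij)
    · simp only [dif_neg hj']
      have h1 := (hrange ⟨i, hi⟩).2
      have h2 := (hrange ⟨0, hm⟩).1
      linarith
  · simp only [dif_neg (lt_irrefl _), dif_pos hm]
  · intro c
    constructor
    · intro hc
      have h1 : Complex.arg c ∈ T := Finset.mem_image_of_mem (fun z : Circle => Complex.arg z) hc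
      have h2 : Complex.arg c ∈ Set.range e := by
        rw [he, Finset.range_orderEmbOfFin]
        exact h1
      obtain ⟨i, hi⟩ := h2
      refine ⟨i, i.2, ?_⟩
      simp only [dif_pos i.2, Fin.eta, hi, Circle.exp_arg]
    · rintro ⟨i, hi, rfl⟩
      simp only [dif_pos hi]
      obtain ⟨c, hc, hc'⟩ := Finset.mem_image.1 (hmemT ⟨i, hi⟩)
      rw [← hc', Circle.exp_arg]
      exact hc

/-- the closed arc between the marked points `i` and `i + 1`, shortened by `a` at both ends -/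
def pinGeoArc (t : ℕ → ℝ) (a : ℝ) (i : ℕ) : Set Circle := Circle.exp '' Icc (t i + a) (t (i + 1) - a)

/-- the open `a`-window around the marked point `i` -/
def pinGeoWin (t : ℕ → ℝ) (a : ℝ) (i : ℕ) : Set Circle := Circle.exp '' Ioo (t i - a) (t i + a)

theorem pin_geo_eqns_cite3 : True := by
  have := @pinGeoArc.eq_1
  have := @pinGeoWin.eq_1
  trivial

theorem pin_geo_arc_preconnected (t : ℕ → ℝ) (a : ℝ) (i : ℕ) : IsPreconnected (pinGeoArc t a i) :=
  isPreconnected_Icc.image _ Circle.exp.continuous.continuousOn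

theorem pin_geo_arc_compact (t : ℕ → ℝ) (a : ℝ) (i : ℕ) : IsCompact (pinGeoArc t a i) :=
  isCompact_Icc.image Circle.exp.continuous

theorem pin_geo_win_preconnected (t : ℕ → ℝ) (a : ℝ) (i : ℕ) : IsPreconnected (pinGeoWin t a i) :=
  isPreconnected_Ioo.image _ Circle.exp.continuous.continuousOn

theorem pin_geo_arc_mono (t : ℕ → ℝ) {a a' : ℝ} (h : a' ≤ a) (i : ℕ) : pinGeoArc t a i ⊆ pinGeoArc t a' i :=
  image_mono (Icc_subset_Icc (by linarith) (by linarith))

theorem pin_geo_win_mono (t : ℕ → ℝ) {a a' : ℝ} (h : a ≤ a') (i : ℕ) : pinGeoWin t a i ⊆ pinGeoWin t a' i :=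
  image_mono (Ioo_subset_Ioo (by linarith) (by linarith))

/-- the two ends of an arc -/
theorem pin_geo_arc_ends (t : ℕ → ℝ) {a : ℝ} {i : ℕ} (h : 2 * a ≤ t (i + 1) - t i) :
    Circle.exp (t i + a) ∈ pinGeoArc t a i ∧ Circle.exp (t (i + 1) - a) ∈ pinGeoArc t a i :=
  ⟨⟨_, ⟨le_rfl, by linarith⟩, rfl⟩, ⟨_, ⟨by linarith, le_rfl⟩, rfl⟩⟩

namespace PinGeoAng

variable {CC : Finset Circle} {t : ℕ → ℝ}

theorem mono_le (h : PinGeoAng CC t) {i j : ℕ} (hij : i ≤ j) (hj : j ≤ CC.card) : t i ≤ t j := by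
  rcases hij.eq_or_lt with rfl | hlt
  · exact le_rfl
  · exact (h.mono i j hlt hj).le

/-- no lifted marked point strictly between two consecutive marked angles -/
theorem no_lift (h : PinGeoAng CC t) {i j : ℕ} (hi : i < CC.card) (hj : j ≤ CC.card) (k : ℤ) :
    ¬ (t i < t j + k * (2 * Real.pi) ∧ t j + k * (2 * Real.pi) < t (i + 1)) := by
  rintro ⟨h1, h2⟩
  have hpi := Real.pi_pos
  rcases lt_trichotomy k 0 with hk | rfl | hk
  · have hk' : (k : ℝ) ≤ -1 := by exact_mod_cast (by omega : k ≤ -1)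
    have a1 : t j ≤ t CC.card := h.mono_le hj le_rfl
    have a2 : t 0 ≤ t i := h.mono_le (Nat.zero_le _) hi.le
    have a3 := h.top
    nlinarith
  · rw [Int.cast_zero, zero_mul, add_zero] at h1 h2
    rcases Nat.lt_or_ge i j with hij | hij
    · exact absurd h2 (not_lt.2 (h.mono_le hij hj))
    · exact absurd h1 (not_lt.2 (h.mono_le hij hi.le))
  · have hk' : (1 : ℝ) ≤ k := by exact_mod_cast (by omega : 1 ≤ k)
    have a1 : t 0 ≤ t j := h.mono_le (Nat.zero_le _) hj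
    have a2 : t (i + 1) ≤ t CC.card := h.mono_le hi le_rfl
    have a3 := h.top
    nlinarith

/-- the arcs and the windows cover the circle -/
theorem cover (h : PinGeoAng CC t) {a : ℝ} (ha : 0 < a) (θ : Circle) :
    ∃ i, i < CC.card ∧ (θ ∈ pinGeoArc t a i ∨ θ ∈ pinGeoWin t a i) := by
  obtain ⟨s0, rfl⟩ := Circle.exp_surjective θ
  obtain ⟨s, hs, hss⟩ := Circle.periodic_exp.exists_mem_Ico (by positivity : (0 : ℝ) < 2 * Real.pi) s0 (t 0)
  rw [hss]
  have key : ∀ n, n ≤ CC.card → s < t n → ∃ i, i < n ∧ t i ≤ s ∧ s < t (i + 1) := by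
    intro n
    induction n with
    | zero => intro _ h0; exact absurd hs.1 (not_le.2 h0)
    | succ n ih =>
      intro hn hsn
      rcases lt_or_ge s (t n) with h1 | h1
      · obtain ⟨i, hi, hi'⟩ := ih (by omega) h1
        exact ⟨i, by omega, hi'⟩
      · exact ⟨n, by omega, h1, hsn⟩
  obtain ⟨i, hi, h1, h2⟩ := key CC.card le_rfl (by rw [h.top]; exact hs.2)
  rcases lt_or_ge s (t i + a) with h3 | h3
  · exact ⟨i, hi, Or.inr ⟨s, ⟨by linarith, h3⟩, rfl⟩⟩
  rcases le_or_gt s (t (i + 1) - a) with h4 | h4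
  · exact ⟨i, hi, Or.inl ⟨s, ⟨h3, h4⟩, rfl⟩⟩
  rcases Nat.lt_or_ge (i + 1) CC.card with h5 | h5
  · exact ⟨i + 1, h5, Or.inr ⟨s, ⟨h4, by linarith⟩, rfl⟩⟩
  · have e : i + 1 = CC.card := by omega
    rw [e, h.top] at h2 h4
    exact ⟨0, by omega, Or.inr ⟨s - 2 * Real.pi, ⟨by linarith, by linarith⟩, Circle.exp_sub_two_pi s⟩⟩

/-- an arc misses every window of the same size -/
theorem arc_win_disjoint (h : PinGeoAng CC t) (a : ℝ) {i j : ℕ} (hi : i < CC.card) (hj : j < CC.card) :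
    Disjoint (pinGeoArc t a i) (pinGeoWin t a j) := by
  rw [Set.disjoint_left]
  rintro θ ⟨s, hs, rfl⟩ ⟨s', hs', he⟩
  obtain ⟨k, hk⟩ := Circle.exp_eq_exp.1 he
  refine h.no_lift hi hj.le (-k) ⟨?_, ?_⟩
  · push_cast
    linarith [hs.1, hs'.1, hs'.2]
  · push_cast
    linarith [hs.2, hs'.1, hs'.2]

/-- an arc (`a > 0`) misses the marked points -/
theorem arc_not_mem (h : PinGeoAng CC t) {a : ℝ} (ha : 0 < a) {i : ℕ} (hi : i < CC.card) {θ : Circle} (hθ : θ ∈ pinGeoArc t a i) : θ ∉ CC := by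
  intro hc
  obtain ⟨j, hj, rfl⟩ := (h.mem θ).1 hc
  exact Set.disjoint_left.1 (h.arc_win_disjoint a hi hj) hθ ⟨t j, ⟨by linarith, by linarith⟩, rfl⟩

/-- different arcs are disjoint -/
theorem arc_arc_disjoint (h : PinGeoAng CC t) {a : ℝ} (ha : 0 < a) {i j : ℕ} (hi : i < CC.card) (hj : j < CC.card) (hij : i ≠ j) :
    Disjoint (pinGeoArc t a i) (pinGeoArc t a j) := by
  rw [Set.disjoint_left]
  rintro θ ⟨s, hs, rfl⟩ ⟨s', hs', he⟩
  obtain ⟨k, hk⟩ := Circle.exp_eq_exp.1 he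
  have hpi := Real.pi_pos
  -- `s' = s + k 2π`
  have b1 : t j + (-k : ℤ) * (2 * Real.pi) ≤ t i := by
    by_contra hcon
    refine h.no_lift hi hj.le (-k) ⟨not_le.1 hcon, ?_⟩
    push_cast
    linarith [hs.2, hs'.1]
  have b2 : t i + (k : ℤ) * (2 * Real.pi) ≤ t j := by
    by_contra hcon
    refine h.no_lift hj hi.le k ⟨not_le.1 hcon, ?_⟩
    linarith [hs.1, hs'.2]
  push_cast at b1
  have b3 : t j = t i + k * (2 * Real.pi) := by linarith
  rcases lt_trichotomy k 0 with hk0 | rfl | hk0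
  · have hk' : (k : ℝ) ≤ -1 := by exact_mod_cast (by omega : k ≤ -1)
    have a1 : t i < t CC.card := h.mono i _ hi le_rfl
    have a2 : t 0 ≤ t j := h.mono_le (Nat.zero_le _) hj.le
    have a3 := h.top
    nlinarith
  · rw [Int.cast_zero, zero_mul, add_zero] at b3
    rcases Nat.lt_or_gt_of_ne hij with h1 | h1
    · exact absurd b3 (h.mono i j h1 hj.le).ne'
    · exact absurd b3 (h.mono j i h1 hi.le).ne
  · have hk' : (1 : ℝ) ≤ k := by exact_mod_cast (by omega : 1 ≤ k)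
    have a1 : t j < t CC.card := h.mono j _ hj le_rfl
    have a2 : t 0 ≤ t i := h.mono_le (Nat.zero_le _) hi.le
    have a3 := h.top
    nlinarith

/-- **a connected set of parameters off the windows lies in ONE arc** -/
theorem subset_arc (h : PinGeoAng CC t) {a : ℝ} (ha : 0 < a) {J : Set Circle} (hJ : IsPreconnected J) (hne : J.Nonempty)
    (hoff : ∀ j, j < CC.card → Disjoint J (pinGeoWin t a j)) : ∃ i, i < CC.card ∧ J ⊆ pinGeoArc t a i := by
  obtain ⟨θ0, hθ0⟩ := hne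
  have hcov : ∀ θ ∈ J, ∃ i, i < CC.card ∧ θ ∈ pinGeoArc t a i := by
    intro θ hθ
    obtain ⟨i, hi, h1 | h1⟩ := h.cover ha θ
    · exact ⟨i, hi, h1⟩
    · exact absurd h1 (Set.disjoint_left.1 (hoff i hi) hθ)
  obtain ⟨i, hi, hi0⟩ := hcov θ0 hθ0
  refine ⟨i, hi, ?_⟩
  set v : Set Circle := ⋃ j ∈ (Finset.range CC.card).filter (fun j => j ≠ i), pinGeoArc t a j with hv
  have hvc : IsClosed v := by
    rw [hv]
    exact Set.Finite.isClosed_biUnion (Finset.finite_toSet _) fun j _ => (pin_geo_arc_compact t a j).isClosed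
  have huv : Disjoint (pinGeoArc t a i) v := by
    rw [hv, Set.disjoint_iUnion₂_right]
    intro j hj
    have hj' := Finset.mem_filter.1 hj
    exact h.arc_arc_disjoint ha hi (Finset.mem_range.1 hj'.1) (Ne.symm hj'.2)
  rcases (isPreconnected_iff_subset_of_disjoint_closed.1 hJ) (pinGeoArc t a i) v (pin_geo_arc_compact t a i).isClosed hvc (by
      intro θ hθ
      obtain ⟨j, hj, hj'⟩ := hcov θ hθ
      by_cases e : j = i
      · exact Or.inl (e ▸ hj')
      · exact Or.inr (Set.mem_biUnion (Finset.mem_coe.2 (Finset.mem_filter.2 ⟨Finset.mem_range.2 hj, e⟩)) hj'))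
      (by rw [huv.inter_eq, Set.inter_empty]) with h1 | h1
  · exact h1
  · exact absurd (h1 hθ0) (Set.disjoint_left.1 huv hi0)

end PinGeoAng

/-- chord `≤` arc -/
theorem pin_geo_dist_exp_le (s s' : ℝ) : dist (Circle.exp s) (Circle.exp s') ≤ |s - s'| := by
  have e0 : dist (Circle.exp s) (Circle.exp s') = dist ((Circle.exp s : Circle) : ℂ) ((Circle.exp s' : Circle) : ℂ) := rfl
  rw [e0, Circle.coe_exp, Circle.coe_exp, Complex.dist_eq]
  have e : Complex.exp (s * Complex.I) - Complex.exp (s' * Complex.I)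
      = Complex.exp (s' * Complex.I) * (Complex.exp (Complex.I * ((s - s' : ℝ) : ℂ)) - 1) := by
    rw [mul_sub, ← Complex.exp_add, mul_one]
    congr 2
    push_cast
    ring
  rw [e, norm_mul, Complex.norm_exp_ofReal_mul_I, one_mul]
  exact (Real.norm_exp_I_mul_ofReal_sub_one_le).trans (by rw [Real.norm_eq_abs])

/-- a window is within `a` of its marked point -/
theorem pin_geo_win_dist {t : ℕ → ℝ} {a : ℝ} {i : ℕ} {θ : Circle} (h : θ ∈ pinGeoWin t a i) : dist θ (Circle.exp (t i)) < a := by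
  obtain ⟨s, hs, rfl⟩ := h
  refine (pin_geo_dist_exp_le s (t i)).trans_lt ?_
  rw [abs_lt]
  exact ⟨by linarith [hs.1], by linarith [hs.2]⟩

/-- the image of a small window is near the image of its marked point (Euclidean) -/
theorem pin_geo_win_small {γ : Circle → ℝ × ℝ} (hc : Continuous γ) {ε : ℝ} (hε : 0 < ε) :
    ∃ a0 : ℝ, 0 < a0 ∧ ∀ (t : ℕ → ℝ) (a : ℝ) (i : ℕ), a ≤ a0 → ∀ θ ∈ pinGeoWin t a i, sqDist (γ θ) (γ (Circle.exp (t i))) < ε ^ 2 := by
  have huc : UniformContinuous γ := CompactSpace.uniformContinuous_of_continuous hc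
  obtain ⟨a0, ha0, h⟩ := Metric.uniformContinuous_iff.1 huc (ε / 2) (by positivity)
  refine ⟨a0, ha0, fun t a i ha θ hθ => ?_⟩
  have h1 := h ((pin_geo_win_dist hθ).trans_le ha)
  have h2 := hg_sqDist_le_dist_sq (γ θ) (γ (Circle.exp (t i)))
  have h3 : dist (γ θ) (γ (Circle.exp (t i))) ^ 2 ≤ (ε / 2) ^ 2 := pow_le_pow_left₀ dist_nonneg h1.le 2
  nlinarith

/-- disjoint compact sets of parameters have images at a positive Euclidean distance -/
theorem pin_geo_sep {γ : Circle → ℝ × ℝ} (hc : Continuous γ) (hi : Function.Injective γ) {K K' : Set Circle} (hK : IsCompact K)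
    (hK' : IsCompact K') (hd : Disjoint K K') : ∃ κ : ℝ, 0 < κ ∧ ∀ θ ∈ K, ∀ θ' ∈ K', κ ^ 2 ≤ sqDist (γ θ) (γ θ') := by
  have h1 : IsCompact (γ '' K) := hK.image hc
  have h2 : IsCompact (γ '' K') := hK'.image hc
  have h3 : Disjoint (γ '' K) (γ '' K') := (Set.disjoint_image_iff hi).2 hd
  obtain ⟨κ, hκ, h⟩ := Metric.exists_pos_forall_lt_edist h1 h2.isClosed h3
  refine ⟨κ, by exact_mod_cast hκ, fun θ hθ θ' hθ' => ?_⟩
  have h4 := h _ (mem_image_of_mem γ hθ) _ (mem_image_of_mem γ hθ')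
  rw [edist_nndist, ENNReal.coe_lt_coe] at h4
  have h5 : (κ : ℝ) < dist (γ θ) (γ θ') := by exact_mod_cast h4
  have h6 := hg_dist_sq_le_sqDist (γ θ) (γ θ')
  have h7 : (κ : ℝ) ^ 2 ≤ dist (γ θ) (γ θ') ^ 2 := pow_le_pow_left₀ κ.2 h5.le 2
  linarith

/-! ## EXIT of the node N1: the grid, the choice of the two levels, the classification `T / B / L / R` -/

/-- **the grid** of `2 (q + 1)` levels around `z0` (indices `≤ q` are used) -/
structure PinGeoGrid (γ : Circle → ℝ × ℝ) (z0 : ℝ × ℝ) (ρ : ℝ) (q : ℕ) (up dn : ℕ → ℝ) : Prop where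
  up_mem : ∀ i, i ≤ q → z0.2 + ρ / 40 < up i ∧ up i < z0.2 + ρ / 20
  dn_mem : ∀ i, i ≤ q → z0.2 - ρ / 20 < dn i ∧ dn i < z0.2 - ρ / 40
  up_sep : ∀ i j, i ≠ j → ρ / (80 * ((q : ℝ) + 1)) < |up i - up j|
  dn_sep : ∀ i j, i ≠ j → ρ / (80 * ((q : ℝ) + 1)) < |dn i - dn j|
  up_fin : ∀ i, {θ : Circle | (γ θ).2 = up i}.Finite
  dn_fin : ∀ i, {θ : Circle | (γ θ).2 = dn i}.Finite
  up_ne : ∀ i, i ≤ q → {θ : Circle | (γ θ).2 = up i}.Nonempty
  dn_ne : ∀ i, i ≤ q → {θ : Circle | (γ θ).2 = dn i}.Nonempty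

/-- a boundary point is outside a closed disk contained in the domain -/
theorem pin_geo_frontier_out {D : Set (ℝ × ℝ)} (ho : IsOpen D) {z0 : ℝ × ℝ} {ρ : ℝ} (hball : pinGeoDisk z0 ρ ⊆ D) {p : ℝ × ℝ}
    (hp : p ∈ frontier D) : ρ ^ 2 < sqDist p z0 := by
  by_contra hcon
  have h1 : p ∈ D := hball (not_lt.1 hcon)
  have h2 : p ∈ D ∩ frontier D := ⟨h1, hp⟩
  rw [ho.inter_frontier_eq] at h2
  exact h2

/-- a level near `z0` is attained on the boundary -/
theorem pin_geo_level_attained {D : Set (ℝ × ℝ)} (ho : IsOpen D) (hb : Bornology.IsBounded D) {γ : Circle → ℝ × ℝ}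
    (hr : Set.range γ = frontier D) {z0 : ℝ × ℝ} {ρ : ℝ} (hball : pinGeoDisk z0 ρ ⊆ D) {y : ℝ} (hy : |y - z0.2| ≤ ρ) :
    {θ : Circle | (γ θ).2 = y}.Nonempty := by
  have h1 : ((z0.1, y) : ℝ × ℝ) ∈ D := by
    apply hball
    show sqDist (z0.1, y) z0 ≤ ρ ^ 2
    unfold sqDist
    have := sq_le_sq' (abs_le.1 hy).1 (abs_le.1 hy).2
    simpa using this
  obtain ⟨p', hp', hp'y⟩ := pin_geo_level_nonempty ho hb h1
  rw [← hr] at hp'
  obtain ⟨θ, rfl⟩ := hp'
  exact ⟨θ, hp'y⟩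

/-- **existence of the grid**      TEX[pins:local-geometry] (first half) -/
theorem pin_geo_grid_exists {D : Set (ℝ × ℝ)} (hD : IsC2JordanDomain D) {γ : Circle → ℝ × ℝ} (hi : Function.Injective γ)
    (hr : Set.range γ = frontier D) {z0 : ℝ × ℝ} {ρ : ℝ} (hρ : 0 < ρ) (hball : pinGeoDisk z0 ρ ⊆ D) (q : ℕ) :
    ∃ up dn : ℕ → ℝ, PinGeoGrid γ z0 ρ q up dn := by
  have hq : (0 : ℝ) < (q : ℝ) + 1 := by positivity
  set w : ℝ := ρ / (80 * ((q : ℝ) + 1)) with hw
  have hw0 : 0 < w := by positivity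
  have hwq : 2 * w * ((q : ℝ) + 1) = ρ / 40 := by
    rw [hw]
    field_simp
    norm_num
  obtain ⟨up, hup⟩ := pin_geo_grid hD hi hr (z0.2 + ρ / 40) hw0
  obtain ⟨dn, hdn⟩ := pin_geo_grid hD hi hr (z0.2 - ρ / 20) hw0
  have hiq : ∀ i : ℕ, i ≤ q → 2 * w * i + w / 2 < ρ / 40 := by
    intro i hi'
    have h1 : (i : ℝ) ≤ q := by exact_mod_cast hi'
    have h2 : 2 * w * (i : ℝ) ≤ 2 * w * q := mul_le_mul_of_nonneg_left h1 (by linarith)
    nlinarith
  have hi0 : ∀ i : ℕ, 0 ≤ 2 * w * (i : ℝ) := fun i => by positivity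
  have hupm : ∀ i, i ≤ q → z0.2 + ρ / 40 < up i ∧ up i < z0.2 + ρ / 20 := fun i hi' =>
    ⟨by linarith [(hup i).1, hi0 i], by linarith [(hup i).2.1, hiq i hi']⟩
  have hdnm : ∀ i, i ≤ q → z0.2 - ρ / 20 < dn i ∧ dn i < z0.2 - ρ / 40 := fun i hi' =>
    ⟨by linarith [(hdn i).1, hi0 i], by linarith [(hdn i).2.1, hiq i hi']⟩
  refine ⟨up, dn, hupm, hdnm, fun i j hij => pin_geo_grid_sep hw0 (fun i => ⟨(hup i).1, (hup i).2.1⟩) hij,
    fun i j hij => pin_geo_grid_sep hw0 (fun i => ⟨(hdn i).1, (hdn i).2.1⟩) hij, fun i => (hup i).2.2, fun i => (hdn i).2.2, ?_, ?_⟩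
  · intro i hi'
    refine pin_geo_level_attained hD.1 hD.2.1 hr hball ?_
    rw [abs_le]
    exact ⟨by linarith [(hupm i hi').1], by linarith [(hupm i hi').2]⟩
  · intro i hi'
    refine pin_geo_level_attained hD.1 hD.2.1 hr hball ?_
    rw [abs_le]
    exact ⟨by linarith [(hdnm i hi').1], by linarith [(hdnm i hi').2]⟩

/-- **choice of the two levels**: they miss at most `q` small spectator disks      TEX[pins:local-geometry] (second half) -/
theorem PinGeoGrid.choose {γ : Circle → ℝ × ℝ} {z0 : ℝ × ℝ} {ρ : ℝ} {q : ℕ} {up dn : ℕ → ℝ} (G : PinGeoGrid γ z0 ρ q up dn) (hρ : 0 < ρ)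
    {k : ℕ} (hk : k ≤ q) (cen : Fin k → ℝ × ℝ) (rad : Fin k → ℝ) (hrad : ∀ j, rad j < ρ / (1000 * ((q : ℝ) + 1))) :
    ∃ i i' : ℕ, i ≤ q ∧ i' ≤ q ∧ ∀ j, rad j < |up i - (cen j).2| ∧ rad j < |dn i' - (cen j).2| := by
  have hq : (0 : ℝ) < (q : ℝ) + 1 := by positivity
  have h1 : ρ / (1000 * ((q : ℝ) + 1)) ≤ ρ / (80 * ((q : ℝ) + 1)) / 2 := by
    rw [div_div, div_le_div_iff₀ (by positivity) (by positivity)]
    nlinarith [mul_pos hρ hq]
  obtain ⟨i, hi, hi'⟩ := pin_geo_pigeon G.up_sep hk (fun j => (cen j).2) rad fun j => (hrad j).trans_le h1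
  obtain ⟨i', hj, hj'⟩ := pin_geo_pigeon G.dn_sep hk (fun j => (cen j).2) rad fun j => (hrad j).trans_le h1
  exact ⟨i, i', hi, hj, fun j => ⟨hi' j, hj' j⟩⟩

/-- the marked parameters of a finite set of levels -/
theorem pin_geo_marks {γ : Circle → ℝ × ℝ} (Ls : Finset ℝ) (hfin : ∀ y ∈ Ls, {θ : Circle | (γ θ).2 = y}.Finite) :
    ∃ CC : Finset Circle, ∀ θ, θ ∈ CC ↔ (γ θ).2 ∈ Ls := by
  have h : {θ : Circle | (γ θ).2 ∈ Ls}.Finite := by
    have e : {θ : Circle | (γ θ).2 ∈ Ls} = ⋃ y ∈ Ls, {θ : Circle | (γ θ).2 = y} := by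
      ext θ
      simp
    rw [e]
    exact Set.Finite.biUnion (Finset.finite_toSet Ls) hfin
  exact ⟨h.toFinset, fun θ => by simp⟩

/-- the four positions of a family with respect to the two levels `lm < lp` and to the `u`-projection of `z0`, with the margin `κ` -/
inductive PinGeoPos (g : Set (ℝ × ℝ)) (z0 : ℝ × ℝ) (ρ lm lp κ : ℝ) : Prop
  | T : (∀ p ∈ g, lp + κ ≤ p.2) → PinGeoPos g z0 ρ lm lp κ
  | B : (∀ p ∈ g, p.2 ≤ lm - κ) → PinGeoPos g z0 ρ lm lp κ
  | R : (∀ p ∈ g, lm + κ ≤ p.2 ∧ p.2 ≤ lp - κ ∧ pinGeoU z0 + ρ / 2 < pinGeoU p) → PinGeoPos g z0 ρ lm lp κ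
  | L : (∀ p ∈ g, lm + κ ≤ p.2 ∧ p.2 ≤ lp - κ ∧ pinGeoU p < pinGeoU z0 - ρ / 2) → PinGeoPos g z0 ρ lm lp κ

/-- **classification**: a connected compact set outside the disk which misses the two levels is `T`, `B`, `L` or `R`      TEX[pins:middle-geometry] -/
theorem pin_geo_classify {S : Set (ℝ × ℝ)} (hS : IsPreconnected S) (hSc : IsCompact S) {z0 : ℝ × ℝ} {ρ lm lp : ℝ} (hρ : 0 < ρ)
    (hout : ∀ p ∈ S, ρ ^ 2 ≤ sqDist p z0) (hlp : z0.2 ≤ lp ∧ lp < z0.2 + ρ / 20) (hlm : z0.2 - ρ / 20 < lm ∧ lm ≤ z0.2)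
    (hp : ∀ p ∈ S, p.2 ≠ lp) (hm : ∀ p ∈ S, p.2 ≠ lm) : ∃ κ : ℝ, 0 < κ ∧ PinGeoPos S z0 ρ lm lp κ := by
  obtain ⟨κ1, hκ1, h1⟩ := pin_geo_margin (g := id) continuousOn_id hSc hp
  obtain ⟨κ2, hκ2, h2⟩ := pin_geo_margin (g := id) continuousOn_id hSc hm
  simp only [id] at h1 h2
  refine ⟨min κ1 κ2, lt_min hκ1 hκ2, ?_⟩
  have m1 := min_le_left κ1 κ2
  have m2 := min_le_right κ1 κ2
  rcases pin_geo_side (g := id) continuousOn_id hS hp with a1 | a1
  · rcases pin_geo_side (g := id) continuousOn_id hS hm with a2 | a2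
    · refine PinGeoPos.B fun p hp' => ?_
      have := h2 p hp'
      rw [abs_of_neg (by have := a2 p hp'; simp only [id] at this; linarith)] at this
      linarith
    · have hmid : ∀ p ∈ S, lm + min κ1 κ2 ≤ p.2 ∧ p.2 ≤ lp - min κ1 κ2 := by
        intro p hp'
        have b1 := h1 p hp'
        have b2 := h2 p hp'
        rw [abs_of_neg (by have := a1 p hp'; simp only [id] at this; linarith)] at b1
        rw [abs_of_pos (by have := a2 p hp'; simp only [id] at this; linarith)] at b2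
        exact ⟨by linarith, by linarith⟩
      have hy : ∀ p ∈ S, |(id p : ℝ × ℝ).2 - z0.2| < ρ / 20 := by
        intro p hp'
        have b1 := a1 p hp'
        have b2 := a2 p hp'
        simp only [id] at b1 b2 ⊢
        rw [abs_lt]
        exact ⟨by linarith [hlm.1], by linarith [hlp.2]⟩
      rcases pin_geo_LR (g := id) continuousOn_id hS hρ hout hy with a3 | a3
      · exact PinGeoPos.R fun p hp' => ⟨(hmid p hp').1, (hmid p hp').2, a3 p hp'⟩
      · exact PinGeoPos.L fun p hp' => ⟨(hmid p hp').1, (hmid p hp').2, a3 p hp'⟩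
  · refine PinGeoPos.T fun p hp' => ?_
    have := h1 p hp'
    rw [abs_of_pos (by have := a1 p hp'; simp only [id] at this; linarith)] at this
    linarith

/-- monotonicity of the position in the margin and in the set -/
theorem PinGeoPos.mono {S S' : Set (ℝ × ℝ)} {z0 : ℝ × ℝ} {ρ lm lp κ κ' : ℝ} (h : PinGeoPos S z0 ρ lm lp κ) (hS : S' ⊆ S) (hκ : κ' ≤ κ) :
    PinGeoPos S' z0 ρ lm lp κ' := by
  rcases h with h | h | h | h
  · exact PinGeoPos.T fun p hp => by linarith [h p (hS hp)]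
  · exact PinGeoPos.B fun p hp => by linarith [h p (hS hp)]
  · exact PinGeoPos.R fun p hp => ⟨by linarith [(h p (hS hp)).1], by linarith [(h p (hS hp)).2.1], (h p (hS hp)).2.2⟩
  · exact PinGeoPos.L fun p hp => ⟨by linarith [(h p (hS hp)).1], by linarith [(h p (hS hp)).2.1], (h p (hS hp)).2.2⟩

/-- **the boundary groups**: every arc complementary to the `a`-windows of the marked parameters of the two levels has a position -/
theorem pin_geo_arc_pos {D : Set (ℝ × ℝ)} (ho : IsOpen D) {γ : Circle → ℝ × ℝ} (hc : Continuous γ) (hr : Set.range γ = frontier D)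
    {z0 : ℝ × ℝ} {ρ lm lp : ℝ} (hρ : 0 < ρ) (hball : pinGeoDisk z0 ρ ⊆ D) (hlp : z0.2 ≤ lp ∧ lp < z0.2 + ρ / 20)
    (hlm : z0.2 - ρ / 20 < lm ∧ lm ≤ z0.2) {CC0 : Finset Circle} (hCC : ∀ θ, θ ∈ CC0 ↔ (γ θ).2 = lp ∨ (γ θ).2 = lm) {t : ℕ → ℝ}
    (ht : PinGeoAng CC0 t) {a : ℝ} (ha : 0 < a) : ∃ κ : ℝ, 0 < κ ∧ ∀ i, i < CC0.card → PinGeoPos (γ '' pinGeoArc t a i) z0 ρ lm lp κ := by
  have h1 : ∀ i, i < CC0.card → ∃ κ : ℝ, 0 < κ ∧ PinGeoPos (γ '' pinGeoArc t a i) z0 ρ lm lp κ := by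
    intro i hi
    refine pin_geo_classify ((pin_geo_arc_preconnected t a i).image _ hc.continuousOn) ((pin_geo_arc_compact t a i).image hc) hρ ?_ hlp hlm ?_ ?_
    · rintro _ ⟨θ, -, rfl⟩
      exact (pin_geo_frontier_out ho hball (hr ▸ mem_range_self θ)).le
    · rintro _ ⟨θ, hθ, rfl⟩ he
      exact ht.arc_not_mem ha hi hθ ((hCC θ).2 (Or.inl he))
    · rintro _ ⟨θ, hθ, rfl⟩ he
      exact ht.arc_not_mem ha hi hθ ((hCC θ).2 (Or.inr he))
  choose! κ hκ0 hκ using h1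
  rcases Nat.eq_zero_or_pos CC0.card with h0 | h0
  · exact ⟨1, one_pos, fun i hi => by omega⟩
  have hne : (Finset.range CC0.card).Nonempty := ⟨0, Finset.mem_range.2 h0⟩
  refine ⟨(Finset.range CC0.card).inf' hne κ, ?_, fun i hi => ?_⟩
  · rw [Finset.lt_inf'_iff]
    exact fun i hi => hκ0 i (Finset.mem_range.1 hi)
  · exact (hκ i hi).mono subset_rfl (Finset.inf'_le _ (Finset.mem_range.2 hi))

/-- **the spectators**: a small disk outside the big disk which misses the two levels has a position -/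
theorem pin_geo_disk_pos {z0 z : ℝ × ℝ} {ρ r lm lp : ℝ} (hρ : 0 < ρ) (hr : 0 ≤ r) (hout : ∀ p ∈ pinGeoDisk z r, ρ ^ 2 ≤ sqDist p z0)
    (hlp : z0.2 ≤ lp ∧ lp < z0.2 + ρ / 20) (hlm : z0.2 - ρ / 20 < lm ∧ lm ≤ z0.2) (hp : r < |lp - z.2|) (hm : r < |lm - z.2|) :
    ∃ κ : ℝ, 0 < κ ∧ PinGeoPos (pinGeoDisk z r) z0 ρ lm lp κ := by
  have hcl : IsClosed (pinGeoDisk z r) := isClosed_le (hg_continuous_sqDist_left z) continuous_const
  have hbd : Bornology.IsBounded (pinGeoDisk z r) := by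
    refine (Metric.isBounded_closedBall (x := z) (r := r)).subset fun p hp' => ?_
    rw [Metric.mem_closedBall]
    exact abs_le_of_sq_le_sq' ((hg_dist_sq_le_sqDist p z).trans hp') hr |>.2
  refine pin_geo_classify (pin_geo_disk_preconnected z r) (Metric.isCompact_of_isClosed_isBounded hcl hbd) hρ hout hlp hlm ?_ ?_
  · intro p hp' he
    have := pin_geo_disk_snd hr hp'
    rw [he] at this
    linarith
  · intro p hp' he
    have := pin_geo_disk_snd hr hp'
    rw [he] at this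
    linarith

/-- **the insertion disk** is strictly between the levels of the grid and its `u`-projection is within `ρ / 1000` of that of `z0` -/
theorem pin_geo_core {z0 p : ℝ × ℝ} {ρ : ℝ} (hρ : 0 < ρ) (hp : p ∈ pinGeoDisk z0 (ρ / 1000)) :
    |p.2 - z0.2| ≤ ρ / 1000 ∧ |pinGeoU p - pinGeoU z0| ≤ ρ / 1000 :=
  ⟨pin_geo_disk_snd (by positivity) hp, pin_geo_disk_U (by positivity) hp⟩

/-! ## (e) there is a boundary group above `lp` and one below `lm` -/

/-- the vertical ray upwards (`s = 1`) or downwards (`s = -1`) from a point of a bounded open set meets the frontier -/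
theorem pin_geo_ray {D : Set (ℝ × ℝ)} (ho : IsOpen D) (hb : Bornology.IsBounded D) {p : ℝ × ℝ} (hp : p ∈ D) {s : ℝ} (hs : s = 1 ∨ s = -1) :
    ∃ y : ℝ, 0 < y ∧ ((p.1, p.2 + s * y) : ℝ × ℝ) ∈ frontier D := by
  by_contra hcon
  have hray : IsPreconnected ((fun y : ℝ => ((p.1, p.2 + s * y) : ℝ × ℝ)) '' Ici 0) :=
    isPreconnected_Ici.image _ (by fun_prop)
  obtain ⟨R, hR⟩ := hb.subset_closedBall (0 : ℝ × ℝ)
  have hout : ((p.1, p.2 + s * (|R| + |p.2| + 1)) : ℝ × ℝ) ∉ closure D := by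
    intro h
    have h1 := closure_minimal hR Metric.isClosed_closedBall h
    rw [Metric.mem_closedBall, dist_zero_right, Prod.norm_def] at h1
    have h2 : ‖p.2 + s * (|R| + |p.2| + 1)‖ ≤ R := (le_max_right _ _).trans h1
    rw [Real.norm_eq_abs] at h2
    have h3 := le_abs_self R
    have h4 := abs_le.1 h2
    have h5 := neg_abs_le p.2
    have h6 := le_abs_self p.2
    rcases hs with rfl | rfl
    · linarith [h4.2]
    · linarith [h4.1]
  obtain ⟨z, ⟨y, hy, rfl⟩, hz1, hz2⟩ := hray D (closure D)ᶜ ho isClosed_closure.isOpen_compl (by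
      rintro _ ⟨y, hy, rfl⟩
      by_cases h1 : ((p.1, p.2 + s * y) : ℝ × ℝ) ∈ D
      · exact Or.inl h1
      · right
        intro h2
        have hy0 : y ≠ 0 := by
          rintro rfl
          apply h1
          simpa using hp
        refine hcon ⟨y, lt_of_le_of_ne hy (Ne.symm hy0), ?_⟩
        rw [frontier, ho.interior_eq]
        exact ⟨h2, h1⟩) ⟨p, ⟨0, by simp, by simp⟩, hp⟩ ⟨_, ⟨|R| + |p.2| + 1, by simp only [mem_Ici]; positivity, rfl⟩, hout⟩
  exact hz2 (subset_closure hz1)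

/-- a boundary parameter above `z0.2 + ρ` and one below `z0.2 - ρ` -/
theorem pin_geo_top_bottom {D : Set (ℝ × ℝ)} (ho : IsOpen D) (hb : Bornology.IsBounded D) {γ : Circle → ℝ × ℝ} (hr : Set.range γ = frontier D)
    {z0 : ℝ × ℝ} {ρ : ℝ} (hball : pinGeoDisk z0 ρ ⊆ D) : (∃ θ, z0.2 + ρ < (γ θ).2) ∧ ∃ θ, (γ θ).2 < z0.2 - ρ := by
  constructor
  · have h1 : ((z0.1, z0.2 + ρ) : ℝ × ℝ) ∈ D := hball (by simp [pinGeoDisk, sqDist])
    obtain ⟨y, hy, h2⟩ := pin_geo_ray ho hb h1 (Or.inl rfl)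
    rw [← hr] at h2
    obtain ⟨θ, hθ⟩ := h2
    exact ⟨θ, by rw [hθ]; simp only; linarith⟩
  · have h1 : ((z0.1, z0.2 - ρ) : ℝ × ℝ) ∈ D := hball (by simp [pinGeoDisk, sqDist])
    obtain ⟨y, hy, h2⟩ := pin_geo_ray ho hb h1 (Or.inr rfl)
    rw [← hr] at h2
    obtain ⟨θ, hθ⟩ := h2
    exact ⟨θ, by rw [hθ]; simp only; linarith⟩

/-- **for small gaps there is an arc with a point above `z0.2 + ρ` and an arc with a point below `z0.2 - ρ`** -/
theorem pin_geo_arc_top_bottom {D : Set (ℝ × ℝ)} (ho : IsOpen D) (hb : Bornology.IsBounded D) {γ : Circle → ℝ × ℝ} (hc : Continuous γ)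
    (hr : Set.range γ = frontier D) {z0 : ℝ × ℝ} {ρ lm lp : ℝ} (hρ : 0 < ρ) (hball : pinGeoDisk z0 ρ ⊆ D) (hlp : z0.2 ≤ lp ∧ lp < z0.2 + ρ / 20)
    (hlm : z0.2 - ρ / 20 < lm ∧ lm ≤ z0.2) {CC0 : Finset Circle} (hCC : ∀ θ, θ ∈ CC0 ↔ (γ θ).2 = lp ∨ (γ θ).2 = lm) :
    ∃ a0 : ℝ, 0 < a0 ∧ ∀ t : ℕ → ℝ, PinGeoAng CC0 t → ∀ a : ℝ, 0 < a → a ≤ a0 →
      (∃ i, i < CC0.card ∧ ∃ θ ∈ pinGeoArc t a i, z0.2 + ρ < (γ θ).2) ∧ ∃ i, i < CC0.card ∧ ∃ θ ∈ pinGeoArc t a i, (γ θ).2 < z0.2 - ρ := by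
  obtain ⟨a0, ha0, hwin⟩ := pin_geo_win_small hc (ε := ρ / 2) (by positivity)
  obtain ⟨⟨θ1, h1⟩, ⟨θ2, h2⟩⟩ := pin_geo_top_bottom ho hb hr hball
  refine ⟨a0, ha0, fun t ht a ha haa => ?_⟩
  have hnear : ∀ i, i < CC0.card → ∀ θ ∈ pinGeoWin t a i, |(γ θ).2 - z0.2| < ρ := by
    intro i hi θ hθ
    have b1 := hwin t a i haa θ hθ
    have b2 : Circle.exp (t i) ∈ CC0 := (ht.mem _).2 ⟨i, hi, rfl⟩
    have b3 : |(γ θ).2 - (γ (Circle.exp (t i))).2| < ρ / 2 := by
      unfold sqDist at b1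
      exact abs_lt_of_sq_lt_sq (by nlinarith [sq_nonneg ((γ θ).1 - (γ (Circle.exp (t i))).1)]) (by positivity)
    have b4 := abs_lt.1 b3
    rw [abs_lt]
    rcases (hCC _).1 b2 with e | e
    · rw [e] at b4
      exact ⟨by linarith [b4.1, hlp.1], by linarith [b4.2, hlp.2]⟩
    · rw [e] at b4
      exact ⟨by linarith [b4.1, hlm.1], by linarith [b4.2, hlm.2]⟩
  constructor
  · obtain ⟨i, hi, h | h⟩ := ht.cover ha θ1
    · exact ⟨i, hi, θ1, h, h1⟩
    · have := (abs_lt.1 (hnear i hi θ1 h)).2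
      linarith
  · obtain ⟨i, hi, h | h⟩ := ht.cover ha θ2
    · exact ⟨i, hi, θ2, h, h2⟩
    · have := (abs_lt.1 (hnear i hi θ2 h)).1
      linarith

/-- a family with a point above `lp` is `T` -/
theorem PinGeoPos.isT {S : Set (ℝ × ℝ)} {z0 : ℝ × ℝ} {ρ lm lp κ : ℝ} (h : PinGeoPos S z0 ρ lm lp κ) (hκ : 0 ≤ κ) (hl : lm ≤ lp) {p : ℝ × ℝ}
    (hp : p ∈ S) (hpl : lp < p.2) : ∀ p ∈ S, lp + κ ≤ p.2 := by
  rcases h with h | h | h | h
  · exact h
  · linarith [h p hp]
  · linarith [(h p hp).2.1]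
  · linarith [(h p hp).2.1]

/-- a family with a point below `lm` is `B` -/
theorem PinGeoPos.isB {S : Set (ℝ × ℝ)} {z0 : ℝ × ℝ} {ρ lm lp κ : ℝ} (h : PinGeoPos S z0 ρ lm lp κ) (hκ : 0 ≤ κ) (hl : lm ≤ lp) {p : ℝ × ℝ}
    (hp : p ∈ S) (hpl : p.2 < lm) : ∀ p ∈ S, p.2 ≤ lm - κ := by
  rcases h with h | h | h | h
  · linarith [h p hp]
  · exact h
  · linarith [(h p hp).1]
  · linarith [(h p hp).1]

end Claimed.Agent.R291
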