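import Claimed.Agent.R291.Pin.Shell
import Claimed.Agent.R291.Pin.Geo
import Claimed.Agent.R291.Pin.Cont
import Claimed.Agent.R291.Defs.Pin

/-!
# Row 291 (S0539), unit PIN (05-pins), Pin/Place : GEOMETRY OF THE FIVE MOVES      (OWNER helper72; head of PIN: helper34; consumers: helper48 Side/Sep, helper39 N3)      0 sorry

TEX[pins:three-normals], TEX[pins:middle-geometry], TEX[pins:three-moves] (the geometric half), fig. pins-five-moves.      Prefix `pin_pc_`, defs `pin*` / `Pin*`.      Fits `pin_cont_moves` with `K = 5`, `b n = √3 δ n`, `thr = pinThr M`.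
* sec. 1  normals `pinE pinU pinU'`, families `PinKind = T | B | L | R | K` (`K` = the core: the insertion disk, never moves), physical displacement `pinTau a f`, lattice displacement `pinDisp k f`,
          `pin_pc_disp : pinP δ (pinDisp k f) = pinTau (k · √3 δ) f`.
* sec. 2  `PinSc M κ ρ U0 lm lp obj` THE SCENE (strict projections of the enlarged supports `obj f`), thresholds `pinThr M i a` (`pin_pc_thr_dep` = hypothesis `hthr`), `PinAdm M μ a j` (first `j` moves beyond their thresholds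
          by `2 μ`, the others absent), `pinMov j f`, `pinDir j`, `pin_pc_tau_update`.
* sec. 3  margin `pinMg κ ρ μ`, level `pinLev .. j` (independent of the placement), **`pin_pc_gap`** (stage `j`: still families `≤ lev`, moving families `≥ lev + margin`), **`pin_pc_final`** (all moves done: core below, all the rest above).
* sec. 4  **`pin_pc_pair`**: two different families are at distance `≥ margin` at EVERY admissible placement of EVERY stage.
* sec. 5  dictionary lattice <-> plane: `pinLr j` (a power of `latRot`), `pinLg j r0` (frame: direction of the move `j` becomes vertical, the row `r0` becomes the row `0`), `pinEg δ j r0 : ℂ ≃ᵢ ℂ`, `pin_pc_P_lg`, `pin_pc_eg_im`,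
          `pin_pc_P_refl` (`latRefl` = conjugation `pinCj`), `pinStep j`, `pin_pc_lg_step` (the step becomes `(-1, 2) = pinE2`), `pin_pc_disp_update`.
* sec. 6  **`pin_pc_stage`**, **`pin_pc_stage_fin`**: a site row in the gap with margins `m / 4` on both sides after `N` backward steps; `pin_pc_row_ge/le` (lattice form = `PinUp`), `pin_pc_mirror(')`.
* sec. 7  **`pin_pc_adm_ev`** (hypotheses of `PinMv` ⟹ `PinAdm` with a margin, eventually), `pin_pc_steps` (`N n b n → η`, `≤ η`).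
* sec. 8  **`pin_pc_neck`** (`PinNeck` between two distances from a compact set, uniform in the rigid motion), **`pin_pc_fam`** (`PinFam` from `6 r`-separated placements).
-/

set_option autoImplicit false
set_option linter.unusedVariables false
set_option linter.unusedTactic false
set_option linter.unreachableTactic false
set_option linter.unnecessarySeqFocus false

namespace Claimed.Agent.R291

open Claims Claims.C0467 Set Metric Filter Topology
open scoped ComplexConjugate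

/-! ## 1. the three normals, the families, the displacement table -/

/-- the three reflection normals TEX (pins:three-normals) -/
noncomputable def pinE : ℂ := ⟨0, 1⟩
noncomputable def pinU : ℂ := ⟨Real.sqrt 3 / 2, 1 / 2⟩
noncomputable def pinU' : ℂ := ⟨-(Real.sqrt 3 / 2), 1 / 2⟩

theorem pin_pc_dot_E (z : ℝ × ℝ) : pinDot (pinC z) pinE = z.2 := by simp [pinDot, pinC, pinE]
theorem pin_pc_dot_U (z : ℝ × ℝ) : pinDot (pinC z) pinU = pinGeoU z := by simp [pinDot, pinC, pinU, pinGeoU]; ring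
theorem pin_pc_dot_U' (z : ℝ × ℝ) : pinDot (pinC z) pinU' = pinGeoU' z := by simp [pinDot, pinC, pinU', pinGeoU']; ring

theorem pin_pc_EE : pinDot pinE pinE = 1 := by simp [pinDot, pinE]
theorem pin_pc_UU : pinDot pinU pinU = 1 := by simp only [pinDot, pinU]; nlinarith [hg_sqrt3_sq]
theorem pin_pc_UU' : pinDot pinU' pinU' = 1 := by simp only [pinDot, pinU']; nlinarith [hg_sqrt3_sq]
theorem pin_pc_EU : pinDot pinE pinU = 1 / 2 := by simp [pinDot, pinE, pinU]
theorem pin_pc_UE : pinDot pinU pinE = 1 / 2 := by simp [pinDot, pinE, pinU]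
theorem pin_pc_EU' : pinDot pinE pinU' = 1 / 2 := by simp [pinDot, pinE, pinU']
theorem pin_pc_U'E : pinDot pinU' pinE = 1 / 2 := by simp [pinDot, pinE, pinU']
theorem pin_pc_UU'' : pinDot pinU pinU' = -(1 / 2) := by simp only [pinDot, pinU, pinU']; nlinarith [hg_sqrt3_sq]
theorem pin_pc_U'U : pinDot pinU' pinU = -(1 / 2) := by simp only [pinDot, pinU, pinU']; nlinarith [hg_sqrt3_sq]

theorem pin_pc_norm_of_dot {n : ℂ} (h : pinDot n n = 1) : ‖n‖ = 1 := by
  rw [pin_sh_dot_self] at h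
  exact (pow_eq_one_iff_of_nonneg (norm_nonneg n) (by norm_num)).1 h

theorem pin_pc_norm_E : ‖pinE‖ = 1 := pin_pc_norm_of_dot pin_pc_EE
theorem pin_pc_norm_U : ‖pinU‖ = 1 := pin_pc_norm_of_dot pin_pc_UU
theorem pin_pc_norm_U' : ‖pinU'‖ = 1 := pin_pc_norm_of_dot pin_pc_UU'

theorem pin_pc_dot_neg (a n : ℂ) : pinDot a (-n) = -pinDot a n := by
  simp only [pinDot, Complex.neg_re, Complex.neg_im]; ring

/-- the families: top, bottom, left, right, and the core `K` (the insertion disk, which never moves) -/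
inductive PinKind
  | T | B | L | R | K
  deriving DecidableEq

/-- physical displacement of a family under the five moves `(a₊, a₋, b, c, d)`      TEX[pins:three-moves] -/
noncomputable def pinTau (a : Fin 5 → ℝ) : PinKind → ℂ
  | .T => (a 0 : ℂ) * pinE + (a 2 : ℂ) * pinU
  | .R => (a 2 : ℂ) * pinU
  | .B => -((a 1 : ℂ) * pinE) - (a 3 : ℂ) * pinU + (a 4 : ℂ) * pinU'
  | .L => -((a 3 : ℂ) * pinU) + (a 4 : ℂ) * pinU'
  | .K => 0

/-- the lattice vectors of the normal steps: `√3 δ e`, `√3 δ u`, `√3 δ u'` -/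
def pinVe : TV := (-1, 2)
def pinVu : TV := (1, 1)
def pinVu' : TV := (-2, 1)

/-- lattice displacement of a family under the numbers of steps `k` -/
def pinDisp (k : Fin 5 → ℕ) : PinKind → TV
  | .T => (k 0 : ℤ) • pinVe + (k 2 : ℤ) • pinVu
  | .R => (k 2 : ℤ) • pinVu
  | .B => -((k 1 : ℤ) • pinVe) - (k 3 : ℤ) • pinVu + (k 4 : ℤ) • pinVu'
  | .L => -((k 3 : ℤ) • pinVu) + (k 4 : ℤ) • pinVu'
  | .K => 0

theorem pin_pc_P_lin (δ : ℝ) (u : TV) : pinP δ u = ((δ * ((u.1 : ℝ) + (u.2 : ℝ) / 2) : ℝ) : ℂ) + ((δ * ((u.2 : ℝ) * Real.sqrt 3 / 2) : ℝ) : ℂ) * Complex.I := by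
  apply Complex.ext <;> simp [pinP, pinC, triPos]

/-- the lattice displacement realises the physical one, with `a i = k i * (√3 δ)` -/
theorem pin_pc_disp (δ : ℝ) (k : Fin 5 → ℕ) (f : PinKind) :
    pinP δ (pinDisp k f) = pinTau (fun i => (k i : ℝ) * (Real.sqrt 3 * δ)) f := by
  have h3 := hg_sqrt3_sq
  have hx : ∀ x : ℝ, x * (Real.sqrt 3 * δ) * (Real.sqrt 3 / 2) = x * δ * (3 / 2) := fun x => by
    linear_combination (x * δ / 2) * h3
  cases f <;> apply Complex.ext <;>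
    simp [pinP, pinC, triPos, pinDisp, pinTau, pinVe, pinVu, pinVu', pinE, pinU, pinU'] <;> (try simp only [hx]) <;> ring

/-! ## 2. projections of the displacements, the scene, the thresholds -/

theorem pin_pc_dot_neg_left (a n : ℂ) : pinDot (-a) n = -pinDot a n := by
  simp only [pinDot, Complex.neg_re, Complex.neg_im]; ring

theorem pin_pc_dot_zero (n : ℂ) : pinDot 0 n = 0 := by simp [pinDot]

/-- the shifts of the three projections -/
noncomputable def pinShE (a : Fin 5 → ℝ) : PinKind → ℝ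
  | .T => a 0 + a 2 / 2
  | .R => a 2 / 2
  | .B => -a 1 - a 3 / 2 + a 4 / 2
  | .L => -(a 3 / 2) + a 4 / 2
  | .K => 0
noncomputable def pinShU (a : Fin 5 → ℝ) : PinKind → ℝ
  | .T => a 0 / 2 + a 2
  | .R => a 2
  | .B => -(a 1 / 2) - a 3 - a 4 / 2
  | .L => -a 3 - a 4 / 2
  | .K => 0
noncomputable def pinShU' (a : Fin 5 → ℝ) : PinKind → ℝ
  | .T => a 0 / 2 - a 2 / 2
  | .R => -(a 2 / 2)
  | .B => -(a 1 / 2) + a 3 / 2 + a 4
  | .L => a 3 / 2 + a 4
  | .K => 0

theorem pin_pc_tau_E (a : Fin 5 → ℝ) (f : PinKind) : pinDot (pinTau a f) pinE = pinShE a f := by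
  cases f <;> simp only [pinTau, pinShE, pin_sh_dot_add, pin_sh_dot_sub, pin_pc_dot_neg_left, pin_sh_dot_smul, pin_pc_dot_zero,
    pin_pc_EE, pin_pc_UE, pin_pc_U'E] <;> ring

theorem pin_pc_tau_U (a : Fin 5 → ℝ) (f : PinKind) : pinDot (pinTau a f) pinU = pinShU a f := by
  cases f <;> simp only [pinTau, pinShU, pin_sh_dot_add, pin_sh_dot_sub, pin_pc_dot_neg_left, pin_sh_dot_smul, pin_pc_dot_zero,
    pin_pc_EU, pin_pc_UU, pin_pc_U'U] <;> ring

theorem pin_pc_tau_U' (a : Fin 5 → ℝ) (f : PinKind) : pinDot (pinTau a f) pinU' = pinShU' a f := by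
  cases f <;> simp only [pinTau, pinShU', pin_sh_dot_add, pin_sh_dot_sub, pin_pc_dot_neg_left, pin_sh_dot_smul, pin_pc_dot_zero,
    pin_pc_EU', pin_pc_UU'', pin_pc_UU'] <;> ring

/-- **the scene** = the strict geometry TEX (pins:middle-geometry) in projections: `obj f` = union of the (enlarged) supports of the family `f`; `M` bounds all projections -/
structure PinSc (M κ ρ U0 lm lp : ℝ) (obj : PinKind → Set ℂ) : Prop where
  κ0 : 0 < κ
  ρ0 : 0 < ρ
  lml : lm ≤ lp
  U0M : |U0| + ρ ≤ M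
  lpM : |lp| + κ ≤ M
  lmM : |lm| + κ ≤ M
  bdE : ∀ f, ∀ p ∈ obj f, |pinDot p pinE| ≤ M
  bdU : ∀ f, ∀ p ∈ obj f, |pinDot p pinU| ≤ M
  bdU' : ∀ f, ∀ p ∈ obj f, |pinDot p pinU'| ≤ M
  T : ∀ p ∈ obj .T, lp + κ ≤ pinDot p pinE
  B : ∀ p ∈ obj .B, pinDot p pinE ≤ lm - κ
  mid : ∀ f, f ≠ .T → f ≠ .B → ∀ p ∈ obj f, lm + κ ≤ pinDot p pinE ∧ pinDot p pinE ≤ lp - κ
  R : ∀ p ∈ obj .R, U0 + ρ / 2 ≤ pinDot p pinU
  L : ∀ p ∈ obj .L, pinDot p pinU ≤ U0 - ρ / 2
  K : ∀ p ∈ obj .K, |pinDot p pinU - U0| ≤ ρ / 4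

/-- the thresholds of the five moves (each depends on the earlier moves only) -/
def pinThr (M : ℝ) (i : Fin 5) (a : Fin 5 → ℝ) : ℝ :=
  ![4 * M, 4 * M, 4 * M + a 0, 4 * M + a 1, 4 * M + 2 * a 1 + a 3] i

theorem pin_pc_thr0 (M : ℝ) (a : Fin 5 → ℝ) : pinThr M 0 a = 4 * M := rfl
theorem pin_pc_thr1 (M : ℝ) (a : Fin 5 → ℝ) : pinThr M 1 a = 4 * M := rfl
theorem pin_pc_thr2 (M : ℝ) (a : Fin 5 → ℝ) : pinThr M 2 a = 4 * M + a 0 := rfl
theorem pin_pc_thr3 (M : ℝ) (a : Fin 5 → ℝ) : pinThr M 3 a = 4 * M + a 1 := rfl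
theorem pin_pc_thr4 (M : ℝ) (a : Fin 5 → ℝ) : pinThr M 4 a = 4 * M + 2 * a 1 + a 3 := rfl

/-- hypothesis `hthr` of `pin_cont_moves` -/
theorem pin_pc_thr_dep (M : ℝ) (i : Fin 5) (a a' : Fin 5 → ℝ) (h : ∀ l : Fin 5, l < i → a l = a' l) : pinThr M i a = pinThr M i a' := by
  fin_cases i
  · rfl
  · rfl
  · show 4 * M + a 0 = 4 * M + a' 0
    rw [h 0 (by decide)]
  · show 4 * M + a 1 = 4 * M + a' 1
    rw [h 1 (by decide)]
  · show 4 * M + 2 * a 1 + a 3 = 4 * M + 2 * a' 1 + a' 3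
    rw [h 1 (by decide), h 3 (by decide)]

/-- the placement `a` is admissible at the stage `j` with the margin `μ`: the first `j` moves are beyond their thresholds, the others are absent -/
structure PinAdm (M μ : ℝ) (a : Fin 5 → ℝ) (j : ℕ) : Prop where
  nn : ∀ i, 0 ≤ a i
  big : ∀ i : Fin 5, i.val < j → pinThr M i a + 2 * μ ≤ a i
  zero : ∀ i : Fin 5, j ≤ i.val → a i = 0

/-- the family moved by the move `j` -/
def pinMov (j : Fin 5) (f : PinKind) : Prop :=
  ![f = .T, f = .B, f = .T ∨ f = .R, f = .B ∨ f = .L, f = .B ∨ f = .L] j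

/-- the direction of the move `j` -/
noncomputable def pinDir (j : Fin 5) : ℂ := ![pinE, -pinE, pinU, -pinU, pinU'] j

theorem pin_pc_norm_dir (j : Fin 5) : ‖pinDir j‖ = 1 := by
  fin_cases j
  · exact pin_pc_norm_E
  · show ‖-pinE‖ = 1
    rw [norm_neg]; exact pin_pc_norm_E
  · exact pin_pc_norm_U
  · show ‖-pinU‖ = 1
    rw [norm_neg]; exact pin_pc_norm_U
  · exact pin_pc_norm_U'

open Classical in
/-- the move `j` translates the moving family by `s` in the direction `pinDir j` -/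
theorem pin_pc_tau_update (a : Fin 5 → ℝ) (j : Fin 5) (s : ℝ) (f : PinKind) :
    pinTau (Function.update a j (a j + s)) f = pinTau a f + if pinMov j f then (s : ℂ) * pinDir j else 0 := by
  fin_cases j <;> cases f <;> simp [pinTau, pinMov, pinDir, Function.update] <;> ring

/-! ## 3. the levels and the gaps -/

/-- family dependent bounds of the projections on `e` and `u` -/
def pinLoE (M κ lm lp : ℝ) : PinKind → ℝ
  | .T => lp + κ
  | .B => -M
  | _ => lm + κ
def pinHiE (M κ lm lp : ℝ) : PinKind → ℝ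
  | .T => M
  | .B => lm - κ
  | _ => lp - κ
noncomputable def pinLoU (M ρ U0 : ℝ) : PinKind → ℝ
  | .R => U0 + ρ / 2
  | .K => U0 - ρ / 4
  | _ => -M
noncomputable def pinHiU (M ρ U0 : ℝ) : PinKind → ℝ
  | .L => U0 - ρ / 2
  | .K => U0 + ρ / 4
  | _ => M

/-- all the information of the scene on a point of the family `f`, in a uniform shape -/
theorem PinSc.info {M κ ρ U0 lm lp : ℝ} {obj : PinKind → Set ℂ} (hS : PinSc M κ ρ U0 lm lp obj) (f : PinKind) {p : ℂ} (hp : p ∈ obj f) :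
    (-M ≤ pinDot p pinE ∧ pinDot p pinE ≤ M) ∧ (-M ≤ pinDot p pinU ∧ pinDot p pinU ≤ M) ∧ (-M ≤ pinDot p pinU' ∧ pinDot p pinU' ≤ M) ∧
    (pinLoE M κ lm lp f ≤ pinDot p pinE ∧ pinDot p pinE ≤ pinHiE M κ lm lp f) ∧
    (pinLoU M ρ U0 f ≤ pinDot p pinU ∧ pinDot p pinU ≤ pinHiU M ρ U0 f) := by
  have hE := abs_le.1 (hS.bdE f p hp)
  have hU := abs_le.1 (hS.bdU f p hp)
  refine ⟨hE, hU, abs_le.1 (hS.bdU' f p hp), ?_, ?_⟩
  · cases f
    · exact ⟨hS.T p hp, hE.2⟩
    · exact ⟨hE.1, hS.B p hp⟩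
    · exact hS.mid _ (by simp) (by simp) p hp
    · exact hS.mid _ (by simp) (by simp) p hp
    · exact hS.mid _ (by simp) (by simp) p hp
  · cases f
    · exact hU
    · exact hU
    · exact ⟨hU.1, hS.L p hp⟩
    · exact ⟨hS.R p hp, hU.2⟩
    · have := abs_le.1 (hS.K p hp)
      exact ⟨by simp only [pinLoU]; linarith [this.1], by simp only [pinHiU]; linarith [this.2]⟩

/-- the margin of all the gaps -/
noncomputable def pinMg (κ ρ μ : ℝ) : ℝ := min (min (2 * κ) (ρ / 4)) μ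

theorem pin_pc_mg_pos {κ ρ μ : ℝ} (hκ : 0 < κ) (hρ : 0 < ρ) (hμ : 0 < μ) : 0 < pinMg κ ρ μ :=
  lt_min (lt_min (by positivity) (by positivity)) hμ

/-- the level of the gap of the move `j` in the projection on `pinDir j`: IT DOES NOT DEPEND ON THE PLACEMENT -/
noncomputable def pinLev (M κ ρ U0 lm lp : ℝ) (j : Fin 5) : ℝ := ![lp - κ, -lm - κ, U0 + ρ / 4, -U0 + ρ / 4, M] j

/-- **the gap of the move `j`**: at every placement admissible at the stage `j` the families which do not move (and the core) are below the level, the moving families are above the level plus the margin -/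
theorem pin_pc_gap {M κ ρ U0 lm lp μ : ℝ} {obj : PinKind → Set ℂ} (hS : PinSc M κ ρ U0 lm lp obj) (hμ : 0 ≤ μ) {a : Fin 5 → ℝ} {j : Fin 5}
    (ha : PinAdm M μ a j.val) (f : PinKind) {p : ℂ} (hp : p ∈ obj f) :
    (¬ pinMov j f → pinDot (p + pinTau a f) (pinDir j) ≤ pinLev M κ ρ U0 lm lp j) ∧
    (pinMov j f → pinLev M κ ρ U0 lm lp j + pinMg κ ρ μ ≤ pinDot (p + pinTau a f) (pinDir j)) := by
  obtain ⟨m, hm⟩ : ∃ m, m = pinMg κ ρ μ := ⟨_, rfl⟩
  rw [← hm]
  have m1 : m ≤ 2 * κ := by rw [hm]; exact (min_le_left _ _).trans (min_le_left _ _)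
  have m2 : m ≤ ρ / 4 := by rw [hm]; exact (min_le_left _ _).trans (min_le_right _ _)
  have m3 : m ≤ μ := by rw [hm]; exact min_le_right _ _
  obtain ⟨⟨pe1, pe2⟩, ⟨pu1, pu2⟩, ⟨pv1, pv2⟩, ⟨pe3, pe4⟩, ⟨pu3, pu4⟩⟩ := hS.info f hp
  have hκ := hS.κ0
  have hρ := hS.ρ0
  have hl := hS.lml
  obtain ⟨hU1, hU2⟩ := abs_le.1 (show |U0| ≤ M - ρ by linarith [hS.U0M])
  obtain ⟨hp1, hp2⟩ := abs_le.1 (show |lp| ≤ M - κ by linarith [hS.lpM])
  obtain ⟨hm1, hm2⟩ := abs_le.1 (show |lm| ≤ M - κ by linarith [hS.lmM])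
  have n0 := ha.nn 0
  have n1 := ha.nn 1
  have n2 := ha.nn 2
  have n3 := ha.nn 3
  have n4 := ha.nn 4
  fin_cases j
  · have z0 := ha.zero 0 (by simp)
    have z1 := ha.zero 1 (by simp)
    have z2 := ha.zero 2 (by simp)
    have z3 := ha.zero 3 (by simp)
    have z4 := ha.zero 4 (by simp)
    show (_ → pinDot _ pinE ≤ lp - κ) ∧ (_ → lp - κ + m ≤ pinDot _ pinE)
    rw [pin_sh_dot_add, pin_pc_tau_E]
    constructor <;> intro hf <;> cases f <;> first
      | (exfalso; simp [pinMov] at hf; done)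
      | (simp only [pinShE, pinLoE, pinHiE, pinLoU, pinHiU] at *; linarith)
  · have b0 := ha.big 0 (by simp)
    have z1 := ha.zero 1 (by simp)
    have z2 := ha.zero 2 (by simp)
    have z3 := ha.zero 3 (by simp)
    have z4 := ha.zero 4 (by simp)
    show (_ → pinDot _ (-pinE) ≤ -lm - κ) ∧ (_ → -lm - κ + m ≤ pinDot _ (-pinE))
    rw [pin_pc_dot_neg, pin_sh_dot_add, pin_pc_tau_E]
    constructor <;> intro hf <;> cases f <;> first
      | (exfalso; simp [pinMov] at hf; done)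
      | (simp only [pinShE, pinLoE, pinHiE, pinLoU, pinHiU] at *; linarith)
  · have b0 := ha.big 0 (by simp)
    have b1 := ha.big 1 (by simp)
    have z2 := ha.zero 2 (by simp)
    have z3 := ha.zero 3 (by simp)
    have z4 := ha.zero 4 (by simp)
    rw [pin_pc_thr0] at b0
    rw [pin_pc_thr1] at b1
    show (_ → pinDot _ pinU ≤ U0 + ρ / 4) ∧ (_ → U0 + ρ / 4 + m ≤ pinDot _ pinU)
    rw [pin_sh_dot_add, pin_pc_tau_U]
    constructor <;> intro hf <;> cases f <;> first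
      | (exfalso; simp [pinMov] at hf; done)
      | (simp only [pinShU, pinLoE, pinHiE, pinLoU, pinHiU] at *; linarith)
  · have b0 := ha.big 0 (by simp)
    have b1 := ha.big 1 (by simp)
    have b2 := ha.big 2 (by simp)
    have z3 := ha.zero 3 (by simp)
    have z4 := ha.zero 4 (by simp)
    rw [pin_pc_thr0] at b0
    rw [pin_pc_thr1] at b1
    rw [pin_pc_thr2] at b2
    show (_ → pinDot _ (-pinU) ≤ -U0 + ρ / 4) ∧ (_ → -U0 + ρ / 4 + m ≤ pinDot _ (-pinU))
    rw [pin_pc_dot_neg, pin_sh_dot_add, pin_pc_tau_U]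
    constructor <;> intro hf <;> cases f <;> first
      | (exfalso; simp [pinMov] at hf; done)
      | (simp only [pinShU, pinLoE, pinHiE, pinLoU, pinHiU] at *; linarith)
  · have b0 := ha.big 0 (by simp)
    have b1 := ha.big 1 (by simp)
    have b2 := ha.big 2 (by simp)
    have b3 := ha.big 3 (by simp)
    have z4 := ha.zero 4 (by simp)
    rw [pin_pc_thr0] at b0
    rw [pin_pc_thr1] at b1
    rw [pin_pc_thr2] at b2
    rw [pin_pc_thr3] at b3
    show (_ → pinDot _ pinU' ≤ M) ∧ (_ → M + m ≤ pinDot _ pinU')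
    rw [pin_sh_dot_add, pin_pc_tau_U']
    constructor <;> intro hf <;> cases f <;> first
      | (exfalso; simp [pinMov] at hf; done)
      | (simp only [pinShU', pinLoE, pinHiE, pinLoU, pinHiU] at *; linarith)

/-- **the final placement**: the core is below the level `lp - κ`, every other family is above it by the margin, in the vertical projection -/
theorem pin_pc_final {M κ ρ U0 lm lp μ : ℝ} {obj : PinKind → Set ℂ} (hS : PinSc M κ ρ U0 lm lp obj) (hμ : 0 ≤ μ) {a : Fin 5 → ℝ}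
    (ha : PinAdm M μ a 5) (f : PinKind) {p : ℂ} (hp : p ∈ obj f) :
    (f = .K → pinDot (p + pinTau a f) pinE ≤ lp - κ) ∧ (f ≠ .K → lp - κ + pinMg κ ρ μ ≤ pinDot (p + pinTau a f) pinE) := by
  obtain ⟨m, hm⟩ : ∃ m, m = pinMg κ ρ μ := ⟨_, rfl⟩
  rw [← hm]
  have m1 : m ≤ 2 * κ := by rw [hm]; exact (min_le_left _ _).trans (min_le_left _ _)
  have m3 : m ≤ μ := by rw [hm]; exact min_le_right _ _
  obtain ⟨⟨pe1, pe2⟩, ⟨pu1, pu2⟩, ⟨pv1, pv2⟩, ⟨pe3, pe4⟩, ⟨pu3, pu4⟩⟩ := hS.info f hp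
  have hκ := hS.κ0
  have hl := hS.lml
  obtain ⟨hp1, hp2⟩ := abs_le.1 (show |lp| ≤ M - κ by linarith [hS.lpM])
  obtain ⟨hm1, hm2⟩ := abs_le.1 (show |lm| ≤ M - κ by linarith [hS.lmM])
  have n0 := ha.nn 0
  have n1 := ha.nn 1
  have n2 := ha.nn 2
  have n3 := ha.nn 3
  have n4 := ha.nn 4
  have b0 := ha.big 0 (by simp)
  have b1 := ha.big 1 (by simp)
  have b2 := ha.big 2 (by simp)
  have b3 := ha.big 3 (by simp)
  have b4 := ha.big 4 (by simp)
  rw [pin_pc_thr0] at b0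
  rw [pin_pc_thr1] at b1
  rw [pin_pc_thr2] at b2
  rw [pin_pc_thr3] at b3
  rw [pin_pc_thr4] at b4
  rw [pin_sh_dot_add, pin_pc_tau_E]
  constructor <;> intro hf <;> cases f <;> first
    | (exfalso; simp at hf; done)
    | (simp only [pinShE, pinLoE, pinHiE, pinLoU, pinHiU] at *; linarith)

/-! ## 4. every pair of families is separated at every admissible placement -/

theorem pin_pc_dot_diff (p q s t n : ℂ) : pinDot ((p + s) - (q + t)) n = pinDot p n + pinDot s n - pinDot q n - pinDot t n := by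
  rw [pin_sh_dot_sub, pin_sh_dot_add, pin_sh_dot_add]; ring

theorem pin_pc_sepE {p q s t : ℂ} {c : ℝ} (h : c ≤ pinDot p pinE + pinDot s pinE - pinDot q pinE - pinDot t pinE) : c ≤ dist (p + s) (q + t) :=
  pin_sh_dot_dist pin_pc_norm_E.le (by rw [pin_pc_dot_diff]; exact h)

theorem pin_pc_sepU {p q s t : ℂ} {c : ℝ} (h : c ≤ pinDot p pinU + pinDot s pinU - pinDot q pinU - pinDot t pinU) : c ≤ dist (p + s) (q + t) :=
  pin_sh_dot_dist pin_pc_norm_U.le (by rw [pin_pc_dot_diff]; exact h)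

/-- one half of the table (the first family is the higher one) -/
theorem pin_pc_pair_aux {M κ ρ U0 lm lp μ : ℝ} {obj : PinKind → Set ℂ} (hS : PinSc M κ ρ U0 lm lp obj) (hμ : 0 ≤ μ) {a : Fin 5 → ℝ} {j : ℕ}
    (ha : PinAdm M μ a j) {f g : PinKind} (hfg : f ≠ g) {p q : ℂ} (hp : p ∈ obj f) (hq : q ∈ obj g) :
    pinMg κ ρ μ ≤ dist (p + pinTau a f) (q + pinTau a g) ∨ pinMg κ ρ μ ≤ dist (q + pinTau a g) (p + pinTau a f) := by
  obtain ⟨m, hm⟩ : ∃ m, m = pinMg κ ρ μ := ⟨_, rfl⟩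
  rw [← hm]
  have m1 : m ≤ 2 * κ := by rw [hm]; exact (min_le_left _ _).trans (min_le_left _ _)
  have m2 : m ≤ ρ / 4 := by rw [hm]; exact (min_le_left _ _).trans (min_le_right _ _)
  have m3 : m ≤ μ := by rw [hm]; exact min_le_right _ _
  obtain ⟨⟨pe1, pe2⟩, ⟨pu1, pu2⟩, -, ⟨pe3, pe4⟩, ⟨pu3, pu4⟩⟩ := hS.info f hp
  obtain ⟨⟨qe1, qe2⟩, ⟨qu1, qu2⟩, -, ⟨qe3, qe4⟩, ⟨qu3, qu4⟩⟩ := hS.info g hq
  have hκ := hS.κ0
  have hρ := hS.ρ0
  have hl := hS.lml
  obtain ⟨hU1, hU2⟩ := abs_le.1 (show |U0| ≤ M - ρ by linarith [hS.U0M])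
  have n0 := ha.nn 0
  have n1 := ha.nn 1
  have n2 := ha.nn 2
  have n3 := ha.nn 3
  have n4 := ha.nn 4
  by_cases h4 : a 4 = 0
  · -- the last move is absent: the vertical order `B < L, K, R < T` and the order `L < K < R` in the projection on `u` survive
    cases f <;> cases g <;> first
      | exact absurd rfl hfg
      | (left; apply pin_pc_sepE; rw [pin_pc_tau_E, pin_pc_tau_E]; simp only [pinShE, pinLoE, pinHiE, pinLoU, pinHiU] at *; linarith)
      | (right; apply pin_pc_sepE; rw [pin_pc_tau_E, pin_pc_tau_E]; simp only [pinShE, pinLoE, pinHiE, pinLoU, pinHiU] at *; linarith)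
      | (left; apply pin_pc_sepU; rw [pin_pc_tau_U, pin_pc_tau_U]; simp only [pinShU, pinLoE, pinHiE, pinLoU, pinHiU] at *; linarith)
      | (right; apply pin_pc_sepU; rw [pin_pc_tau_U, pin_pc_tau_U]; simp only [pinShU, pinLoE, pinHiE, pinLoU, pinHiU] at *; linarith)
  · -- the last move is present: all the moves are admissible
    have hj : 4 < j := by
      by_contra hc
      exact h4 (ha.zero 4 (by simpa using hc))
    have b0 := ha.big 0 (by simp; omega)
    have b1 := ha.big 1 (by simp; omega)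
    rw [pin_pc_thr0] at b0
    rw [pin_pc_thr1] at b1
    cases f <;> cases g <;> first
      | exact absurd rfl hfg
      | (left; apply pin_pc_sepU; rw [pin_pc_tau_U, pin_pc_tau_U]; simp only [pinShU, pinLoE, pinHiE, pinLoU, pinHiU] at *; linarith)
      | (right; apply pin_pc_sepU; rw [pin_pc_tau_U, pin_pc_tau_U]; simp only [pinShU, pinLoE, pinHiE, pinLoU, pinHiU] at *; linarith)
      | (left; apply pin_pc_sepE; rw [pin_pc_tau_E, pin_pc_tau_E]; simp only [pinShE, pinLoE, pinHiE, pinLoU, pinHiU] at *; linarith)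
      | (right; apply pin_pc_sepE; rw [pin_pc_tau_E, pin_pc_tau_E]; simp only [pinShE, pinLoE, pinHiE, pinLoU, pinHiU] at *; linarith)

/-- **two different families are at the distance `≥ pinMg` at every admissible placement, at every stage** -/
theorem pin_pc_pair {M κ ρ U0 lm lp μ : ℝ} {obj : PinKind → Set ℂ} (hS : PinSc M κ ρ U0 lm lp obj) (hμ : 0 ≤ μ) {a : Fin 5 → ℝ} {j : ℕ}
    (ha : PinAdm M μ a j) {f g : PinKind} (hfg : f ≠ g) {p q : ℂ} (hp : p ∈ obj f) (hq : q ∈ obj g) :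
    pinMg κ ρ μ ≤ dist (p + pinTau a f) (q + pinTau a g) := by
  rcases pin_pc_pair_aux hS hμ ha hfg hp hq with h | h
  · exact h
  · rwa [dist_comm]

/-! ## 5. dictionary: lattice rotations, translations, the reflection `latRefl`  <->  isometries of the plane -/

/-- multiplication by a unit complex number -/
noncomputable def pinMul (w : ℂ) (hw : ‖w‖ = 1) : ℂ ≃ᵢ ℂ where
  toFun z := w * z
  invFun z := conj w * z
  left_inv z := by
    show conj w * (w * z) = z
    rw [← mul_assoc, mul_comm (conj w), Complex.mul_conj, Complex.normSq_eq_norm_sq, hw]; simp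
  right_inv z := by
    show w * (conj w * z) = z
    rw [← mul_assoc, Complex.mul_conj, Complex.normSq_eq_norm_sq, hw]; simp
  isometry_toFun := Isometry.of_dist_eq fun a b => by
    rw [dist_eq_norm, ← mul_sub, norm_mul, hw, one_mul, dist_eq_norm]

/-- the rotation which sends the unit vector `n` to `i` -/
def pinWd (n : ℂ) : ℂ := ⟨n.im, n.re⟩

theorem pin_pc_wd_norm (n : ℂ) : ‖pinWd n‖ = ‖n‖ := by
  have h : ‖pinWd n‖ ^ 2 = ‖n‖ ^ 2 := by
    rw [← Complex.normSq_eq_norm_sq, ← Complex.normSq_eq_norm_sq, Complex.normSq_apply, Complex.normSq_apply]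
    simp only [pinWd]; ring
  exact (sq_eq_sq₀ (norm_nonneg _) (norm_nonneg _)).1 h

theorem pin_pc_wd_im (n p : ℂ) : (pinWd n * p).im = pinDot p n := by
  simp only [pinWd, pinDot, Complex.mul_im]; ring

/-- the lattice rotation which sends the direction of the move `j` to the vertical direction: a power of `latRot` -/
def pinLr (j : Fin 5) : TV → TV := latRot^[![0, 3, 1, 4, 5] j]

theorem pin_pc_lr0 (u : TV) : pinLr 0 u = u := rfl
theorem pin_pc_lr1 (u : TV) : pinLr 1 u = -u := by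
  show latRot (latRot (latRot u)) = -u
  ext <;> simp [latRot]
theorem pin_pc_lr2 (u : TV) : pinLr 2 u = (-u.2, u.1 + u.2) := rfl
theorem pin_pc_lr3 (u : TV) : pinLr 3 u = (u.2, -u.1 - u.2) := by
  show latRot (latRot (latRot (latRot u))) = _
  ext <;> simp [latRot] <;> ring
theorem pin_pc_lr4 (u : TV) : pinLr 4 u = (u.1 + u.2, -u.1) := by
  show latRot (latRot (latRot (latRot (latRot u)))) = _
  ext <;> simp [latRot] <;> ring

theorem pin_pc_lr_add (j : Fin 5) (u v : TV) : pinLr j (u + v) = pinLr j u + pinLr j v := by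
  fin_cases j
  · rfl
  · show pinLr 1 _ = pinLr 1 _ + pinLr 1 _
    simp only [pin_pc_lr1]; abel
  · show pinLr 2 _ = pinLr 2 _ + pinLr 2 _
    simp only [pin_pc_lr2]; ext <;> simp <;> ring
  · show pinLr 3 _ = pinLr 3 _ + pinLr 3 _
    simp only [pin_pc_lr3]; ext <;> simp <;> ring
  · show pinLr 4 _ = pinLr 4 _ + pinLr 4 _
    simp only [pin_pc_lr4]; ext <;> simp <;> ring

theorem pin_pc_P_re (δ : ℝ) (u : TV) : (pinP δ u).re = δ * ((u.1 : ℝ) + (u.2 : ℝ) / 2) := rfl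
theorem pin_pc_P_im (δ : ℝ) (u : TV) : (pinP δ u).im = δ * ((u.2 : ℝ) * Real.sqrt 3 / 2) := rfl

/-- the lattice rotation is the rotation of the plane -/
theorem pin_pc_P_lr (δ : ℝ) (j : Fin 5) (u : TV) : pinP δ (pinLr j u) = pinWd (pinDir j) * pinP δ u := by
  have h3 := hg_sqrt3_sq
  fin_cases j
  · show pinP δ (pinLr 0 u) = pinWd pinE * _
    rw [pin_pc_lr0]
    apply Complex.ext <;> simp [pinWd, pinE]
  · show pinP δ (pinLr 1 u) = pinWd (-pinE) * _
    rw [pin_pc_lr1]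
    apply Complex.ext <;> simp [pinWd, pinE, pin_pc_P_re, pin_pc_P_im] <;> ring
  · show pinP δ (pinLr 2 u) = pinWd pinU * _
    rw [pin_pc_lr2]
    apply Complex.ext
    · simp only [pinWd, pinU, pin_pc_P_re, pin_pc_P_im, Complex.mul_re]
      push_cast
      linear_combination ((δ * (u.2 : ℝ) / 4)) * h3
    · simp only [pinWd, pinU, pin_pc_P_re, pin_pc_P_im, Complex.mul_im]
      push_cast
      ring
  · show pinP δ (pinLr 3 u) = pinWd (-pinU) * _
    rw [pin_pc_lr3]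
    apply Complex.ext
    · simp only [pinWd, pinU, pin_pc_P_re, pin_pc_P_im, Complex.mul_re, Complex.neg_re, Complex.neg_im]
      push_cast
      linear_combination (-(δ * (u.2 : ℝ) / 4)) * h3
    · simp only [pinWd, pinU, pin_pc_P_re, pin_pc_P_im, Complex.mul_im, Complex.neg_re, Complex.neg_im]
      push_cast
      ring
  · show pinP δ (pinLr 4 u) = pinWd pinU' * _
    rw [pin_pc_lr4]
    apply Complex.ext
    · simp only [pinWd, pinU', pin_pc_P_re, pin_pc_P_im, Complex.mul_re]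
      push_cast
      linear_combination (-(δ * (u.2 : ℝ) / 4)) * h3
    · simp only [pinWd, pinU', pin_pc_P_re, pin_pc_P_im, Complex.mul_im]
      push_cast
      ring

/-- the lattice reflection in the row `0` is the complex conjugation -/
theorem pin_pc_P_refl (δ : ℝ) (u : TV) : pinP δ (latRefl u) = conj (pinP δ u) := by
  apply Complex.ext
  · simp only [latRefl, pin_pc_P_re, Complex.conj_re]; push_cast; ring
  · simp only [latRefl, pin_pc_P_im, Complex.conj_im]; push_cast; ring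

/-- the complex conjugation as an isometry -/
noncomputable def pinCj : ℂ ≃ᵢ ℂ := Complex.conjLIE.toIsometryEquiv

theorem pin_pc_cj_apply (z : ℂ) : pinCj z = conj z := rfl

/-- **the lattice frame of the move `j` and of the row `r0`**: rotation, then the translation which sends the row `r0` to the row `0` -/
def pinLg (j : Fin 5) (r0 : ℤ) (u : TV) : TV := pinLr j u - (0, r0)

/-- the same frame in the plane -/
noncomputable def pinEg (δ : ℝ) (j : Fin 5) (r0 : ℤ) : ℂ ≃ᵢ ℂ :=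
  (pinMul (pinWd (pinDir j)) ((pin_pc_wd_norm _).trans (pin_pc_norm_dir j))).trans (IsometryEquiv.addRight (-pinP δ (0, r0)))

theorem pin_pc_eg_apply (δ : ℝ) (j : Fin 5) (r0 : ℤ) (p : ℂ) : pinEg δ j r0 p = pinWd (pinDir j) * p + -pinP δ (0, r0) := rfl

theorem pin_pc_P_neg (δ : ℝ) (u : TV) : pinP δ (-u) = -pinP δ u := by
  apply Complex.ext
  · simp only [pin_pc_P_re, Complex.neg_re, Prod.fst_neg, Prod.snd_neg]; push_cast; ring
  · simp only [pin_pc_P_im, Complex.neg_im, Prod.snd_neg]; push_cast; ring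

theorem pin_pc_P_lg (δ : ℝ) (j : Fin 5) (r0 : ℤ) (u : TV) : pinP δ (pinLg j r0 u) = pinEg δ j r0 (pinP δ u) := by
  rw [pin_pc_eg_apply, pinLg, sub_eq_add_neg, pin_sh_P_add, pin_pc_P_lr, pin_pc_P_neg]

/-- height above the row `r0` in the direction of the move `j` -/
theorem pin_pc_eg_im (δ : ℝ) (j : Fin 5) (r0 : ℤ) (p : ℂ) : (pinEg δ j r0 p).im = pinDot p (pinDir j) - Real.sqrt 3 / 2 * δ * r0 := by
  rw [pin_pc_eg_apply, Complex.add_im, pin_pc_wd_im, Complex.neg_im, pin_pc_P_im]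
  ring

/-- the row of a site in the frame -/
theorem pin_pc_lg_row (δ : ℝ) (j : Fin 5) (r0 : ℤ) (u : TV) : Real.sqrt 3 / 2 * δ * ((pinLg j r0 u).2 : ℝ) = (pinEg δ j r0 (pinP δ u)).im := by
  rw [← pin_pc_P_lg, pin_pc_P_im]; ring

/-- the lattice step of the move `j` -/
def pinStep (j : Fin 5) : TV := ![pinVe, -pinVe, pinVu, -pinVu, pinVu'] j

/-- in the frame, the step of the move `j` is the normal step `(-1, 2)` (`pinE2` of Pin/Tr) -/
theorem pin_pc_lr_step (j : Fin 5) : pinLr j (pinStep j) = (-1, 2) := by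
  fin_cases j
  · rfl
  · show pinLr 1 (-pinVe) = _
    rw [pin_pc_lr1]; rfl
  · rfl
  · show pinLr 3 (-pinVu) = _
    rw [pin_pc_lr3]; rfl
  · show pinLr 4 pinVu' = _
    rw [pin_pc_lr4]; rfl

theorem pin_pc_lr_zsmul (j : Fin 5) (m : ℤ) (v : TV) : pinLr j (m • v) = m • pinLr j v := by
  fin_cases j
  · rfl
  · show pinLr 1 _ = m • pinLr 1 _
    simp only [pin_pc_lr1, smul_neg]
  · show pinLr 2 _ = m • pinLr 2 _
    simp only [pin_pc_lr2]; ext <;> simp <;> ring
  · show pinLr 3 _ = m • pinLr 3 _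
    simp only [pin_pc_lr3]; ext <;> simp <;> ring
  · show pinLr 4 _ = m • pinLr 4 _
    simp only [pin_pc_lr4]; ext <;> simp <;> ring

theorem pin_pc_lg_step (j : Fin 5) (r0 : ℤ) (u : TV) (m : ℤ) : pinLg j r0 (u + m • pinStep j) = pinLg j r0 u + m • ((-1, 2) : TV) := by
  unfold pinLg
  rw [pin_pc_lr_add, pin_pc_lr_zsmul, pin_pc_lr_step]; abel

open Classical in
/-- the move `j` translates the moving families by lattice steps -/
theorem pin_pc_disp_update (k : Fin 5 → ℕ) (j : Fin 5) (m : ℕ) (f : PinKind) :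
    pinDisp (Function.update k j (k j + m)) f = pinDisp k f + if pinMov j f then (m : ℤ) • pinStep j else 0 := by
  fin_cases j <;> cases f <;> simp [pinDisp, pinMov, pinStep, Function.update, add_smul] <;> abel

/-! ## 6. a site row in every gap -/

/-- a row at the height `≈ c`: rows have the spacing `√3/2 δ` -/
theorem pin_pc_row {δ : ℝ} (hδ : 0 < δ) (c : ℝ) : ∃ r0 : ℤ, c ≤ Real.sqrt 3 / 2 * δ * r0 ∧ Real.sqrt 3 / 2 * δ * r0 ≤ c + Real.sqrt 3 / 2 * δ := by
  have h3 : 0 < Real.sqrt 3 / 2 * δ := by positivity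
  refine ⟨⌈c / (Real.sqrt 3 / 2 * δ)⌉, ?_, ?_⟩
  · have := Int.le_ceil (c / (Real.sqrt 3 / 2 * δ))
    rw [div_le_iff₀ h3] at this
    linarith
  · have := (Int.ceil_lt_add_one (c / (Real.sqrt 3 / 2 * δ))).le
    have h := mul_le_mul_of_nonneg_left this h3.le
    rw [mul_add, mul_div_cancel₀ _ h3.ne', mul_one] at h
    exact h

/-- **the frame of the move `j`** (`j < 5`).  At a placement admissible at the stage `j`, at a mesh `√3 δ ≤ m / 4`, `m = pinMg κ ρ μ`, for `N` backward steps with `N √3 δ ≤ m / 4`: there is a row `r0`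
(it depends on the scene, the margin and the mesh only) such that in the frame `pinEg δ j r0` the families which do not move are below `- m / 4` and the moving families above `m / 4 + N √3 δ`. -/
theorem pin_pc_stage {M κ ρ U0 lm lp μ : ℝ} {obj : PinKind → Set ℂ} (hS : PinSc M κ ρ U0 lm lp obj) (hμ : 0 ≤ μ) {δ : ℝ} (hδ : 0 < δ)
    (hδm : Real.sqrt 3 * δ ≤ pinMg κ ρ μ / 4) (j : Fin 5) :
    ∃ r0 : ℤ, ∀ a : Fin 5 → ℝ, PinAdm M μ a j.val → ∀ (f : PinKind), ∀ p ∈ obj f,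
      (¬ pinMov j f → (pinEg δ j r0 (p + pinTau a f)).im ≤ -(pinMg κ ρ μ / 4)) ∧
      (pinMov j f → ∀ s : ℝ, s ≤ pinMg κ ρ μ / 4 → pinMg κ ρ μ / 4 + s ≤ (pinEg δ j r0 (p + pinTau a f)).im) := by
  obtain ⟨r0, h1, h2⟩ := pin_pc_row hδ (pinLev M κ ρ U0 lm lp j + pinMg κ ρ μ / 4)
  refine ⟨r0, fun a ha f p hp => ?_⟩
  obtain ⟨g1, g2⟩ := pin_pc_gap hS hμ ha f hp
  rw [pin_pc_eg_im]
  refine ⟨fun hf => by linarith [g1 hf], fun hf s hs => by linarith [g2 hf]⟩

/-- **the frame of the final placement**: horizontal row, the core below `- m / 4`, all the other families above `m / 4` -/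
theorem pin_pc_stage_fin {M κ ρ U0 lm lp μ : ℝ} {obj : PinKind → Set ℂ} (hS : PinSc M κ ρ U0 lm lp obj) (hμ : 0 ≤ μ) {δ : ℝ} (hδ : 0 < δ)
    (hδm : Real.sqrt 3 * δ ≤ pinMg κ ρ μ / 4) :
    ∃ r0 : ℤ, ∀ a : Fin 5 → ℝ, PinAdm M μ a 5 → ∀ (f : PinKind), ∀ p ∈ obj f,
      (f = .K → (pinEg δ 0 r0 (p + pinTau a f)).im ≤ -(pinMg κ ρ μ / 4)) ∧
      (f ≠ .K → pinMg κ ρ μ / 4 ≤ (pinEg δ 0 r0 (p + pinTau a f)).im) := by
  obtain ⟨r0, h1, h2⟩ := pin_pc_row hδ (lp - κ + pinMg κ ρ μ / 4)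
  refine ⟨r0, fun a ha f p hp => ?_⟩
  obtain ⟨g1, g2⟩ := pin_pc_final hS hμ ha f hp
  rw [pin_pc_eg_im]
  have e : pinDir 0 = pinE := rfl
  rw [e]
  refine ⟨fun hf => by linarith [g1 hf], fun hf => by linarith [g2 hf]⟩

/-- lattice form of a height bound in a frame (upper side): the site is above the row `2 N` -/
theorem pin_pc_row_ge {δ : ℝ} (hδ : 0 < δ) {j : Fin 5} {r0 : ℤ} {u : TV} {N : ℕ} (h : (N : ℝ) * (Real.sqrt 3 * δ) ≤ (pinEg δ j r0 (pinP δ u)).im) :
    2 * (N : ℤ) ≤ (pinLg j r0 u).2 := by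
  rw [← pin_pc_lg_row] at h
  have h3 : 0 < Real.sqrt 3 / 2 * δ := by positivity
  have h' : Real.sqrt 3 / 2 * δ * ((2 * (N : ℤ) : ℤ) : ℝ) ≤ Real.sqrt 3 / 2 * δ * ((pinLg j r0 u).2 : ℝ) := by
    push_cast
    linarith
  exact_mod_cast le_of_mul_le_mul_left h' h3

/-- lattice form of a height bound in a frame (lower side) -/
theorem pin_pc_row_le {δ : ℝ} (hδ : 0 < δ) {j : Fin 5} {r0 : ℤ} {u : TV} (h : (pinEg δ j r0 (pinP δ u)).im ≤ 0) : (pinLg j r0 u).2 ≤ 0 := by
  rw [← pin_pc_lg_row] at h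
  have h3 : 0 < Real.sqrt 3 / 2 * δ := by positivity
  have h' : Real.sqrt 3 / 2 * δ * ((pinLg j r0 u).2 : ℝ) ≤ Real.sqrt 3 / 2 * δ * ((0 : ℤ) : ℝ) := by
    push_cast
    linarith
  exact_mod_cast le_of_mul_le_mul_left h' h3

/-- a set and the mirror image of a set on the same side of the real axis -/
theorem pin_pc_mirror {x y : ℂ} {c : ℝ} (hx : c ≤ x.im) (hy : c ≤ y.im) : 2 * c ≤ dist x (conj y) := by
  have h := Complex.abs_im_le_norm (x - conj y)
  rw [Complex.sub_im, Complex.conj_im] at h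
  rw [dist_eq_norm]
  linarith [le_abs_self (x.im - -y.im)]

theorem pin_pc_mirror' {x y : ℂ} {c : ℝ} (hx : x.im ≤ -c) (hy : y.im ≤ -c) : 2 * c ≤ dist x (conj y) := by
  have h := Complex.abs_im_le_norm (x - conj y)
  rw [Complex.sub_im, Complex.conj_im] at h
  rw [dist_eq_norm]
  linarith [neg_abs_le (x.im - -y.im)]

/-! ## 7. sequences of placements: the hypotheses of `pin_cont_moves` give uniform margins -/

theorem pin_pc_thr_tendsto (M : ℝ) (i : Fin 5) {a : Fin 5 → ℝ} {A : ℕ → Fin 5 → ℝ} (hA : ∀ i, Tendsto (fun n => A n i) atTop (𝓝 (a i))) :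
    Tendsto (fun n => pinThr M i (A n)) atTop (𝓝 (pinThr M i a)) := by
  fin_cases i
  · exact tendsto_const_nhds
  · exact tendsto_const_nhds
  · exact tendsto_const_nhds.add (hA 0)
  · exact tendsto_const_nhds.add (hA 1)
  · exact (tendsto_const_nhds.add ((hA 1).const_mul 2)).add (hA 3)

/-- the hypotheses on `(a, k)` in `PinMv` / `pin_cont_moves` give the admissibility with a margin, eventually -/
theorem pin_pc_adm_ev {M : ℝ} {b : ℕ → ℝ} (hb : ∀ n, 0 ≤ b n) {a : Fin 5 → ℝ} {j : ℕ} (h1 : ∀ i : Fin 5, i.val < j → pinThr M i a < a i)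
    {k : ℕ → Fin 5 → ℕ} (hk : ∀ i, Tendsto (fun n => (k n i : ℝ) * b n) atTop (𝓝 (a i))) (hk0 : ∀ n (i : Fin 5), j ≤ i.val → k n i = 0) :
    ∃ μ : ℝ, 0 < μ ∧ ∀ᶠ n in atTop, PinAdm M μ (fun i => (k n i : ℝ) * b n) j := by
  have key : ∀ i : Fin 5, ∃ μ : ℝ, 0 < μ ∧ ∀ᶠ n in atTop, i.val < j → pinThr M i (fun i => (k n i : ℝ) * b n) + 2 * μ ≤ (k n i : ℝ) * b n := by
    intro i
    by_cases hi : i.val < j
    · refine ⟨(a i - pinThr M i a) / 4, by linarith [h1 i hi], ?_⟩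
      have ht := (hk i).sub (pin_pc_thr_tendsto M i (A := fun n i => (k n i : ℝ) * b n) hk)
      have hlt : 2 * ((a i - pinThr M i a) / 4) < a i - pinThr M i a := by linarith [h1 i hi]
      filter_upwards [ht.eventually (lt_mem_nhds hlt)] with n hn _
      linarith
    · exact ⟨1, one_pos, Eventually.of_forall fun n h => absurd h hi⟩
  choose μ hμ0 hμ using key
  have hne : (Finset.univ : Finset (Fin 5)).Nonempty := Finset.univ_nonempty
  refine ⟨Finset.univ.inf' hne μ, ?_, ?_⟩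
  · exact (Finset.lt_inf'_iff hne).2 fun i _ => hμ0 i
  · filter_upwards [eventually_all.2 hμ] with n hn
    refine ⟨fun i => mul_nonneg (Nat.cast_nonneg _) (hb n), fun i hi => ?_, fun i hi => ?_⟩
    · have := hn i hi
      have h2 : Finset.univ.inf' hne μ ≤ μ i := Finset.inf'_le _ (Finset.mem_univ i)
      linarith
    · show (k n i : ℝ) * b n = 0
      rw [hk0 n i hi]; simp

/-- the numbers of backward steps: `N n * b n → η`, `N n * b n ≤ η` -/
theorem pin_pc_steps {b : ℕ → ℝ} (hb : ∀ n, 0 < b n) (hb0 : Tendsto b atTop (𝓝 0)) {η : ℝ} (hη : 0 ≤ η) :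
    ∃ N : ℕ → ℕ, Tendsto (fun n => (N n : ℝ) * b n) atTop (𝓝 η) ∧ ∀ n, (N n : ℝ) * b n ≤ η := by
  refine ⟨fun n => ⌊η / b n⌋₊, ?_, fun n => ?_⟩
  · have hlo : ∀ n, η - b n ≤ (⌊η / b n⌋₊ : ℝ) * b n := by
      intro n
      have := (Nat.lt_floor_add_one (η / b n)).le
      rw [div_le_iff₀ (hb n)] at this
      linarith
    have hhi : ∀ n, (⌊η / b n⌋₊ : ℝ) * b n ≤ η := by
      intro n
      have := Nat.floor_le (div_nonneg hη (hb n).le)
      rwa [le_div_iff₀ (hb n)] at this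
    have h0 : Tendsto (fun n => η - b n) atTop (𝓝 η) := by
      have := (tendsto_const_nhds (x := η)).sub hb0
      rwa [sub_zero] at this
    exact tendsto_of_tendsto_of_tendsto_of_le_of_le h0 tendsto_const_nhds hlo hhi
  · have := Nat.floor_le (div_nonneg hη (hb n).le)
    rwa [le_div_iff₀ (hb n)] at this

/-! ## 8. necklaces and separated families of obstacles (`PinNeck`, `PinFam` of Defs/Pin) from Euclidean data, uniformly in the placement -/

theorem PinNeck.mono {κ n0 N N' : ℕ} {K U : Finset TV} (h : PinNeck κ n0 N K U) (hN : N ≤ N') : PinNeck κ n0 N' K U := by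
  obtain ⟨J, h1, h2⟩ := h
  exact ⟨J, h1.trans hN, h2⟩

/-- **necklace between the distances `r1 < r2` from a compact set**: `N`, `δ0` depend on `(Γ, r1, r2, κ, n0)` only, the rigid motion `φ` is arbitrary.
(`Γ` = a point: necklace in the annulus `r1 < |z - c| < r2` around a test disk.) -/
theorem pin_pc_neck {Γ : Set ℂ} (hΓ : IsCompact Γ) (hne : Γ.Nonempty) {r1 r2 : ℝ} (hr : r1 < r2) (κ n0 : ℕ) :
    ∃ (N : ℕ) (δ0 : ℝ), 0 < δ0 ∧ ∀ δ, 0 < δ → δ ≤ δ0 → ∀ (φ : ℂ ≃ᵢ ℂ) (K U : Finset TV),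
      (∀ u ∈ K, pinG δ (φ '' Γ) u ≤ r1) → (∀ u, pinG δ (φ '' Γ) u ≤ r2 → u ∈ U) → PinNeck κ n0 N K U := by
  classical
  obtain ⟨N, δ0, h0, H⟩ := pin_sh_cover hΓ hne ((r1 + r2) / 2) (w := (r2 - r1) / 2) (by linarith) κ n0
  refine ⟨N, δ0, h0, fun δ hδ hδ0 φ K U hK hU => ?_⟩
  obtain ⟨hn, Hφ⟩ := H δ hδ hδ0
  obtain ⟨Z, hZc, hcov, hin⟩ := Hφ φ
  refine ⟨Z.image fun z => (z, pinRad ((r2 - r1) / 2) κ δ), Finset.card_image_le.trans hZc, ?_, ?_⟩
  · intro p hp
    obtain ⟨z, hz, rfl⟩ := Finset.mem_image.1 hp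
    refine ⟨hn, fun v hv => ?_⟩
    have h1 := abs_lt.1 (hin z hz v hv)
    refine Finset.mem_sdiff.2 ⟨hU v (by linarith [h1.2]), fun hvK => ?_⟩
    linarith [hK v hvK, h1.1]
  · intro Q a b ha hb hR
    have hab : a ≠ b := by
      rintro rfl
      exact hb (hU a ((hK a ha).trans hr.le))
    have haQ : a ∈ Q := by
      rcases Relation.ReflTransGen.cases_head hR with h | ⟨c, hc, -⟩
      · exact absurd h hab
      · exact hc.2.1
    have hb' : r2 < pinG δ (φ '' Γ) b := by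
      by_contra hc
      exact hb (hU b (not_lt.1 hc))
    obtain ⟨z, hz, u, hu, huz⟩ := pin_sh_necklace hδ.le (φ '' Γ) hcov hR haQ (by linarith [hK a ha]) (by linarith)
    exact ⟨(z, _), Finset.mem_image.2 ⟨z, hz, rfl⟩, u, hu, huz⟩

theorem pin_pc_pos_inf {ι : Type*} [Fintype ι] (f : ι → ℝ) (hf : ∀ i, 0 < f i) : ∃ c : ℝ, 0 < c ∧ ∀ i, c ≤ f i := by
  classical
  rcases isEmpty_or_nonempty ι with h | h
  · exact ⟨1, one_pos, fun i => (h.false i).elim⟩
  · exact ⟨Finset.univ.inf' Finset.univ_nonempty f, (Finset.lt_inf'_iff _).2 fun i _ => hf i, fun i => Finset.inf'_le _ (Finset.mem_univ i)⟩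

/-- the sites within `R` of a compact set form a finite set -/
theorem pin_pc_nb_finite {δ : ℝ} (hδ : 0 < δ) {Γ : Set ℂ} (hΓ : IsCompact Γ) (hne : Γ.Nonempty) (R : ℝ) :
    ∃ U : Finset TV, ∀ u, u ∈ U ↔ pinG δ Γ u ≤ R := by
  classical
  obtain ⟨B, hB⟩ := hΓ.isBounded.exists_norm_le
  obtain ⟨L, hL⟩ := exists_nat_ge (2 * (B + R) / δ)
  rw [div_le_iff₀ hδ] at hL
  refine ⟨(latBall 0 L).filter fun u => pinG δ Γ u ≤ R, fun u => ?_⟩
  rw [Finset.mem_filter, and_iff_right_iff_imp]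
  intro hu
  obtain ⟨y, hy, hd⟩ := hΓ.exists_infDist_eq_dist hne (pinP δ u)
  refine pin_sh_ball_sub hδ (R := B + R) (by linarith) ?_
  have h1 : dist (pinP δ u) y ≤ R := by rw [← hd]; exact hu
  have h2 : ‖pinP δ u‖ ≤ ‖y‖ + dist (pinP δ u) y := by
    rw [dist_eq_norm]
    have := norm_add_le y (pinP δ u - y)
    rwa [add_sub_cancel] at this
  linarith [hB y hy]

/-- **separated obstacles with necklaces, uniformly in the placements.**  `Γ i` compact sets, `φ i` arbitrary rigid motions with `dist (φ i (Γ i)) (φ j (Γ j)) ≥ 6 r`: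
collars `U i` = sites within `2 r`; any groups `G i` within `r`. -/
theorem pin_pc_fam {k : ℕ} {Γ : Fin k → Set ℂ} (hΓ : ∀ i, IsCompact (Γ i)) (hne : ∀ i, (Γ i).Nonempty) {r : ℝ} (hr : 0 < r) (κ n0 : ℕ) :
    ∃ (N : ℕ) (δ0 : ℝ), 0 < δ0 ∧ ∀ δ, 0 < δ → δ ≤ δ0 → ∀ φ : Fin k → ℂ ≃ᵢ ℂ,
      (∀ i j, i ≠ j → ∀ p ∈ Γ i, ∀ q ∈ Γ j, 6 * r ≤ dist (φ i p) (φ j q)) →
      ∃ U : Fin k → Finset TV, (∀ i u, u ∈ U i ↔ pinG δ (φ i '' Γ i) u ≤ 2 * r) ∧
        ∀ G D : Fin k → Finset TV, (∀ i, PinOb (G i) (D i)) → (∀ i, ∀ u ∈ G i, pinG δ (φ i '' Γ i) u ≤ r) → PinFam κ n0 N G D U := by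
  classical
  choose N d hd H using fun i => pin_pc_neck (hΓ i) (hne i) (show r < 2 * r by linarith) κ n0
  obtain ⟨c, hc0, hc⟩ := pin_pc_pos_inf d hd
  refine ⟨Finset.univ.sup N, min c (r / 2), lt_min hc0 (by positivity), fun δ hδ hδ0 φ hsep => ?_⟩
  have hδc : δ ≤ c := hδ0.trans (min_le_left _ _)
  have hδr : δ ≤ r / 2 := hδ0.trans (min_le_right _ _)
  have hcomp : ∀ i, IsCompact (φ i '' Γ i) := fun i => (hΓ i).image (φ i).continuous
  have hne' : ∀ i, (φ i '' Γ i).Nonempty := fun i => (hne i).image _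
  choose U hU using fun i => pin_pc_nb_finite hδ (hcomp i) (hne' i) (2 * r)
  refine ⟨U, hU, fun G D hob hG => ⟨hob, fun i => ?_, fun i j hij u hu v hv => ?_⟩⟩
  · exact (H i δ hδ (hδc.trans (hc i)) (φ i) (G i) (U i) (hG i) fun u hu => (hU i u).2 hu).mono (Finset.le_sup (f := N) (Finset.mem_univ i))
  · obtain ⟨y, hy, hyd⟩ := (hcomp i).exists_infDist_eq_dist (hne' i) (pinP δ u)
    obtain ⟨y', hy', hyd'⟩ := (hcomp j).exists_infDist_eq_dist (hne' j) (pinP δ v)
    have h1 : dist (pinP δ u) y ≤ 2 * r := by rw [← hyd]; exact (hU i u).1 hu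
    have h2 : dist (pinP δ v) y' ≤ 2 * r := by rw [← hyd']; exact (hU j v).1 hv
    obtain ⟨p, hp, rfl⟩ := hy
    obtain ⟨q, hq, rfl⟩ := hy'
    have h3 := hsep i j hij p hp q hq
    have h4 : dist (φ i p) (φ j q) ≤ dist (φ i p) (pinP δ u) + dist (pinP δ u) (pinP δ v) + dist (pinP δ v) (φ j q) := dist_triangle4 _ _ _ _
    rw [dist_comm (φ i p) (pinP δ u)] at h4
    have h5 := pin_sh_P_le hδ.le u v
    have h6 : δ * 4 ≤ δ * (latN (v - u) : ℝ) := by linarith
    have h7 : (4 : ℝ) ≤ (latN (v - u) : ℝ) := le_of_mul_le_mul_left h6 hδ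
    unfold latDist
    exact_mod_cast h7

end Claimed.Agent.R291
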