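import Claimed.Agent.R291.Pin.Side
import Claimed.Agent.R291.Pin.Place
import Claimed.Agent.R291.Defs.Pln

/-!
# Row 291 (S0539), unit PIN (05-pins), Pin/Sep : THE SEPARATED INSERTION      (OWNER helper48; head of PIN: helper34)      0 sorry

TEX[pins:three-moves], TEX[lem:analytic-translation], TEX (pins:common-offset-numerator).      Prefix `pin_sp_`, defs `pin*` / `Pin*`.
Assembly of `pin_cont_moves` (Pin/Cont), `pin_stage`, `pin_side`, `pin_last` (Pin/Side) and of the geometry of the five moves of helper72 (Pin/Place).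
* sec. 0  `pinLgI` (inverse frame), `pinMir j r0` (reflection of the lattice in the row `r0` of the frame `j`), `pin_sp_mir0/1` (`= plnRow`), `pin_sp_P_mir` (physical form)
* sec. 1  `pinNo kd ks τ G D Sp t tb Y J` = normalised product of displaced factors; split / shift / locality / `PinOk`
* sec. 2  `pin_sp_stage_at` : one move at one mesh
* sec. 3  **THE CONTRACTS** `PinDb` (bound on doubled arrangements), `PinR3` (reflection null), `PinSpAt` (data at one mesh)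
* sec. 4-6  positions, `pin_sp_stage_geo` (one move from Place + contracts), `pin_sp_last_geo` (final placement)
* sec. 7  **`pin_sep`** (PROVED, 0 sorry)
-/

set_option autoImplicit false
set_option linter.unusedVariables false
set_option linter.unusedSectionVars false

namespace Claimed.Agent.R291

open Claims Claims.C0467 Set Metric Filter Topology
open scoped ComplexConjugate

/-! ## 0. the frames of helper72 have inverses; the mirror map -/

/-- inverse of `pinLr j` -/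
def pinLrI (j : Fin 5) : TV → TV := latRot^[![0, 3, 5, 2, 1] j]

/-- inverse of the frame `pinLg j r0` -/
def pinLgI (j : Fin 5) (r0 : ℤ) (w : TV) : TV := pinLrI j (w + (0, r0))

theorem pin_sp_lr_lrI (j : Fin 5) (w : TV) : pinLr j (pinLrI j w) = w := by
  fin_cases j <;> simp [pinLr, pinLrI, latRot]

theorem pin_sp_lrI_lr (j : Fin 5) (w : TV) : pinLrI j (pinLr j w) = w := by
  fin_cases j <;> simp [pinLr, pinLrI, latRot]

theorem pin_sp_lg_lgI (j : Fin 5) (r0 : ℤ) (w : TV) : pinLg j r0 (pinLgI j r0 w) = w := by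
  unfold pinLg pinLgI
  rw [pin_sp_lr_lrI]; simp

theorem pin_sp_lgI_lg (j : Fin 5) (r0 : ℤ) (w : TV) : pinLgI j r0 (pinLg j r0 w) = w := by
  unfold pinLg pinLgI
  rw [sub_add_cancel, pin_sp_lrI_lr]

/-- the reflection of the lattice in the row `r0` of the frame of the move `j` -/
def pinMir (j : Fin 5) (r0 : ℤ) (u : TV) : TV := pinLgI j r0 (latRefl (pinLg j r0 u))

theorem pin_sp_mir_mir (j : Fin 5) (r0 : ℤ) (u : TV) : pinMir j r0 (pinMir j r0 u) = u := by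
  unfold pinMir
  rw [pin_sp_lg_lgI, lat_refl_refl, pin_sp_lgI_lg]

theorem pin_sp_mir0 (r0 : ℤ) : pinMir 0 r0 = plnRow r0 := by
  funext u
  simp only [pinMir, pinLgI, pinLg, pinLrI, pinLr, latRefl, plnRow, Prod.ext_iff]
  simp
  constructor <;> ring

theorem pin_sp_ivr_lg {x : ℝ} (hP : PinPl x) (j : Fin 5) (r0 : ℤ) : PinIvr x (pinLg j r0) := by
  have h := (pin_inv_tr hP (-(0, r0) : TV)).comp (pin_inv_ro_pow hP (![0, 3, 1, 4, 5] j))
  have e : (fun u => (fun u : TV => u + (-(0, r0) : TV)) (latRot^[![0, 3, 1, 4, 5] j] u)) = pinLg j r0 := by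
    funext u
    show latRot^[![0, 3, 1, 4, 5] j] u + -(0, r0) = pinLr j u - (0, r0)
    rw [sub_eq_add_neg]; rfl
  rwa [e] at h

theorem pin_sp_ivr_mir {x : ℝ} (hP : PinPl x) (j : Fin 5) (r0 : ℤ) : PinIvr x (pinMir j r0) :=
  (((pin_sp_ivr_lg hP j r0).inv (pin_sp_lg_lgI j r0)).comp (pin_inv_re hP)).comp (pin_sp_ivr_lg hP j r0)

/-- physical form of the mirror map -/
theorem pin_sp_P_mir (δ : ℝ) (j : Fin 5) (r0 : ℤ) (u : TV) :
    pinEg δ j r0 (pinP δ (pinMir j r0 u)) = conj (pinEg δ j r0 (pinP δ u)) := by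
  rw [← pin_pc_P_lg, ← pin_pc_P_lg, ← pin_pc_P_refl]
  unfold pinMir
  rw [pin_sp_lg_lgI]


/-! ## 1. the normalised product of displaced factors (one mesh) -/

section one

variable {α β : Type} (kd : α → PinKind) (ks : β → PinKind)

/-- the groups displaced by `τ` (a displacement for every family) -/
def pinGd (τ : PinKind → TV) (G : α → Finset TV) (i : α) : Finset TV := (G i).image (fun u => u + τ (kd i))

/-- the product of the displaced spectators -/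
noncomputable def pinSd (τ : PinKind → TV) (Sp : β → (TV → ℤ) → ℝ) (tb : Finset β) (h : TV → ℤ) : ℝ :=
  ∏ l ∈ tb, pinSh (τ (ks l)) (Sp l) h

/-- the normalised product: insertion (or `1`), displaced spectators, displaced absolute pins -/
noncomputable def pinNo (τ : PinKind → TV) (G D : α → Finset TV) (Sp : β → (TV → ℤ) → ℝ) (t : Finset α) (tb : Finset β)
    (Y : (TV → ℤ) → ℝ) (J : ℝ) (h : TV → ℤ) : ℝ :=
  Y h * pinSd ks τ Sp tb h * pinAl t (pinGd kd τ G) (pinGd kd τ D) h / J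

variable {kd ks}

theorem pin_sp_gd_congr {τ τ' : PinKind → TV} (G : α → Finset TV) {i : α} (h : τ (kd i) = τ' (kd i)) : pinGd kd τ G i = pinGd kd τ' G i := by
  unfold pinGd; rw [h]

theorem pin_sp_al_congr {t : Finset α} {G G' D D' : α → Finset TV} (hG : ∀ i ∈ t, G i = G' i) (hD : ∀ i ∈ t, D i = D' i) :
    pinAl t G D = pinAl t G' D' := by
  funext h
  unfold pinAl
  exact pin_sd_I_congr (forall₂_congr fun i hi => by rw [hG i hi, hD i hi])

theorem pin_sp_ag_congr {t : Finset α} {G G' D D' : α → Finset TV} (hG : ∀ i ∈ t, G i = G' i) (hD : ∀ i ∈ t, D i = D' i) :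
    pinAg t G D = pinAg t G' D' := by
  funext h
  unfold pinAg
  exact pin_sd_I_congr (forall₂_congr fun i hi => by rw [hG i hi, hD i hi])

theorem pin_sp_sd_congr {τ τ' : PinKind → TV} (Sp : β → (TV → ℤ) → ℝ) {tb : Finset β} (h : ∀ l ∈ tb, τ (ks l) = τ' (ks l)) :
    pinSd ks τ Sp tb = pinSd ks τ' Sp tb := by
  funext a
  unfold pinSd
  exact Finset.prod_congr rfl fun l hl => by rw [h l hl]

theorem pin_sp_no_congr {τ τ' : PinKind → TV} (G D : α → Finset TV) (Sp : β → (TV → ℤ) → ℝ) {t : Finset α} {tb : Finset β}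
    (Y : (TV → ℤ) → ℝ) (J : ℝ) (h1 : ∀ i ∈ t, τ (kd i) = τ' (kd i)) (h2 : ∀ l ∈ tb, τ (ks l) = τ' (ks l)) :
    pinNo kd ks τ G D Sp t tb Y J = pinNo kd ks τ' G D Sp t tb Y J := by
  funext a
  unfold pinNo
  rw [pin_sp_sd_congr Sp h2, pin_sp_al_congr (fun i hi => pin_sp_gd_congr G (h1 i hi)) (fun i hi => pin_sp_gd_congr D (h1 i hi))]

open Classical in
theorem pin_sp_al_split (t : Finset α) (q : α → Prop) (G D : α → Finset TV) (h : TV → ℤ) :
    pinAl t G D h = pinAl (t.filter fun i => ¬ q i) G D h * pinAl (t.filter q) G D h := by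
  unfold pinAl
  rw [← pin_sd_I_and]
  refine pin_sd_I_congr ⟨fun H => ⟨fun i hi => H i (Finset.mem_filter.1 hi).1, fun i hi => H i (Finset.mem_filter.1 hi).1⟩, fun H i hi => ?_⟩
  by_cases hq : q i
  · exact H.2 i (Finset.mem_filter.2 ⟨hi, hq⟩)
  · exact H.1 i (Finset.mem_filter.2 ⟨hi, hq⟩)

open Classical in
/-- splitting into the static and the moving factor -/
theorem pin_sp_no_split (τ : PinKind → TV) (G D : α → Finset TV) (Sp : β → (TV → ℤ) → ℝ) (t : Finset α) (tb : Finset β)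
    (Y : (TV → ℤ) → ℝ) (JA JB : ℝ) (q : PinKind → Prop) (h : TV → ℤ) :
    pinNo kd ks τ G D Sp t tb Y (JA * JB) h
      = pinNo kd ks τ G D Sp (t.filter fun i => ¬ q (kd i)) (tb.filter fun l => ¬ q (ks l)) Y JA h
        * pinNo kd ks τ G D Sp (t.filter fun i => q (kd i)) (tb.filter fun l => q (ks l)) (fun _ => 1) JB h := by
  unfold pinNo
  rw [pin_sp_al_split t (fun i => q (kd i))]
  have e : pinSd ks τ Sp tb h = pinSd ks τ Sp (tb.filter fun l => ¬ q (ks l)) h * pinSd ks τ Sp (tb.filter fun l => q (ks l)) h := by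
    unfold pinSd
    rw [mul_comm]
    exact (Finset.prod_filter_mul_prod_filter_not tb (fun l => q (ks l)) _).symm
  rw [e]
  by_cases hA : JA = 0
  · simp [hA]
  by_cases hB : JB = 0
  · simp [hB]
  field_simp

theorem pin_sp_gd_image (τ τ' : PinKind → TV) (v : TV) (G : α → Finset TV) {i : α} (h : τ' (kd i) = τ (kd i) + v) :
    (pinGd kd τ G i).image (fun u => u + v) = pinGd kd τ' G i := by
  unfold pinGd
  rw [Finset.image_image, h]
  refine Finset.image_congr fun u _ => ?_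
  show u + τ (kd i) + v = u + (τ (kd i) + v)
  rw [add_assoc]

/-- translation of a normalised product -/
theorem pin_sp_no_sh (τ τ' : PinKind → TV) (v : TV) (G D : α → Finset TV) (Sp : β → (TV → ℤ) → ℝ) {t : Finset α} {tb : Finset β}
    (Y : (TV → ℤ) → ℝ) (J : ℝ) (h1 : ∀ i ∈ t, τ' (kd i) = τ (kd i) + v) (h2 : ∀ l ∈ tb, τ' (ks l) = τ (ks l) + v) :
    pinSh v (pinNo kd ks τ G D Sp t tb Y J) = pinNo kd ks τ' G D Sp t tb (pinSh v Y) J := by
  have e1 : pinSh v (pinAl t (pinGd kd τ G) (pinGd kd τ D)) = pinAl t (pinGd kd τ' G) (pinGd kd τ' D) := by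
    unfold pinSh
    rw [pin_sd_al_mp]
    exact pin_sp_al_congr (fun i hi => pin_sp_gd_image τ τ' v G (h1 i hi)) (fun i hi => pin_sp_gd_image τ τ' v D (h1 i hi))
  have e2 : pinSh v (pinSd ks τ Sp tb) = pinSd ks τ' Sp tb := by
    funext a
    show ∏ l ∈ tb, pinSh v (pinSh (τ (ks l)) (Sp l)) a = ∏ l ∈ tb, pinSh (τ' (ks l)) (Sp l) a
    refine Finset.prod_congr rfl fun l hl => ?_
    rw [pin_sh_sh, h2 l hl, add_comm]
  funext a
  show pinSh v Y a * pinSh v (pinSd ks τ Sp tb) a * pinSh v (pinAl t (pinGd kd τ G) (pinGd kd τ D)) a / J = _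
  rw [e1, e2]
  rfl

theorem pin_sp_prod_loc {ι : Type} (tb : Finset ι) {F : ι → (TV → ℤ) → ℝ} {W : ι → Finset TV} (h : ∀ l ∈ tb, HtLoc (W l) (F l)) :
    HtLoc (tb.biUnion W) (fun a => ∏ l ∈ tb, F l a) := by
  intro a a' e
  exact Finset.prod_congr rfl fun l hl => h l hl a a' fun u hu => e u (Finset.mem_biUnion.2 ⟨l, hl, hu⟩)

theorem pin_sp_prod_grad {ι : Type} (tb : Finset ι) {F : ι → (TV → ℤ) → ℝ} (h : ∀ l ∈ tb, HtGrad (F l)) :
    HtGrad (fun a => ∏ l ∈ tb, F l a) := by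
  intro a c
  exact Finset.prod_congr rfl fun l hl => h l hl a c

/-- support of the displaced spectators -/
def pinSdS (ks : β → PinKind) (τ : PinKind → TV) (WS : β → Finset TV) (tb : Finset β) : Finset TV :=
  tb.biUnion fun l => (WS l).image fun u => u + τ (ks l)

theorem pin_sp_sd_loc (τ : PinKind → TV) {Sp : β → (TV → ℤ) → ℝ} {WS : β → Finset TV} {tb : Finset β} (h : ∀ l ∈ tb, HtLoc (WS l) (Sp l)) :
    HtLoc (pinSdS ks τ WS tb) (pinSd ks τ Sp tb) :=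
  pin_sp_prod_loc tb fun l hl => pin_mp_loc _ (h l hl)

theorem pin_sp_sd_LG (τ : PinKind → TV) {Sp : β → (TV → ℤ) → ℝ} {WS : β → Finset TV} {tb : Finset β} (h : ∀ l ∈ tb, HtLoc (WS l) (Sp l))
    (hg : ∀ l ∈ tb, HtGrad (Sp l)) : PinLG (pinSd ks τ Sp tb) :=
  ⟨⟨_, pin_sp_sd_loc τ h⟩, pin_sp_prod_grad tb fun l hl => pin_mp_grad _ (hg l hl)⟩

theorem pin_sp_sd_bd (τ : PinKind → TV) {Sp : β → (TV → ℤ) → ℝ} {sb tb : Finset β} (hsub : tb ⊆ sb) {c : ℝ}
    (hb : ∀ l ∈ sb, ∀ a, |Sp l a| ≤ c) (a : TV → ℤ) : |pinSd ks τ Sp tb a| ≤ (max 1 c) ^ sb.card := by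
  unfold pinSd
  rw [Finset.abs_prod]
  calc ∏ l ∈ tb, |pinSh (τ (ks l)) (Sp l) a| ≤ ∏ l ∈ tb, max 1 c :=
        Finset.prod_le_prod (fun _ _ => abs_nonneg _) fun l hl => (hb l (hsub hl) _).trans (le_max_right _ _)
    _ = (max 1 c) ^ tb.card := by rw [Finset.prod_const]
    _ ≤ (max 1 c) ^ sb.card := pow_le_pow_right₀ (le_max_left _ _) (Finset.card_le_card hsub)

/-- support of the displaced groups -/
def pinGdS (kd : α → PinKind) (τ : PinKind → TV) (G : α → Finset TV) (t : Finset α) : Finset TV := t.biUnion (pinGd kd τ G)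

theorem pin_sp_gd_sub (τ : PinKind → TV) {G D : α → Finset TV} {i : α} (h : D i ⊆ G i) : pinGd kd τ D i ⊆ pinGd kd τ G i :=
  Finset.image_subset_image h

theorem pin_sp_al_loc (τ : PinKind → TV) {G D : α → Finset TV} {t : Finset α} (hs : ∀ i ∈ t, D i ⊆ G i) :
    HtLoc (pinGdS kd τ G t) (pinAl t (pinGd kd τ G) (pinGd kd τ D)) := by
  refine pin_loc_mono ?_ (pin_sd_al_loc t _ _)
  intro u hu
  obtain ⟨i, hi, hu'⟩ := Finset.mem_biUnion.1 hu
  refine Finset.mem_biUnion.2 ⟨i, hi, ?_⟩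
  rcases Finset.mem_union.1 hu' with h | h
  · exact h
  · exact pin_sp_gd_sub τ (hs i hi) h

theorem pin_sp_no_loc (τ : PinKind → TV) {G D : α → Finset TV} {Sp : β → (TV → ℤ) → ℝ} {WS : β → Finset TV} {t : Finset α} {tb : Finset β}
    {Y : (TV → ℤ) → ℝ} {SY : Finset TV} (J : ℝ) (hs : ∀ i ∈ t, D i ⊆ G i) (h : ∀ l ∈ tb, HtLoc (WS l) (Sp l)) (hY : HtLoc SY Y) :
    HtLoc (SY ∪ pinSdS ks τ WS tb ∪ pinGdS kd τ G t) (pinNo kd ks τ G D Sp t tb Y J) := by
  intro a a' e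
  unfold pinNo
  rw [hY a a' fun u hu => e u (Finset.mem_union_left _ (Finset.mem_union_left _ hu)),
    pin_sp_sd_loc τ h a a' fun u hu => e u (Finset.mem_union_left _ (Finset.mem_union_right _ hu)),
    pin_sp_al_loc τ hs a a' fun u hu => e u (Finset.mem_union_right _ hu)]

theorem pin_sp_no_ok (τ : PinKind → TV) {G D : α → Finset TV} {Sp : β → (TV → ℤ) → ℝ} {WS : β → Finset TV} {t : Finset α} {tb : Finset β}
    {Y : (TV → ℤ) → ℝ} {SY : Finset TV} (J : ℝ) (hs : ∀ i ∈ t, D i ⊆ G i) (h : ∀ l ∈ tb, HtLoc (WS l) (Sp l)) (hY : HtLoc SY Y)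
    (hne : ∃ i ∈ t, (D i).Nonempty) : PinOk (pinNo kd ks τ G D Sp t tb Y J) := by
  refine ⟨⟨_, pin_sp_no_loc τ J hs h hY⟩, ?_⟩
  have h1 : PinOk (pinAl t (pinGd kd τ G) (pinGd kd τ D)) := by
    obtain ⟨i, hi, hD⟩ := hne
    exact pin_sd_al_ok t _ _ ⟨i, hi, hD.image _⟩
  have h2 := (h1.2.mul_left (fun a => Y a * pinSd ks τ Sp tb a)).mul_right (fun _ => J⁻¹)
  have e : (fun a => Y a * pinSd ks τ Sp tb a * pinAl t (pinGd kd τ G) (pinGd kd τ D) a * J⁻¹) = pinNo kd ks τ G D Sp t tb Y J := by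
    funext a
    unfold pinNo
    rw [div_eq_mul_inv]
  rwa [e] at h2

end one

/-! ## 2. one move at one mesh -/

theorem PinTr.mono {C C' : ℝ} {N : ℕ} {M : ℕ → ℂ} (h : PinTr C N M) (hC : C ≤ C') : PinTr C' N M := by
  intro r L κ hκ
  have hκ0 : 0 ≤ κ := by
    have := hκ 0 ⟨le_rfl, zero_le_one⟩
    simpa using this
  exact (h r L κ hκ).trans (by gcongr)

section stage

variable {α β : Type} {kd : α → PinKind} {ks : β → PinKind}

/-- the displacement `pinDisp k`, the moving families backed by `N` steps -/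
def pinBk (k : Fin 5 → ℕ) (j : Fin 5) (N : ℕ) (f : PinKind) : TV := pinDisp k f + (-(N : ℤ)) • pinStep j

open Classical in
theorem pin_sp_disp_upd (k : Fin 5 → ℕ) (j : Fin 5) (hk : k j = 0) (m : ℕ) (f : PinKind) :
    pinDisp (Function.update k j m) f = pinDisp k f + if pinMov j f then (m : ℤ) • pinStep j else 0 := by
  have := pin_pc_disp_update k j m f
  rwa [hk, zero_add] at this

open Classical in
theorem pin_sp_stage_at {x : ℝ} (hP : PinPl x) (j : Fin 5) (r0 : ℤ) (N : ℕ) (k : Fin 5 → ℕ) (hk : k j = 0)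
    {s : Finset α} {sb : Finset β} {G D : α → Finset TV} {Sp : β → (TV → ℤ) → ℝ} {WS : β → Finset TV} {X : (TV → ℤ) → ℝ} {SX : Finset TV} {c : ℝ}
    (hsub : ∀ i ∈ s, D i ⊆ G i) (hne : ∀ i ∈ s, (D i).Nonempty)
    (spL : ∀ l ∈ sb, HtLoc (WS l) (Sp l)) (spG : ∀ l ∈ sb, HtGrad (Sp l)) (spB : ∀ l ∈ sb, ∀ a, |Sp l a| ≤ c)
    (xL : HtLoc SX X) (xG : HtGrad X)
    (hA : ∃ i ∈ s, ¬ pinMov j (kd i)) (hB : ∃ i ∈ s, pinMov j (kd i))
    (fX : ∀ u ∈ SX, (pinLg j r0 u).2 ≤ 0)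
    (fG : ∀ i ∈ s, ∀ u ∈ G i, (¬ pinMov j (kd i) → (pinLg j r0 (u + pinDisp k (kd i))).2 ≤ 0) ∧
      (pinMov j (kd i) → 2 * (N : ℤ) ≤ (pinLg j r0 (u + pinDisp k (kd i))).2))
    (fS : ∀ l ∈ sb, ∀ u ∈ WS l, (¬ pinMov j (ks l) → (pinLg j r0 (u + pinDisp k (ks l))).2 ≤ 0) ∧
      (pinMov j (ks l) → 2 * (N : ℤ) ≤ (pinLg j r0 (u + pinDisp k (ks l))).2))
    {JA JB CA CB : ℝ} (hJA : 0 < JA) (hJB : 0 < JB)
    (hCA : htPl x (fun h => X h ^ 2 * (pinAg (s.filter fun i => ¬ pinMov j (kd i)) (pinGd kd (pinDisp k) G) (pinGd kd (pinDisp k) D) h *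
      pinAg (s.filter fun i => ¬ pinMov j (kd i)) (fun i => (pinGd kd (pinDisp k) G i).image (pinMir j r0))
        (fun i => (pinGd kd (pinDisp k) D i).image (pinMir j r0)) h)) ≤ CA * JA ^ 2)
    (hCB : htPl x (fun h => (1 : ℝ) ^ 2 * (pinAg (s.filter fun i => pinMov j (kd i)) (pinGd kd (pinBk k j N) G) (pinGd kd (pinBk k j N) D) h *
      pinAg (s.filter fun i => pinMov j (kd i)) (fun i => (pinGd kd (pinBk k j N) G i).image (pinMir j r0))
        (fun i => (pinGd kd (pinBk k j N) D i).image (pinMir j r0)) h)) ≤ CB * JB ^ 2) :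
    PinTr (((max 1 c) ^ sb.card) ^ 2 * (CA + CB) / 2) N
      (fun m => ((pinHat x (pinNo kd ks (pinDisp (Function.update k j m)) G D Sp s sb X (JA * JB)) : ℝ) : ℂ)) := by
  set sA := s.filter fun i => ¬ pinMov j (kd i) with hsA
  set sB := s.filter fun i => pinMov j (kd i) with hsB
  set bA := sb.filter fun l => ¬ pinMov j (ks l) with hbA
  set bB := sb.filter fun l => pinMov j (ks l) with hbB
  set A := pinNo kd ks (pinDisp k) G D Sp sA bA X JA with hAd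
  set B := pinNo kd ks (pinDisp k) G D Sp sB bB (fun _ => 1) JB with hBd
  have sAs : sA ⊆ s := Finset.filter_subset _ _
  have sBs : sB ⊆ s := Finset.filter_subset _ _
  have bAs : bA ⊆ sb := Finset.filter_subset _ _
  have bBs : bB ⊆ sb := Finset.filter_subset _ _
  have l1 : HtLoc (∅ : Finset TV) (fun _ : TV → ℤ => (1 : ℝ)) := fun _ _ _ => rfl
  have neA : ∃ i ∈ sA, (D i).Nonempty := by
    obtain ⟨i, hi, hq⟩ := hA
    exact ⟨i, Finset.mem_filter.2 ⟨hi, hq⟩, hne i hi⟩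
  have neB : ∃ i ∈ sB, (D i).Nonempty := by
    obtain ⟨i, hi, hq⟩ := hB
    exact ⟨i, Finset.mem_filter.2 ⟨hi, hq⟩, hne i hi⟩
  have okA : PinOk A := pin_sp_no_ok _ JA (fun i hi => hsub i (sAs hi)) (fun l hl => spL l (bAs hl)) xL neA
  have okB : PinOk B := pin_sp_no_ok _ JB (fun i hi => hsub i (sBs hi)) (fun l hl => spL l (bBs hl)) l1 neB
  have lA := pin_sp_no_loc (kd := kd) (ks := ks) (pinDisp k) JA (fun i hi => hsub i (sAs hi)) (fun l hl => spL l (bAs hl)) xL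
  have lB := pin_sp_no_loc (kd := kd) (ks := ks) (pinDisp k) JB (fun i hi => hsub i (sBs hi)) (fun l hl => spL l (bBs hl)) l1
  have sAr : ∀ u ∈ SX ∪ pinSdS ks (pinDisp k) WS bA ∪ pinGdS kd (pinDisp k) G sA, (pinLg j r0 u).2 ≤ 0 := by
    intro u hu
    rcases Finset.mem_union.1 hu with hu | hu
    · rcases Finset.mem_union.1 hu with hu | hu
      · exact fX u hu
      · obtain ⟨l, hl, hu'⟩ := Finset.mem_biUnion.1 hu
        obtain ⟨w, hw, rfl⟩ := Finset.mem_image.1 hu'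
        exact (fS l (bAs hl) w hw).1 (Finset.mem_filter.1 hl).2
    · obtain ⟨i, hi, hu'⟩ := Finset.mem_biUnion.1 hu
      obtain ⟨w, hw, rfl⟩ := Finset.mem_image.1 hu'
      exact (fG i (sAs hi) w hw).1 (Finset.mem_filter.1 hi).2
  have sBr : ∀ u ∈ ∅ ∪ pinSdS ks (pinDisp k) WS bB ∪ pinGdS kd (pinDisp k) G sB, 2 * (N : ℤ) ≤ (pinLg j r0 u).2 := by
    intro u hu
    rcases Finset.mem_union.1 hu with hu | hu
    · rcases Finset.mem_union.1 hu with hu | hu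
      · exact absurd hu (Finset.notMem_empty _)
      · obtain ⟨l, hl, hu'⟩ := Finset.mem_biUnion.1 hu
        obtain ⟨w, hw, rfl⟩ := Finset.mem_image.1 hu'
        exact (fS l (bBs hl) w hw).2 (Finset.mem_filter.1 hl).2
    · obtain ⟨i, hi, hu'⟩ := Finset.mem_biUnion.1 hu
      obtain ⟨w, hw, rfl⟩ := Finset.mem_image.1 hu'
      exact (fG i (sBs hi) w hw).2 (Finset.mem_filter.1 hi).2
  have key := pin_stage hP (pin_sp_lg_lgI j r0) (pin_sp_ivr_lg hP j r0) (d := pinStep j) (fun u m => pin_pc_lg_step j r0 u m) okA okB lA lB N sAr sBr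
  -- the function
  have eM : (fun m : ℕ => ((pinHat x (fun h => A h * pinSh ((m : ℤ) • pinStep j) B h) : ℝ) : ℂ))
      = fun m => ((pinHat x (pinNo kd ks (pinDisp (Function.update k j m)) G D Sp s sb X (JA * JB)) : ℝ) : ℂ) := by
    funext m
    congr 2
    funext h
    rw [pin_sp_no_split _ G D Sp s sb X JA JB (pinMov j) h]
    congr 1
    · rw [hAd]
      refine congrFun (pin_sp_no_congr G D Sp X JA (fun i hi => ?_) (fun l hl => ?_)) h
      · rw [pin_sp_disp_upd k j hk, if_neg (Finset.mem_filter.1 hi).2, add_zero]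
      · rw [pin_sp_disp_upd k j hk, if_neg (Finset.mem_filter.1 hl).2, add_zero]
    · rw [hBd, pin_sp_no_sh (pinDisp k) (pinDisp (Function.update k j m)) ((m : ℤ) • pinStep j) G D Sp (fun _ => 1) JB
        (fun i hi => by rw [pin_sp_disp_upd k j hk, if_pos (Finset.mem_filter.1 hi).2])
        (fun l hl => by rw [pin_sp_disp_upd k j hk, if_pos (Finset.mem_filter.1 hl).2])]
      rfl
  rw [eM] at key
  refine key.mono ?_
  -- the two side norms
  have eB' : pinSh (-(N : ℤ) • pinStep j) B = pinNo kd ks (pinBk k j N) G D Sp sB bB (fun _ => 1) JB := by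
    rw [hBd, pin_sp_no_sh (pinDisp k) (pinBk k j N) (-(N : ℤ) • pinStep j) G D Sp (fun _ => 1) JB (fun i _ => rfl) (fun l _ => rfl)]
    rfl
  rw [eB']
  have nA := pin_side hP (pin_sp_mir_mir j r0) (pin_sp_ivr_mir hP j r0) sA (pinGd kd (pinDisp k) G) (pinGd kd (pinDisp k) D)
    (by obtain ⟨i, hi, hD⟩ := neA; exact ⟨i, hi, hD.image _⟩) (Y := X) (S := pinSd ks (pinDisp k) Sp bA) ⟨⟨_, xL⟩, xG⟩
    (pin_sp_sd_LG _ (fun l hl => spL l (bAs hl)) (fun l hl => spG l (bAs hl))) (pin_sp_sd_bd _ bAs spB) hJA hCA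
  have nB := pin_side hP (pin_sp_mir_mir j r0) (pin_sp_ivr_mir hP j r0) sB (pinGd kd (pinBk k j N) G) (pinGd kd (pinBk k j N) D)
    (by obtain ⟨i, hi, hD⟩ := neB; exact ⟨i, hi, hD.image _⟩) (Y := fun _ => 1) (S := pinSd ks (pinBk k j N) Sp bB) (PinLG.const 1)
    (pin_sp_sd_LG _ (fun l hl => spL l (bBs hl)) (fun l hl => spG l (bBs hl))) (pin_sp_sd_bd _ bBs spB) hJB hCB
  have nA' : pinHat x (fun h => A h * pinMp (fun u => pinLgI j r0 (latRefl (pinLg j r0 u))) A h) ≤ ((max 1 c) ^ sb.card) ^ 2 * CA := nA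
  have nB' : pinHat x (fun h => pinNo kd ks (pinBk k j N) G D Sp sB bB (fun _ => 1) JB h *
      pinMp (fun u => pinLgI j r0 (latRefl (pinLg j r0 u))) (pinNo kd ks (pinBk k j N) G D Sp sB bB (fun _ => 1) JB) h) ≤ ((max 1 c) ^ sb.card) ^ 2 * CB := nB
  linarith

end stage

/-! ## 3. the contracts -/

/-- **CONTRACT (DBL)**: bound on the doubled arrangements, uniform in the placement.      (producers: RARE (upper bound) + invariance of `p` + N3a / Pin/Test for `Y = X`)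
`t ⊆ s` groups, `τ i` lattice displacement of the group `i`; `m` = physical margin: the displaced groups are `m`-separated from each other and from the support of the test `Y`,
and all of them lie at the distance `≥ m` from the row `r0` of the frame `j`, on the same side (`σ = ± 1`). -/
def PinDbAt (x δ : ℝ) {α : Type} (s : Finset α) (G D : α → Finset TV) (p : α → ℝ) (Y : (TV → ℤ) → ℝ) (SY : Finset TV) (m C : ℝ) : Prop :=
  ∀ (t : Finset α) (τ : α → TV) (j : Fin 5) (r0 : ℤ) (σ : ℝ), t ⊆ s → t.Nonempty → (σ = 1 ∨ σ = -1) →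
    (∀ i ∈ t, ∀ i' ∈ t, i ≠ i' → ∀ u ∈ G i, ∀ v ∈ G i', m ≤ dist (pinP δ (u + τ i)) (pinP δ (v + τ i'))) →
    (∀ i ∈ t, ∀ u ∈ G i, ∀ v ∈ SY, m ≤ dist (pinP δ (u + τ i)) (pinP δ v)) →
    (∀ i ∈ t, ∀ u ∈ G i, m ≤ σ * (pinEg δ j r0 (pinP δ (u + τ i))).im) →
    (∀ v ∈ SY, m ≤ σ * (pinEg δ j r0 (pinP δ v)).im) →
    htPl x (fun h => Y h ^ 2 * (pinAg t (fun i => (G i).image fun u => u + τ i) (fun i => (D i).image fun u => u + τ i) h *
        pinAg t (fun i => ((G i).image fun u => u + τ i).image (pinMir j r0)) (fun i => ((D i).image fun u => u + τ i).image (pinMir j r0)) h))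
      ≤ C * (∏ i ∈ t, p i) ^ 2

theorem PinDbAt.mono {x δ : ℝ} {α : Type} {s : Finset α} {G D : α → Finset TV} {p : α → ℝ} {Y : (TV → ℤ) → ℝ} {SY SY' : Finset TV} {m C : ℝ}
    (h : PinDbAt x δ s G D p Y SY m C) (hs : SY ⊆ SY') : PinDbAt x δ s G D p Y SY' m C :=
  fun t τ j r0 σ h1 h2 h3 h4 h5 h6 h7 => h t τ j r0 σ h1 h2 h3 h4 (fun i hi u hu v hv => h5 i hi u hu v (hs hv)) h6 (fun v hv => h7 v (hs hv))

/-- the contract (DBL) along the meshes: the constant depends on the margin only -/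
def PinDb (x : ℝ) (δ : ℕ → ℝ) {α : Type} (s : Finset α) (G D : ℕ → α → Finset TV) (p : ℕ → α → ℝ)
    (Y : ℕ → (TV → ℤ) → ℝ) (SY : ℕ → Finset TV) : Prop :=
  ∀ m : ℝ, 0 < m → ∃ C : ℝ, 0 ≤ C ∧ ∀ᶠ n in atTop, PinDbAt x (δ n) s (G n) (D n) (p n) (Y n) (SY n) m C

/-- **CONTRACT (R3)** = TEX[prop:reflection-null] for the insertion: horizontal site rows converging to a line strictly above `y1` (`y1` = an upper bound of the heights of the support of the test) -/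
def PinR3 (x : ℝ) (δ : ℕ → ℝ) (X : ℕ → (TV → ℤ) → ℝ) (y1 : ℝ) : Prop :=
  ∀ (y0 : ℝ) (r : ℕ → ℤ), y1 < y0 → Tendsto (fun n => Real.sqrt 3 / 2 * δ n * (r n : ℝ)) atTop (𝓝 y0) →
    Tendsto (fun n => htPl x (fun h => X n h * pinMp (plnRow (r n)) (X n) h)) atTop (𝓝 0)

/-- the data at one mesh: groups `(G i, D i)` of the family `kd i`, spectators `Sp l` of the family `ks l`, insertion `X` in the core -/
structure PinSpAt (δ : ℝ) (obj : PinKind → Set ℂ) {α β : Type} (s : Finset α) (sb : Finset β) (kd : α → PinKind) (ks : β → PinKind) (m0 c : ℝ)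
    (G D : α → Finset TV) (Sp : β → (TV → ℤ) → ℝ) (WS : β → Finset TV) (X : (TV → ℤ) → ℝ) (SX : Finset TV) : Prop where
  sub : ∀ i ∈ s, D i ⊆ G i
  ne : ∀ i ∈ s, (D i).Nonempty
  inG : ∀ i ∈ s, ∀ u ∈ G i, pinP δ u ∈ obj (kd i)
  far : ∀ i ∈ s, ∀ i' ∈ s, i ≠ i' → ∀ u ∈ G i, ∀ v ∈ G i', m0 ≤ dist (pinP δ u) (pinP δ v)
  spG : ∀ l ∈ sb, HtGrad (Sp l)
  spL : ∀ l ∈ sb, HtLoc (WS l) (Sp l)
  spB : ∀ l ∈ sb, ∀ h, |Sp l h| ≤ c
  inS : ∀ l ∈ sb, ∀ u ∈ WS l, pinP δ u ∈ obj (ks l)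
  xG : HtGrad X
  xL : HtLoc SX X
  inX : ∀ u ∈ SX, pinP δ u ∈ obj .K

/-! ## 4. positions -/

theorem pin_sp_pos (δ : ℝ) (k : Fin 5 → ℕ) (f : PinKind) (u : TV) :
    pinP δ (u + pinDisp k f) = pinP δ u + pinTau (fun i => (k i : ℝ) * (Real.sqrt 3 * δ)) f := by
  rw [pin_sh_P_add, pin_pc_disp]

theorem pin_sp_dist_add (δ : ℝ) (u v w : TV) : dist (pinP δ (u + w)) (pinP δ (v + w)) = dist (pinP δ u) (pinP δ v) := by
  rw [pin_sh_P_add, pin_sh_P_add, dist_add_right]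

theorem pin_sp_not_mov_K (j : Fin 5) : ¬ pinMov j .K := by
  fin_cases j <;> simp [pinMov]

theorem pin_sp_mov_TB (j : Fin 5) : (pinMov j .T ∧ ¬ pinMov j .B) ∨ (pinMov j .B ∧ ¬ pinMov j .T) := by
  fin_cases j <;> simp [pinMov]

theorem pin_sp_tau_K (a : Fin 5 → ℝ) : pinTau a .K = 0 := rfl

theorem pin_sp_disp_K (k : Fin 5 → ℕ) : pinDisp k .K = 0 := rfl

theorem pin_sp_disp_zero (f : PinKind) : pinDisp 0 f = 0 := by
  cases f <;> simp [pinDisp]

/-- backing by `N` steps lowers the height in the frame by `N √3 δ` -/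
theorem pin_sp_im_step (δ : ℝ) (j : Fin 5) (r0 : ℤ) (w : TV) (m : ℤ) :
    (pinEg δ j r0 (pinP δ (w + m • pinStep j))).im = (pinEg δ j r0 (pinP δ w)).im + (m : ℝ) * (Real.sqrt 3 * δ) := by
  rw [← pin_pc_lg_row, ← pin_pc_lg_row, pin_pc_lg_step]
  simp only [Prod.snd_add, Prod.smul_snd, smul_eq_mul]
  push_cast
  ring

/-- separation of two displaced sites of the scene -/
theorem pin_sp_pair {M κ ρ U0 lm lp μ : ℝ} {obj : PinKind → Set ℂ} (hS : PinSc M κ ρ U0 lm lp obj) (hμ : 0 ≤ μ) {δ : ℝ} {k : Fin 5 → ℕ} {j : ℕ}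
    (ha : PinAdm M μ (fun i => (k i : ℝ) * (Real.sqrt 3 * δ)) j) {f g : PinKind} (hfg : f ≠ g) {u v : TV} (hu : pinP δ u ∈ obj f) (hv : pinP δ v ∈ obj g) :
    pinMg κ ρ μ ≤ dist (pinP δ (u + pinDisp k f)) (pinP δ (v + pinDisp k g)) := by
  rw [pin_sp_pos, pin_sp_pos]
  exact pin_pc_pair hS hμ ha hfg hu hv

/-! ## 5. one move: geometry of helper72 + the contracts -/

section geo

variable {x : ℝ} {M κ ρ U0 lm lp : ℝ} {obj : PinKind → Set ℂ} {α β : Type} {s : Finset α} {sb : Finset β} {kd : α → PinKind} {ks : β → PinKind}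
  {m0 c : ℝ} {G D : α → Finset TV} {Sp : β → (TV → ℤ) → ℝ} {WS : β → Finset TV} {X : (TV → ℤ) → ℝ} {SX : Finset TV} {p : α → ℝ}

/-- separation of the displaced groups at an admissible placement -/
theorem pin_sp_sep (hS : PinSc M κ ρ U0 lm lp obj) {μ : ℝ} (hμ : 0 < μ) {δ : ℝ} {k : Fin 5 → ℕ} {j : ℕ}
    (ha : PinAdm M μ (fun i => (k i : ℝ) * (Real.sqrt 3 * δ)) j)
    (hAt : PinSpAt δ obj s sb kd ks m0 c G D Sp WS X SX) {m : ℝ} (hm : m ≤ pinMg κ ρ μ) (hm0 : m ≤ m0)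
    {i i' : α} (hi : i ∈ s) (hi' : i' ∈ s) (hne : i ≠ i') {u v : TV} (hu : u ∈ G i) (hv : v ∈ G i') :
    m ≤ dist (pinP δ (u + pinDisp k (kd i))) (pinP δ (v + pinDisp k (kd i'))) := by
  by_cases hk : kd i = kd i'
  · rw [hk, pin_sp_dist_add]
    exact hm0.trans (hAt.far i hi i' hi' hne u hu v hv)
  · exact hm.trans (pin_sp_pair hS hμ.le ha hk (hAt.inG i hi u hu) (hAt.inG i' hi' v hv))

open Classical in
theorem pin_sp_stage_geo (hP : PinPl x) (hS : PinSc M κ ρ U0 lm lp obj) {μ : ℝ} (hμ : 0 < μ) {δ : ℝ} (hδ : 0 < δ)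
    (hδm : Real.sqrt 3 * δ ≤ pinMg κ ρ μ / 4) (j : Fin 5) {N : ℕ} (hN : (N : ℝ) * (Real.sqrt 3 * δ) ≤ pinMg κ ρ μ / 4)
    {k : Fin 5 → ℕ} (hk : k j = 0) (ha : PinAdm M μ (fun i => (k i : ℝ) * (Real.sqrt 3 * δ)) j.val)
    (hAt : PinSpAt δ obj s sb kd ks m0 c G D Sp WS X SX) (hkd : ∀ i ∈ s, kd i ≠ .K)
    (hT : ∃ i ∈ s, kd i = .T) (hB : ∃ i ∈ s, kd i = .B) (hp : ∀ i ∈ s, 0 < p i)
    {m CA CB : ℝ} (hm : m ≤ pinMg κ ρ μ / 4) (hm0 : m ≤ m0)
    (hDX : PinDbAt x δ s G D p X SX m CA) (hD1 : PinDbAt x δ s G D p (fun _ => 1) ∅ m CB) :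
    PinTr (((max 1 c) ^ sb.card) ^ 2 * (CA + CB) / 2) N
      (fun m' => ((pinHat x (pinNo kd ks (pinDisp (Function.update k j m')) G D Sp s sb X (∏ i ∈ s, p i)) : ℝ) : ℂ)) := by
  have hmg : 0 < pinMg κ ρ μ := pin_pc_mg_pos hS.κ0 hS.ρ0 hμ
  obtain ⟨r0, hr0⟩ := pin_pc_stage hS hμ.le hδ hδm j
  have H := hr0 _ ha
  have hst : ∀ (f : PinKind) (u : TV), pinP δ u ∈ obj f → ¬ pinMov j f → (pinEg δ j r0 (pinP δ (u + pinDisp k f))).im ≤ -(pinMg κ ρ μ / 4) := by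
    intro f u hu hf
    rw [pin_sp_pos]
    exact (H f _ hu).1 hf
  have hmv : ∀ (f : PinKind) (u : TV), pinP δ u ∈ obj f → pinMov j f →
      pinMg κ ρ μ / 4 + (N : ℝ) * (Real.sqrt 3 * δ) ≤ (pinEg δ j r0 (pinP δ (u + pinDisp k f))).im := by
    intro f u hu hf
    rw [pin_sp_pos]
    exact (H f _ hu).2 hf _ hN
  have hXr : ∀ u ∈ SX, (pinEg δ j r0 (pinP δ u)).im ≤ -(pinMg κ ρ μ / 4) := by
    intro u hu
    have := hst .K u (hAt.inX u hu) (pin_sp_not_mov_K j)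
    rwa [pin_sp_disp_K, add_zero] at this
  have hAB : (∃ i ∈ s, ¬ pinMov j (kd i)) ∧ ∃ i ∈ s, pinMov j (kd i) := by
    obtain ⟨iT, hiT, kT⟩ := hT
    obtain ⟨iB, hiB, kB⟩ := hB
    rcases pin_sp_mov_TB j with ⟨h1, h2⟩ | ⟨h1, h2⟩
    · exact ⟨⟨iB, hiB, by rw [kB]; exact h2⟩, ⟨iT, hiT, by rw [kT]; exact h1⟩⟩
    · exact ⟨⟨iT, hiT, by rw [kT]; exact h2⟩, ⟨iB, hiB, by rw [kB]; exact h1⟩⟩
  have hJ : ∏ i ∈ s, p i = (∏ i ∈ s.filter (fun i => ¬ pinMov j (kd i)), p i) * ∏ i ∈ s.filter (fun i => pinMov j (kd i)), p i := by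
    rw [mul_comm]
    exact (Finset.prod_filter_mul_prod_filter_not s (fun i => pinMov j (kd i)) p).symm
  rw [hJ]
  have sAs : s.filter (fun i => ¬ pinMov j (kd i)) ⊆ s := Finset.filter_subset _ _
  have sBs : s.filter (fun i => pinMov j (kd i)) ⊆ s := Finset.filter_subset _ _
  refine pin_sp_stage_at hP j r0 N k hk hAt.sub hAt.ne hAt.spL hAt.spG hAt.spB hAt.xL hAt.xG hAB.1 hAB.2 ?_ ?_ ?_
    (Finset.prod_pos fun i hi => hp i (sAs hi)) (Finset.prod_pos fun i hi => hp i (sBs hi)) ?_ ?_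
  · intro u hu
    exact pin_pc_row_le hδ (by linarith [hXr u hu])
  · intro i hi u hu
    exact ⟨fun hf => pin_pc_row_le hδ (by linarith [hst _ u (hAt.inG i hi u hu) hf]),
      fun hf => pin_pc_row_ge hδ (by linarith [hmv _ u (hAt.inG i hi u hu) hf])⟩
  · intro l hl u hu
    exact ⟨fun hf => pin_pc_row_le hδ (by linarith [hst _ u (hAt.inS l hl u hu) hf]),
      fun hf => pin_pc_row_ge hδ (by linarith [hmv _ u (hAt.inS l hl u hu) hf])⟩
  · obtain ⟨i0, hi0, hq0⟩ := hAB.1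
    refine hDX _ (fun i => pinDisp k (kd i)) j r0 (-1) sAs ⟨i0, Finset.mem_filter.2 ⟨hi0, hq0⟩⟩ (Or.inr rfl) ?_ ?_ ?_ ?_
    · intro i hi i' hi' hne u hu v hv
      exact pin_sp_sep hS hμ ha hAt (by linarith) hm0 (sAs hi) (sAs hi') hne hu hv
    · intro i hi u hu v hv
      have := pin_sp_pair hS hμ.le ha (hkd i (sAs hi)) (hAt.inG i (sAs hi) u hu) (hAt.inX v hv)
      rw [pin_sp_disp_K, add_zero] at this
      linarith
    · intro i hi u hu
      linarith [hst _ u (hAt.inG i (sAs hi) u hu) (Finset.mem_filter.1 hi).2]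
    · intro v hv
      linarith [hXr v hv]
  · obtain ⟨i0, hi0, hq0⟩ := hAB.2
    refine hD1 _ (fun i => pinBk k j N (kd i)) j r0 1 sBs ⟨i0, Finset.mem_filter.2 ⟨hi0, hq0⟩⟩ (Or.inl rfl) ?_ ?_ ?_ ?_
    · intro i hi i' hi' hne u hu v hv
      show m ≤ dist (pinP δ (u + (pinDisp k (kd i) + (-(N : ℤ)) • pinStep j))) (pinP δ (v + (pinDisp k (kd i') + (-(N : ℤ)) • pinStep j)))
      rw [← add_assoc, ← add_assoc, pin_sp_dist_add]
      exact pin_sp_sep hS hμ ha hAt (by linarith) hm0 (sBs hi) (sBs hi') hne hu hv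
    · intro i hi u hu v hv
      exact absurd hv (Finset.notMem_empty _)
    · intro i hi u hu
      show m ≤ 1 * (pinEg δ j r0 (pinP δ (u + (pinDisp k (kd i) + (-(N : ℤ)) • pinStep j)))).im
      rw [← add_assoc, pin_sp_im_step]
      have := hmv _ u (hAt.inG i (sBs hi) u hu) (Finset.mem_filter.1 hi).2
      push_cast
      linarith
    · intro v hv
      exact absurd hv (Finset.notMem_empty _)

end geo

/-! ## 6. the final placement -/

theorem pin_sp_mir1 (r0 : ℤ) : pinMir 1 r0 = plnRow (-r0) := by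
  funext u
  simp only [pinMir, pinLgI, pinLg, pinLrI, pinLr, latRefl, plnRow, Prod.ext_iff]
  simp [latRot]
  constructor <;> ring

theorem pin_sp_im1 (δ : ℝ) (r : ℤ) (P : ℂ) : (pinEg δ 1 (-r) P).im = -pinDot P pinE + Real.sqrt 3 / 2 * δ * r := by
  rw [pin_pc_eg_im]
  have e : pinDir 1 = -pinE := rfl
  rw [e, pin_pc_dot_neg]
  push_cast
  ring

section fin

variable {x : ℝ} {M κ ρ U0 lm lp : ℝ} {obj : PinKind → Set ℂ} {α β : Type} {s : Finset α} {sb : Finset β} {kd : α → PinKind} {ks : β → PinKind}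
  {m0 c : ℝ} {G D : α → Finset TV} {Sp : β → (TV → ℤ) → ℝ} {WS : β → Finset TV} {X : (TV → ℤ) → ℝ} {SX : Finset TV} {p : α → ℝ}

theorem pin_sp_last_geo (hP : PinPl x) (hS : PinSc M κ ρ U0 lm lp obj) {μ : ℝ} (hμ : 0 < μ) {δ : ℝ} (hδ : 0 < δ)
    (hδm : Real.sqrt 3 * δ ≤ pinMg κ ρ μ / 4) {r : ℤ} (hr1 : lp - κ + pinMg κ ρ μ / 4 ≤ Real.sqrt 3 / 2 * δ * r)
    (hr2 : Real.sqrt 3 / 2 * δ * r ≤ lp - κ + pinMg κ ρ μ / 4 + Real.sqrt 3 / 2 * δ)
    {k : Fin 5 → ℕ} (ha : PinAdm M μ (fun i => (k i : ℝ) * (Real.sqrt 3 * δ)) 5)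
    (hAt : PinSpAt δ obj s sb kd ks m0 c G D Sp WS X SX) (hkd : ∀ i ∈ s, kd i ≠ .K) (hks : ∀ l ∈ sb, ks l ≠ .K)
    (hne : s.Nonempty) (hp : ∀ i ∈ s, 0 < p i)
    {m C : ℝ} (hm : m ≤ pinMg κ ρ μ / 4) (hm0 : m ≤ m0) (hD1 : PinDbAt x δ s G D p (fun _ => 1) ∅ m C) :
    pinHat x (pinNo kd ks (pinDisp k) G D Sp s sb X (∏ i ∈ s, p i)) ^ 2
      ≤ htPl x (fun h => X h * pinMp (plnRow r) X h) * (((max 1 c) ^ sb.card) ^ 2 * C) := by
  have hmg : 0 < pinMg κ ρ μ := pin_pc_mg_pos hS.κ0 hS.ρ0 hμ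
  have hlo : ∀ (f : PinKind) (u : TV), pinP δ u ∈ obj f → f ≠ .K → (pinEg δ 1 (-r) (pinP δ (u + pinDisp k f))).im ≤ -(pinMg κ ρ μ / 4) := by
    intro f u hu hf
    rw [pin_sp_pos, pin_sp_im1]
    have := (pin_pc_final hS hμ.le ha f hu).2 hf
    linarith
  have hhi : ∀ u ∈ SX, pinMg κ ρ μ / 4 ≤ (pinEg δ 1 (-r) (pinP δ u)).im := by
    intro u hu
    have := (pin_pc_final hS hμ.le ha .K (hAt.inX u hu)).1 rfl
    rw [pin_sp_tau_K, add_zero] at this
    rw [pin_sp_im1]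
    linarith
  obtain ⟨i0, hi0⟩ := hne
  have hC := hD1 s (fun i => pinDisp k (kd i)) 1 (-r) (-1) subset_rfl ⟨i0, hi0⟩ (Or.inr rfl)
    (fun i hi i' hi' hne u hu v hv => pin_sp_sep hS hμ ha hAt (by linarith) hm0 hi hi' hne hu hv)
    (fun i hi u hu v hv => absurd hv (Finset.notMem_empty _))
    (fun i hi u hu => by linarith [hlo _ u (hAt.inG i hi u hu) (hkd i hi)])
    (fun v hv => absurd hv (Finset.notMem_empty _))
  simp only [one_pow, one_mul] at hC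
  have key := pin_last hP (pin_sp_lg_lgI 1 (-r)) (pin_sp_ivr_lg hP 1 (-r)) s (pinGd kd (pinDisp k) G) (pinGd kd (pinDisp k) D)
    ⟨i0, hi0, (hAt.ne i0 hi0).image _⟩ (X := X) (S := pinSd ks (pinDisp k) Sp sb) ⟨⟨_, hAt.xL⟩, hAt.xG⟩
    (pin_sp_sd_LG _ hAt.spL hAt.spG) (pin_sp_sd_bd _ subset_rfl hAt.spB) (J := ∏ i ∈ s, p i) (C := C) (Finset.prod_pos fun i hi => hp i hi)
    (SX := SX) (SR := pinSdS ks (pinDisp k) WS sb ∪ pinGdS kd (pinDisp k) G s) hAt.xL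
    (pin_loc_mono Finset.subset_union_left (pin_sp_sd_loc _ hAt.spL))
    (by
      intro i hi u hu
      refine Finset.mem_union_right _ (Finset.mem_biUnion.2 ⟨i, hi, ?_⟩)
      rcases Finset.mem_union.1 hu with h | h
      · exact h
      · exact pin_sp_gd_sub _ (hAt.sub i hi) h)
    (by
      intro u hu
      have := pin_pc_row_ge hδ (j := 1) (r0 := -r) (u := u) (N := 0) (by simpa using by linarith [hhi u hu])
      simpa using this)
    (by
      intro u hu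
      rcases Finset.mem_union.1 hu with hu | hu
      · obtain ⟨l, hl, hu'⟩ := Finset.mem_biUnion.1 hu
        obtain ⟨w, hw, rfl⟩ := Finset.mem_image.1 hu'
        exact pin_pc_row_le hδ (by linarith [hlo _ w (hAt.inS l hl w hw) (hks l hl)])
      · obtain ⟨i, hi, hu'⟩ := Finset.mem_biUnion.1 hu
        obtain ⟨w, hw, rfl⟩ := Finset.mem_image.1 hu'
        exact pin_pc_row_le hδ (by linarith [hlo _ w (hAt.inG i hi w hw) (hkd i hi)]))
    hC
  have eΘ : (fun u => pinLgI 1 (-r) (latRefl (pinLg 1 (-r) u))) = plnRow r := by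
    have := pin_sp_mir1 (-r)
    rw [neg_neg] at this
    exact this
  rw [eΘ] at key
  have eN : pinNo kd ks (pinDisp k) G D Sp s sb X (∏ i ∈ s, p i)
      = fun h => X h * (pinSd ks (pinDisp k) Sp sb h * pinAl s (pinGd kd (pinDisp k) G) (pinGd kd (pinDisp k) D) h / ∏ i ∈ s, p i) := by
    funext h
    unfold pinNo
    ring
  rw [eN]
  exact key

end fin

/-! ## 7. SEP -/

theorem pin_sp_no_zero {α β : Type} (kd : α → PinKind) (ks : β → PinKind) (G D : α → Finset TV) (Sp : β → (TV → ℤ) → ℝ) (t : Finset α) (tb : Finset β)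
    (Y : (TV → ℤ) → ℝ) (J : ℝ) :
    pinNo kd ks (pinDisp 0) G D Sp t tb Y J = fun h => J⁻¹ * (Y h * (∏ l ∈ tb, Sp l h) * pinAl t G D h) := by
  have e1 : ∀ G : α → Finset TV, pinGd kd (pinDisp 0) G = G := by
    intro G
    funext i
    unfold pinGd
    rw [pin_sp_disp_zero]
    simp
  have e2 : pinSd ks (pinDisp 0) Sp tb = fun h => ∏ l ∈ tb, Sp l h := by
    funext h
    unfold pinSd
    refine Finset.prod_congr rfl fun l _ => ?_
    rw [pin_sp_disp_zero, pin_sh_zero]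
  funext h
  unfold pinNo
  rw [e1, e1, e2, div_eq_mul_inv, mul_comm]

theorem pin_sp_sq_lim {v w : ℕ → ℝ} {K : ℝ} (hw : Tendsto w atTop (𝓝 0)) (h : ∀ᶠ n in atTop, v n ^ 2 ≤ w n * K) : Tendsto v atTop (𝓝 0) := by
  have h1 : Tendsto (fun n => v n ^ 2) atTop (𝓝 0) := by
    have h0 : Tendsto (fun n => w n * K) atTop (𝓝 0) := by simpa using hw.mul_const K
    exact squeeze_zero' (Eventually.of_forall fun n => sq_nonneg _) h h0
  have h2 : Tendsto (fun n => Real.sqrt (v n ^ 2)) atTop (𝓝 0) := by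
    have := (Real.continuous_sqrt.tendsto 0).comp h1
    rw [Real.sqrt_zero] at this
    exact this
  rw [tendsto_zero_iff_abs_tendsto_zero]
  refine h2.congr fun n => ?_
  rw [Real.sqrt_sq_eq_abs]
  rfl

/-- **SEPARATED INSERTION** (TEX[pins:three-moves] + TEX (pins:common-offset-numerator), design D4: directly on the common offset event). -/
theorem pin_sep {x : ℝ} (hP : PinPl x) {δ : ℕ → ℝ} (hδ : ∀ n, 0 < δ n) (hδ0 : Tendsto δ atTop (𝓝 0))
    {M κ ρ U0 lm lp : ℝ} {obj : PinKind → Set ℂ} (hS : PinSc M κ ρ U0 lm lp obj)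
    {α β : Type} (s : Finset α) (sb : Finset β) (kd : α → PinKind) (ks : β → PinKind)
    (hkd : ∀ i ∈ s, kd i ≠ .K) (hks : ∀ l ∈ sb, ks l ≠ .K) (hT : ∃ i ∈ s, kd i = .T) (hB : ∃ i ∈ s, kd i = .B)
    {m0 c : ℝ} (hm0 : 0 < m0) {G D : ℕ → α → Finset TV} {Sp : ℕ → β → (TV → ℤ) → ℝ} {WS : ℕ → β → Finset TV}
    {X : ℕ → (TV → ℤ) → ℝ} {SX : ℕ → Finset TV}
    (hAt : ∀ᶠ n in atTop, PinSpAt (δ n) obj s sb kd ks m0 c (G n) (D n) (Sp n) (WS n) (X n) (SX n))
    {p : ℕ → α → ℝ} (hp : ∀ᶠ n in atTop, ∀ i ∈ s, 0 < p n i)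
    (hDX : PinDb x δ s G D p X SX) (hD1 : PinDb x δ s G D p (fun _ _ => 1) (fun _ => ∅))
    (hR3 : PinR3 x δ X (lp - κ)) :
    Tendsto (fun n => pinHat x (fun h => X n h * (∏ l ∈ sb, Sp n l h) * pinAl s (G n) (D n) h) / ∏ i ∈ s, p n i) atTop (𝓝 0) := by
  classical
  have h3 : 0 < Real.sqrt 3 := by positivity
  have hb0 : ∀ n, 0 < Real.sqrt 3 * δ n := fun n => mul_pos h3 (hδ n)
  have hbt : Tendsto (fun n => Real.sqrt 3 * δ n) atTop (𝓝 0) := by simpa using hδ0.const_mul (Real.sqrt 3)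
  have main : Tendsto (fun n => ((pinHat x (pinNo kd ks (pinDisp 0) (G n) (D n) (Sp n) s sb (X n) (∏ i ∈ s, p n i)) : ℝ) : ℂ)) atTop (𝓝 0) := by
    refine pin_cont_moves (b := fun n => Real.sqrt 3 * δ n) (thr := pinThr M)
      (M := fun n k => ((pinHat x (pinNo kd ks (pinDisp k) (G n) (D n) (Sp n) s sb (X n) (∏ i ∈ s, p n i)) : ℝ) : ℂ)) (pin_pc_thr_dep M) ?_ ?_
    · -- the final placement
      intro a ha1 ha2 k hk1 hk2
      obtain ⟨μ, hμ, hadm⟩ := pin_pc_adm_ev (M := M) (fun n => (hb0 n).le) (j := 5) ha1 hk1 hk2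
      have hmg : 0 < pinMg κ ρ μ := pin_pc_mg_pos hS.κ0 hS.ρ0 hμ
      obtain ⟨C, hC0, hC⟩ := hD1 (min (pinMg κ ρ μ / 4) m0) (lt_min (by positivity) hm0)
      choose r hr1 hr2 using fun n => pin_pc_row (hδ n) (lp - κ + pinMg κ ρ μ / 4)
      have hrt : Tendsto (fun n => Real.sqrt 3 / 2 * δ n * (r n : ℝ)) atTop (𝓝 (lp - κ + pinMg κ ρ μ / 4)) := by
        have h0 : Tendsto (fun n => lp - κ + pinMg κ ρ μ / 4 + Real.sqrt 3 / 2 * δ n) atTop (𝓝 (lp - κ + pinMg κ ρ μ / 4)) := by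
          simpa using (tendsto_const_nhds (x := lp - κ + pinMg κ ρ μ / 4)).add (hδ0.const_mul (Real.sqrt 3 / 2))
        exact tendsto_of_tendsto_of_tendsto_of_le_of_le tendsto_const_nhds h0 hr1 hr2
      have hX0 := hR3 _ r (by linarith) hrt
      have hsm : ∀ᶠ n in atTop, Real.sqrt 3 * δ n ≤ pinMg κ ρ μ / 4 := hbt.eventually (ge_mem_nhds (by positivity))
      have hre : Tendsto (fun n => pinHat x (pinNo kd ks (pinDisp (k n)) (G n) (D n) (Sp n) s sb (X n) (∏ i ∈ s, p n i))) atTop (𝓝 0) := by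
        refine pin_sp_sq_lim hX0 (K := ((max 1 c) ^ sb.card) ^ 2 * C) ?_
        filter_upwards [hAt, hadm, hC, hsm, hp] with n g1 g2 g3 g4 g6
        obtain ⟨i0, hi0, -⟩ := hT
        exact pin_sp_last_geo hP hS hμ (hδ n) g4 (hr1 n) (hr2 n) g2 g1 hkd hks ⟨i0, hi0⟩ g6 (min_le_left _ _) (min_le_right _ _) g3
      have := (Complex.continuous_ofReal.tendsto 0).comp hre
      rw [Complex.ofReal_zero] at this
      exact this
    · -- one move
      intro j a ha1 ha2 k hk1 hk2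
      obtain ⟨μ, hμ, hadm⟩ := pin_pc_adm_ev (M := M) (fun n => (hb0 n).le) (j := j.val) (fun i hi => ha1 i hi) hk1 (fun n i hi => hk2 n i hi)
      have hmg : 0 < pinMg κ ρ μ := pin_pc_mg_pos hS.κ0 hS.ρ0 hμ
      obtain ⟨N, hN1, hN2⟩ := pin_pc_steps hb0 hbt (η := pinMg κ ρ μ / 4) (by positivity)
      obtain ⟨CA, hCA0, hCA⟩ := hDX (min (pinMg κ ρ μ / 4) m0) (lt_min (by positivity) hm0)
      obtain ⟨CB, hCB0, hCB⟩ := hD1 (min (pinMg κ ρ μ / 4) m0) (lt_min (by positivity) hm0)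
      have hsm : ∀ᶠ n in atTop, Real.sqrt 3 * δ n ≤ pinMg κ ρ μ / 4 := hbt.eventually (ge_mem_nhds (by positivity))
      refine ⟨((max 1 c) ^ sb.card) ^ 2 * (CA + CB) / 2, pinMg κ ρ μ / 4, N, by positivity, by positivity, hN1, ?_⟩
      filter_upwards [hAt, hadm, hCA, hCB, hsm, hp] with n g1 g2 g3 g4 g5 g6
      exact pin_sp_stage_geo hP hS hμ (hδ n) g5 j (hN2 n) (hk2 n j le_rfl) g2 g1 hkd hT hB g6 (min_le_left _ _) (min_le_right _ _) g3 g4
  have hre : Tendsto (fun n => pinHat x (pinNo kd ks (pinDisp 0) (G n) (D n) (Sp n) s sb (X n) (∏ i ∈ s, p n i))) atTop (𝓝 0) := by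
    have := (Complex.continuous_re.tendsto 0).comp main
    rw [Complex.zero_re] at this
    exact this
  refine hre.congr' ?_
  filter_upwards [hAt] with n g1
  rw [pin_sp_no_zero]
  have ok : PinOk (fun h => X n h * (∏ l ∈ sb, Sp n l h) * pinAl s (G n) (D n) h) := by
    obtain ⟨i0, hi0, -⟩ := hT
    exact (pin_sd_al_ok s (G n) (D n) ⟨i0, hi0, g1.ne i0 hi0⟩).mul_left
      (PinLc.mul (⟨_, g1.xL⟩ : PinLc (X n)) (PinLc.prod sb fun l hl => ⟨_, g1.spL l hl⟩))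
  rw [pin_hat_smul hP ok, div_eq_inv_mul]

theorem pin_sp_eqns_cite : True := by
  have := @pinLrI.eq_1
  have := @pinLgI.eq_1
  have := @pinMir.eq_1
  have := @pinGd.eq_1
  have := @pinSd.eq_1
  have := @pinNo.eq_1
  have := @pinSdS.eq_1
  have := @pinGdS.eq_1
  have := @pinBk.eq_1
  have := @PinDbAt.eq_1
  have := @PinDb.eq_1
  have := @PinR3.eq_1
  trivial

end Claimed.Agent.R291
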