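import Claimed.Agent.R291.Pin.Dbl
import Claimed.Agent.R291.Pin.Sep
import Claimed.Agent.R291.Pin.Inst
import Claimed.Agent.R291.Pin.Gap
import Claimed.Agent.R291.Pin.Test

/-!
# Row 291 (S0539), unit PIN (05-pins), Pin/DblInst : THE CONTRACT `PinDb` OF Pin/Sep ON THE INSTANCE      (OWNER helper138; head of PIN: helper34, deputy helper48)      0 sorry

TEX[pins:side-norm], uniformly in the placements of TEX[pins:three-moves].      Prefix `pin_di_`, defs `pinLgE`, `PinApx`.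
* sec. 0  `pinLgE j r0 : TV ≃ TV` (the frame `pinLg j r0` of helper72 as an equivalence), `pin_di_iso` (`PinIso`), `pin_di_mir` (`pinMir j r0` = the reflection of Pin/Dbl in this chart).
* sec. 1  `PinApx δ s Γ G D` : discrete groups `G n i` (double pins `D n i`) which approximate the compact sets `Γ i` (Hausdorff distance `→ 0`);
          `pin_di_collar` (collars with necklaces, every collar site within `3 r` of a site of the group),
          **`pin_di_fs`** : for every margin `m`: EX `N`, EVENTUALLY `n`, for ALL displacements `τ`, frames `j r0`, sides `σ` as in `PinDb`: collars `U` with `PinFs κ n0 N t (G + τ) (D + τ) U`, `PinSd (pinLgE j r0) b t U`,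
          every collar site within `3 m / 8` of a displaced site of its group.      (REUSABLE for `Y = X`: Pin/Test.)
* sec. 2  **`pin_di_db_one`** : `PinDb x δ s G D pinPr 1 ∅`;  `PinDb.scale` (change of the normalisation by a constant factor);  `pin_di_db_one4` (normalisation `pinPer (1_PinLoc) = pinPr / 4`).
* sec. 3  `pin_di_apx` (`PinApx` for the groups `pinGp` of `PinWinDat`), **`pin_di_std_one`** = the hypothesis `hD1` of `pin_sep` on `PinStd`.
WITH THE INSERTION (prefix `pin_dj_`):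
* sec. 4  `pin_dj_test_fs` : `pin_test_gr` of helper94 (N3a for `X = h(Δφ)`) + RARE (up) for a family indexed by a finite set: `htPl (|X|^p pinAg s G D) ≤ C ∏ pinPr`.
* sec. 5  `pin_dj_far`, `pin_dj_far_mir` : the displaced pins and their mirror images stay at the distance `≥ m / 2` from `tsupport φ` when `SY` covers `tsupport φ`.
* sec. 6  **`pin_dj_db_arr`** : `PinDb x δ s G D pinPr (latArr (plnW (δ n) (lap2 φ))) SY` on `PinApx`;  `PinDb.congr` (eventually equal insertions), `PinDb.mono` (larger `SY`).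
* sec. 7  **`pin_dj_std_X`** = the hypothesis `hDX` of `pin_sep` on the instance of Defs/PinTop: `X n = htSm (δ n) (F n) (lap2 φ)`, normalisation `pinPer (1_PinLoc)`,
          `SY n` = ANY finite sets of sites which eventually contain a face through every point of `tsupport φ`;  `pin_dj_std_both` (both contracts from the exits), `pin_dj_std_pos` (`hp`).
-/

set_option autoImplicit false
set_option linter.unusedVariables false
set_option linter.unusedSectionVars false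

namespace Claimed.Agent.R291

open Claims Claims.C0467 Set Metric Filter Topology
open scoped ContDiff ComplexConjugate

/-! ## 0. the frames as equivalences -/

/-- the frame of the move `j` with the row `r0` as an equivalence of the lattice -/
def pinLgE (j : Fin 5) (r0 : ℤ) : TV ≃ TV := ⟨pinLg j r0, pinLgI j r0, pin_sp_lgI_lg j r0, pin_sp_lg_lgI j r0⟩

theorem pin_di_lg_apply (j : Fin 5) (r0 : ℤ) (u : TV) : pinLgE j r0 u = pinLg j r0 u := rfl

theorem pin_di_iso_refl : PinIso (Equiv.refl TV) := ⟨fun _ _ => Iff.rfl, fun z n => by ext u; simp⟩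

theorem pin_di_iso_pow (e : ℕ) : ∃ g : TV ≃ TV, PinIso g ∧ ∀ u, g u = latRot^[e] u := by
  induction e with
  | zero => exact ⟨Equiv.refl TV, pin_di_iso_refl, fun _ => rfl⟩
  | succ e ih =>
    obtain ⟨g, hg, h⟩ := ih
    refine ⟨pinRoE.trans g, pin_iso_ro.trans hg, fun u => ?_⟩
    rw [Function.iterate_succ_apply]
    exact h (latRot u)

theorem pin_di_iso (j : Fin 5) (r0 : ℤ) : PinIso (pinLgE j r0) := by
  obtain ⟨g, hg, h⟩ := pin_di_iso_pow (![0, 3, 1, 4, 5] j)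
  have e : pinLgE j r0 = g.trans (pinTrE (-(0, r0) : TV)) := by
    ext1 u
    show pinLr j u - (0, r0) = g u + -(0, r0)
    rw [h u, sub_eq_add_neg]
    rfl
  rw [e]
  exact hg.trans (pin_iso_tr _)

theorem pin_di_ivr {x : ℝ} (hP : PinPl x) (j : Fin 5) (r0 : ℤ) : PinIvr x (pinLgE j r0) := pin_sp_ivr_lg hP j r0

theorem pin_di_mir (j : Fin 5) (r0 : ℤ) : (fun u => (pinLgE j r0).symm (latRefl (pinLgE j r0 u))) = pinMir j r0 := rfl

/-! ## 1. discrete groups which approximate compact sets: collars, uniformly in the placement -/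

/-- the groups `G n i` (double pins `D n i`) approximate the compact sets `Γ i` -/
structure PinApx (δ : ℕ → ℝ) {α : Type} (s : Finset α) (Γ : α → Set ℂ) (G D : ℕ → α → Finset TV) : Prop where
  pos : ∀ n, 0 < δ n
  lim : Tendsto δ atTop (𝓝 0)
  cpt : ∀ i ∈ s, IsCompact (Γ i)
  ne : ∀ i ∈ s, (Γ i).Nonempty
  ob : ∀ n, ∀ i ∈ s, PinOb (G n i) (D n i)
  near : ∀ r : ℝ, 0 < r → ∀ᶠ n in atTop, ∀ i ∈ s, ∀ u ∈ G n i, pinG (δ n) (Γ i) u ≤ r
  dense : ∀ r : ℝ, 0 < r → ∀ᶠ n in atTop, ∀ i ∈ s, ∀ y ∈ Γ i, ∃ u ∈ G n i, dist (pinP (δ n) u) y ≤ r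

section apx

variable {δ : ℕ → ℝ} {α : Type} {s : Finset α} {Γ : α → Set ℂ} {G D : ℕ → α → Finset TV}

/-- collars with necklaces around the (undisplaced) groups -/
theorem pin_di_collar (H : PinApx δ s Γ G D) (κ n0 : ℕ) {r : ℝ} (hr : 0 < r) :
    ∃ N : ℕ, ∀ᶠ n in atTop, ∃ U : α → Finset TV, (∀ i ∈ s, PinNeck κ n0 N (G n i) (U i)) ∧
      ∀ i ∈ s, ∀ w ∈ U i, ∃ u ∈ G n i, dist (pinP (δ n) w) (pinP (δ n) u) ≤ 3 * r := by
  classical
  have h1 : ∀ i : s, ∃ (N : ℕ) (δ0 : ℝ), 0 < δ0 ∧ ∀ δ', 0 < δ' → δ' ≤ δ0 → ∀ (φ : ℂ ≃ᵢ ℂ) (K U : Finset TV),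
      (∀ u ∈ K, pinG δ' (φ '' Γ i) u ≤ r) → (∀ u, pinG δ' (φ '' Γ i) u ≤ 2 * r → u ∈ U) → PinNeck κ n0 N K U :=
    fun i => pin_pc_neck (H.cpt i i.2) (H.ne i i.2) (by linarith) κ n0
  choose N d hd HN using h1
  obtain ⟨c, hc0, hc⟩ := pin_pc_pos_inf d hd
  refine ⟨Finset.univ.sup N, ?_⟩
  filter_upwards [H.near r hr, H.dense r hr, H.lim.eventually (gt_mem_nhds hc0)] with n h1 h2 h3
  have hU : ∀ i : α, ∃ U : Finset TV, i ∈ s → ∀ u, u ∈ U ↔ pinG (δ n) (Γ i) u ≤ 2 * r := by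
    intro i
    by_cases hi : i ∈ s
    · obtain ⟨U, hU⟩ := pin_pc_nb_finite (H.pos n) (H.cpt i hi) (H.ne i hi) (2 * r)
      exact ⟨U, fun _ => hU⟩
    · exact ⟨∅, fun h => absurd h hi⟩
  choose U hU using hU
  have eid : ∀ X : Set ℂ, (IsometryEquiv.refl ℂ) '' X = X := fun X => image_id X
  refine ⟨U, fun i hi => ?_, fun i hi w hw => ?_⟩
  · have := HN ⟨i, hi⟩ (δ n) (H.pos n) (h3.le.trans (hc _)) (IsometryEquiv.refl ℂ) (G n i) (U i)
      (by rw [eid]; exact h1 i hi) (by rw [eid]; exact fun u hu => (hU i hi u).2 hu)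
    exact this.mono (Finset.le_sup (f := N) (Finset.mem_univ _))
  · obtain ⟨y, hy, hd⟩ := (H.cpt i hi).exists_infDist_eq_dist (H.ne i hi) (pinP (δ n) w)
    have h4 : dist (pinP (δ n) w) y ≤ 2 * r := by rw [← hd]; exact (hU i hi w).1 hw
    obtain ⟨u, hu, hu'⟩ := h2 i hi y hy
    refine ⟨u, hu, ?_⟩
    have h5 := dist_triangle (pinP (δ n) w) y (pinP (δ n) u)
    rw [dist_comm y] at h5
    linarith

theorem pin_di_im_le (E : ℂ ≃ᵢ ℂ) (a b : ℂ) : |(E a).im - (E b).im| ≤ dist a b := by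
  rw [← E.dist_eq a b, dist_eq_norm, ← Complex.sub_im]
  exact Complex.abs_im_le_norm _

theorem pin_di_sqrt3 : Real.sqrt 3 ≤ 2 := by
  rw [show (2 : ℝ) = Real.sqrt 4 by rw [show (4 : ℝ) = 2 ^ 2 by norm_num, Real.sqrt_sq (by norm_num)]]
  exact Real.sqrt_le_sqrt (by norm_num)

/-- **the displaced groups form a separated family with necklaces on one side of the row**, uniformly in the placement -/
theorem pin_di_fs (H : PinApx δ s Γ G D) (κ n0 : ℕ) {m : ℝ} (hm : 0 < m) :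
    ∃ N : ℕ, ∀ᶠ n in atTop, ∀ (t : Finset α) (τ : α → TV) (j : Fin 5) (r0 : ℤ) (σ : ℝ), t ⊆ s → (σ = 1 ∨ σ = -1) →
      (∀ i ∈ t, ∀ i' ∈ t, i ≠ i' → ∀ u ∈ G n i, ∀ v ∈ G n i', m ≤ dist (pinP (δ n) (u + τ i)) (pinP (δ n) (v + τ i'))) →
      (∀ i ∈ t, ∀ u ∈ G n i, m ≤ σ * (pinEg (δ n) j r0 (pinP (δ n) (u + τ i))).im) →
      ∃ (U : α → Finset TV) (b : Bool),
        PinFs κ n0 N t (fun i => (G n i).image fun u => u + τ i) (fun i => (D n i).image fun u => u + τ i) U ∧ PinSd (pinLgE j r0) b t U ∧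
        (b = true ↔ σ = 1) ∧ ∀ i ∈ t, ∀ w ∈ U i, ∃ u ∈ G n i, dist (pinP (δ n) w) (pinP (δ n) (u + τ i)) ≤ 3 * (m / 8) := by
  classical
  obtain ⟨N, hN⟩ := pin_di_collar H κ n0 (r := m / 8) (by positivity)
  refine ⟨N, ?_⟩
  filter_upwards [hN, H.lim.eventually (gt_mem_nhds (show 0 < m / 16 by positivity))] with n hn hδ t τ j r0 σ ht hσ hsep hside
  obtain ⟨U, hU1, hU2⟩ := hn
  have hδ0 := H.pos n
  have hnear : ∀ i ∈ t, ∀ w ∈ (U i).image (fun u => u + τ i), ∃ u ∈ G n i, dist (pinP (δ n) w) (pinP (δ n) (u + τ i)) ≤ 3 * (m / 8) := by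
    intro i hi w hw
    obtain ⟨w0, hw0, rfl⟩ := Finset.mem_image.1 hw
    obtain ⟨u, hu, hd⟩ := hU2 i (ht hi) w0 hw0
    exact ⟨u, hu, by rw [pin_sp_dist_add]; exact hd⟩
  have hrow : ∀ i ∈ t, ∀ w ∈ (U i).image (fun u => u + τ i), 5 * m / 8 ≤ σ * (Real.sqrt 3 / 2 * δ n * ((pinLg j r0 w).2 : ℝ)) := by
    intro i hi w hw
    obtain ⟨u, hu, hd⟩ := hnear i hi w hw
    rw [pin_pc_lg_row]
    have h1 := hside i hi u hu
    have h2 := abs_le.1 ((pin_di_im_le (pinEg (δ n) j r0) (pinP (δ n) w) (pinP (δ n) (u + τ i))).trans hd)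
    rcases hσ with rfl | rfl
    · linarith [h2.1]
    · linarith [h2.2]
  have hc : 0 < Real.sqrt 3 / 2 * δ n := by positivity
  have hc2 : Real.sqrt 3 / 2 * δ n * 2 ≤ 5 * m / 8 := by nlinarith [pin_di_sqrt3]
  refine ⟨fun i => (U i).image fun u => u + τ i, decide (σ = 1), ⟨fun i hi => ?_, fun i hi => ?_, fun i hi i' hi' hii w hw w' hw' => ?_⟩, ?_, by simp, hnear⟩
  · have := pin_iso_ob (pin_iso_tr (τ i)).aut (H.ob n i (ht hi))
    rwa [Finset.map_eq_image, Finset.map_eq_image] at this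
  · have := pin_iso_neck (pin_iso_tr (τ i)) (hU1 i (ht hi))
    rwa [Finset.map_eq_image, Finset.map_eq_image] at this
  · obtain ⟨u, hu, hd⟩ := hnear i hi w hw
    obtain ⟨u', hu', hd'⟩ := hnear i' hi' w' hw'
    have h1 := hsep i hi i' hi' hii u hu u' hu'
    have h2 := dist_triangle4 (pinP (δ n) (u + τ i)) (pinP (δ n) w) (pinP (δ n) w') (pinP (δ n) (u' + τ i'))
    rw [dist_comm (pinP (δ n) (u + τ i)) (pinP (δ n) w)] at h2
    have h3 := pin_sh_P_le hδ0.le w w'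
    have h4 : δ n * 4 ≤ δ n * (latN (w' - w) : ℝ) := by linarith
    have h5 : (4 : ℝ) ≤ (latN (w' - w) : ℝ) := le_of_mul_le_mul_left h4 hδ0
    unfold latDist
    exact_mod_cast h5
  · intro i hi w hw
    have h1 := hrow i hi w hw
    rw [pin_di_lg_apply]
    rcases hσ with rfl | rfl
    · simp only [decide_true, if_true]
      have h2 : Real.sqrt 3 / 2 * δ n * 2 ≤ Real.sqrt 3 / 2 * δ n * ((pinLg j r0 w).2 : ℝ) := by linarith
      have h3 : (2 : ℝ) ≤ ((pinLg j r0 w).2 : ℝ) := le_of_mul_le_mul_left h2 hc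
      exact_mod_cast h3
    · have hne : ¬ ((-1 : ℝ) = 1) := by norm_num
      simp only [hne, decide_false, Bool.false_eq_true, if_false]
      have h2 : Real.sqrt 3 / 2 * δ n * ((pinLg j r0 w).2 : ℝ) ≤ Real.sqrt 3 / 2 * δ n * (-2) := by linarith
      have h3 : ((pinLg j r0 w).2 : ℝ) ≤ (-2 : ℝ) := le_of_mul_le_mul_left h2 hc
      exact_mod_cast h3

end apx

/-! ## 2. the contract `PinDb` without insertion -/

section db

variable {x : ℝ} {δ : ℕ → ℝ} {α : Type} {s : Finset α} {Γ : α → Set ℂ} {G D : ℕ → α → Finset TV}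

/-- **`PinDb` for `Y = 1`**, normalisation `pinPr` -/
theorem pin_di_db_one (hP : PinPl x) {κ n0 : ℕ} (hR : PinRareC x κ n0) (H : PinApx δ s Γ G D) :
    PinDb x δ s G D (fun n i => pinPr x (G n i) (D n i)) (fun _ _ => 1) (fun _ => ∅) := by
  intro m hm
  obtain ⟨N, hN⟩ := pin_di_fs H κ n0 hm
  choose C hC HC using fun k => pin_db_one' hP hR k N
  refine ⟨∑ k ∈ Finset.range (2 * s.card + 1), C k, Finset.sum_nonneg fun k _ => (hC k).le, ?_⟩
  filter_upwards [hN] with n hn t τ j r0 σ ht hne hσ hsep _ hside _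
  obtain ⟨U, b, hF, hS, -, -⟩ := hn t τ j r0 σ ht hσ hsep hside
  have key := HC (t.card + t.card) t _ _ U (pinLgE j r0) b rfl hF (pin_di_iso j r0) (pin_di_ivr hP j r0) hS
  rw [pin_di_mir, pin_db_J_disp hP] at key
  refine key.trans (mul_le_mul_of_nonneg_right ?_ (sq_nonneg _))
  exact Finset.single_le_sum (f := C) (fun k _ => (hC k).le) (Finset.mem_range.2 (by have := Finset.card_le_card ht; omega))

/-- change of the normalisation by a constant factor -/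
theorem PinDb.scale {p p' : ℕ → α → ℝ} {Y : ℕ → (TV → ℤ) → ℝ} {SY : ℕ → Finset TV} (h : PinDb x δ s G D p Y SY) {c : ℝ} (hc : 1 ≤ c)
    (hp : ∀ n, ∀ i ∈ s, p n i = c * p' n i) : PinDb x δ s G D p' Y SY := by
  intro m hm
  obtain ⟨C, hC, H⟩ := h m hm
  have hc0 : 0 ≤ c := zero_le_one.trans hc
  refine ⟨C * (c ^ s.card) ^ 2, by positivity, ?_⟩
  filter_upwards [H] with n hn t τ j r0 σ ht hne hσ h1 h2 h3 h4
  refine (hn t τ j r0 σ ht hne hσ h1 h2 h3 h4).trans ?_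
  have e : ∏ i ∈ t, p n i = c ^ t.card * ∏ i ∈ t, p' n i := by
    rw [Finset.prod_congr rfl fun i hi => hp n i (ht hi), Finset.prod_mul_distrib, Finset.prod_const]
  rw [e, mul_pow, mul_assoc]
  refine mul_le_mul_of_nonneg_left ?_ hC
  refine mul_le_mul_of_nonneg_right ?_ (sq_nonneg _)
  exact pow_le_pow_left₀ (by positivity) (pow_le_pow_right₀ hc (Finset.card_le_card ht)) 2

/-- **`PinDb` for `Y = 1`**, normalisation of `PinSepAt` (Defs/PinTop): `pinPer (1_PinLoc) = pinPr / 4` -/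
theorem pin_di_db_one4 (hP : PinPl x) {κ n0 : ℕ} (hR : PinRareC x κ n0) (H : PinApx δ s Γ G D) :
    PinDb x δ s G D (fun n i => pinPer x fun h => pinI (PinLoc (G n i) (D n i) h)) (fun _ _ => 1) (fun _ => ∅) := by
  refine (pin_di_db_one hP hR H).scale (c := 4) (by norm_num) fun n i hi => ?_
  rw [pin_gap_per_loc_one hP (H.ob n i hi).ne]
  unfold pinPr
  ring

end db

/-! ## 3. the instance -/

section inst

variable {D : Set (ℝ × ℝ)} {δ : ℕ → ℝ} {F : ℕ → Finset TV} {γ : Circle → ℝ × ℝ} {γs : ℕ → Circle → ℝ × ℝ} {CC0 : Finset Circle} {t : ℕ → ℝ}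

/-- the boundary groups at fixed gaps approximate the physical arcs -/
theorem pin_di_apx (H : PinWinDat D δ F γ γs CC0 t) {a ε : ℝ} (ha : 0 < a) (hae : a ≤ ε) (hgap : ∀ i, i < CC0.card → 2 * ε ≤ t (i + 1) - t i) :
    PinApx δ (Finset.range CC0.card) (pinInArc γ t a) (fun n i => pinGp δ F γs t a n i) (fun n i => pinGp δ F γs t ε n i) where
  pos := H.pos
  lim := H.app.2.1
  cpt := fun i _ => pin_in_arc_compact H.bd.1 t a i
  ne := fun i hi => pin_in_arc_nonempty γ (by linarith [hgap i (Finset.mem_range.1 hi)])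
  ob := fun n i hi => pin_in_ob H hae (hgap i (Finset.mem_range.1 hi)) n
  near := fun r hr => by
    filter_upwards [pin_in_gp_near H hr] with n hn i _ u hu using hn a i u hu
  dense := fun r hr => by
    filter_upwards [H.small (half_pos hr)] with n hn i _ y hy
    obtain ⟨_, ⟨θ, hθ, rfl⟩, rfl⟩ := hy
    obtain ⟨u, hu, hf⟩ := pin_win_at (H.pos n) (H.rng n) hθ
    refine ⟨u, hu, ?_⟩
    have := H.near hn hf
    show dist (pinC _) (pinC _) ≤ r
    rw [pin_in_dist]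
    linarith

/-- **the hypothesis `hD1` of `pin_sep` on the instance of Defs/PinTop** -/
theorem pin_di_std_one {x : ℝ} (hP : PinPl x) {κ n0 : ℕ} (hR : PinRareC x κ n0) (H : PinWinDat D δ F γ γs CC0 t) {a ε : ℝ} (ha : 0 < a) (hae : a ≤ ε)
    (hgap : ∀ i, i < CC0.card → 2 * ε ≤ t (i + 1) - t i) :
    PinDb x δ (Finset.range CC0.card) (fun n i => pinGp δ F γs t a n i) (fun n i => pinGp δ F γs t ε n i)
      (fun n i => pinPer x fun h => pinI (PinLoc (pinGp δ F γs t a n i) (pinGp δ F γs t ε n i) h)) (fun _ _ => 1) (fun _ => ∅) :=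
  pin_di_db_one4 hP hR (pin_di_apx H ha hae hgap)

end inst

/-! ## 4. N3a for the insertion, families indexed by a finite set -/

theorem pin_dj_test_fs {x : ℝ} (hx1 : 1 / Real.sqrt 2 ≤ x) (hx2 : x ≤ 1) (hP : PinPl x) {L1 ρ0 κ n0 : ℕ} (hC : PinCutC x L1 ρ0)
    (hR : PinRareC x κ n0) (hpos : PinPosC x) (k N p : ℕ) {φ : ℝ × ℝ → ℝ} (hφ : ContDiff ℝ ∞ φ) (hc : HasCompactSupport φ)
    {c0 : ℝ} (hc0 : 0 < c0) :
    ∃ C δ0 : ℝ, 0 < C ∧ 0 < δ0 ∧ ∀ δ : ℝ, 0 < δ → δ ≤ δ0 → ∀ {α : Type} (s : Finset α) (G D U : α → Finset TV), s.card = k →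
      PinFs κ n0 N s G D U → (∀ i ∈ s, ∀ u ∈ G i, ∀ y ∈ tsupport φ, c0 ^ 2 ≤ sqDist (triPos δ u) y) →
      htPl x (fun h => |latArr (plnW δ (lap2 φ)) h| ^ p * pinAg s G D h) ≤ C * ∏ i ∈ s, pinPr x (G i) (D i) := by
  obtain ⟨C, δ0, hC0, hδ0, T⟩ := pin_test_gr hx1 hx2 hP hC hR hpos k N p hφ hc hc0
  obtain ⟨Cr, hCr, HR⟩ := pin_db_up hR k N
  refine ⟨C * Cr, δ0, mul_pos hC0 hCr, hδ0, fun δ hδ hδ' {α} s G D U hk hF hfar => ?_⟩
  have up := HR s G D U hk hF
  subst hk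
  have e : Fin s.card ≃ s := s.equivFin.symm
  have key := T δ hδ hδ' _ _ _ (pin_fs_fin hF e) (fun i u hu y hy => hfar _ (e i).2 u hu y hy)
  have eI : (fun h => pinI (∀ i, PinGr (G (e i)) (D (e i)) h)) = pinAg s G D := by
    funext b
    exact pin_dlr_I_congr (pin_fs_forall e fun i => PinGr (G i) (D i) b)
  have eI' : (fun h => |latArr (plnW δ (lap2 φ)) h| ^ p * pinI (∀ i, PinGr (G (e i)) (D (e i)) h))
      = fun h => |latArr (plnW δ (lap2 φ)) h| ^ p * pinAg s G D h := by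
    funext b
    rw [← eI]
  rw [eI, eI'] at key
  calc htPl x (fun h => |latArr (plnW δ (lap2 φ)) h| ^ p * pinAg s G D h) ≤ C * htPl x (pinAg s G D) := key
    _ ≤ C * (Cr * ∏ i ∈ s, pinPr x (G i) (D i)) := mul_le_mul_of_nonneg_left up hC0.le
    _ = C * Cr * ∏ i ∈ s, pinPr x (G i) (D i) := by ring

/-! ## 5. distances to the support of the test -/

/-- a site at the distance `≥ m` from the sites of a cover of `K` is at the distance `≥ m / 2` from `K` -/
theorem pin_dj_far {δ m : ℝ} (hδ : 0 < δ) (hδm : δ ≤ m / 2) (hm : 0 < m) {K : Set (ℝ × ℝ)} {SY : Finset TV}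
    (hcov : ∀ y ∈ K, ∃ v ∈ SY, y ∈ hexFace δ v) {w : TV} (hw : ∀ v ∈ SY, m ≤ dist (pinP δ w) (pinP δ v)) :
    ∀ y ∈ K, (m / 2) ^ 2 ≤ sqDist (triPos δ w) y := by
  intro y hy
  obtain ⟨v, hv, hf⟩ := hcov y hy
  have h1 := hw v hv
  have h2 := pin_te_face hδ hf
  have h3 := dist_triangle (pinP δ w) (pinC y) (pinP δ v)
  have h4 : m / 2 ≤ dist (pinP δ w) (pinC y) := by linarith
  by_contra hn
  exact absurd ((pin_sh_dist_lt_iff _ _ (by positivity)).2 (not_le.1 hn)) (not_lt.2 h4)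

/-- the mirror image of a site is far from the sites which lie on the same side of the row as the site -/
theorem pin_dj_far_mir {δ m σ : ℝ} (hm : 0 < m) (hσ : σ = 1 ∨ σ = -1) (j : Fin 5) (r0 : ℤ) {u v : TV}
    (hu : m ≤ σ * (pinEg δ j r0 (pinP δ u)).im) (hv : m ≤ σ * (pinEg δ j r0 (pinP δ v)).im) :
    m ≤ dist (pinP δ (pinMir j r0 u)) (pinP δ v) := by
  rw [← (pinEg δ j r0).dist_eq, pin_sp_P_mir, dist_comm]
  rcases hσ with rfl | rfl
  · have := pin_pc_mirror (c := m) (x := pinEg δ j r0 (pinP δ v)) (y := pinEg δ j r0 (pinP δ u)) (by linarith) (by linarith)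
    linarith
  · have := pin_pc_mirror' (c := m) (x := pinEg δ j r0 (pinP δ v)) (y := pinEg δ j r0 (pinP δ u)) (by linarith) (by linarith)
    linarith

/-! ## 6. the contract with the insertion, abstract form -/

section db

variable {x : ℝ} {δ : ℕ → ℝ} {α : Type} {s : Finset α} {Γ : α → Set ℂ} {G D : ℕ → α → Finset TV}

theorem PinDb.congr {p : ℕ → α → ℝ} {Y Y' : ℕ → (TV → ℤ) → ℝ} {SY : ℕ → Finset TV} (h : PinDb x δ s G D p Y SY)
    (hY : ∀ᶠ n in atTop, Y' n = Y n) : PinDb x δ s G D p Y' SY := by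
  intro m hm
  obtain ⟨C, hC, H⟩ := h m hm
  refine ⟨C, hC, ?_⟩
  filter_upwards [H, hY] with n hn e
  rw [e]
  exact hn

theorem PinDb.mono {p : ℕ → α → ℝ} {Y : ℕ → (TV → ℤ) → ℝ} {SY SY' : ℕ → Finset TV} (h : PinDb x δ s G D p Y SY)
    (hS : ∀ᶠ n in atTop, SY n ⊆ SY' n) : PinDb x δ s G D p Y SY' := by
  intro m hm
  obtain ⟨C, hC, H⟩ := h m hm
  refine ⟨C, hC, ?_⟩
  filter_upwards [H, hS] with n hn e
  exact hn.mono e

/-- **`PinDb` for the insertion** `X = latArr (plnW δ (lap2 φ))`, normalisation `pinPr` -/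
theorem pin_dj_db_arr (hx1 : 1 / Real.sqrt 2 ≤ x) (hx2 : x ≤ 1) (hP : PinPl x) {L1 ρ0 κ n0 : ℕ} (hC : PinCutC x L1 ρ0)
    (hR : PinRareC x κ n0) (hpos : PinPosC x) (H : PinApx δ s Γ G D) {φ : ℝ × ℝ → ℝ} (hφ : ContDiff ℝ ∞ φ) (hc : HasCompactSupport φ)
    {SY : ℕ → Finset TV} (hcov : ∀ᶠ n in atTop, ∀ y ∈ tsupport φ, ∃ v ∈ SY n, y ∈ hexFace (δ n) v) :
    PinDb x δ s G D (fun n i => pinPr x (G n i) (D n i)) (fun n => latArr (plnW (δ n) (lap2 φ))) SY := by
  intro m hm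
  obtain ⟨N, hN⟩ := pin_di_fs H κ n0 hm
  choose C d hC0 hd T using fun k : Fin (2 * s.card + 1) => pin_dj_test_fs hx1 hx2 hP hC hR hpos k.val N 2 hφ hc (half_pos hm)
  obtain ⟨d0, hd0, hd0'⟩ := pin_pc_pos_inf d hd
  refine ⟨∑ k, C k, Finset.sum_nonneg fun k _ => (hC0 k).le, ?_⟩
  filter_upwards [hN, hcov, H.lim.eventually (gt_mem_nhds hd0), H.lim.eventually (gt_mem_nhds (half_pos hm))] with n hn hcv hδ1 hδ2
  intro t τ j r0 σ ht hne hσ hsep hfarY hside hsideY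
  obtain ⟨U, b, hF, hS, -, -⟩ := hn t τ j r0 σ ht hσ hsep hside
  have hδ0 := H.pos n
  have hΘ := pin_iso_th (pin_di_iso j r0)
  have eΘ : (⇑(pinThE (pinLgE j r0)) : TV → TV) = pinMir j r0 := rfl
  have hF2 := hF.sum (hF.image hΘ) (fun i hi i' hi' u hu v hv => by
    obtain ⟨v', hv', rfl⟩ := Finset.mem_image.1 hv
    exact pin_db_far (pin_di_iso j r0) hS i hi i' hi' u hu v' hv')
  rw [eΘ] at hF2
  have hk : t.card + t.card < 2 * s.card + 1 := by have := Finset.card_le_card ht; omega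
  have key := T ⟨t.card + t.card, hk⟩ (δ n) hδ0 (hδ1.le.trans (hd0' _)) (t.disjSum t) _ _ _ (by rw [Finset.card_disjSum]) hF2 (by
    rintro (i | i) hi u hu
    · have hi' := Finset.inl_mem_disjSum.1 hi
      obtain ⟨u0, hu0, rfl⟩ := Finset.mem_image.1 hu
      exact pin_dj_far hδ0 hδ2.le hm hcv fun v hv => hfarY i hi' u0 hu0 v hv
    · have hi' := Finset.inr_mem_disjSum.1 hi
      obtain ⟨u1, hu1, rfl⟩ := Finset.mem_image.1 hu
      obtain ⟨u0, hu0, rfl⟩ := Finset.mem_image.1 hu1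
      exact pin_dj_far hδ0 hδ2.le hm hcv fun v hv => pin_dj_far_mir hm hσ j r0 (hside i hi' u0 hu0) (hsideY v hv))
  rw [Finset.prod_disjSum] at key
  simp only [Sum.elim_inl, Sum.elim_inr, pin_iso_p (pin_sp_ivr_mir hP j r0), sq_abs] at key
  rw [← sq, pin_db_J_disp hP] at key
  refine (pin_db_gen hP t _ _ (pinMir j r0) _ key).trans (mul_le_mul_of_nonneg_right ?_ (sq_nonneg _))
  exact Finset.single_le_sum (f := C) (fun k _ => (hC0 k).le) (Finset.mem_univ (⟨t.card + t.card, hk⟩ : Fin (2 * s.card + 1)))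

end db

/-! ## 7. the instance with the insertion -/

section inst

variable {x : ℝ} {D : Set (ℝ × ℝ)} {δ : ℕ → ℝ} {F : ℕ → Finset TV} {γ : Circle → ℝ × ℝ} {γs : ℕ → Circle → ℝ × ℝ} {CC0 : Finset Circle} {t : ℕ → ℝ}
  {z0 : ℝ × ℝ} {ρ : ℝ} {q : ℕ} {φ : ℝ × ℝ → ℝ} {g : Fin q → ℝ × ℝ → ℝ} {lm lp : ℝ}

theorem pin_dj_arr_supp (hA : LimArr D z0 ρ q φ g) : tsupport φ ⊆ wkBall z0 (ρ / 1000) ∧ HasCompactSupport φ ∧ tsupport φ ⊆ D := by
  have hρ := hA.rho_pos
  have hsub : tsupport φ ⊆ wkBall z0 (ρ / 1000) := by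
    intro y hy'
    by_contra hn
    exact hA.phi_supp y (not_le.1 hn).le hy'
  exact ⟨hsub, (wk_ball_compact z0 (by positivity : (0 : ℝ) ≤ ρ / 1000)).of_isClosed_subset (isClosed_tsupport φ) hsub,
    hsub.trans ((wk_ball_mono z0 (by positivity) (by linarith)).trans hA.ball)⟩

/-- eventually the smeared insertion is the array of the face weights -/
theorem pin_dj_sm_eq (hD : IsOpen D) (hF : IsInsideApprox D δ F) (hφ : ContDiff ℝ ∞ φ) (hc : HasCompactSupport φ) (hφD : tsupport φ ⊆ D) :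
    ∀ᶠ n in atTop, htSm (δ n) (F n) (lap2 φ) = latArr (plnW (δ n) (lap2 φ)) := by
  obtain ⟨c, hc0, hin⟩ := hg_latBall_subset_int hD hF hc hφD
  filter_upwards [hin, hF.2.1.eventually (gt_mem_nhds hc0)] with n hn1 hn2
  funext h
  rw [pin_te_arr_eq (hF.1 n) (pin_te_lap hφ hc).1 (fun w hw => ?_) h]
  obtain ⟨y, hy1, hy2⟩ := hw
  have := hn1 w ⟨y, hy1, wkg_lap_tsupport φ hy2⟩ 0 (by push_cast; linarith)
  exact this (lat_mem_ball.2 (by simp [latN]))

/-- **the hypothesis `hDX` of `pin_sep` on the instance of Defs/PinTop** -/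
theorem pin_dj_std_X (hx1 : 1 / Real.sqrt 2 ≤ x) (hx2 : x ≤ 1) (hP : PinPl x) {L1 ρ0 κ n0 : ℕ} (hC : PinCutC x L1 ρ0)
    (hR : PinRareC x κ n0) (hpos : PinPosC x) (H : PinStd D δ F γ γs CC0 t z0 ρ q φ g lm lp) {a ε : ℝ} (ha : 0 < a) (hae : a ≤ ε)
    (hgap : ∀ i, i < CC0.card → 2 * ε ≤ t (i + 1) - t i) {SY : ℕ → Finset TV}
    (hcov : ∀ᶠ n in atTop, ∀ y ∈ tsupport φ, ∃ v ∈ SY n, y ∈ hexFace (δ n) v) :
    PinDb x δ (Finset.range CC0.card) (fun n i => pinGp δ F γs t a n i) (fun n i => pinGp δ F γs t ε n i)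
      (fun n i => pinPer x fun h => pinI (PinLoc (pinGp δ F γs t a n i) (pinGp δ F γs t ε n i) h)) (fun n => htSm (δ n) (F n) (lap2 φ)) SY := by
  obtain ⟨-, hc, hφD⟩ := pin_dj_arr_supp H.arr
  have A := pin_di_apx H.dat ha hae hgap
  have base := (pin_dj_db_arr hx1 hx2 hP hC hR hpos A H.arr.phi_smooth hc hcov).congr
    (pin_dj_sm_eq H.dom.1 H.dat.app H.arr.phi_smooth hc hφD)
  refine base.scale (c := 4) (by norm_num) fun n i hi => ?_
  rw [pin_gap_per_loc_one hP (A.ob n i hi).ne]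
  unfold pinPr
  ring

/-- both contracts from the exits of DIS (constants obtained once) -/
theorem pin_dj_std_both (hx1 : 1 / Real.sqrt 2 ≤ x) (hx2 : x ≤ 1) (hP : PinPl x) (H : PinStd D δ F γ γs CC0 t z0 ρ q φ g lm lp) {a ε : ℝ}
    (ha : 0 < a) (hae : a ≤ ε) (hgap : ∀ i, i < CC0.card → 2 * ε ≤ t (i + 1) - t i) {SY : ℕ → Finset TV}
    (hcov : ∀ᶠ n in atTop, ∀ y ∈ tsupport φ, ∃ v ∈ SY n, y ∈ hexFace (δ n) v) :
    PinDb x δ (Finset.range CC0.card) (fun n i => pinGp δ F γs t a n i) (fun n i => pinGp δ F γs t ε n i)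
      (fun n i => pinPer x fun h => pinI (PinLoc (pinGp δ F γs t a n i) (pinGp δ F γs t ε n i) h)) (fun n => htSm (δ n) (F n) (lap2 φ)) SY ∧
    PinDb x δ (Finset.range CC0.card) (fun n i => pinGp δ F γs t a n i) (fun n i => pinGp δ F γs t ε n i)
      (fun n i => pinPer x fun h => pinI (PinLoc (pinGp δ F γs t a n i) (pinGp δ F γs t ε n i) h)) (fun _ _ => 1) (fun _ => ∅) := by
  obtain ⟨L1, ρ0, hC⟩ := pin_mo_exit_cut x hx1 hx2
  obtain ⟨κ, n0, hR⟩ := pin_mo_exit_rare x hx1 hx2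
  exact ⟨pin_dj_std_X hx1 hx2 hP hC hR (pin_mo_exit_pos x hx1 hx2) H ha hae hgap hcov, pin_di_std_one hP hR H.dat ha hae hgap⟩

/-- positivity of the normalisation of `PinSepAt` (hypothesis `hp` of `pin_sep`) -/
theorem pin_dj_std_pos (hP : PinPl x) (hpos : PinPosC x) (H : PinWinDat D δ F γ γs CC0 t) {a ε : ℝ} (hae : a ≤ ε)
    (hgap : ∀ i, i < CC0.card → 2 * ε ≤ t (i + 1) - t i) (n : ℕ) {i : ℕ} (hi : i ∈ Finset.range CC0.card) :
    0 < pinPer x fun h => pinI (PinLoc (pinGp δ F γs t a n i) (pinGp δ F γs t ε n i) h) := by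
  rw [pin_gap_per_loc_one hP (pin_in_ob H hae (hgap i (Finset.mem_range.1 hi)) n).ne]
  have := hpos (pinGp δ F γs t a n i) (pinGp δ F γs t ε n i)
  positivity

end inst

theorem pin_di_eqns_cite : True := by
  have := @pinLgE.eq_1
  trivial

end Claimed.Agent.R291
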