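import Claimed.Agent.R291.Pin.Tr
import Claimed.Agent.R291.Exit.Pln
import Claimed.Agent.R291.Exit.PlnHt
import Claimed.Agent.R291.Geo.Lat
import Claimed.Agent.R291.Wick.Green

/-!
# Row 291 (S0539), unit PIN (05-pins), Pin/Last : (R3) THE REFLECTION-NULL ADAPTER      (OWNER helper74; head of PIN: helper34, deputy helper48; prefix `pin_la_`)      0 sorry

TEX[prop:reflection-null] as consumed at the final placement of TEX[pins:three-moves] (`pin_last` of Pin/Side, helper48).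
* sec. 0  `pin_la_pl x hx1 hx2 : PinPl x`  (glue from `exit_pln_ht`): the hypothesis `hP` of Pin/Rp, Pin/Tr, Pin/Side.
* sec. 1  reflection in the site row `n = j` (`plnRow j`): `pin_la_row_eq` (`= τ ∘ latRefl ∘ τ⁻¹`), `PinDn j G`, `pin_la_pl_row`, `pin_la_rp`, `pin_la_symm`, `pin_la_cs`, `pin_la_cs'`, `pin_la_last`
          (horizontal rows only; the general frames are `pin_pl_rp_cs_gen`, `pin_last` of Pin/Side).
* sec. 2  `pin_la_seq`: a statement on ALL functions `J : mesh → row` gives the statement on ALL SEQUENCES `(δ n, j n)` (the rows may depend on `n`, not only on `δ n`);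
          `pin_la_arr_map`, `pin_la_pair_arr` (`htSm = latArr (plnW ..)` as soon as the interior contains the faces which meet the support);
          **`pin_la_r3`**: `htPl x (θ_{j n} X_n * X_n) → 0`, `X_n = htSm (δ n) (F n) (lap2 φ)`, `tsupport φ` above `y0 + m`, `√3/2 δ_n j_n → y0`;
          **`pin_la_r3_side`**: the same in the shape of `pin_last` (`g u = u + (0, -j n)`, `g' u = u + (0, j n)`);   **`pin_la_r3_arr`**: for the insertion of a `LimArr`, any limit line below the disc of radius `ρ/1000`.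
* sec. 3  THE MIRROR FORM (test BELOW the rows; orientation of Pin/Place, Pin/Sep): `pin_la_r3_gam`, `pin_la_r3_gam'` (array forms, no domain), `pin_la_gam_conj` (conjugation by the reflection in the row `0`),
          **`pin_la_r3_sep`** = the contract `PinR3 x δ (fun n => htSm (δ n) (F n) (lap2 φ)) y1` of Pin/Sep, unfolded (no import of Pin/Sep: use it by `exact`).
-/

set_option autoImplicit false

namespace Claimed.Agent.R291

open Claims Claims.C0467 Filter Topology Set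

/-! ## 0. the plane functional -/

/-- `PinPl x` (what Pin/Rp, Pin/Tr consume) from the exit of DIS/PLN -/
theorem pin_la_pl (x : ℝ) (hx1 : 1 / Real.sqrt 2 ≤ x) (hx2 : x ≤ 1) : PinPl x :=
  ⟨lt_of_lt_of_le (by positivity) hx1, (exit_pln_ht x hx1 hx2).lim, (exit_pln_ht x hx1 hx2).trans⟩

/-! ## 1. reflection in an arbitrary site row: invariance, positivity, Cauchy-Schwarz -/

/-- `G` depends only on the heights on or below the row `n = j` -/
def PinDn (j : ℤ) (G : (TV → ℤ) → ℝ) : Prop := ∀ h h' : TV → ℤ, (∀ u : TV, u.2 ≤ j → h u = h' u) → G h = G h'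

theorem pin_la_eqns_cite : True := by
  have := @PinDn.eq_1
  trivial

theorem pin_la_row_row (j : ℤ) (u : TV) : plnRow j (plnRow j u) = u := by
  unfold plnRow
  ext
  · simp only; ring
  · simp

theorem pin_la_row_snd (j : ℤ) (u : TV) : (plnRow j u).2 = 2 * j - u.2 := rfl

theorem pin_la_row_eq (j : ℤ) (u : TV) : plnRow j u = latRefl (u + (0, -j)) + (0, j) := by
  unfold plnRow latRefl
  ext <;> simp <;> ring

theorem pin_la_mp_row (j : ℤ) (G : (TV → ℤ) → ℝ) :
    pinMp (plnRow j) G = pinSh (0, j) (pinMp latRefl (pinSh (0, -j) G)) := by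
  funext h
  show G (fun u => h (plnRow j u)) = G (fun u => h (latRefl (u + (0, -j)) + (0, j)))
  congr 1
  funext u
  congr 1
  unfold plnRow latRefl
  ext <;> simp <;> ring

theorem pin_la_mp_mp (j : ℤ) (G : (TV → ℤ) → ℝ) : pinMp (plnRow j) (pinMp (plnRow j) G) = G := by
  funext h
  show G (fun u => h (plnRow j (plnRow j u))) = G h
  simp only [pin_la_row_row]

theorem pin_la_up_of_dn {j : ℤ} {G : (TV → ℤ) → ℝ} (hG : PinDn j G) : PinUp j (pinMp (plnRow j) G) := by
  intro h h' e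
  refine hG _ _ fun u hu => e _ ?_
  rw [pin_la_row_snd]; omega

theorem pin_la_dn_of_up {j : ℤ} {G : (TV → ℤ) → ℝ} (hG : PinUp j G) : PinDn j (pinMp (plnRow j) G) := by
  intro h h' e
  refine hG _ _ fun u hu => e _ ?_
  rw [pin_la_row_snd]; omega

theorem pin_la_up_of_loc {S : Finset TV} {G : (TV → ℤ) → ℝ} (hG : HtLoc S G) {j : ℤ} (hS : ∀ u ∈ S, j ≤ u.2) : PinUp j G :=
  fun h h' e => hG h h' fun u hu => e u (hS u hu)

theorem pin_la_dn_of_loc {S : Finset TV} {G : (TV → ℤ) → ℝ} (hG : HtLoc S G) {j : ℤ} (hS : ∀ u ∈ S, u.2 ≤ j) : PinDn j G :=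
  fun h h' e => hG h h' fun u hu => e u (hS u hu)

theorem pin_la_dn_mul {j : ℤ} {F G : (TV → ℤ) → ℝ} (hF : PinDn j F) (hG : PinDn j G) : PinDn j (fun a => F a * G a) :=
  fun h h' e => by
    show F h * G h = F h' * G h'
    rw [hF h h' e, hG h h' e]

theorem pin_la_dn_mono {j j' : ℤ} (hjj : j ≤ j') {G : (TV → ℤ) → ℝ} (hG : PinDn j G) : PinDn j' G :=
  fun h h' e => hG h h' fun u hu => e u (hu.trans hjj)

theorem pin_la_dn_sum {j : ℤ} {K : (TV → ℤ) → ℝ} (hK : PinDn j K) : PinDn j (pinSum K) := by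
  intro h h' e
  unfold pinSum
  refine finsum_congr fun c => hK _ _ fun u hu => ?_
  rw [e u hu]

theorem pin_la_up_sum {j : ℤ} {K : (TV → ℤ) → ℝ} (hK : PinUp j K) : PinUp j (pinSum K) := by
  intro h h' e
  unfold pinSum
  refine finsum_congr fun c => hK _ _ fun u hu => ?_
  rw [e u hu]

section plane

variable {x : ℝ} (hP : PinPl x)
include hP

/-- invariance of the plane functional under the reflection in the row `n = j` -/
theorem pin_la_pl_row {G : (TV → ℤ) → ℝ} (hG : PinLG G) (j : ℤ) : htPl x (pinMp (plnRow j) G) = htPl x G := by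
  rw [pin_la_mp_row]
  have h1 := pin_pl_tr hP ((hG.sh (0, -j)).mp latRefl) (0, j)
  have h2 := pin_pl_re hP (hG.sh (0, -j))
  have h3 := pin_pl_tr hP hG (0, -j)
  exact h1.trans (h2.trans h3)

/-- reflection positivity across the row `n = j` -/
theorem pin_la_rp {F : (TV → ℤ) → ℝ} (hF : PinLG F) {j : ℤ} (hu : PinUp j F) :
    0 ≤ htPl x (fun a => pinMp (plnRow j) F a * F a) := by
  have hF' : PinLG (pinSh (0, -j) F) := hF.sh _
  have hu' : PinUp 0 (pinSh (0, -j) F) := by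
    have := pin_up_sh hu (0, -j)
    simpa using this
  have h0 := pin_pl_rp hP hF' hu'
  have h1 := pin_pl_tr hP ((hF'.mp latRefl).mul hF') (0, j)
  rw [← h1] at h0
  have e : pinMp (· + ((0 : ℤ), j)) (fun a => pinMp latRefl (pinSh (0, -j) F) a * pinSh (0, -j) F a)
      = fun a => pinMp (plnRow j) F a * F a := by
    rw [pin_la_mp_row]
    funext a
    have e2 : pinSh (0, j) (pinSh (0, -j) F) = F := by
      rw [pin_sh_sh]
      have : ((0 : ℤ), j) + (0, -j) = 0 := by ext <;> simp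
      rw [this, pin_sh_zero]
    show pinSh (0, j) (pinMp latRefl (pinSh (0, -j) F)) a * pinSh (0, j) (pinSh (0, -j) F) a = _
    rw [e2]
  rw [e] at h0
  exact h0

/-- symmetry of the reflection form -/
theorem pin_la_symm {A B : (TV → ℤ) → ℝ} (hA : PinLG A) (hB : PinLG B) (j : ℤ) :
    htPl x (fun a => pinMp (plnRow j) A a * B a) = htPl x (fun a => pinMp (plnRow j) B a * A a) := by
  have h := pin_la_pl_row hP ((hA.mp (plnRow j)).mul hB) j
  rw [← h]
  congr 1
  funext a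
  show pinMp (plnRow j) (pinMp (plnRow j) A) a * pinMp (plnRow j) B a = _
  rw [pin_la_mp_mp, mul_comm]

/-- **reflection Cauchy-Schwarz**, both observables above the row -/
theorem pin_la_cs {A B : (TV → ℤ) → ℝ} (hA : PinLG A) (hB : PinLG B) {j : ℤ} (huA : PinUp j A) (huB : PinUp j B) :
    htPl x (fun a => pinMp (plnRow j) A a * B a) ^ 2
      ≤ htPl x (fun a => pinMp (plnRow j) A a * A a) * htPl x (fun a => pinMp (plnRow j) B a * B a) := by
  refine pin_cs_of_quad fun t => ?_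
  have hT : PinLG (fun a => A a + t * B a) := hA.add (hB.smul t)
  have h0 := pin_la_rp hP hT (pin_up_add huA (pin_up_smul huB t))
  have hAA := (hA.mp (plnRow j)).mul hA
  have hAB := (hA.mp (plnRow j)).mul hB
  have hBA := (hB.mp (plnRow j)).mul hA
  have hBB := (hB.mp (plnRow j)).mul hB
  have e : (fun a => pinMp (plnRow j) (fun a => A a + t * B a) a * (A a + t * B a))
      = fun a => (pinMp (plnRow j) A a * A a + t * (pinMp (plnRow j) A a * B a))
        + (t * (pinMp (plnRow j) B a * A a) + t ^ 2 * (pinMp (plnRow j) B a * B a)) := by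
    funext a
    show (pinMp (plnRow j) A a + t * pinMp (plnRow j) B a) * (A a + t * B a) = _
    ring
  rw [e, pin_pl_add hP (hAA.add (hAB.smul t)) ((hBA.smul t).add (hBB.smul _)), pin_pl_add hP hAA (hAB.smul t),
    pin_pl_add hP (hBA.smul t) (hBB.smul _), pin_pl_smul hP hAB, pin_pl_smul hP hBA, pin_pl_smul hP hBB,
    pin_la_symm hP hB hA] at h0
  linarith

/-- **reflection Cauchy-Schwarz**, one observable on each side of the row -/
theorem pin_la_cs' {A B : (TV → ℤ) → ℝ} (hA : PinLG A) (hB : PinLG B) {j : ℤ} (huA : PinUp j A) (hdB : PinDn j B) :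
    htPl x (fun a => A a * B a) ^ 2
      ≤ htPl x (fun a => pinMp (plnRow j) A a * A a) * htPl x (fun a => pinMp (plnRow j) B a * B a) := by
  have h := pin_la_cs hP (hB.mp (plnRow j)) hA (pin_la_up_of_dn hdB) huA
  rw [pin_la_mp_mp] at h
  have e1 : (fun a => B a * A a) = fun a => A a * B a := by funext a; ring
  have e2 : (fun a => B a * pinMp (plnRow j) B a) = fun a => pinMp (plnRow j) B a * B a := by funext a; ring
  rw [e1, e2, mul_comm] at h
  exact h

/-- **the last step of the five moves**: the insertion `X` (gradient observable) above the row, everything else (`Rest`, local and height-localized) below it -/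
theorem pin_la_last {X Rest : (TV → ℤ) → ℝ} (hX : PinLG X) (hR : PinLc Rest) {j : ℤ} (huX : PinUp j X) (hdR : PinDn j Rest) :
    pinHat x (fun a => X a * Rest a) ^ 2
      ≤ htPl x (fun a => pinMp (plnRow j) X a * X a) * htPl x (fun a => pinMp (plnRow j) (pinSum Rest) a * pinSum Rest a) := by
  have e : pinHat x (fun a => X a * Rest a) = htPl x (fun a => X a * pinSum Rest a) := by
    show htPl x (pinSum fun a => X a * Rest a) = _
    rw [pin_sum_mul_grad hX.2]
  rw [e]
  exact pin_la_cs' hP hX (pin_sum_LG hR) huX (pin_la_dn_sum hdR)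

end plane


/-! ## 2. reflection-null along a SEQUENCE of meshes and rows -/

/-- from functions of the mesh to sequences: the rows `j n` may depend on `n` and not only on `δ n` -/
theorem pin_la_seq {c y0 : ℝ} (hc : 0 < c) {G : ℤ → ℝ → ℝ}
    (H : ∀ J : ℝ → ℤ, Tendsto (fun t : ℝ => c * t * (J t : ℝ)) (𝓝[>] 0) (𝓝 y0) → Tendsto (fun t : ℝ => G (J t) t) (𝓝[>] 0) (𝓝 0))
    {δ : ℕ → ℝ} (hδ : ∀ n, 0 < δ n) (hδ0 : Tendsto δ atTop (𝓝 0)) {j : ℕ → ℤ}
    (hj : Tendsto (fun n => c * δ n * (j n : ℝ)) atTop (𝓝 y0)) : Tendsto (fun n => G (j n) (δ n)) atTop (𝓝 0) := by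
  classical
  have hfin : ∀ t : ℝ, {n | δ n = t}.Finite := by
    intro t
    by_cases ht : 0 < t
    · obtain ⟨N, hN⟩ := eventually_atTop.1 (hδ0.eventually (gt_mem_nhds ht))
      refine (Set.finite_lt_nat N).subset fun n hn => ?_
      by_contra hc'
      have := hN n (not_lt.1 hc')
      rw [hn] at this
      exact lt_irrefl _ this
    · convert Set.finite_empty
      ext n
      simp only [Set.mem_ofPred_eq, Set.mem_empty_iff_false, iff_false]
      intro hn
      exact ht (hn ▸ hδ n)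
  have hex : ∀ t : ℝ, ∃ J : ℤ, ((∃ n, δ n = t) → ∃ m, δ m = t ∧ J = j m ∧ ∀ n, δ n = t → |G (j n) (δ n)| ≤ |G (j m) (δ m)|) ∧
      ((¬ ∃ n, δ n = t) → J = ⌊y0 / (c * t)⌋) := by
    intro t
    by_cases h : ∃ n, δ n = t
    · obtain ⟨m, hm, hmax⟩ := Set.exists_max_image {n | δ n = t} (fun n => |G (j n) (δ n)|) (hfin t) h
      exact ⟨j m, fun _ => ⟨m, hm, rfl, hmax⟩, fun h' => absurd h h'⟩
    · exact ⟨_, fun h' => absurd h' h, fun _ => rfl⟩
  choose J hJ1 hJ2 using hex
  have hJt : Tendsto (fun t : ℝ => c * t * (J t : ℝ)) (𝓝[>] 0) (𝓝 y0) := by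
    rw [Metric.tendsto_nhdsWithin_nhds]
    intro ε hε
    obtain ⟨N, hN⟩ := Metric.tendsto_atTop.1 hj ε hε
    obtain ⟨η, hη, hηN⟩ : ∃ η : ℝ, 0 < η ∧ ∀ n < N, η ≤ δ n := by
      clear hN
      induction N with
      | zero => exact ⟨1, one_pos, fun n hn => absurd hn (Nat.not_lt_zero n)⟩
      | succ N ih =>
        obtain ⟨η, hη, h⟩ := ih
        refine ⟨min η (δ N), lt_min hη (hδ N), fun n hn => ?_⟩
        rcases Nat.lt_succ_iff_lt_or_eq.1 hn with h1 | h1
        · exact (min_le_left _ _).trans (h n h1)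
        · rw [h1]; exact min_le_right _ _
    refine ⟨min η (ε / c), lt_min hη (by positivity), fun t ht htd => ?_⟩
    have ht0 : 0 < t := ht
    rw [Real.dist_eq, sub_zero, abs_of_pos ht0] at htd
    by_cases h : ∃ n, δ n = t
    · obtain ⟨m, hm, hJm, -⟩ := hJ1 t h
      have hmN : N ≤ m := by
        by_contra hlt
        have := hηN m (not_le.1 hlt)
        rw [hm] at this
        linarith [htd.trans_le (min_le_left _ _)]
      have := hN m hmN
      rw [hm] at this
      rw [hJm]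
      exact this
    · rw [hJ2 t h, Real.dist_eq]
      have hct : 0 < c * t := by positivity
      have h1 := Int.floor_le (y0 / (c * t))
      have h2 := Int.lt_floor_add_one (y0 / (c * t))
      rw [le_div_iff₀ hct] at h1
      rw [div_lt_iff₀ hct] at h2
      have h3 : c * t < ε := by
        have := htd.trans_le (min_le_right _ _)
        rw [lt_div_iff₀ hc] at this
        linarith
      rw [abs_lt]
      constructor <;> nlinarith
  have hlim := (H J hJt).comp (tendsto_nhdsWithin_iff.2 ⟨hδ0, Eventually.of_forall hδ⟩)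
  rw [tendsto_zero_iff_abs_tendsto_zero] at hlim ⊢
  refine squeeze_zero (fun _ => abs_nonneg _) (fun n => ?_) hlim
  obtain ⟨m, hm, hJm, hmax⟩ := hJ1 (δ n) ⟨n, rfl⟩
  have := hmax n rfl
  show |G (j n) (δ n)| ≤ |G (J (δ n)) (δ n)|
  rw [hJm]
  rw [hm] at this
  exact this

/-- transport of an array = transport of the height -/
theorem pin_la_arr_map (σ : TV → TV) (b : TV →₀ ℝ) (h : TV → ℤ) : latArr (plnMap σ b) h = latArr b (fun u => h (σ u)) := by
  unfold latArr plnMap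
  exact Finsupp.sum_mapDomain_index (fun _ => by simp) (fun _ _ _ => by ring)

/-- the smeared field is the pairing with the array of face weights as soon as `A` contains its support -/
theorem pin_la_pair_arr {δ : ℝ} {f : ℝ × ℝ → ℝ} {A : Finset TV} (hA : ∀ u, u ∉ A → latW δ f u = 0) (h : TV → ℤ) :
    latPair δ f A h = latArr (plnW δ f) h := by
  classical
  have hfin : (Function.support (latW δ f)).Finite := A.finite_toSet.subset fun u hu => by
    by_contra hc
    exact hu (hA u hc)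
  unfold plnW latArr
  rw [dif_pos hfin]
  rw [Finsupp.sum_of_support_subset (s := A) _ (fun u hu => by
    by_contra hc
    rw [Finsupp.mem_support_iff] at hu
    exact hu (hA u hc)) _ (fun _ _ => by simp)]
  rfl


/-- **(R3), TEX[prop:reflection-null] in the form consumed by the last step of the five moves.**  `X_n = htSm (δ n) (F n) (lap2 φ)`, the support of `φ` strictly above the
limit line `y = y0`, ANY sequence of site rows `n = j n` converging to it: `‖X_n‖_θ² = htPl x (θ_{j n} X_n * X_n) → 0`. -/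
theorem pin_la_r3 (x : ℝ) (hx1 : 1 / Real.sqrt 2 ≤ x) (hx2 : x ≤ 1) {D : Set (ℝ × ℝ)} (hDo : IsOpen D) {δ : ℕ → ℝ} {F : ℕ → Finset TV}
    (hF : IsInsideApprox D δ F) {φ : ℝ × ℝ → ℝ} (hφ : ContDiff ℝ ((⊤ : ℕ∞) : WithTop ℕ∞) φ) (hφc : HasCompactSupport φ) (hφD : tsupport φ ⊆ D)
    {y0 m : ℝ} (hm : 0 < m) (hs : ∀ z ∈ tsupport φ, y0 + m ≤ z.2) {j : ℕ → ℤ}
    (hj : Tendsto (fun n => Real.sqrt 3 / 2 * δ n * (j n : ℝ)) atTop (𝓝 y0)) :
    Tendsto (fun n => htPl x fun h => pinMp (plnRow (j n)) (htSm (δ n) (F n) (lap2 φ)) h * htSm (δ n) (F n) (lap2 φ) h) atTop (𝓝 0) := by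
  obtain ⟨v, -, -, hRN⟩ := exit_pln x hx1 hx2
  have h1 := pin_la_seq (c := Real.sqrt 3 / 2) (y0 := y0) (by positivity)
    (G := fun i t => htGam x (plnMap (plnRow i) (plnW t (lap2 φ))) (plnW t (lap2 φ)))
    (fun J hJ => hRN φ y0 m J hφ hφc hm hs hJ) hF.1 hF.2.1 hj
  refine h1.congr' ?_
  obtain ⟨c, hc, hev⟩ := hg_latBall_subset_int hDo hF hφc hφD
  filter_upwards [hev, hF.2.1.eventually (gt_mem_nhds hc)] with n hn hδc
  have hA : ∀ u, u ∉ latInt (F n) → latW (δ n) (lap2 φ) u = 0 := by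
    intro u hu
    refine hg_latW_eq_zero fun y hy => ?_
    by_contra hne
    have hy' : y ∈ tsupport φ := wkg_lap_tsupport φ (subset_tsupport _ hne)
    exact hu (hn u ⟨y, hy, hy'⟩ 0 (by simpa using hδc.le) (hg_center_mem_latBall u 0))
  have e : htSm (δ n) (F n) (lap2 φ) = latArr (plnW (δ n) (lap2 φ)) := by
    funext h
    exact pin_la_pair_arr hA h
  rw [e]
  unfold htGam
  congr 1
  funext h
  rw [pin_la_arr_map]
  rfl

/-- (R3) in the shape of `pin_last` of Pin/Side: `g u = u + (0, -j n)`, `g' u = u + (0, j n)` -/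
theorem pin_la_r3_side (x : ℝ) (hx1 : 1 / Real.sqrt 2 ≤ x) (hx2 : x ≤ 1) {D : Set (ℝ × ℝ)} (hDo : IsOpen D) {δ : ℕ → ℝ} {F : ℕ → Finset TV}
    (hF : IsInsideApprox D δ F) {φ : ℝ × ℝ → ℝ} (hφ : ContDiff ℝ ((⊤ : ℕ∞) : WithTop ℕ∞) φ) (hφc : HasCompactSupport φ) (hφD : tsupport φ ⊆ D)
    {y0 m : ℝ} (hm : 0 < m) (hs : ∀ z ∈ tsupport φ, y0 + m ≤ z.2) {j : ℕ → ℤ}
    (hj : Tendsto (fun n => Real.sqrt 3 / 2 * δ n * (j n : ℝ)) atTop (𝓝 y0)) :
    Tendsto (fun n => htPl x fun h => htSm (δ n) (F n) (lap2 φ) h *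
      pinMp (fun u => (fun v : TV => v + (0, j n)) (latRefl ((fun v : TV => v + (0, -j n)) u))) (htSm (δ n) (F n) (lap2 φ)) h) atTop (𝓝 0) := by
  refine (pin_la_r3 x hx1 hx2 hDo hF hφ hφc hφD hm hs hj).congr fun n => ?_
  congr 1
  funext h
  rw [mul_comm]
  congr 2
  funext u
  exact pin_la_row_eq (j n) u

/-- (R3) for the insertion of an arrangement: any limit line strictly below the disc of radius `ρ / 1000` -/
theorem pin_la_r3_arr (x : ℝ) (hx1 : 1 / Real.sqrt 2 ≤ x) (hx2 : x ≤ 1) {D : Set (ℝ × ℝ)} (hD : IsC2JordanDomain D) {δ : ℕ → ℝ} {F : ℕ → Finset TV}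
    (hF : IsInsideApprox D δ F) {z0 : ℝ × ℝ} {ρ : ℝ} {q : ℕ} {φ : ℝ × ℝ → ℝ} {g : Fin q → ℝ × ℝ → ℝ} (hA : LimArr D z0 ρ q φ g)
    {y0 : ℝ} (hy : y0 < z0.2 - ρ / 1000) {j : ℕ → ℤ} (hj : Tendsto (fun n => Real.sqrt 3 / 2 * δ n * (j n : ℝ)) atTop (𝓝 y0)) :
    Tendsto (fun n => htPl x fun h => htSm (δ n) (F n) (lap2 φ) h *
      pinMp (fun u => (fun v : TV => v + (0, j n)) (latRefl ((fun v : TV => v + (0, -j n)) u))) (htSm (δ n) (F n) (lap2 φ)) h) atTop (𝓝 0) := by
  have hρ := hA.rho_pos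
  have hsub : tsupport φ ⊆ wkBall z0 (ρ / 1000) := by
    intro y hy'
    by_contra hn
    exact hA.phi_supp y (not_le.1 hn).le hy'
  have hc : HasCompactSupport φ :=
    (wk_ball_compact z0 (by positivity : (0 : ℝ) ≤ ρ / 1000)).of_isClosed_subset (isClosed_tsupport φ) hsub
  have hφD : tsupport φ ⊆ D := hsub.trans ((wk_ball_mono z0 (by positivity) (by linarith)).trans hA.ball)
  refine pin_la_r3_side x hx1 hx2 hD.1 hF hA.phi_smooth hc hφD (m := z0.2 - ρ / 1000 - y0) (by linarith) (fun z hz => ?_) hj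
  have h1 : sqDist z z0 ≤ (ρ / 1000) ^ 2 := hsub hz
  have h2 : (z.2 - z0.2) ^ 2 ≤ (ρ / 1000) ^ 2 := by
    unfold sqDist at h1
    nlinarith [sq_nonneg (z.1 - z0.1)]
  have h3 := abs_le_of_sq_le_sq h2 (by positivity)
  linarith [(abs_le.1 h3).1]

/-! ## 3. the mirror form: the test BELOW the rows -/

/-- (R3), array form, no domain: the test above the limit line -/
theorem pin_la_r3_gam (x : ℝ) (hx1 : 1 / Real.sqrt 2 ≤ x) (hx2 : x ≤ 1) {δ : ℕ → ℝ} (hδ : ∀ n, 0 < δ n) (hδ0 : Tendsto δ atTop (𝓝 0))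
    {φ : ℝ × ℝ → ℝ} (hφ : ContDiff ℝ ((⊤ : ℕ∞) : WithTop ℕ∞) φ) (hφc : HasCompactSupport φ)
    {y0 m : ℝ} (hm : 0 < m) (hs : ∀ z ∈ tsupport φ, y0 + m ≤ z.2) {j : ℕ → ℤ}
    (hj : Tendsto (fun n => Real.sqrt 3 / 2 * δ n * (j n : ℝ)) atTop (𝓝 y0)) :
    Tendsto (fun n => htGam x (plnMap (plnRow (j n)) (plnW (δ n) (lap2 φ))) (plnW (δ n) (lap2 φ))) atTop (𝓝 0) := by
  obtain ⟨v, -, -, hRN⟩ := exit_pln x hx1 hx2
  exact pin_la_seq (c := Real.sqrt 3 / 2) (y0 := y0) (by positivity)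
    (G := fun i t => htGam x (plnMap (plnRow i) (plnW t (lap2 φ))) (plnW t (lap2 φ)))
    (fun J hJ => hRN φ y0 m J hφ hφc hm hs hJ) hδ hδ0 hj

/-- the pairing with an array of total mass zero is a local gradient observable -/
theorem pin_la_arr_LG {b : TV →₀ ℝ} (hb : latTot b = 0) : PinLG (latArr b) :=
  ⟨⟨b.support, fun _ _ hh => mom_pl_arr_loc (Finset.Subset.refl _) hh⟩, fun h c => by
    rw [mom_pl_arr_shift, hb, mul_zero, add_zero]⟩

theorem pin_la_row_zero_row (j : ℤ) (u : TV) : plnRow 0 (plnRow j u) = plnRow (-j) (plnRow 0 u) := by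
  unfold plnRow
  ext
  · simp only; ring
  · simp only; ring

/-- conjugation of the reflection form by the reflection in the row `0` -/
theorem pin_la_gam_conj {x : ℝ} (hP : PinPl x) {b : TV →₀ ℝ} (hb : latTot b = 0) (j : ℤ) :
    htGam x (plnMap (plnRow (-j)) (plnMap (plnRow 0) b)) (plnMap (plnRow 0) b) = htGam x (plnMap (plnRow j) b) b := by
  have hL := pin_la_arr_LG hb
  have hK : PinLG (fun h => pinMp (plnRow j) (latArr b) h * latArr b h) := (hL.mp _).mul hL
  have h := pin_la_pl_row hP hK 0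
  unfold htGam
  rw [show (fun h => latArr (plnMap (plnRow j) b) h * latArr b h) = fun h => pinMp (plnRow j) (latArr b) h * latArr b h from
    funext fun h => by rw [pin_la_arr_map]; rfl, ← h]
  congr 1
  funext h
  rw [pin_la_arr_map, pin_la_arr_map, pin_la_arr_map]
  show _ = latArr b (fun u => h (plnRow 0 (plnRow j u))) * latArr b (fun u => h (plnRow 0 u))
  simp only [pin_la_row_zero_row]

/-- (R3), array form, no domain: the test BELOW the limit line -/
theorem pin_la_r3_gam' (x : ℝ) (hx1 : 1 / Real.sqrt 2 ≤ x) (hx2 : x ≤ 1) {δ : ℕ → ℝ} (hδ : ∀ n, 0 < δ n) (hδ0 : Tendsto δ atTop (𝓝 0))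
    {φ : ℝ × ℝ → ℝ} (hφ : ContDiff ℝ ((⊤ : ℕ∞) : WithTop ℕ∞) φ) (hφc : HasCompactSupport φ)
    {y0 m : ℝ} (hm : 0 < m) (hs : ∀ z ∈ tsupport φ, z.2 + m ≤ y0) {j : ℕ → ℤ}
    (hj : Tendsto (fun n => Real.sqrt 3 / 2 * δ n * (j n : ℝ)) atTop (𝓝 y0)) :
    Tendsto (fun n => htGam x (plnMap (plnRow (j n)) (plnW (δ n) (lap2 φ))) (plnW (δ n) (lap2 φ))) atTop (𝓝 0) := by
  have hP := pin_la_pl x hx1 hx2
  have hs' : ∀ z ∈ tsupport (fun w => φ (pcvRf 0 w)), -y0 + m ≤ z.2 := by
    intro z hz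
    have h1 : pcvRf 0 z ∈ tsupport φ := by
      have := tsupport_comp_subset_preimage φ (f := pcvRf 0) (pcv_rf_contDiff 0).continuous hz
      exact this
    have := hs _ h1
    simp only [pcvRf] at this
    linarith
  have hj' : Tendsto (fun n => Real.sqrt 3 / 2 * δ n * ((-j n : ℤ) : ℝ)) atTop (𝓝 (-y0)) := by
    refine hj.neg.congr fun n => ?_
    push_cast; ring
  refine (pin_la_r3_gam x hx1 hx2 hδ hδ0 (pcv_rf_smooth hφ 0) (pcv_rf_compact hφc 0) hm hs' hj').congr fun n => ?_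
  obtain ⟨s1, s2, s3⟩ := pln_lap_test hφ hφc
  have e1 : lap2 (fun w => φ (pcvRf 0 w)) = fun z => lap2 φ (pcvRf (Real.sqrt 3 / 2 * δ n * ((0 : ℤ) : ℝ)) z) := by
    funext z
    rw [pcv_lap_refl]; simp
  rw [e1, ← pcv_W_refl (hδ n) ⟨s1, s2⟩ 0]
  exact pin_la_gam_conj hP (by rw [pln_W_tot (hδ n) s1 s2, s3]) (j n)

/-- **(R3) in the form `PinR3` of Pin/Sep** (the statement below IS `PinR3 x δ (fun n => htSm (δ n) (F n) (lap2 φ)) y1`, unfolded): the insertion of an arrangement lies below `y1`, the rows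
converge to a line strictly above `y1` -/
theorem pin_la_r3_sep (x : ℝ) (hx1 : 1 / Real.sqrt 2 ≤ x) (hx2 : x ≤ 1) {D : Set (ℝ × ℝ)} (hD : IsC2JordanDomain D) {δ : ℕ → ℝ} {F : ℕ → Finset TV}
    (hF : IsInsideApprox D δ F) {z0 : ℝ × ℝ} {ρ : ℝ} {q : ℕ} {φ : ℝ × ℝ → ℝ} {g : Fin q → ℝ × ℝ → ℝ} (hA : LimArr D z0 ρ q φ g)
    {y1 : ℝ} (hy1 : z0.2 + ρ / 1000 ≤ y1) :
    ∀ (y0 : ℝ) (r : ℕ → ℤ), y1 < y0 → Tendsto (fun n => Real.sqrt 3 / 2 * δ n * (r n : ℝ)) atTop (𝓝 y0) →
      Tendsto (fun n => htPl x (fun h => (fun n => htSm (δ n) (F n) (lap2 φ)) n h *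
        pinMp (plnRow (r n)) ((fun n => htSm (δ n) (F n) (lap2 φ)) n) h)) atTop (𝓝 0) := by
  intro y0 r hy hr
  have hρ := hA.rho_pos
  have hsub : tsupport φ ⊆ wkBall z0 (ρ / 1000) := by
    intro y hy'
    by_contra hn
    exact hA.phi_supp y (not_le.1 hn).le hy'
  have hc : HasCompactSupport φ :=
    (wk_ball_compact z0 (by positivity : (0 : ℝ) ≤ ρ / 1000)).of_isClosed_subset (isClosed_tsupport φ) hsub
  have hφD : tsupport φ ⊆ D := hsub.trans ((wk_ball_mono z0 (by positivity) (by linarith)).trans hA.ball)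
  have hs : ∀ z ∈ tsupport φ, z.2 + (y0 - y1) ≤ y0 := by
    intro z hz
    have h1 : sqDist z z0 ≤ (ρ / 1000) ^ 2 := hsub hz
    have h2 : (z.2 - z0.2) ^ 2 ≤ (ρ / 1000) ^ 2 := by
      unfold sqDist at h1
      nlinarith [sq_nonneg (z.1 - z0.1)]
    have h3 := abs_le_of_sq_le_sq h2 (by positivity)
    linarith [(abs_le.1 h3).2]
  refine (pin_la_r3_gam' x hx1 hx2 hF.1 hF.2.1 hA.phi_smooth hc (m := y0 - y1) (by linarith) hs hr).congr' ?_
  obtain ⟨c, hc0, hev⟩ := hg_latBall_subset_int hD.1 hF hc hφD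
  filter_upwards [hev, hF.2.1.eventually (gt_mem_nhds hc0)] with n hn hδc
  have hW : ∀ u, u ∉ latInt (F n) → latW (δ n) (lap2 φ) u = 0 := by
    intro u hu
    refine hg_latW_eq_zero fun y hy => ?_
    by_contra hne
    have hy' : y ∈ tsupport φ := wkg_lap_tsupport φ (subset_tsupport _ hne)
    exact hu (hn u ⟨y, hy, hy'⟩ 0 (by simpa using hδc.le) (hg_center_mem_latBall u 0))
  have e : htSm (δ n) (F n) (lap2 φ) = latArr (plnW (δ n) (lap2 φ)) := by
    funext h
    exact pin_la_pair_arr hW h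
  simp only [e]
  unfold htGam
  congr 1
  funext h
  rw [pin_la_arr_map, mul_comm]
  rfl

end Claimed.Agent.R291
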