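import Claimed.Agent.R291.Defs.Pin
import Claimed.Agent.R291.Dis.HtOrd
import Claimed.Agent.R291.Wick.Green

/-!
# Row 291, Pin/Brk : THE FILLED UPPER BRACKET (node N2) AND THE GLUE OF THE BRACKET PACKAGE      (owner helper34; 0 sorry)

PART A (glue)   `pin_pack : PinIns → PinVan → PinMomT → LimBRK`.      TEX[pins:bracket-order] (order, moments), TEX[prop:bracket-collapse], TEX[prop:bracket-insertion].
* `pinLawS`, `pinLawW` : the mixture `pinMix` as a finitely supported law on heights, `pin_law_sum`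
* `pin_mix_dom` : the mixture dominates the frozen law (Holley in the trace, `hto_order` of helper139; NO coupling)
PART B (N2)     `pin_brk_main : PinLim x → (positivity) → PinFilled → PinIns`.      TEX[def:brackets], TEX[pins:bracket-order] (traces, Gibbs property)
* `pin_bk_congr` : `htE x A b G` reads `b` on `latOut A` (and where `G` reads it) only
* `pin_bk_fin`, `pin_bk_pl` : Gibbs property at the boundary layer of `F`, in a finite volume and in the plane law `htPl` (from `LimPlane.lim` = `PinLim x`)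
* `pinTrs F D`, `pinNuB x F D v` : the traces and the trace law of the filled bracket; `pin_brk_part` (partition of the pin event by the trace), `pin_brk_mix`, `pin_brk_mix_hat`
-/

set_option autoImplicit false

namespace Claimed.Agent.R291

open MeasureTheory Filter Topology Set
open scoped ContDiff
open Claims Claims.C0467

/-! # PART A : the glue -/

/-- support of the mixture -/
noncomputable def pinLawS (F : Finset TV) (T : Finset (TV → ℤ)) : Finset (TV → ℤ) := by
  classical exact T.biUnion fun t => htCfg (latInt F) t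

open Classical in
/-- weights of the mixture -/
noncomputable def pinLawW (x : ℝ) (F : Finset TV) (T : Finset (TV → ℤ)) (ν : (TV → ℤ) → ℝ) (h : TV → ℤ) : ℝ :=
  ∑ t ∈ T, ν t * (if h ∈ htCfg (latInt F) t then htWt x (latInt F) h / htZ x (latInt F) t else 0)

theorem pin_law_sum (x : ℝ) (F : Finset TV) (T : Finset (TV → ℤ)) (ν : (TV → ℤ) → ℝ) (G : (TV → ℤ) → ℝ) :
    ∑ h ∈ pinLawS F T, pinLawW x F T ν h * G h = pinMix x F T ν G := by
  classical
  unfold pinLawW pinMix
  simp only [Finset.sum_mul]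
  rw [Finset.sum_comm]
  refine Finset.sum_congr rfl fun t ht => ?_
  have hsub : htCfg (latInt F) t ⊆ pinLawS F T := by
    unfold pinLawS
    exact Finset.subset_biUnion_of_mem (fun t => htCfg (latInt F) t) ht
  have h1 : ∑ h ∈ pinLawS F T, ν t * (if h ∈ htCfg (latInt F) t then htWt x (latInt F) h / htZ x (latInt F) t else 0) * G h
      = ∑ h ∈ htCfg (latInt F) t, ν t * (htWt x (latInt F) h / htZ x (latInt F) t) * G h := by
    rw [← Finset.sum_subset hsub]
    · exact Finset.sum_congr rfl fun h hh => by rw [if_pos hh]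
    · intro h _ hh
      rw [if_neg hh]; ring
  rw [h1]
  unfold htE
  rw [Finset.sum_div, Finset.mul_sum]
  exact Finset.sum_congr rfl fun h _ => by ring

theorem pin_law_nonneg {x : ℝ} (hx : 0 < x) (F : Finset TV) (T : Finset (TV → ℤ)) {ν : (TV → ℤ) → ℝ} (hν : ∀ t, 0 ≤ ν t)
    (h : TV → ℤ) : 0 ≤ pinLawW x F T ν h := by
  classical
  unfold pinLawW
  refine Finset.sum_nonneg fun t _ => mul_nonneg (hν t) ?_
  split_ifs
  · exact div_nonneg (ht_wt_pos hx _ _).le (ht_Z_nonneg hx _ _)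
  · exact le_rfl

/-- a trace with values in `{0,1}` is feasible -/
theorem pin_tr_adm (A : Finset TV) {t : TV → ℤ} (ht : ∀ u, t u = 0 ∨ t u = 1) : HtAdm A t t := by
  refine ht_adm_self fun u _ d _ => ?_
  rcases ht u with h1 | h1 <;> rcases ht (u + d) with h2 | h2 <;> rw [h1, h2] <;> norm_num

theorem pin_mix_const {x : ℝ} (hx : 0 < x) {δ : ℝ} {F : Finset TV} {P : Finset (ℝ × ℝ)} {r : ℝ} {T : Finset (TV → ℤ)} {ν : (TV → ℤ) → ℝ}
    (hL : PinTrLaw δ F P r T ν) (c : ℝ) : pinMix x F T ν (fun _ => c) = c := by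
  unfold pinMix
  rw [Finset.sum_congr rfl fun t ht => by rw [ht_E_const hx (pin_tr_adm (latInt F) (hL.tr t ht).val) c], ← Finset.sum_mul, hL.mass, one_mul]

/-- a bound which holds for every trace holds for the mixture -/
theorem pin_mix_le {x : ℝ} {δ : ℝ} {F : Finset TV} {P : Finset (ℝ × ℝ)} {r : ℝ} {T : Finset (TV → ℤ)} {ν : (TV → ℤ) → ℝ}
    (hL : PinTrLaw δ F P r T ν) {G : (TV → ℤ) → ℝ} {c : ℝ} (h : ∀ t ∈ T, htE x (latInt F) t G ≤ c) : pinMix x F T ν G ≤ c := by
  unfold pinMix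
  calc ∑ t ∈ T, ν t * htE x (latInt F) t G ≤ ∑ t ∈ T, ν t * c :=
        Finset.sum_le_sum fun t ht => mul_le_mul_of_nonneg_left (h t ht) (hL.nonneg t)
    _ = c := by rw [← Finset.sum_mul, hL.mass, one_mul]

/-- TEX[pins:height-sandwich], upper half, as stochastic domination -/
theorem pin_mix_dom {x : ℝ} (hx : 0 < x) (hx1 : x ≤ 1) {δ : ℝ} {F : Finset TV} {P : Finset (ℝ × ℝ)} {r : ℝ} {T : Finset (TV → ℤ)}
    {ν : (TV → ℤ) → ℝ} (hL : PinTrLaw δ F P r T ν) {G : (TV → ℤ) → ℝ} (hG : HtMono G) : htFz x F G ≤ pinMix x F T ν G := by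
  unfold pinMix
  calc htFz x F G = ∑ t ∈ T, ν t * htFz x F G := by rw [← Finset.sum_mul, hL.mass, one_mul]
    _ ≤ ∑ t ∈ T, ν t * htE x (latInt F) t G := by
        refine Finset.sum_le_sum fun t ht => mul_le_mul_of_nonneg_left ?_ (hL.nonneg t)
        refine hto_order hx hx1 (latInt F) (fun u => ?_) ⟨0, ht_adm_zero _⟩ ⟨t, pin_tr_adm _ (hL.tr t ht).val⟩ hG
        rcases (hL.tr t ht).val u with h | h <;> simp [h]

/-- a continuous function which vanishes off a closed Euclidean disc inside `D` is a test -/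
theorem pin_test_of_ball {D : Set (ℝ × ℝ)} {ψ : ℝ × ℝ → ℝ} (hc : Continuous ψ) {c : ℝ × ℝ} {s : ℝ} (hs : 0 ≤ s) (hD : wkBall c s ⊆ D)
    (h0 : ∀ y, y ∉ wkBall c s → ψ y = 0) : WkTest D ψ := by
  have hsub : tsupport ψ ⊆ wkBall c s := by
    refine closure_minimal (fun y hy => ?_) (wk_ball_closed c s)
    by_contra hn
    exact hy (h0 y hn)
  exact ⟨hc, (wk_ball_compact c hs).of_isClosed_subset (isClosed_tsupport ψ) hsub, hsub.trans hD⟩

/-- the tests of an arrangement -/
theorem pin_arr_test_phi {D : Set (ℝ × ℝ)} {z0 : ℝ × ℝ} {ρ : ℝ} {q : ℕ} {φ : ℝ × ℝ → ℝ} {g : Fin q → ℝ × ℝ → ℝ}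
    (hA : LimArr D z0 ρ q φ g) : WkTest D (lap2 φ) := by
  have hρ := hA.rho_pos
  refine pin_test_of_ball (wkg_lap_smooth hA.phi_smooth).continuous hρ.le hA.ball fun y hy => ?_
  have h1 : y ∉ tsupport φ := by
    refine hA.phi_supp y ?_
    have h2 : ρ ^ 2 < sqDist y z0 := not_le.1 hy
    have h3 : (ρ / 1000) ^ 2 ≤ ρ ^ 2 := by
      rw [div_pow]
      exact div_le_self (sq_nonneg ρ) (by norm_num)
    linarith
  have h2 : y ∉ tsupport (lap2 φ) := fun h => h1 (wkg_lap_tsupport φ h)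
  exact image_eq_zero_of_notMem_tsupport h2

theorem pin_arr_test_g {D : Set (ℝ × ℝ)} {z0 : ℝ × ℝ} {ρ : ℝ} {q : ℕ} {φ : ℝ × ℝ → ℝ} {g : Fin q → ℝ × ℝ → ℝ}
    (hA : LimArr D z0 ρ q φ g) (l : Fin q) : WkTest D (g l) := by
  obtain ⟨c, s, hs, -, hD, -, h0⟩ := hA.g_supp l
  exact pin_test_of_ball (hA.g_cont l) hs.le hD h0

theorem pin_test_abs {D : Set (ℝ × ℝ)} {ψ : ℝ × ℝ → ℝ} (h : WkTest D ψ) : WkTest D (fun y => |ψ y|) := by
  have e : Function.support (fun y => |ψ y|) = Function.support ψ := by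
    ext y; simp
  have e2 : tsupport (fun y => |ψ y|) = tsupport ψ := by unfold tsupport; rw [e]
  refine ⟨h.cont.abs, ?_, e2 ▸ h.sub⟩
  unfold HasCompactSupport
  rw [e2]
  exact h.comp

/-- **the glue** -/
theorem pin_pack {x : ℝ} (hx : 0 < x) (hx1 : x ≤ 1) {D : Set (ℝ × ℝ)} {δ : ℕ → ℝ} {F : ℕ → Finset TV}
    (hI : PinIns x D δ F) (hC : PinVan x D δ F) (hM : PinMomT x D δ F) : LimBRK x D δ F := by
  intro z0 ρ q φ g hA m
  obtain ⟨P, hP, hI⟩ := hI z0 ρ q φ g hA
  obtain ⟨C0, hC0⟩ := hM (lap2 φ) (pin_arr_test_phi hA) m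
  choose Cg hCg using fun l => hM (g l) (pin_arr_test_g hA l) m
  refine ⟨max C0 (∑ l, |Cg l|), fun M hM0 η hη => ?_⟩
  obtain ⟨r0, hr0, hcol0⟩ := hC P hP _ (pin_test_abs (pin_arr_test_phi hA)) (fun y => abs_nonneg _) η hη
  choose rg hrg hcolg using fun l => hC P hP _ (pin_test_abs (pin_arr_test_g hA l)) (fun y => abs_nonneg _) η hη
  -- the common window radius
  obtain ⟨r, hr, hrr0, hrrg⟩ : ∃ r : ℝ, 0 < r ∧ r ≤ r0 ∧ ∀ l, r ≤ rg l := by
    by_cases hq : q = 0
    · subst hq
      exact ⟨r0, hr0, le_rfl, fun l => l.elim0⟩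
    · have : Nonempty (Fin q) := ⟨⟨0, Nat.pos_of_ne_zero hq⟩⟩
      obtain ⟨l0, hl0⟩ := Finite.exists_min rg
      exact ⟨min r0 (rg l0), lt_min hr0 (hrg l0), min_le_left _ _, fun l => (min_le_right _ _).trans (hl0 l)⟩
  obtain ⟨T, ν, hL, hins⟩ := hI r hr
  have hins' := (hins M hM0).eventually (Metric.ball_mem_nhds 0 hη)
  have hmono : ∀ {δ' : ℝ} {F' : Finset TV} {r' : ℝ} {t : TV → ℤ}, r ≤ r' → PinTr01 δ' F' P r t → PinTr01 δ' F' P r' t := by
    intro δ' F' r' t hrr ht
    refine ⟨ht.val, ht.bd, fun u hu => ht.win u fun c hc => ?_⟩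
    have := hu c hc
    have h2 : r ^ 2 ≤ r' ^ 2 := pow_le_pow_left₀ hr.le hrr 2
    linarith
  filter_upwards [hL, hins', hC0, eventually_all.2 hCg, hcol0, eventually_all.2 hcolg] with n hL hins hC0 hCg hcol0 hcolg
  refine ⟨pinLawS (F n) (T n), pinLawW x (F n) (T n) (ν n), pin_law_nonneg hx _ _ hL.nonneg, ?_, ?_, ?_, ?_, ?_, ?_, ?_⟩
  · have := pin_law_sum x (F n) (T n) (ν n) (fun _ => 1)
    simp only [mul_one] at this
    rw [this, pin_mix_const hx hL]
  · intro G hG
    rw [pin_law_sum]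
    exact pin_mix_dom hx hx1 hL hG
  · rw [pin_law_sum]
    exact (pin_mix_le hL fun t ht => hC0 t (hL.tr t ht).val (hL.tr t ht).bd).trans (le_max_left _ _)
  · intro l
    rw [pin_law_sum]
    refine (pin_mix_le hL fun t ht => hCg l t (hL.tr t ht).val (hL.tr t ht).bd).trans (le_trans ?_ (le_max_right _ _))
    exact (le_abs_self _).trans (Finset.single_le_sum (f := fun l => |Cg l|) (fun i _ => abs_nonneg _) (Finset.mem_univ l))
  · rw [pin_law_sum]
    exact pin_mix_le hL fun t ht => hcol0 t (hmono hrr0 (hL.tr t ht))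
  · intro l
    rw [pin_law_sum]
    exact pin_mix_le hL fun t ht => hcolg l t (hmono (hrrg l) (hL.tr t ht))
  · rw [pin_law_sum]
    rw [Real.dist_eq, sub_zero] at hins
    exact hins.le


/-! # PART B : node N2 -/

/-! ## N2.1 the law in `A` reads the boundary function on `latOut A` only -/

/-- replace the values off `A` by those of `b'` -/
def pinRe (A : Finset TV) (b' h : TV → ℤ) : TV → ℤ := fun u => if u ∈ A then h u else b' u

theorem pin_bk_mem_out {A : Finset TV} {u d : TV} (hu : u ∈ A) (hd : d ∈ latDirs) (h : u + d ∉ A) : u + d ∈ latOut A := by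
  unfold latOut
  rw [Finset.mem_sdiff, Finset.mem_biUnion]
  exact ⟨⟨u, hu, lat_mem_nb.2 (lat_adj_add u hd)⟩, h⟩

theorem pin_bk_re_eq {A : Finset TV} {b b' h : TV → ℤ} (h1 : ∀ u ∈ latOut A, b u = b' u) (hh : HtAdm A b h) {u : TV}
    (hu : u ∈ A ∨ u ∈ latOut A) : pinRe A b' h u = h u := by
  unfold pinRe
  by_cases hA : u ∈ A
  · rw [if_pos hA]
  · rw [if_neg hA, hh.1 u hA]
    rcases hu with hu | hu
    · exact absurd hu hA
    · exact (h1 u hu).symm

theorem pin_bk_re_adm {A : Finset TV} {b b' h : TV → ℤ} (h1 : ∀ u ∈ latOut A, b u = b' u) (hh : HtAdm A b h) :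
    HtAdm A b' (pinRe A b' h) := by
  refine ⟨fun u hu => by unfold pinRe; rw [if_neg hu], fun u hu d hd => ?_⟩
  rw [pin_bk_re_eq h1 hh (Or.inl hu)]
  by_cases hA : u + d ∈ A
  · rw [pin_bk_re_eq h1 hh (Or.inl hA)]; exact hh.2 u hu d hd
  · rw [pin_bk_re_eq h1 hh (Or.inr (pin_bk_mem_out hu hd hA))]; exact hh.2 u hu d hd

theorem pin_bk_re_N {A : Finset TV} {b b' h : TV → ℤ} (h1 : ∀ u ∈ latOut A, b u = b' u) (hh : HtAdm A b h) :
    htN A (pinRe A b' h) = htN A h := by
  unfold htN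
  refine Finset.sum_congr rfl fun p hp => ?_
  obtain ⟨hp1, hp2⟩ := lat_mem_E.1 hp
  have hd : p.2 ∈ latDirs := lat_pos_sub hp1
  have e1 : p.1 ∈ A ∨ p.1 ∈ latOut A := by
    by_cases h : p.1 ∈ A
    · exact Or.inl h
    · right
      rcases hp2 with h' | h'
      · exact absurd h' h
      · have := pin_bk_mem_out h' (lat_dirs_neg hd) (by simpa using h)
        simpa using this
  have e2 : p.1 + p.2 ∈ A ∨ p.1 + p.2 ∈ latOut A := by
    by_cases h : p.1 + p.2 ∈ A
    · exact Or.inl h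
    · right
      rcases hp2 with h' | h'
      · exact pin_bk_mem_out h' hd h
      · exact absurd h' h
  rw [pin_bk_re_eq h1 hh e1, pin_bk_re_eq h1 hh e2]

theorem pin_bk_re_re {A : Finset TV} {b b' h : TV → ℤ} (hh : HtAdm A b h) : pinRe A b (pinRe A b' h) = h := by
  funext u
  unfold pinRe
  by_cases hA : u ∈ A
  · simp [hA]
  · simp [hA, hh.1 u hA]

theorem pin_bk_congr_S (x : ℝ) (A : Finset TV) {b b' : TV → ℤ} (S : Finset TV) {G : (TV → ℤ) → ℝ} (h1 : ∀ u ∈ latOut A, b u = b' u)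
    (h2 : ∀ u ∈ S, u ∉ A → b u = b' u) (hG : HtLoc S G) : htS x A b G = htS x A b' G := by
  unfold htS
  refine Finset.sum_bij' (fun h _ => pinRe A b' h) (fun h _ => pinRe A b h) ?_ ?_ ?_ ?_ ?_
  · intro h hh; exact ht_mem_cfg.2 (pin_bk_re_adm h1 (ht_mem_cfg.1 hh))
  · intro h hh; exact ht_mem_cfg.2 (pin_bk_re_adm (fun u hu => (h1 u hu).symm) (ht_mem_cfg.1 hh))
  · intro h hh; exact pin_bk_re_re (ht_mem_cfg.1 hh)
  · intro h hh; exact pin_bk_re_re (ht_mem_cfg.1 hh)
  · intro h hh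
    have hh' := ht_mem_cfg.1 hh
    unfold htWt
    rw [pin_bk_re_N h1 hh']
    congr 1
    refine hG _ _ fun u hu => ?_
    unfold pinRe
    by_cases hA : u ∈ A
    · rw [if_pos hA]
    · rw [if_neg hA, hh'.1 u hA, h2 u hu hA]

/-- **the law in `A` reads the boundary function only on `latOut A`** (and where the observable reads it) -/
theorem pin_bk_congr (x : ℝ) (A : Finset TV) {b b' : TV → ℤ} (S : Finset TV) {G : (TV → ℤ) → ℝ} (h1 : ∀ u ∈ latOut A, b u = b' u)
    (h2 : ∀ u ∈ S, u ∉ A → b u = b' u) (hG : HtLoc S G) : htE x A b G = htE x A b' G := by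
  rw [hto_E_eq, hto_E_eq, hto_Z_eq, hto_Z_eq, pin_bk_congr_S x A S h1 h2 hG,
    pin_bk_congr_S x A ∅ h1 (fun u hu => absurd hu (Finset.notMem_empty u)) (fun _ _ _ => rfl)]


/-! ## N2.2 the Gibbs property of the plane law at the boundary layer of `F` -/

/-- the anchored trace on the boundary layer of `F` is `t` -/
def PinTrEv (F : Finset TV) (v : TV) (t h : TV → ℤ) : Prop := ∀ u ∈ latBd F, h u - h v = t u

theorem pin_bk_I_nonneg (p : Prop) : 0 ≤ pinI p := by
  classical
  unfold pinI; split_ifs <;> norm_num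

theorem pin_bk_I_pos {p : Prop} (h : p) : pinI p = 1 := by
  classical
  unfold pinI; rw [if_pos h]

theorem pin_bk_I_neg {p : Prop} (h : ¬ p) : pinI p = 0 := by
  classical
  unfold pinI; rw [if_neg h]

theorem pin_bk_I_congr {p q : Prop} (h : p ↔ q) : pinI p = pinI q := by rw [propext h]

theorem pin_bk_bd_not_int {F : Finset TV} {u : TV} (hu : u ∈ latBd F) : u ∉ latInt F := by
  rw [lat_int_eq]
  exact fun h => (Finset.mem_sdiff.1 h).2 hu

theorem pin_bk_out_int (F : Finset TV) : latOut (latInt F) ⊆ latBd F := by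
  intro u hu
  unfold latOut at hu
  obtain ⟨h1, h2⟩ := Finset.mem_sdiff.1 hu
  obtain ⟨w, hw, hwu⟩ := Finset.mem_biUnion.1 h1
  have huF : u ∈ F := (lat_mem_int.1 hw).2 u (lat_mem_nb.1 hwu)
  by_contra hb
  exact h2 (by rw [lat_int_eq]; exact Finset.mem_sdiff.2 ⟨huF, hb⟩)

theorem pin_bk_fin {x : ℝ} (hx : 0 < x) {Λ F : Finset TV} (hΛ : latInt F ⊆ Λ) (b0 : TV → ℤ) {v : TV} (hv : v ∈ latBd F) (t : TV → ℤ)
    {G : (TV → ℤ) → ℝ} (hG : HtLoc F G) :
    htE x Λ b0 (fun h => pinI (PinTrEv F v t h) * G fun u => h u - h v) =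
      htE x Λ b0 (fun h => pinI (PinTrEv F v t h)) * htE x (latInt F) t G := by
  have hvA : v ∉ latInt F := pin_bk_bd_not_int hv
  rw [← hto_dlr_mul hx hΛ b0 (fun h => G fun u => h u - h v) (fun h => pinI (PinTrEv F v t h)) ?_]
  · rw [← ht_E_mul_const]
    congr 1
    funext g
    by_cases hg : PinTrEv F v t g
    · congr 1
      have e1 : htE x (latInt F) g (fun h => G fun u => h u - h v) = htE x (latInt F) g (fun h => G fun u => h u + (-g v)) := by
        refine ht_E_congr x _ _ fun H hH => ?_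
        rw [hH.1 v hvA]
        rfl
      rw [e1, ← hto_shift]
      refine pin_bk_congr x _ F (fun u hu => ?_) (fun u hu hA => ?_) hG
      · have := hg u (pin_bk_out_int F hu)
        rw [← this]; ring
      · have hb : u ∈ latBd F := by
          by_contra hb
          exact hA (by rw [lat_int_eq]; exact Finset.mem_sdiff.2 ⟨hu, hb⟩)
        have := hg u hb
        rw [← this]; ring
    · rw [pin_bk_I_neg hg, zero_mul, zero_mul]
  · intro g h hgh
    refine pin_bk_I_congr ⟨fun H u hu => ?_, fun H u hu => ?_⟩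
    · rw [← hgh u (pin_bk_bd_not_int hu), ← hgh v hvA]; exact H u hu
    · rw [hgh u (pin_bk_bd_not_int hu), hgh v hvA]; exact H u hu

/-- the hypothesis `LimPlane.lim` -/
def PinLim (x : ℝ) : Prop :=
  ∀ (S : Finset TV) (G : (TV → ℤ) → ℝ), HtLoc S G → HtGrad G → Tendsto (fun R : ℕ => htE x (latBall 0 R) 0 G) atTop (𝓝 (htPl x G))

theorem pin_bk_ball_ev (S : Finset TV) : ∀ᶠ R : ℕ in atTop, S ⊆ latBall 0 R := by
  refine eventually_atTop.2 ⟨S.sup latN, fun R hR u hu => ?_⟩
  rw [lat_mem_ball, sub_zero]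
  exact (Finset.le_sup (f := latN) hu).trans hR

theorem pin_bk_pl_sum {x : ℝ} (hl : PinLim x) (S : Finset TV) {ι : Type*} (s : Finset ι) (G : ι → (TV → ℤ) → ℝ) (h1 : ∀ i ∈ s, HtLoc S (G i))
    (h2 : ∀ i ∈ s, HtGrad (G i)) : htPl x (fun h => ∑ i ∈ s, G i h) = ∑ i ∈ s, htPl x (G i) := by
  have a1 : Tendsto (fun R : ℕ => htE x (latBall 0 R) 0 (fun h => ∑ i ∈ s, G i h)) atTop (𝓝 (htPl x fun h => ∑ i ∈ s, G i h)) :=
    hl S _ (fun h h' hh => Finset.sum_congr rfl fun i hi => h1 i hi h h' hh) (fun h c => Finset.sum_congr rfl fun i hi => h2 i hi h c)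
  have a2 : Tendsto (fun R : ℕ => ∑ i ∈ s, htE x (latBall 0 R) 0 (G i)) atTop (𝓝 (∑ i ∈ s, htPl x (G i))) :=
    tendsto_finsetSum _ fun i hi => hl S _ (h1 i hi) (h2 i hi)
  refine tendsto_nhds_unique a1 (a2.congr fun R => ?_)
  rw [ht_E_sum]

theorem pin_bk_pl_nonneg {x : ℝ} (hx : 0 < x) (hl : PinLim x) (S : Finset TV) {G : (TV → ℤ) → ℝ} (h1 : HtLoc S G) (h2 : HtGrad G)
    (h0 : ∀ h, 0 ≤ G h) : 0 ≤ htPl x G :=
  ge_of_tendsto' (hl S G h1 h2) fun _ => ht_E_nonneg hx _ _ fun H _ => h0 H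

theorem pin_bk_ev_loc {F : Finset TV} {v : TV} (hv : v ∈ latBd F) (t : TV → ℤ) : HtLoc F fun h => pinI (PinTrEv F v t h) := by
  intro h h' hh
  refine pin_bk_I_congr ⟨fun H u hu => ?_, fun H u hu => ?_⟩
  · rw [← hh u (lat_bd_sub F hu), ← hh v (lat_bd_sub F hv)]; exact H u hu
  · rw [hh u (lat_bd_sub F hu), hh v (lat_bd_sub F hv)]; exact H u hu

theorem pin_bk_ev_grad (F : Finset TV) (v : TV) (t : TV → ℤ) : HtGrad fun h => pinI (PinTrEv F v t h) := by
  intro h c
  refine pin_bk_I_congr ⟨fun H u hu => ?_, fun H u hu => ?_⟩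
  · have := H u hu
    simpa using this
  · have := H u hu
    simpa using this

theorem pin_bk_anch_loc {F : Finset TV} {v : TV} (hv : v ∈ F) {G : (TV → ℤ) → ℝ} (hG : HtLoc F G) : HtLoc F fun h => G fun u => h u - h v := by
  intro h h' hh
  refine hG _ _ fun u hu => ?_
  rw [hh u hu, hh v hv]

theorem pin_bk_anch_grad (v : TV) (G : (TV → ℤ) → ℝ) : HtGrad fun h => G fun u => h u - h v := by
  intro h c
  show G (fun u => h u + c - (h v + c)) = G fun u => h u - h v
  congr 1
  funext u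
  ring

/-- **the Gibbs property of the plane law**: given the anchored trace `t` on the boundary layer of `F`, the anchored height inside has the weighted height law with trace `t` -/
theorem pin_bk_pl {x : ℝ} (hx : 0 < x) (hl : PinLim x) {F : Finset TV} {v : TV} (hv : v ∈ latBd F) (t : TV → ℤ) {G : (TV → ℤ) → ℝ} (hG : HtLoc F G) :
    htPl x (fun h => pinI (PinTrEv F v t h) * G fun u => h u - h v) = htPl x (fun h => pinI (PinTrEv F v t h)) * htE x (latInt F) t G := by
  have hvF := lat_bd_sub F hv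
  have a1 := hl F (fun h => pinI (PinTrEv F v t h) * G fun u => h u - h v)
    (fun h h' hh => by
      have e1 : pinI (PinTrEv F v t h) = pinI (PinTrEv F v t h') := pin_bk_ev_loc hv t h h' hh
      have e2 : G (fun u => h u - h v) = G (fun u => h' u - h' v) := pin_bk_anch_loc hvF hG h h' hh
      show pinI (PinTrEv F v t h) * G (fun u => h u - h v) = pinI (PinTrEv F v t h') * G (fun u => h' u - h' v)
      rw [e1, e2])
    (fun h c => by
      have e1 : pinI (PinTrEv F v t fun u => h u + c) = pinI (PinTrEv F v t h) := pin_bk_ev_grad F v t h c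
      have e2 : G (fun u => h u + c - (h v + c)) = G (fun u => h u - h v) := pin_bk_anch_grad v G h c
      show pinI (PinTrEv F v t fun u => h u + c) * G (fun u => h u + c - (h v + c)) = pinI (PinTrEv F v t h) * G (fun u => h u - h v)
      rw [e1, e2])
  have a2 := (hl F _ (pin_bk_ev_loc hv t) (pin_bk_ev_grad F v t)).mul_const (htE x (latInt F) t G)
  refine tendsto_nhds_unique a1 (a2.congr' ?_)
  filter_upwards [pin_bk_ball_ev (latInt F)] with R hR
  exact (pin_bk_fin hx hR 0 hv t hG).symm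


/-! ## N2.3 the trace law of the filled upper bracket -/

open Classical in
/-- all traces with values in `{0,1}` which vanish off `latBd F \ D` -/
noncomputable def pinTrs (F D : Finset TV) : Finset (TV → ℤ) := (latBd F \ D).powerset.image fun s u => if u ∈ s then 1 else 0

theorem pin_brk_mem_trs {F D : Finset TV} {t : TV → ℤ} :
    t ∈ pinTrs F D ↔ (∀ u, t u = 0 ∨ t u = 1) ∧ ∀ u, u ∉ latBd F \ D → t u = 0 := by
  classical
  unfold pinTrs
  rw [Finset.mem_image]
  constructor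
  · rintro ⟨s, hs, rfl⟩
    rw [Finset.mem_powerset] at hs
    refine ⟨fun u => ?_, fun u hu => ?_⟩
    · by_cases h : u ∈ s <;> simp [h]
    · have : u ∉ s := fun h => hu (hs h)
      simp [this]
  · rintro ⟨h1, h2⟩
    refine ⟨(latBd F \ D).filter fun u => t u = 1, Finset.mem_powerset.2 (Finset.filter_subset _ _), ?_⟩
    funext u
    by_cases hu : u ∈ latBd F \ D
    · rcases h1 u with h | h <;> simp [hu, h]
    · simp [hu, h2 u hu]

/-- the anchored absolute pin of the boundary layer -/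
def PinFil (F D : Finset TV) (v : TV) (h : TV → ℤ) : Prop := PinAbs (latBd F) D fun u => h u - h v

theorem pin_brk_part {F D : Finset TV} (hD : D ⊆ latBd F) (v : TV) (h : TV → ℤ) :
    pinI (PinFil F D v h) = ∑ t ∈ pinTrs F D, pinI (PinTrEv F v t h) := by
  classical
  by_cases hP : PinFil F D v h
  · rw [pin_bk_I_pos hP]
    set t0 : TV → ℤ := fun u => if u ∈ latBd F then h u - h v else 0 with ht0
    have hm : t0 ∈ pinTrs F D := by
      rw [pin_brk_mem_trs]
      refine ⟨fun u => ?_, fun u hu => ?_⟩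
      · by_cases hu : u ∈ latBd F
        · simp only [ht0, if_pos hu]; exact hP.1 u hu
        · simp [ht0, hu]
      · by_cases hu' : u ∈ latBd F
        · have hD' : u ∈ D := by
            by_contra hD'
            exact hu (Finset.mem_sdiff.2 ⟨hu', hD'⟩)
          simp only [ht0, if_pos hu']; exact hP.2 u hD'
        · simp [ht0, hu']
    rw [Finset.sum_eq_single t0]
    · refine (pin_bk_I_pos fun u hu => ?_).symm
      simp [ht0, hu]
    · intro t ht hne
      refine pin_bk_I_neg fun hE => hne ?_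
      funext u
      by_cases hu : u ∈ latBd F
      · simp only [ht0, if_pos hu]; exact (hE u hu).symm
      · simp only [ht0, if_neg hu]
        exact (pin_brk_mem_trs.1 ht).2 u fun hc => hu (Finset.mem_sdiff.1 hc).1
    · intro hc; exact absurd hm hc
  · rw [pin_bk_I_neg hP]
    refine (Finset.sum_eq_zero fun t ht => pin_bk_I_neg fun hE => hP ?_).symm
    obtain ⟨h1, h2⟩ := pin_brk_mem_trs.1 ht
    refine ⟨fun u hu => ?_, fun u hu => ?_⟩
    · show h u - h v = 0 ∨ h u - h v = 1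
      rw [hE u hu]; exact h1 u
    · show h u - h v = 0
      rw [hE u (hD hu)]; exact h2 u fun hc => (Finset.mem_sdiff.1 hc).2 hu

theorem pin_brk_fil_loc {F D : Finset TV} (hD : D ⊆ latBd F) {v : TV} (hv : v ∈ latBd F) : HtLoc F fun h => pinI (PinFil F D v h) := by
  intro h h' hh
  show pinI (PinFil F D v h) = pinI (PinFil F D v h')
  rw [pin_brk_part hD v h, pin_brk_part hD v h']
  exact Finset.sum_congr rfl fun t _ => pin_bk_ev_loc hv t h h' hh

theorem pin_brk_fil_grad {F D : Finset TV} (hD : D ⊆ latBd F) (v : TV) : HtGrad fun h => pinI (PinFil F D v h) := by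
  intro h c
  show pinI (PinFil F D v fun u => h u + c) = pinI (PinFil F D v h)
  rw [pin_brk_part hD v h, pin_brk_part hD v]
  exact Finset.sum_congr rfl fun t _ => pin_bk_ev_grad F v t h c

/-- the trace law of the filled upper bracket: law of the anchored trace under the plane law conditioned on the pin -/
noncomputable def pinNuB (x : ℝ) (F D : Finset TV) (v : TV) (t : TV → ℤ) : ℝ :=
  htPl x (fun h => pinI (PinTrEv F v t h)) / htPl x fun h => pinI (PinFil F D v h)

theorem pin_brk_Z {x : ℝ} (hl : PinLim x) {F D : Finset TV} (hD : D ⊆ latBd F) {v : TV} (hv : v ∈ latBd F) :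
    htPl x (fun h => pinI (PinFil F D v h)) = ∑ t ∈ pinTrs F D, htPl x fun h => pinI (PinTrEv F v t h) := by
  rw [← pin_bk_pl_sum hl F _ _ (fun t _ => pin_bk_ev_loc hv t) (fun t _ => pin_bk_ev_grad F v t)]
  congr 1
  funext h
  exact pin_brk_part hD v h

theorem pin_brk_nu_nonneg {x : ℝ} (hx : 0 < x) (hl : PinLim x) {F D : Finset TV} (hD : D ⊆ latBd F) {v : TV} (hv : v ∈ latBd F) (t : TV → ℤ) :
    0 ≤ pinNuB x F D v t :=
  div_nonneg (pin_bk_pl_nonneg hx hl F (pin_bk_ev_loc hv t) (pin_bk_ev_grad F v t) fun _ => pin_bk_I_nonneg _)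
    (pin_bk_pl_nonneg hx hl F (pin_brk_fil_loc hD hv) (pin_brk_fil_grad hD v) fun _ => pin_bk_I_nonneg _)

theorem pin_brk_nu_mass {x : ℝ} (hl : PinLim x) {F D : Finset TV} (hD : D ⊆ latBd F) {v : TV} (hv : v ∈ latBd F)
    (hpos : 0 < htPl x fun h => pinI (PinFil F D v h)) : ∑ t ∈ pinTrs F D, pinNuB x F D v t = 1 := by
  unfold pinNuB
  rw [← Finset.sum_div, ← pin_brk_Z hl hD hv]
  exact div_self hpos.ne'

/-- **TEX[pins:bracket-order], second sentence**: the filled bracket is the mixture of the weighted height laws over its trace law -/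
theorem pin_brk_mix {x : ℝ} (hx : 0 < x) (hl : PinLim x) {F D : Finset TV} (hD : D ⊆ latBd F) {v : TV} (hv : v ∈ latBd F) {G : (TV → ℤ) → ℝ}
    (hG : HtLoc F G) :
    pinMix x F (pinTrs F D) (pinNuB x F D v) G =
      htPl x (fun h => pinI (PinFil F D v h) * G fun u => h u - h v) / htPl x fun h => pinI (PinFil F D v h) := by
  have hvF := lat_bd_sub F hv
  have e : htPl x (fun h => pinI (PinFil F D v h) * G fun u => h u - h v)
      = ∑ t ∈ pinTrs F D, htPl x (fun h => pinI (PinTrEv F v t h)) * htE x (latInt F) t G := by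
    rw [← Finset.sum_congr rfl fun t _ => pin_bk_pl hx hl hv t hG]
    rw [← pin_bk_pl_sum hl F]
    · congr 1
      funext h
      rw [pin_brk_part hD v h, Finset.sum_mul]
    · intro t _ h h' hh
      have e1 : pinI (PinTrEv F v t h) = pinI (PinTrEv F v t h') := pin_bk_ev_loc hv t h h' hh
      have e2 : G (fun u => h u - h v) = G (fun u => h' u - h' v) := pin_bk_anch_loc hvF hG h h' hh
      show pinI (PinTrEv F v t h) * G (fun u => h u - h v) = pinI (PinTrEv F v t h') * G (fun u => h' u - h' v)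
      rw [e1, e2]
    · intro t _ h c
      have e1 : pinI (PinTrEv F v t fun u => h u + c) = pinI (PinTrEv F v t h) := pin_bk_ev_grad F v t h c
      have e2 : G (fun u => h u + c - (h v + c)) = G (fun u => h u - h v) := pin_bk_anch_grad v G h c
      show pinI (PinTrEv F v t fun u => h u + c) * G (fun u => h u + c - (h v + c)) = pinI (PinTrEv F v t h) * G (fun u => h u - h v)
      rw [e1, e2]
  rw [e, Finset.sum_div]
  unfold pinMix pinNuB
  exact Finset.sum_congr rfl fun t _ => by ring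

/-! ## N2.4 the `pinHat` form -/

/-- for an observable carrying an absolute pin with a double pin at `v`, the sum over the shifts has the single term `c = - h v` -/
theorem pin_brk_hat (x : ℝ) {Gs D : Finset TV} {v : TV} (hv : v ∈ D) (K : (TV → ℤ) → ℝ) :
    pinHat x (fun h => pinI (PinAbs Gs D h) * K h) = htPl x fun h => pinI (PinAbs Gs D fun u => h u - h v) * K fun u => h u - h v := by
  unfold pinHat
  congr 1
  funext h
  rw [finsum_eq_single _ (-h v)]
  · rfl
  · intro c hc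
    have : ¬ PinAbs Gs D fun u => h u + c := by
      intro hP
      have := hP.2 v hv
      exact hc (by linarith)
    show pinI (PinAbs Gs D fun u => h u + c) * K (fun u => h u + c) = 0
    rw [pin_bk_I_neg this, zero_mul]

theorem pin_brk_gr_iff {Gs D : Finset TV} {v : TV} (hv : v ∈ D) (h : TV → ℤ) : PinGr Gs D h ↔ PinAbs Gs D fun u => h u - h v := by
  constructor
  · rintro ⟨t, ht⟩
    have : h v - t = 0 := ht.2 v hv
    have e : t = h v := by linarith
    rwa [e] at ht
  · intro hP; exact ⟨h v, hP⟩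

/-- the filled bracket in the vocabulary of helper48 -/
theorem pin_brk_mix_hat {x : ℝ} (hx : 0 < x) (hl : PinLim x) {F D : Finset TV} (hD : D ⊆ latBd F) {v : TV} (hv : v ∈ D) {G : (TV → ℤ) → ℝ}
    (hG : HtLoc F G) :
    pinMix x F (pinTrs F D) (pinNuB x F D v) G =
      pinHat x (fun h => pinI (PinAbs (latBd F) D h) * G h) / pinHat x fun h => pinI (PinAbs (latBd F) D h) := by
  rw [pin_brk_mix hx hl hD (hD hv) hG, pin_brk_hat x hv G]
  have := pin_brk_hat x (Gs := latBd F) hv (fun _ => 1)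
  simp only [mul_one] at this
  rw [this]
  rfl


/-! ## N2.5 assembly -/

theorem pin_brk_sm_loc (δ : ℝ) (F : Finset TV) (f : ℝ × ℝ → ℝ) : HtLoc F (htSm δ F f) := by
  intro h h' hh
  unfold htSm latPair
  exact Finset.sum_congr rfl fun u hu => by rw [hh u (lat_int_sub F hu)]

/-- **node N2**: the insertion identity of the filled pin is the insertion identity of a mixture of weighted height laws over bracket traces -/
theorem pin_brk_main {x : ℝ} (hx : 0 < x) (hl : PinLim x) (hpos : ∀ G D : Finset TV, 0 < htPl x fun h => pinI (PinGr G D h))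
    {D : Set (ℝ × ℝ)} {δ : ℕ → ℝ} {F : ℕ → Finset TV} (hf : PinFilled x D δ F) : PinIns x D δ F := by
  classical
  intro z0 ρ q φ g hA
  obtain ⟨P, hP, hf⟩ := hf z0 ρ q φ g hA
  refine ⟨P, hP, fun r hr => ?_⟩
  obtain ⟨Dn, hDn, hlim⟩ := hf r hr
  set v : ℕ → TV := fun n => if h : (Dn n).Nonempty then h.choose else 0 with hvdef
  have hv : ∀ n, (Dn n).Nonempty → v n ∈ Dn n := by
    intro n hn
    simp only [hvdef, dif_pos hn]
    exact hn.choose_spec
  refine ⟨fun n => pinTrs (F n) (Dn n), fun n => pinNuB x (F n) (Dn n) (v n), ?_, fun M hM => ?_⟩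
  · filter_upwards [hDn] with n hn
    obtain ⟨h1, h2, h3⟩ := hn
    have hvn := hv n h2
    have hp : 0 < htPl x fun h => pinI (PinFil (F n) (Dn n) (v n) h) := by
      have := hpos (latBd (F n)) (Dn n)
      have e : (fun h => pinI (PinGr (latBd (F n)) (Dn n) h)) = fun h => pinI (PinFil (F n) (Dn n) (v n) h) := by
        funext h
        exact pin_bk_I_congr (pin_brk_gr_iff hvn h)
      rwa [e] at this
    refine ⟨pin_brk_nu_nonneg hx hl h1 (h1 hvn), pin_brk_nu_mass hl h1 (h1 hvn) hp, fun t ht => ?_⟩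
    obtain ⟨t1, t2⟩ := pin_brk_mem_trs.1 ht
    refine ⟨t1, fun u hu => t2 u fun hc => hu (Finset.mem_sdiff.1 hc).1, fun u hu => t2 u fun hc => ?_⟩
    obtain ⟨c1, c2⟩ := Finset.mem_sdiff.1 hc
    obtain ⟨c, hc, hlt⟩ := h3 u c1 c2
    exact absurd (hu c hc) (not_le.2 hlt)
  · refine (hlim M hM).congr' ?_
    filter_upwards [hDn] with n hn
    obtain ⟨h1, h2, -⟩ := hn
    refine (pin_brk_mix_hat hx hl h1 (hv n h2) ?_).symm
    intro h h' hh
    show htSm (δ n) (F n) (lap2 φ) h * ∏ l, limTr M (htSm (δ n) (F n) (g l) h) = htSm (δ n) (F n) (lap2 φ) h' * ∏ l, limTr M (htSm (δ n) (F n) (g l) h')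
    rw [pin_brk_sm_loc (δ n) (F n) (lap2 φ) h h' hh]
    congr 1
    exact Finset.prod_congr rfl fun l _ => by rw [pin_brk_sm_loc (δ n) (F n) (g l) h h' hh]

end Claimed.Agent.R291
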