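import Claimed.Agent.R291.Pin.Inst
import Claimed.Agent.R291.Pin.Sep
import Claimed.Agent.R291.Ht.Sm
import Claimed.Agent.R291.Geo.Lat
import Claimed.Agent.R291.Wick.Green

/-!
# Row 291 (S0539), unit PIN (05-pins), Pin/Inst2 : HYPOTHESES (1)-(3) OF `pin_sep` ON `PinStd`      (OWNER helper72; head of PIN: helper34; consumers: helper48 / helper104 glue Exit/PinSep, helper138 PinDb)      0 sorry

Prefix `pin_in_`.
* sec. 1  `pinInW δ F f` (sites of the interior whose face meets `{f ≠ 0}`), `pin_in_sm_loc` (`HtLoc`), **`pin_in_sm_grad`** (zero total + compact support in `D` ⟹ `HtGrad (htSm ..)`, eventually),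
          `pin_in_tr_grad/loc/abs` (truncation `limTr`), `pin_in_int_lap`, `pin_in_face_dist`.
* sec. 2  `pin_in_X_grad`, `pin_in_S_grad`, `pin_in_fat_disk`, `pinInCore δ F z0 ρ'` (sites of the interior within `ρ' + δ` of `z0`), `pin_in_W_sub_core`, **`pin_in_core_cov`** (covering of `tsupport φ` by the faces of `pinInCore`),
          **`pin_in_sp`**: EX `kd ks obj M κ m0`, `PinSc M κ (ρ/2) (pinGeoU z0) lm lp obj`, `z0.2 + ρ/1000 ≤ lp - κ` (for `PinR3`), kinds `≠ K`, a `T` group, a `B` group, and for ALL `Mt ≥ 0` and ALL supports `SX` with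
          `pinInW (lap2 φ) ⊆ SX n ⊆ {within ρ/1000 + δ n of z0}` eventually:  EVENTUALLY `PinSpAt (δ n) obj (range m) univ kd ks m0 Mt (pinGp a n) (pinGp ε n) (limTr Mt ∘ htSm (g l)) (pinInW (g l)) (htSm (lap2 φ)) (SX n)`;
          `pin_in_sp_core` (the two hypotheses for `SX n = pinInCore (δ n) (F n) z0 (ρ/1000)`).
-/

set_option autoImplicit false
set_option linter.unusedVariables false

namespace Claimed.Agent.R291

open Claims Claims.C0467 Set Metric Filter Topology MeasureTheory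
open scoped ContDiff

/-! ## 1. the smeared fields as local gradient observables -/

open Classical in
/-- the sites of the interior whose face meets the support of `f` -/
noncomputable def pinInW (δ : ℝ) (F : Finset TV) (f : ℝ × ℝ → ℝ) : Finset TV := (latInt F).filter fun u => ∃ y ∈ hexFace δ u, f y ≠ 0

theorem pin_in_mem_W {δ : ℝ} {F : Finset TV} {f : ℝ × ℝ → ℝ} {u : TV} : u ∈ pinInW δ F f ↔ u ∈ latInt F ∧ ∃ y ∈ hexFace δ u, f y ≠ 0 := by
  classical
  unfold pinInW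
  rw [Finset.mem_filter]

theorem pin_in_sm_loc (δ : ℝ) (F : Finset TV) (f : ℝ × ℝ → ℝ) : HtLoc (pinInW δ F f) (htSm δ F f) := by
  intro h h' e
  rw [ht_sm_def, ht_sm_def]
  refine Finset.sum_congr rfl fun u hu => ?_
  by_cases hw : u ∈ pinInW δ F f
  · rw [e u hw]
  · have : latW δ f u = 0 := hg_latW_eq_zero fun y hy => by
      by_contra hne
      exact hw (pin_in_mem_W.2 ⟨hu, y, hy, hne⟩)
    rw [this, zero_mul, zero_mul]

/-- a test of zero total whose support is a compact subset of `D` gives a gradient observable, eventually -/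
theorem pin_in_sm_grad {D : Set (ℝ × ℝ)} (hDo : IsOpen D) {δ : ℕ → ℝ} {F : ℕ → Finset TV} (hF : IsInsideApprox D δ F) {f : ℝ × ℝ → ℝ}
    (hfi : Integrable f) (h0 : ∫ y, f y = 0) {K : Set (ℝ × ℝ)} (hK : IsCompact K) (hKD : K ⊆ D) (hf : ∀ y, y ∉ K → f y = 0) :
    ∀ᶠ n in atTop, HtGrad (htSm (δ n) (F n) f) := by
  obtain ⟨c, hc, hev⟩ := hg_latBall_subset_int hDo hF hK hKD
  filter_upwards [hev, hF.2.1.eventually (gt_mem_nhds hc)] with n hn hδc
  refine ht_pair_grad (δ n) f (latInt (F n)) ?_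
  rw [hg_sum_latW_eq_of_meets (hF.1 n) hfi, h0]
  rintro u ⟨y, hy, hne⟩
  have hyK : y ∈ K := by
    by_contra hc'
    exact hne (hf y hc')
  exact hn u ⟨y, hy, hyK⟩ 0 (by simpa using hδc.le) (hg_center_mem_latBall u 0)

theorem pin_in_tr_grad {G : (TV → ℤ) → ℝ} (hG : HtGrad G) (M : ℝ) : HtGrad (fun h => limTr M (G h)) := by
  intro h c
  show limTr M (G _) = limTr M (G h)
  rw [hG h c]

theorem pin_in_tr_loc {S : Finset TV} {G : (TV → ℤ) → ℝ} (hG : HtLoc S G) (M : ℝ) : HtLoc S (fun h => limTr M (G h)) := by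
  intro h h' e
  show limTr M (G h) = limTr M (G h')
  rw [hG h h' e]

theorem pin_in_tr_abs {M : ℝ} (hM : 0 ≤ M) (t : ℝ) : |limTr M t| ≤ M := by
  unfold limTr
  rw [abs_le]
  exact ⟨le_max_left _ _, max_le (by linarith) (min_le_right _ _)⟩

theorem pin_in_int_lap {φ : ℝ × ℝ → ℝ} (hφ : ContDiff ℝ ∞ φ) (hc : HasCompactSupport φ) : ∫ y, lap2 φ y = 0 := by
  have := wkg_green (D := univ) isOpen_univ (u := fun _ => 1) contDiffOn_const (hφ.of_le (by norm_cast)) hc (subset_univ _)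
  have e : lap2 (fun _ : ℝ × ℝ => (1 : ℝ)) = fun _ => 0 := by
    funext z; simp [lap2]
  simpa [e] using this

/-- a site is within `δ` of every point of its face -/
theorem pin_in_face_dist {δ : ℝ} (hδ : 0 < δ) {u : TV} {y : ℝ × ℝ} (hy : y ∈ hexFace δ u) : dist (pinP δ u) (pinC y) ≤ δ := by
  show dist (pinC _) (pinC _) ≤ δ
  rw [dist_comm, pin_sh_dist_le_iff _ _ hδ.le]
  have := hg_hexFace_sqDist_le hδ hy
  nlinarith [sq_nonneg δ]

/-! ## 2. hypotheses (1)-(3) of `pin_sep` on a standing arrangement -/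

section std

variable {D : Set (ℝ × ℝ)} {δ : ℕ → ℝ} {F : ℕ → Finset TV} {γ : Circle → ℝ × ℝ} {γs : ℕ → Circle → ℝ × ℝ} {CC0 : Finset Circle} {t : ℕ → ℝ}
  {z0 : ℝ × ℝ} {ρ : ℝ} {q : ℕ} {φ : ℝ × ℝ → ℝ} {g : Fin q → ℝ × ℝ → ℝ} {lm lp : ℝ}

/-- the sites of a group are close to a point of the physical arc -/
theorem pin_in_gp_near' (H : PinWinDat D δ F γ γs CC0 t) {r : ℝ} (hr : 0 < r) :
    ∀ᶠ n in atTop, ∀ (a : ℝ) (i : ℕ), ∀ u ∈ pinGp δ F γs t a n i, ∃ p ∈ pinInArc γ t a i, dist (pinP (δ n) u) p ≤ r := by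
  filter_upwards [H.small (half_pos hr)] with n hn a i u hu
  obtain ⟨-, θ, hθ, hf⟩ := pin_win_mem.1 hu
  have h1 := H.near hn hf
  refine ⟨_, mem_image_of_mem pinC (mem_image_of_mem γ hθ), ?_⟩
  show dist (pinC _) (pinC _) ≤ r
  rw [pin_in_dist]
  linarith

theorem pin_in_phi_supp (hA : LimArr D z0 ρ q φ g) : tsupport φ ⊆ pinGeoDisk z0 (ρ / 1000) := by
  intro y hy
  by_contra hn
  exact hA.phi_supp y (not_le.1 hn).le hy

theorem pin_in_phi_compact (hA : LimArr D z0 ρ q φ g) : HasCompactSupport φ :=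
  (wk_ball_compact z0 (by have := hA.rho_pos; positivity : (0 : ℝ) ≤ ρ / 1000)).of_isClosed_subset (isClosed_tsupport φ) (pin_in_phi_supp hA)

theorem pin_in_lap_ne (hA : LimArr D z0 ρ q φ g) {y : ℝ × ℝ} (hy : lap2 φ y ≠ 0) : y ∈ pinGeoDisk z0 (ρ / 1000) :=
  pin_in_phi_supp hA (wkg_lap_tsupport φ (subset_tsupport _ hy))

/-- the insertion is a gradient observable, eventually -/
theorem pin_in_X_grad (H : PinStd D δ F γ γs CC0 t z0 ρ q φ g lm lp) : ∀ᶠ n in atTop, HtGrad (htSm (δ n) (F n) (lap2 φ)) := by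
  have hρ := H.arr.rho_pos
  have hc := pin_in_phi_compact H.arr
  have hlc : HasCompactSupport (lap2 φ) := wkg_lap_compact hc
  have hcont : Continuous (lap2 φ) := wkg_lap_continuous (H.arr.phi_smooth.of_le (by norm_cast))
  refine pin_in_sm_grad H.dom.1 H.dat.app (hcont.integrable_of_hasCompactSupport hlc) (pin_in_int_lap H.arr.phi_smooth hc)
    (wk_ball_compact z0 (by positivity : (0 : ℝ) ≤ ρ / 1000)) ((wk_ball_mono z0 (by positivity) (by linarith)).trans H.arr.ball) fun y hy => ?_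
  by_contra hne
  exact hy (pin_in_lap_ne H.arr hne)

/-- the spectators are gradient observables, eventually -/
theorem pin_in_S_grad (H : PinStd D δ F γ γs CC0 t z0 ρ q φ g lm lp) (l : Fin q) : ∀ᶠ n in atTop, HtGrad (htSm (δ n) (F n) (g l)) := by
  obtain ⟨c, s, hs, hsD, -, hz, -, -⟩ := H.spec l
  have hcs : HasCompactSupport (g l) := by
    refine (wk_ball_compact c hs.le).of_isClosed_subset (isClosed_tsupport _) (closure_minimal (fun y hy => ?_) (wk_ball_closed c s))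
    by_contra hn
    exact hy (hz y hn)
  exact pin_in_sm_grad H.dom.1 H.dat.app ((H.arr.g_cont l).integrable_of_hasCompactSupport hcs) (H.arr.g_zero l) (wk_ball_compact c hs.le) hsD hz

/-- a point within `ρ' + r` of `z0` is within `r` of the disk of radius `ρ'` -/
theorem pin_in_fat_disk {z0 : ℝ × ℝ} {ρ' r : ℝ} (hρ' : 0 < ρ') (hr : 0 ≤ r) {c : ℂ} (h : dist c (pinC z0) ≤ ρ' + r) :
    c ∈ pinFat r (pinC '' pinGeoDisk z0 ρ') := by
  obtain ⟨d, hd⟩ : ∃ d, d = dist c (pinC z0) := ⟨_, rfl⟩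
  rw [← hd] at h
  obtain ⟨p, rfl⟩ := pin_sh_C_surj c
  rcases le_total d ρ' with hc | hc
  · refine ⟨pinC p, mem_image_of_mem pinC ?_, by rw [dist_self]; exact hr⟩
    show sqDist _ _ ≤ _
    rw [← pin_sh_dist_le_iff _ _ hρ'.le, ← hd]
    exact hc
  · have hd0 : 0 < d := lt_of_lt_of_le hρ' hc
    obtain ⟨s, hs⟩ : ∃ s : ℝ, s = ρ' / d := ⟨_, rfl⟩
    have hs0 : 0 ≤ s := by rw [hs]; positivity
    have hs1 : s ≤ 1 := by rw [hs, div_le_one hd0]; exact hc
    have hsd : s * d = ρ' := by rw [hs]; field_simp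
    obtain ⟨w, hw⟩ := pin_sh_C_surj (pinC z0 + (s : ℂ) * (pinC p - pinC z0))
    have e1 : dist (pinC w) (pinC z0) = ρ' := by
      rw [hw, dist_eq_norm, add_sub_cancel_left, norm_mul, Complex.norm_real, Real.norm_of_nonneg hs0, ← dist_eq_norm, ← hd, hsd]
    have e2 : dist (pinC p) (pinC w) = d - ρ' := by
      have e3 : pinC p - (pinC z0 + (s : ℂ) * (pinC p - pinC z0)) = ((1 - s : ℝ) : ℂ) * (pinC p - pinC z0) := by
        push_cast; ring
      rw [hw, dist_eq_norm, e3, norm_mul, Complex.norm_real, Real.norm_of_nonneg (by linarith), ← dist_eq_norm, ← hd]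
      linarith
    refine ⟨pinC w, mem_image_of_mem pinC ?_, by rw [e2]; linarith⟩
    show sqDist _ _ ≤ _
    rw [← pin_sh_dist_le_iff _ _ hρ'.le]
    exact e1.le

open Classical in
/-- the sites of the interior within `ρ' + δ` of `z0`: a concrete support of the insertion -/
noncomputable def pinInCore (δ : ℝ) (F : Finset TV) (z0 : ℝ × ℝ) (ρ' : ℝ) : Finset TV := (latInt F).filter fun u => sqDist (triPos δ u) z0 ≤ (ρ' + δ) ^ 2

theorem pin_in_mem_core {δ : ℝ} {F : Finset TV} {z0 : ℝ × ℝ} {ρ' : ℝ} {u : TV} : u ∈ pinInCore δ F z0 ρ' ↔ u ∈ latInt F ∧ sqDist (triPos δ u) z0 ≤ (ρ' + δ) ^ 2 := by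
  classical
  unfold pinInCore
  rw [Finset.mem_filter]

/-- a face which meets the disk of radius `ρ'` has its centre within `ρ' + δ` of `z0` -/
theorem pin_in_face_core {δ : ℝ} (hδ : 0 < δ) {z0 : ℝ × ℝ} {ρ' : ℝ} (hρ' : 0 ≤ ρ') {u : TV} {y : ℝ × ℝ} (hy : y ∈ hexFace δ u) (hyd : y ∈ pinGeoDisk z0 ρ') :
    sqDist (triPos δ u) z0 ≤ (ρ' + δ) ^ 2 := by
  rw [← pin_sh_dist_le_iff _ _ (by positivity)]
  have h1 : dist (pinC (triPos δ u)) (pinC y) ≤ δ := pin_in_face_dist hδ hy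
  have h2 : dist (pinC y) (pinC z0) ≤ ρ' := (pin_sh_dist_le_iff _ _ hρ').2 hyd
  linarith [dist_triangle (pinC (triPos δ u)) (pinC y) (pinC z0)]

theorem pin_in_W_sub_core (hA : LimArr D z0 ρ q φ g) {d : ℝ} (hd : 0 < d) (F' : Finset TV) : pinInW d F' (lap2 φ) ⊆ pinInCore d F' z0 (ρ / 1000) := by
  intro u hu
  obtain ⟨h1, y, hy, hne⟩ := pin_in_mem_W.1 hu
  exact pin_in_mem_core.2 ⟨h1, pin_in_face_core hd (by have := hA.rho_pos; positivity) hy (pin_in_lap_ne hA hne)⟩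

/-- **covering**: eventually every point of the closed support of `φ` lies in the face of a site of `pinInCore` -/
theorem pin_in_core_cov (H : PinStd D δ F γ γs CC0 t z0 ρ q φ g lm lp) :
    ∀ᶠ n in atTop, ∀ y ∈ tsupport φ, ∃ v ∈ pinInCore (δ n) (F n) z0 (ρ / 1000), y ∈ hexFace (δ n) v := by
  have hρ := H.arr.rho_pos
  obtain ⟨c, hc, hev⟩ := hg_latBall_subset_int H.dom.1 H.dat.app (wk_ball_compact z0 (by positivity : (0 : ℝ) ≤ ρ / 1000))
    ((wk_ball_mono z0 (by positivity) (by linarith)).trans H.arr.ball)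
  filter_upwards [hev, H.dat.app.2.1.eventually (gt_mem_nhds hc)] with n hn hδc y hy
  have hyd := pin_in_phi_supp H.arr hy
  obtain ⟨v, hv⟩ := hg_cover (H.dat.pos n) y
  exact ⟨v, pin_in_mem_core.2 ⟨hn v ⟨y, hv, hyd⟩ 0 (by simpa using hδc.le) (hg_center_mem_latBall v 0),
    pin_in_face_core (H.dat.pos n) (by positivity) hv hyd⟩, hv⟩

/-- **hypotheses (1)-(3) of `pin_sep`** on `PinStd` at the gaps `a ≤ ε` and the truncation level `Mt`.  The support `SX n` of the insertion is ANY finite set which contains `pinInW .. (lap2 φ)`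
and lies within `ρ/1000 + δ n` of `z0` (e.g. `pinInCore (δ n) (F n) z0 (ρ/1000)`: `pin_in_sp_core`). -/
theorem pin_in_sp (H : PinStd D δ F γ γs CC0 t z0 ρ q φ g lm lp) {a ε : ℝ} (ha : 0 < a) (hae : a ≤ ε)
    (hgap : ∀ i, i < CC0.card → 2 * ε ≤ t (i + 1) - t i) :
    ∃ (kd : ℕ → PinKind) (ks : Fin q → PinKind) (obj : PinKind → Set ℂ) (M κ m0 : ℝ), 0 < m0 ∧ PinSc M κ (ρ / 2) (pinGeoU z0) lm lp obj ∧
      z0.2 + ρ / 1000 ≤ lp - κ ∧
      (∀ i ∈ Finset.range CC0.card, kd i ≠ .K) ∧ (∀ l ∈ (Finset.univ : Finset (Fin q)), ks l ≠ .K) ∧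
      (∃ i ∈ Finset.range CC0.card, kd i = .T) ∧ (∃ i ∈ Finset.range CC0.card, kd i = .B) ∧
      ∀ (Mt : ℝ), 0 ≤ Mt → ∀ SX : ℕ → Finset TV, (∀ᶠ n in atTop, pinInW (δ n) (F n) (lap2 φ) ⊆ SX n) →
        (∀ᶠ n in atTop, ∀ u ∈ SX n, sqDist (triPos (δ n) u) z0 ≤ (ρ / 1000 + δ n) ^ 2) →
        ∀ᶠ n in atTop, PinSpAt (δ n) obj (Finset.range CC0.card) (Finset.univ : Finset (Fin q)) kd ks m0 Mt
          (pinGp δ F γs t a n) (pinGp δ F γs t ε n) (fun l h => limTr Mt (htSm (δ n) (F n) (g l) h)) (fun l => pinInW (δ n) (F n) (g l))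
          (htSm (δ n) (F n) (lap2 φ)) (SX n) := by
  have hρ := H.arr.rho_pos
  obtain ⟨fam, fs, obj, M, κ, r, hr, hS, h1, h2, h3, ⟨iT, hiT, hT⟩, ⟨iB, hiB, hB⟩⟩ := pin_in_std_scene H ha (fun i hi => by linarith [hgap i hi])
  obtain ⟨s, hs, hsep⟩ := pin_in_arc_sep H.dat.bd.1 H.dat.bd.2.1 H.dat.ang ha
  refine ⟨fam, fs, obj, M, κ, s / 2, by positivity, hS, ?_, fun i hi => (h1 i (Finset.mem_range.1 hi)).1, fun l _ => (h2 l).1,
    ⟨iT, Finset.mem_range.2 hiT, hT⟩, ⟨iB, Finset.mem_range.2 hiB, hB⟩, ?_⟩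
  · -- the top point of the disk belongs to the core
    have hm : pinC (z0.1, z0.2 + ρ / 1000) ∈ obj .K := by
      refine h3 ⟨_, mem_image_of_mem pinC ?_, by rw [dist_self]; exact hr.le⟩
      show sqDist _ _ ≤ _
      simp [sqDist]
    have := (hS.mid .K (by simp) (by simp) _ hm).2
    rwa [pin_pc_dot_E] at this
  intro Mt hMt SX hSX1 hSX2
  filter_upwards [pin_in_gp_near' H.dat hr, pin_in_gp_near' H.dat (show 0 < s / 4 by positivity), pin_in_X_grad H, eventually_all.2 (pin_in_S_grad H),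
    H.dat.app.2.1.eventually (gt_mem_nhds hr), hSX1, hSX2] with n hn1 hn2 hX hSg hδr hX1 hX2
  have hδ := H.dat.pos n
  refine ⟨fun i hi => (pin_in_ob H.dat hae (hgap i (Finset.mem_range.1 hi)) n).sub, fun i hi => (pin_in_ob H.dat hae (hgap i (Finset.mem_range.1 hi)) n).ne,
    fun i hi u hu => ?_, fun i hi i' hi' hii u hu v hv => ?_, fun l _ => pin_in_tr_grad (hSg l) Mt, fun l _ => pin_in_tr_loc (pin_in_sm_loc _ _ _) Mt,
    fun l _ h => pin_in_tr_abs hMt _, fun l _ u hu => ?_, hX, pin_loc_mono hX1 (pin_in_sm_loc _ _ _), fun u hu => ?_⟩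
  · obtain ⟨p, hp, hd⟩ := hn1 a i u hu
    exact (h1 i (Finset.mem_range.1 hi)).2 ⟨p, hp, hd⟩
  · obtain ⟨p, hp, hd⟩ := hn2 a i u hu
    obtain ⟨p', hp', hd'⟩ := hn2 a i' v hv
    have h4 := hsep ⟨i, Finset.mem_range.1 hi⟩ ⟨i', Finset.mem_range.1 hi'⟩ (fun h => hii (congrArg Fin.val h)) p hp p' hp'
    have h5 : dist p p' ≤ dist p (pinP (δ n) u) + dist (pinP (δ n) u) (pinP (δ n) v) + dist (pinP (δ n) v) p' := dist_triangle4 _ _ _ _
    rw [dist_comm p (pinP (δ n) u)] at h5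
    linarith
  · obtain ⟨-, y, hy, hne⟩ := pin_in_mem_W.1 hu
    exact (h2 l).2 y hne ⟨_, rfl, (pin_in_face_dist hδ hy).trans hδr.le⟩
  · refine h3 (pin_in_fat_disk (by positivity) hr.le ?_)
    have h6 : dist (pinC (triPos (δ n) u)) (pinC z0) ≤ ρ / 1000 + δ n := (pin_sh_dist_le_iff _ _ (by positivity)).2 (hX2 u hu)
    exact h6.trans (by linarith)

/-- the two hypotheses on `SX` for the concrete support `pinInCore` -/
theorem pin_in_sp_core (H : PinStd D δ F γ γs CC0 t z0 ρ q φ g lm lp) :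
    (∀ᶠ n in atTop, pinInW (δ n) (F n) (lap2 φ) ⊆ pinInCore (δ n) (F n) z0 (ρ / 1000)) ∧
    ∀ᶠ n in atTop, ∀ u ∈ pinInCore (δ n) (F n) z0 (ρ / 1000), sqDist (triPos (δ n) u) z0 ≤ (ρ / 1000 + δ n) ^ 2 :=
  ⟨Eventually.of_forall fun n => pin_in_W_sub_core H.arr (H.dat.pos n) (F n), Eventually.of_forall fun n u hu => (pin_in_mem_core.1 hu).2⟩

end std

end Claimed.Agent.R291
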