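import Claimed.Agent.R291.Pin.Side
import Claimed.Agent.R291.Pin.Dlr

/-!
# Row 291 (S0539), unit PIN (05-pins), Pin/Iso : LATTICE ISOMETRIES ACT ON PINS, NECKLACES AND FAMILIES      (OWNER helper138; head of PIN: helper34)      0 sorry

TEX[pins:side-norm] ("the reflected arrangement consists of two copies of every obstacle ... their individual probabilities are the same"), TEX[lem:analytic-translation]
("individual `p_i` are invariant under lattice translation and reflection").
* sec. 1  `PinIso g` = graph automorphism which maps hexagons onto hexagons; `pin_iso_tr`, `pin_iso_re`, `pin_iso_ro`, `PinIso.trans`, `PinIso.symm`; `pin_iso_dist`.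
* sec. 2  geometry: `pin_iso_R`, `pin_iso_conn`, `pin_iso_ob`, `pin_iso_neck`, `pin_iso_fam` (`Finset.map` form).
* sec. 3  events: `pin_iso_abs`, `pin_iso_gr`, `pin_iso_loc`, `pin_iso_sp` (`E (G.map g) (D.map g) h ↔ E G D (h ∘ g)`).
* sec. 5  indicator calculus `pin_I_*`; locality / gradient / localisation of the pin indicators (`pin_abs_loc`, `pin_abs_lz`, `pin_abs_ok`, `pin_gr_LG`, `pin_all_gr_LG`, `pin_loc_lc`, ...);
          `PinCmn` (common offset up to a shift), `pin_sum_all_abs`, `pin_sum_abs`, `pin_hat_abs` (`pinHat 1_PinAbs = htPl 1_PinGr`).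
* sec. 6  `pinPr x G D` (single pin probability), **`pin_iso_p`** (invariant under every `PinIvr` map, `image` form of Pin/Side), `pin_iso_ag`, `pin_iso_al`.
* sec. 7  **`PinFs κ n0 N s G D U`** = `PinFam` indexed by a `Finset` (vocabulary `pinAg`/`pinAl` of Pin/Side); `.mono`, `.image` (isometry), `.sum` (two families at cross distance `≥ 4`), `pin_fs_fin`;
          **`pin_fs_up`**, **`pin_fs_lo`** (the two halves of `exit_dis_rare`), `pin_fs_up2`, **`pin_fs_dbl`** (doubled arrangement = hypothesis `hC` of `pin_last` / `pin_side`);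
          `pinThE g` (reflection in the row `0` of the chart `g`), `pin_iso_th`, `pin_iso_far_up/dn` (row margin `2` ⟹ cross distance `≥ 4`), `pin_fs_dbl_row`.
-/

set_option autoImplicit false
set_option linter.unusedVariables false
set_option linter.unusedSectionVars false

namespace Claimed.Agent.R291

open Claims Claims.C0467 Filter Topology

/-! ## 1. isometries -/

/-- graph automorphism which maps hexagons onto hexagons -/
structure PinIso (g : TV ≃ TV) : Prop where
  aut : PinAut g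
  ball : ∀ (z : TV) (n : ℕ), (latBall z n).map g.toEmbedding = latBall (g z) n

theorem pin_iso_mem_ball {g : TV ≃ TV} (hg : PinIso g) (z u : TV) (n : ℕ) : g u ∈ latBall (g z) n ↔ u ∈ latBall z n := by
  rw [← hg.ball z n]
  simp

theorem pin_iso_dist {g : TV ≃ TV} (hg : PinIso g) (u v : TV) : latDist (g u) (g v) = latDist u v := by
  have h : ∀ n : ℕ, latDist (g u) (g v) ≤ n ↔ latDist u v ≤ n := by
    intro n
    have := pin_iso_mem_ball hg u v n
    rwa [lat_mem_ball, lat_mem_ball] at this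
  exact le_antisymm ((h _).2 le_rfl) ((h _).1 le_rfl)

theorem PinIso.symm {g : TV ≃ TV} (hg : PinIso g) : PinIso g.symm := by
  refine ⟨pin_aut_symm hg.aut, fun z n => ?_⟩
  ext u
  rw [Finset.mem_map_equiv, Equiv.symm_symm]
  have := pin_iso_mem_ball hg (g.symm z) u n
  rwa [Equiv.apply_symm_apply] at this

theorem PinIso.trans {g g' : TV ≃ TV} (hg : PinIso g) (hg' : PinIso g') : PinIso (g.trans g') := by
  refine ⟨pin_aut_trans hg.aut hg'.aut, fun z n => ?_⟩
  ext u
  rw [Finset.mem_map_equiv]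
  have h1 := pin_iso_mem_ball hg' (g z) (g'.symm u) n
  have h2 := pin_iso_mem_ball hg z (g.symm (g'.symm u)) n
  rw [Equiv.apply_symm_apply] at h1 h2
  show g.symm (g'.symm u) ∈ _ ↔ u ∈ latBall (g' (g z)) n
  rw [← h2, h1]

theorem pin_iso_tr (a : TV) : PinIso (pinTrE a) := ⟨pin_aut_tr a, fun z n => pin_ball_tr z a n⟩

theorem pin_iso_of_lin (g : TV ≃ TV) (hg : PinAut g) (hadd : ∀ u v, g (u + v) = g u + g v) (hN : ∀ u, latN (g u) = latN u) : PinIso g := by
  refine ⟨hg, fun z n => ?_⟩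
  ext u
  rw [Finset.mem_map_equiv, lat_mem_ball, lat_mem_ball]
  have e : u - g z = g (g.symm u - z) := by
    have := hadd (g.symm u - z) z
    rw [sub_add_cancel, Equiv.apply_symm_apply] at this
    exact sub_eq_of_eq_add this
  rw [e, hN]

theorem pin_iso_re : PinIso pinReE := pin_iso_of_lin _ pin_aut_re lat_refl_add pin_N_refl

theorem pin_iso_ro : PinIso pinRoE := pin_iso_of_lin _ pin_aut_ro lat_rot_add pin_N_rot

/-! ## 2. geometry -/

theorem pin_iso_coe_map (g : TV ≃ TV) (S : Finset TV) : ((S.map g.toEmbedding : Finset TV) : Set TV) = g '' (S : Set TV) := by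
  ext u
  simp

theorem pin_iso_R {g : TV ≃ TV} (hg : PinAut g) {Q : Set TV} {a b : TV} (h : TscR tscG Q a b) : TscR tscG (g '' Q) (g a) (g b) :=
  tsc_R_map g (fun u v huv => (hg u v).2 huv) h

theorem pin_iso_conn {g : TV ≃ TV} (hg : PinAut g) {S : Finset TV} (h : TscConn tscG (S : Set TV)) :
    TscConn tscG ((S.map g.toEmbedding : Finset TV) : Set TV) := by
  rw [pin_iso_coe_map]
  exact tsc_conn_map g (fun u v huv => (hg u v).2 huv) h

theorem pin_iso_ob {g : TV ≃ TV} (hg : PinAut g) {G D : Finset TV} (h : PinOb G D) : PinOb (G.map g.toEmbedding) (D.map g.toEmbedding) :=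
  ⟨Finset.map_subset_map.2 h.sub, h.ne.map, pin_iso_conn hg h.connG, pin_iso_conn hg h.connD⟩

theorem pin_iso_neck {g : TV ≃ TV} (hg : PinIso g) {κ n0 N : ℕ} {K U : Finset TV} (h : PinNeck κ n0 N K U) :
    PinNeck κ n0 N (K.map g.toEmbedding) (U.map g.toEmbedding) := by
  classical
  obtain ⟨J, h1, h2, h3⟩ := h
  refine ⟨J.image (fun p => (g p.1, p.2)), Finset.card_image_le.trans h1, ?_, ?_⟩
  · intro p hp
    obtain ⟨q, hq, rfl⟩ := Finset.mem_image.1 hp
    refine ⟨(h2 q hq).1, ?_⟩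
    show latBall (g q.1) (κ * q.2 + 2) ⊆ _
    rw [← hg.ball, ← Finset.map_sdiff]
    exact Finset.map_subset_map.2 (h2 q hq).2
  · intro Q a b ha hb hR
    have ha' : g.symm a ∈ K := by simpa [Finset.mem_map_equiv] using ha
    have hb' : g.symm b ∉ U := by simpa [Finset.mem_map_equiv] using hb
    obtain ⟨p, hp, u, hu1, hu2⟩ := h3 (g.symm '' Q) _ _ ha' hb' (pin_iso_R hg.symm.aut hR)
    refine ⟨(g p.1, p.2), Finset.mem_image_of_mem _ hp, g u, ?_, ?_⟩
    · obtain ⟨w, hw, rfl⟩ := hu1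
      simpa using hw
    · show g u ∈ ((latBall (g p.1) p.2 : Finset TV) : Set TV)
      rw [Finset.mem_coe, pin_iso_mem_ball hg]
      exact hu2

theorem pin_iso_fam {g : TV ≃ TV} (hg : PinIso g) {κ n0 N k : ℕ} {G D U : Fin k → Finset TV} (h : PinFam κ n0 N G D U) :
    PinFam κ n0 N (fun i => (G i).map g.toEmbedding) (fun i => (D i).map g.toEmbedding) (fun i => (U i).map g.toEmbedding) := by
  refine ⟨fun i => pin_iso_ob hg.aut (h.ob i), fun i => pin_iso_neck hg (h.neck i), fun i j hij u hu v hv => ?_⟩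
  obtain ⟨u', hu', rfl⟩ := Finset.mem_map.1 hu
  obtain ⟨v', hv', rfl⟩ := Finset.mem_map.1 hv
  show 4 ≤ latDist (g u') (g v')
  rw [pin_iso_dist hg]
  exact h.far i j hij u' hu' v' hv'

/-! ## 3. events -/

theorem pin_iso_forall (g : TV ≃ TV) (S : Finset TV) (p : TV → Prop) : (∀ u ∈ S.map g.toEmbedding, p u) ↔ ∀ u ∈ S, p (g u) := by
  constructor
  · intro h u hu
    exact h _ (Finset.mem_map_of_mem _ hu)
  · intro h u hu
    obtain ⟨v, hv, rfl⟩ := Finset.mem_map.1 hu
    exact h v hv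

theorem pin_iso_abs (g : TV ≃ TV) (G D : Finset TV) (h : TV → ℤ) :
    PinAbs (G.map g.toEmbedding) (D.map g.toEmbedding) h ↔ PinAbs G D (fun u => h (g u)) := by
  unfold PinAbs
  rw [pin_iso_forall, pin_iso_forall]

theorem pin_iso_gr (g : TV ≃ TV) (G D : Finset TV) (h : TV → ℤ) :
    PinGr (G.map g.toEmbedding) (D.map g.toEmbedding) h ↔ PinGr G D (fun u => h (g u)) := by
  unfold PinGr
  exact exists_congr fun t => pin_iso_abs g G D _

theorem pin_iso_loc (g : TV ≃ TV) (G D : Finset TV) (h : TV → ℤ) :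
    PinLoc (G.map g.toEmbedding) (D.map g.toEmbedding) h ↔ PinLoc G D (fun u => h (g u)) := by
  unfold PinLoc
  exact exists_congr fun t => pin_iso_abs g G D _

theorem pin_iso_sp (g : TV ≃ TV) (G D : Finset TV) (h : TV → ℤ) :
    PinSp (G.map g.toEmbedding) (D.map g.toEmbedding) h ↔ PinSp G D (fun u => h (g u)) := by
  unfold PinSp
  rw [pin_iso_forall, pin_iso_forall]

/-! ## 5. indicator calculus; locality, gradient property and localisation of the pin indicators -/

theorem pin_I_mul (p q : Prop) : pinI (p ∧ q) = pinI p * pinI q := by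
  by_cases hp : p
  · by_cases hq : q
    · rw [pin_dlr_I_pos hp, pin_dlr_I_pos hq, pin_dlr_I_pos ⟨hp, hq⟩, one_mul]
    · rw [pin_dlr_I_neg hq, pin_dlr_I_neg fun h => hq h.2, mul_zero]
  · rw [pin_dlr_I_neg hp, pin_dlr_I_neg fun h => hp h.1, zero_mul]

theorem pin_I_mono {p q : Prop} (h : p → q) : pinI p ≤ pinI q := by
  by_cases hp : p
  · rw [pin_dlr_I_pos hp, pin_dlr_I_pos (h hp)]
  · rw [pin_dlr_I_neg hp]; exact pin_dlr_I_nonneg q

theorem pin_I_sq (p : Prop) : pinI p * pinI p = pinI p := by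
  rw [← pin_I_mul, and_self]

theorem pin_I_prod {ι : Type*} (s : Finset ι) (P : ι → Prop) : pinI (∀ i ∈ s, P i) = ∏ i ∈ s, pinI (P i) := by
  classical
  induction s using Finset.induction_on with
  | empty => simpa using pin_dlr_I_pos trivial
  | insert a s ha ih =>
    rw [Finset.prod_insert ha, ← ih, ← pin_I_mul]
    exact pin_dlr_I_congr (Finset.forall_mem_insert _ _ _)

theorem pin_I_prod_univ {ι : Type*} [Fintype ι] (P : ι → Prop) : pinI (∀ i, P i) = ∏ i, pinI (P i) := by
  rw [← pin_I_prod]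
  exact pin_dlr_I_congr ⟨fun h i _ => h i, fun h i => h i (Finset.mem_univ i)⟩

theorem pin_I_ne_zero {p : Prop} (h : pinI p ≠ 0) : p := by
  by_contra hp
  exact h (pin_dlr_I_neg hp)

theorem pin_I_abs (p : Prop) : |pinI p| = pinI p := abs_of_nonneg (pin_dlr_I_nonneg p)

/-- an event read on `S` -/
theorem pin_I_loc {S : Finset TV} {E : (TV → ℤ) → Prop} (hE : ∀ h h' : TV → ℤ, (∀ u ∈ S, h u = h' u) → (E h ↔ E h')) :
    HtLoc S fun h => pinI (E h) := fun h h' hh => pin_dlr_I_congr (hE h h' hh)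

theorem pin_abs_congr {G D : Finset TV} {h h' : TV → ℤ} (hG : ∀ u ∈ G, h u = h' u) (hD : ∀ u ∈ D, h u = h' u) :
    PinAbs G D h ↔ PinAbs G D h' := by
  unfold PinAbs
  constructor
  · rintro ⟨h1, h2⟩
    exact ⟨fun u hu => by rw [← hG u hu]; exact h1 u hu, fun u hu => by rw [← hD u hu]; exact h2 u hu⟩
  · rintro ⟨h1, h2⟩
    exact ⟨fun u hu => by rw [hG u hu]; exact h1 u hu, fun u hu => by rw [hD u hu]; exact h2 u hu⟩

open Classical in
theorem pin_abs_loc (G D : Finset TV) : HtLoc (G ∪ D) fun h => pinI (PinAbs G D h) :=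
  pin_I_loc fun h h' hh => pin_abs_congr (fun u hu => hh u (Finset.mem_union_left _ hu)) fun u hu => hh u (Finset.mem_union_right _ hu)

open Classical in
theorem pin_gr_loc (G D : Finset TV) : HtLoc (G ∪ D) fun h => pinI (PinGr G D h) :=
  pin_I_loc fun h h' hh => exists_congr fun t =>
    pin_abs_congr (fun u hu => by rw [hh u (Finset.mem_union_left _ hu)]) fun u hu => by rw [hh u (Finset.mem_union_right _ hu)]

open Classical in
theorem pin_loc_loc (G D : Finset TV) : HtLoc (G ∪ D) fun h => pinI (PinLoc G D h) :=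
  pin_I_loc fun h h' hh => exists_congr fun t =>
    pin_abs_congr (fun u hu => by rw [hh u (Finset.mem_union_left _ hu)]) fun u hu => by rw [hh u (Finset.mem_union_right _ hu)]

theorem pin_gr_shift (G D : Finset TV) (h : TV → ℤ) (c : ℤ) : PinGr G D (fun u => h u + c) ↔ PinGr G D h := by
  unfold PinGr
  constructor
  · rintro ⟨t, ht⟩
    refine ⟨t - c, ?_⟩
    have e : (fun u => h u - (t - c)) = fun u => h u + c - t := by funext u; ring
    rw [e]; exact ht
  · rintro ⟨t, ht⟩
    refine ⟨t + c, ?_⟩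
    have e : (fun u => h u + c - (t + c)) = fun u => h u - t := by funext u; ring
    rw [e]; exact ht

theorem pin_gr_grad (G D : Finset TV) : HtGrad fun h => pinI (PinGr G D h) :=
  fun h c => pin_dlr_I_congr (pin_gr_shift G D h c)

theorem pin_gr_LG (G D : Finset TV) : PinLG fun h => pinI (PinGr G D h) := by
  classical
  exact ⟨⟨_, pin_gr_loc G D⟩, pin_gr_grad G D⟩

theorem pin_abs_lc (G D : Finset TV) : PinLc fun h => pinI (PinAbs G D h) := by
  classical
  exact ⟨_, pin_abs_loc G D⟩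

theorem pin_loc_lc (G D : Finset TV) : PinLc fun h => pinI (PinLoc G D h) := by
  classical
  exact ⟨_, pin_loc_loc G D⟩

theorem pin_abs_lz {G D : Finset TV} (hD : D.Nonempty) : PinLz fun h => pinI (PinAbs G D h) := by
  obtain ⟨v, hv⟩ := hD
  refine ⟨{v}, 0, fun h hh => ⟨v, Finset.mem_singleton_self v, ?_⟩⟩
  rw [(pin_I_ne_zero hh).2 v hv]
  simp

theorem pin_abs_ok {G D : Finset TV} (hD : D.Nonempty) : PinOk fun h => pinI (PinAbs G D h) := ⟨pin_abs_lc G D, pin_abs_lz hD⟩

section fam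

variable {ι : Type*} [Fintype ι]

theorem pin_all_abs_lc (G D : ι → Finset TV) : PinLc fun h => pinI (∀ i, PinAbs (G i) (D i) h) := by
  simp only [pin_I_prod_univ]
  exact PinLc.prod _ fun i _ => pin_abs_lc (G i) (D i)

theorem pin_all_abs_lz (G D : ι → Finset TV) {i : ι} (hD : (D i).Nonempty) : PinLz fun h => pinI (∀ i, PinAbs (G i) (D i) h) := by
  obtain ⟨S, m, hS⟩ := pin_abs_lz (G := G i) hD
  refine ⟨S, m, fun h hh => hS h ?_⟩
  show pinI (PinAbs (G i) (D i) h) ≠ 0
  rw [pin_dlr_I_pos (pin_I_ne_zero hh i)]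
  exact one_ne_zero

theorem pin_all_abs_ok (G D : ι → Finset TV) {i : ι} (hD : (D i).Nonempty) : PinOk fun h => pinI (∀ i, PinAbs (G i) (D i) h) :=
  ⟨pin_all_abs_lc G D, pin_all_abs_lz G D hD⟩

theorem pin_all_gr_LG (G D : ι → Finset TV) : PinLG fun h => pinI (∀ i, PinGr (G i) (D i) h) := by
  refine ⟨?_, fun h c => pin_dlr_I_congr (forall_congr' fun i => pin_gr_shift _ _ h c)⟩
  simp only [pin_I_prod_univ]
  exact PinLc.prod _ fun i _ => (pin_gr_LG (G i) (D i)).1

theorem pin_all_loc_lc (G D : ι → Finset TV) : PinLc fun h => pinI (∀ i, PinLoc (G i) (D i) h) := by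
  simp only [pin_I_prod_univ]
  exact PinLc.prod _ fun i _ => pin_loc_lc (G i) (D i)

/-- the common offset event, up to a vertical shift -/
def PinCmn (G D : ι → Finset TV) (h : TV → ℤ) : Prop := ∃ t : ℤ, ∀ i, PinAbs (G i) (D i) (fun u => h u - t)

theorem pin_com_gr {G D : ι → Finset TV} {h : TV → ℤ} (hc : PinCmn G D h) (i : ι) : PinGr (G i) (D i) h := by
  obtain ⟨t, ht⟩ := hc
  exact ⟨t, ht i⟩

/-- **sum over the shifts of the common offset event** -/
theorem pin_sum_all_abs (G D : ι → Finset TV) {i : ι} (hD : (D i).Nonempty) :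
    pinSum (fun h => pinI (∀ i, PinAbs (G i) (D i) h)) = fun h => pinI (PinCmn G D h) := by
  obtain ⟨v, hv⟩ := hD
  funext h
  rw [pin_sum_anchor (v := v) fun a ha => (pin_I_ne_zero ha i).2 v hv]
  refine pin_dlr_I_congr ⟨fun hh => ⟨h v, hh⟩, ?_⟩
  rintro ⟨t, ht⟩
  have : h v - t = 0 := (ht i).2 v hv
  have e : h v = t := by linarith
  rw [e]; exact ht

theorem pin_com_LG (G D : ι → Finset TV) {i : ι} (hD : (D i).Nonempty) : PinLG fun h => pinI (PinCmn G D h) := by
  rw [← pin_sum_all_abs G D hD]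
  exact pin_sum_LG (pin_all_abs_lc G D)

end fam

/-- sum over the shifts of one pin -/
theorem pin_sum_abs {G D : Finset TV} (hD : D.Nonempty) : pinSum (fun h => pinI (PinAbs G D h)) = fun h => pinI (PinGr G D h) := by
  obtain ⟨v, hv⟩ := hD
  funext h
  rw [pin_sum_anchor (v := v) fun a ha => (pin_I_ne_zero ha).2 v hv]
  refine pin_dlr_I_congr ⟨fun hh => ⟨h v, hh⟩, ?_⟩
  rintro ⟨t, ht⟩
  have : h v - t = 0 := ht.2 v hv
  have e : h v = t := by linarith
  rw [e]; exact ht

/-- `p = pinHat (1_PinAbs)` -/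
theorem pin_hat_abs (x : ℝ) {G D : Finset TV} (hD : D.Nonempty) :
    pinHat x (fun h => pinI (PinAbs G D h)) = htPl x fun h => pinI (PinGr G D h) := by
  rw [pin_hat_eq, pin_sum_abs hD]


/-! ## 6. the single pin probabilities are invariant -/

/-- the single pin probability `p = htPl (1_PinGr) = pinHat (1_PinAbs)` -/
noncomputable def pinPr (x : ℝ) (G D : Finset TV) : ℝ := htPl x fun h => pinI (PinGr G D h)

theorem pin_iso_p {x : ℝ} {g : TV → TV} (h : PinIvr x g) (G D : Finset TV) : pinPr x (G.image g) (D.image g) = pinPr x G D := by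
  unfold pinPr
  rw [← h _ (pin_gr_LG G D)]
  congr 1
  funext a
  exact pin_dlr_I_congr (pin_sd_gr_image g G D a)

theorem pin_iso_p_nonneg {x : ℝ} (hP : PinPl x) (G D : Finset TV) : 0 ≤ pinPr x G D :=
  pin_pl_nonneg hP (pin_gr_LG G D) fun _ _ => pin_dlr_I_nonneg _

theorem pin_iso_ag {x : ℝ} {g : TV → TV} (h : PinIvr x g) {α : Type} (s : Finset α) (G D : α → Finset TV) :
    htPl x (pinAg s (fun i => (G i).image g) (fun i => (D i).image g)) = htPl x (pinAg s G D) := by
  rw [← pin_sd_ag_mp, h _ (pin_sd_ag_LG s G D)]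

theorem pin_iso_al {x : ℝ} {g : TV → TV} (h : PinIvr x g) {α : Type} (s : Finset α) (G D : α → Finset TV) :
    pinHat x (pinAl s (fun i => (G i).image g) (fun i => (D i).image g)) = pinHat x (pinAl s G D) := by
  rw [← pin_sd_al_mp, h.hat ⟨_, pin_sd_al_loc s G D⟩]

/-! ## 7. families indexed by a finite set -/

theorem pin_iso_dist_comm (u v : TV) : latDist u v = latDist v u := by
  unfold latDist latN
  simp only [Prod.fst_sub, Prod.snd_sub]
  omega

/-- a family of separated obstacles with necklaces, indexed by a finite set (`PinFam` of Defs/Pin is the case `Fin k`) -/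
structure PinFs (κ n0 N : ℕ) {α : Type} (s : Finset α) (G D U : α → Finset TV) : Prop where
  ob : ∀ i ∈ s, PinOb (G i) (D i)
  neck : ∀ i ∈ s, PinNeck κ n0 N (G i) (U i)
  far : ∀ i ∈ s, ∀ j ∈ s, i ≠ j → ∀ u ∈ U i, ∀ v ∈ U j, 4 ≤ latDist u v

section fs

variable {κ n0 N : ℕ} {α β : Type} {s : Finset α} {G D U : α → Finset TV}

theorem PinFs.mono (h : PinFs κ n0 N s G D U) {s' : Finset α} (hs : s' ⊆ s) : PinFs κ n0 N s' G D U :=
  ⟨fun i hi => h.ob i (hs hi), fun i hi => h.neck i (hs hi), fun i hi j hj => h.far i (hs hi) j (hs hj)⟩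

theorem PinFs.image (h : PinFs κ n0 N s G D U) {g : TV ≃ TV} (hg : PinIso g) :
    PinFs κ n0 N s (fun i => (G i).image g) (fun i => (D i).image g) (fun i => (U i).image g) := by
  refine ⟨fun i hi => ?_, fun i hi => ?_, fun i hi j hj hij u hu v hv => ?_⟩
  · have := pin_iso_ob hg.aut (h.ob i hi)
    rwa [Finset.map_eq_image, Finset.map_eq_image] at this
  · have := pin_iso_neck hg (h.neck i hi)
    rwa [Finset.map_eq_image, Finset.map_eq_image] at this
  · obtain ⟨u', hu', rfl⟩ := Finset.mem_image.1 hu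
    obtain ⟨v', hv', rfl⟩ := Finset.mem_image.1 hv
    rw [pin_iso_dist hg]
    exact h.far i hi j hj hij u' hu' v' hv'

/-- two families far from each other -/
theorem PinFs.sum (h : PinFs κ n0 N s G D U) {s' : Finset β} {G' D' U' : β → Finset TV} (h' : PinFs κ n0 N s' G' D' U')
    (hx : ∀ i ∈ s, ∀ j ∈ s', ∀ u ∈ U i, ∀ v ∈ U' j, 4 ≤ latDist u v) :
    PinFs κ n0 N (s.disjSum s') (Sum.elim G G') (Sum.elim D D') (Sum.elim U U') := by
  refine ⟨?_, ?_, ?_⟩
  · rintro (i | i) hi
    · exact h.ob i (Finset.inl_mem_disjSum.1 hi)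
    · exact h'.ob i (Finset.inr_mem_disjSum.1 hi)
  · rintro (i | i) hi
    · exact h.neck i (Finset.inl_mem_disjSum.1 hi)
    · exact h'.neck i (Finset.inr_mem_disjSum.1 hi)
  · rintro (i | i) hi (j | j) hj hij u hu v hv
    · exact h.far i (Finset.inl_mem_disjSum.1 hi) j (Finset.inl_mem_disjSum.1 hj) (fun e => hij (by rw [e])) u hu v hv
    · exact hx i (Finset.inl_mem_disjSum.1 hi) j (Finset.inr_mem_disjSum.1 hj) u hu v hv
    · rw [pin_iso_dist_comm]
      exact hx j (Finset.inl_mem_disjSum.1 hj) i (Finset.inr_mem_disjSum.1 hi) v hv u hu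
    · exact h'.far i (Finset.inr_mem_disjSum.1 hi) j (Finset.inr_mem_disjSum.1 hj) (fun e => hij (by rw [e])) u hu v hv

/-- reindexing by `Fin k` -/
theorem pin_fs_fin (h : PinFs κ n0 N s G D U) {k : ℕ} (e : Fin k ≃ s) :
    PinFam κ n0 N (fun i => G (e i)) (fun i => D (e i)) (fun i => U (e i)) :=
  ⟨fun i => h.ob _ (e i).2, fun i => h.neck _ (e i).2, fun i j hij =>
    h.far _ (e i).2 _ (e j).2 fun hc => hij (e.injective (Subtype.ext hc))⟩

theorem pin_fs_forall {k : ℕ} (e : Fin k ≃ s) (P : α → Prop) : (∀ i, P (e i)) ↔ ∀ i ∈ s, P i := by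
  constructor
  · intro h i hi
    have := h (e.symm ⟨i, hi⟩)
    rwa [Equiv.apply_symm_apply] at this
  · intro h i
    exact h _ (e i).2

theorem pin_fs_prod {k : ℕ} (e : Fin k ≃ s) (f : α → ℝ) : ∏ i, f (e i) = ∏ i ∈ s, f i := by
  rw [← Finset.prod_coe_sort s f]
  exact Equiv.prod_comp e fun i : s => f i

/-- **upper half of `exit_dis_rare`** for a family indexed by a finite set -/
theorem pin_fs_up {x C : ℝ} (h : PinFs κ n0 N s G D U) {k : ℕ} (hk : s.card = k)
    (hup : ∀ G D U : Fin k → Finset TV, PinFam κ n0 N G D U →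
      (htPl x fun h => pinI (∀ i, PinGr (G i) (D i) h)) ≤ C * ∏ i, (htPl x fun h => pinI (PinGr (G i) (D i) h))) :
    htPl x (pinAg s G D) ≤ C * ∏ i ∈ s, pinPr x (G i) (D i) := by
  subst hk
  have e : Fin s.card ≃ s := s.equivFin.symm
  have := hup _ _ _ (pin_fs_fin h e)
  rw [pin_fs_prod e fun i => htPl x fun h => pinI (PinGr (G i) (D i) h)] at this
  refine le_trans (le_of_eq ?_) this
  congr 1
  funext a
  exact pin_dlr_I_congr (pin_fs_forall e fun i => PinGr (G i) (D i) a).symm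

/-- **lower half of `exit_dis_rare`** for a family indexed by a finite set -/
theorem pin_fs_lo {x c : ℝ} (h : PinFs κ n0 N s G D U) {k : ℕ} (hk : s.card = k)
    (hlo : ∀ G D U : Fin k → Finset TV, PinFam κ n0 N G D U →
      c * ∏ i, (htPl x fun h => pinI (PinGr (G i) (D i) h)) ≤ pinPer x fun h => pinI (∀ i, PinLoc (G i) (D i) h)) :
    c * ∏ i ∈ s, pinPr x (G i) (D i) ≤ pinPer x fun h => pinI (∀ i ∈ s, PinLoc (G i) (D i) h) := by
  subst hk
  have e : Fin s.card ≃ s := s.equivFin.symm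
  have := hlo _ _ _ (pin_fs_fin h e)
  rw [pin_fs_prod e fun i => htPl x fun h => pinI (PinGr (G i) (D i) h)] at this
  refine le_trans this (le_of_eq ?_)
  congr 1
  funext a
  exact pin_dlr_I_congr (pin_fs_forall e fun i => PinLoc (G i) (D i) a)

theorem pin_fs_ag_sum (s : Finset α) (G D : α → Finset TV) (s' : Finset β) (G' D' : β → Finset TV) (h : TV → ℤ) :
    pinAg s G D h * pinAg s' G' D' h = pinAg (s.disjSum s') (Sum.elim G G') (Sum.elim D D') h := by
  unfold pinAg
  rw [← pin_I_mul]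
  refine pin_dlr_I_congr ⟨?_, fun H => ⟨fun i hi => H (Sum.inl i) (Finset.inl_mem_disjSum.2 hi), fun i hi => H (Sum.inr i) (Finset.inr_mem_disjSum.2 hi)⟩⟩
  rintro ⟨h1, h2⟩ (i | i) hi
  · exact h1 i (Finset.inl_mem_disjSum.1 hi)
  · exact h2 i (Finset.inr_mem_disjSum.1 hi)

theorem pin_fs_al_sum (s : Finset α) (G D : α → Finset TV) (s' : Finset β) (G' D' : β → Finset TV) (h : TV → ℤ) :
    pinAl s G D h * pinAl s' G' D' h = pinAl (s.disjSum s') (Sum.elim G G') (Sum.elim D D') h := by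
  unfold pinAl
  rw [← pin_I_mul]
  refine pin_dlr_I_congr ⟨?_, fun H => ⟨fun i hi => H (Sum.inl i) (Finset.inl_mem_disjSum.2 hi), fun i hi => H (Sum.inr i) (Finset.inr_mem_disjSum.2 hi)⟩⟩
  rintro ⟨h1, h2⟩ (i | i) hi
  · exact h1 i (Finset.inl_mem_disjSum.1 hi)
  · exact h2 i (Finset.inr_mem_disjSum.1 hi)

/-- two families far from each other: upper bound for the product of the gradient pins -/
theorem pin_fs_up2 {x C : ℝ} (h : PinFs κ n0 N s G D U) {s' : Finset β} {G' D' U' : β → Finset TV} (h' : PinFs κ n0 N s' G' D' U')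
    (hx : ∀ i ∈ s, ∀ j ∈ s', ∀ u ∈ U i, ∀ v ∈ U' j, 4 ≤ latDist u v) {k : ℕ} (hk : s.card + s'.card = k)
    (hup : ∀ G D U : Fin k → Finset TV, PinFam κ n0 N G D U →
      (htPl x fun h => pinI (∀ i, PinGr (G i) (D i) h)) ≤ C * ∏ i, (htPl x fun h => pinI (PinGr (G i) (D i) h))) :
    htPl x (fun a => pinAg s G D a * pinAg s' G' D' a) ≤ C * ((∏ i ∈ s, pinPr x (G i) (D i)) * ∏ j ∈ s', pinPr x (G' j) (D' j)) := by
  have := pin_fs_up (h.sum h' hx) (by rw [Finset.card_disjSum, hk]) hup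
  rw [Finset.prod_disjSum] at this
  simp only [pin_fs_ag_sum]
  exact this

/-- **the doubled arrangement** (TEX[pins:side-norm]): the hypothesis `hC` of `pin_last` and of `pin_side` (`Y = 1`) -/
theorem pin_fs_dbl {x C : ℝ} (h : PinFs κ n0 N s G D U) {Θ : TV ≃ TV} (hΘ : PinIso Θ) (hI : PinIvr x Θ)
    (hx : ∀ i ∈ s, ∀ j ∈ s, ∀ u ∈ U i, ∀ v ∈ U j, 4 ≤ latDist u (Θ v)) {k : ℕ} (hk : s.card + s.card = k)
    (hup : ∀ G D U : Fin k → Finset TV, PinFam κ n0 N G D U →
      (htPl x fun h => pinI (∀ i, PinGr (G i) (D i) h)) ≤ C * ∏ i, (htPl x fun h => pinI (PinGr (G i) (D i) h))) :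
    htPl x (fun a => pinAg s G D a * pinAg s (fun i => (G i).image Θ) (fun i => (D i).image Θ) a) ≤ C * (∏ i ∈ s, pinPr x (G i) (D i)) ^ 2 := by
  have := pin_fs_up2 h (h.image hΘ) (fun i hi j hj u hu v hv => by
    obtain ⟨v', hv', rfl⟩ := Finset.mem_image.1 hv
    exact hx i hi j hj u hu v' hv') hk hup
  simp only [pin_iso_p hI] at this
  rwa [← sq] at this

end fs

/-! ### reflection in the row `0` of a chart -/

/-- the reflection in the row `0` of the chart `g` -/
def pinThE (g : TV ≃ TV) : TV ≃ TV := g.trans (pinReE.trans g.symm)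

theorem pin_iso_th_apply (g : TV ≃ TV) (u : TV) : pinThE g u = g.symm (latRefl (g u)) := rfl

theorem pin_iso_th {g : TV ≃ TV} (hg : PinIso g) : PinIso (pinThE g) := hg.trans (pin_iso_re.trans hg.symm)

theorem pin_iso_th_th (g : TV ≃ TV) (u : TV) : pinThE g (pinThE g u) = u := by
  simp only [pin_iso_th_apply, Equiv.apply_symm_apply, lat_refl_refl, Equiv.symm_apply_apply]

theorem pin_iso_th_ivr {x : ℝ} (hP : PinPl x) {g : TV ≃ TV} (hg : PinIvr x g) : PinIvr x (pinThE g) := by
  have h' : PinIvr x g.symm := hg.inv fun u => g.apply_symm_apply u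
  exact (h'.comp ((pin_inv_re hP).comp hg))

theorem pin_iso_dist_snd (u v : TV) : (v.2 - u.2).natAbs ≤ latDist u v := by
  unfold latDist latN
  simp only [Prod.fst_sub, Prod.snd_sub]
  omega

theorem pin_iso_far_up {g : TV ≃ TV} (hg : PinIso g) {u v : TV} (hu : 2 ≤ (g u).2) (hv : 2 ≤ (g v).2) : 4 ≤ latDist u (pinThE g v) := by
  rw [← pin_iso_dist hg, pin_iso_th_apply, Equiv.apply_symm_apply]
  refine le_trans ?_ (pin_iso_dist_snd _ _)
  rw [pin_refl_snd]
  omega

theorem pin_iso_far_dn {g : TV ≃ TV} (hg : PinIso g) {u v : TV} (hu : (g u).2 ≤ -2) (hv : (g v).2 ≤ -2) : 4 ≤ latDist u (pinThE g v) := by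
  rw [← pin_iso_dist hg, pin_iso_th_apply, Equiv.apply_symm_apply]
  refine le_trans ?_ (pin_iso_dist_snd _ _)
  rw [pin_refl_snd]
  omega

/-- the doubled arrangement of a family at least two rows away from the row `0` of the chart `g` -/
theorem pin_fs_dbl_row {x C : ℝ} (hP : PinPl x) {κ n0 N : ℕ} {α : Type} {s : Finset α} {G D U : α → Finset TV} (h : PinFs κ n0 N s G D U)
    {g : TV ≃ TV} (hg : PinIso g) (hI : PinIvr x g)
    (hrow : (∀ i ∈ s, ∀ u ∈ U i, 2 ≤ (g u).2) ∨ ∀ i ∈ s, ∀ u ∈ U i, (g u).2 ≤ -2) {k : ℕ} (hk : s.card + s.card = k)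
    (hup : ∀ G D U : Fin k → Finset TV, PinFam κ n0 N G D U →
      (htPl x fun h => pinI (∀ i, PinGr (G i) (D i) h)) ≤ C * ∏ i, (htPl x fun h => pinI (PinGr (G i) (D i) h))) :
    htPl x (fun a => pinAg s G D a * pinAg s (fun i => (G i).image fun u => g.symm (latRefl (g u))) (fun i => (D i).image fun u => g.symm (latRefl (g u))) a)
      ≤ C * (∏ i ∈ s, pinPr x (G i) (D i)) ^ 2 := by
  have hx : ∀ i ∈ s, ∀ j ∈ s, ∀ u ∈ U i, ∀ v ∈ U j, 4 ≤ latDist u (pinThE g v) := by
    intro i hi j hj u hu v hv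
    rcases hrow with hr | hr
    · exact pin_iso_far_up hg (hr i hi u hu) (hr j hj v hv)
    · exact pin_iso_far_dn hg (hr i hi u hu) (hr j hj v hv)
  have key := pin_fs_dbl h (pin_iso_th hg) (pin_iso_th_ivr hP hI) hx hk hup
  have e : (⇑(pinThE g) : TV → TV) = fun u => g.symm (latRefl (g u)) := rfl
  rw [e] at key
  exact key

theorem pin_iso_eqns_cite : True := by
  have := @PinCmn.eq_1.{0}; have := @pinPr.eq_1; have := @pinThE.eq_1
  trivial

end Claimed.Agent.R291
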