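import Claimed.Agent.R291.Pin.Mom
import Claimed.Agent.R291.Dis.Planar

/-!
# Row 291 (S0539), Pin/MomLift : THE FREE ANCHORED LIFT      (owner helper39; prefix `pin_ml_`, defs `PinHt`, `pinCf`, `pinCfg`, `pinW`)

TEX[lem:spin-lift], free form ("The free spin law induces the weighted height-increment law with one height anchored"), WITH the statuses:
on an ambient set `V` (`DisAmb V`) the map `h ↦ (htB V h, htW V h)` is a bijection from the free heights anchored by `h v0 = 0` onto the coherent pairs with `(+,+)` at `v0`; hence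
`(clAmb x V).N K G = ∑_{h ∈ pinCfg V v0} ∑_{O ⊆ cells} [K] wt * G` for every constraint `K` which forces `(+,+)` at `v0` (`pin_ml_sum`), and `∑_O wt = pinW x V h` (`pin_ml_wt`),
a product over the cells which satisfies the midpoint inequality (`pin_ml_mid`).   Consumer: `Pin/MomCore.lean`.
-/

set_option autoImplicit false
set_option linter.unusedSectionVars false
set_option linter.unusedSimpArgs false
set_option linter.unusedVariables false

namespace Claimed.Agent.R291

open Finset Claims Claims.C0467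

/-- free heights on the ambient set `V`: `0` off `V`, 1-Lipschitz on the edges inside `V` -/
def PinHt (V : Finset TV) (h : TV → ℤ) : Prop :=
  (∀ u, u ∉ V → h u = 0) ∧ ∀ u ∈ V, ∀ v ∈ V, triAdj u v → |h u - h v| ≤ 1

/-- the configuration of a height function with the open cells `O` -/
def pinCf (V : Finset TV) (h : TV → ℤ) (O : Finset TV) : ClCfg TV TV := ⟨htB V h, htW V h, O⟩

open Classical in
/-- the free heights anchored at `v0` -/
noncomputable def pinCfg (V : Finset TV) (v0 : TV) : Finset (TV → ℤ) :=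
  if hf : {h | PinHt V h ∧ h v0 = 0}.Finite then hf.toFinset else ∅

/-- `h` is constant on `s` -/
def PinCst (h : TV → ℤ) (s : Finset TV) : Prop := ∀ u ∈ s, ∀ v ∈ s, h u = h v

instance pinCstDec (h : TV → ℤ) (s : Finset TV) : Decidable (PinCst h s) := by unfold PinCst; infer_instance

/-- weight of a free height: one factor `q_y` for every cell on which `h` is not constant -/
noncomputable def pinW (x : ℝ) (V : Finset TV) (h : TV → ℤ) : ℝ :=
  ∏ y ∈ latCells V, if PinCst h (cellV y ∩ V) then 1 else (clAmb x V).q y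

/-- the pair is coherent on the edges inside `V` -/
def PinCoh (V B W : Finset TV) : Prop := ∀ u ∈ V, ∀ v ∈ V, triAdj u v → (u ∈ B ↔ v ∈ B) ∨ (u ∈ W ↔ v ∈ W)

theorem pin_ml_eqns_cite : True := by
  have := @PinHt.eq_1
  have := @pinCf.eq_1
  have := @pinCfg.eq_1
  have := @PinCst.eq_1
  have := @pinW.eq_1
  have := @PinCoh.eq_1
  trivial

/-! ### Gray code -/

theorem pin_ml_mem_B {V : Finset TV} {h : TV → ℤ} {u : TV} : u ∈ htB V h ↔ u ∈ V ∧ (h u % 4 = 0 ∨ h u % 4 = 1) := by
  simp [htB]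

theorem pin_ml_mem_W {V : Finset TV} {h : TV → ℤ} {u : TV} : u ∈ htW V h ↔ u ∈ V ∧ (h u % 4 = 0 ∨ h u % 4 = 3) := by
  simp [htW]

theorem pin_ml_res {V : Finset TV} {h h' : TV → ℤ} (hB : htB V h = htB V h') (hW : htW V h = htW V h') {u : TV}
    (hu : u ∈ V) : h u % 4 = h' u % 4 := by
  have h1 : u ∈ htB V h ↔ u ∈ htB V h' := by rw [hB]
  have h2 : u ∈ htW V h ↔ u ∈ htW V h' := by rw [hW]
  rw [pin_ml_mem_B, pin_ml_mem_B] at h1
  rw [pin_ml_mem_W, pin_ml_mem_W] at h2
  simp only [hu, true_and] at h1 h2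
  omega

/-- two distinct sites of an up-cell are adjacent -/
theorem pin_ml_cell_adj {y u v : TV} (hu : u ∈ cellV y) (hv : v ∈ cellV y) (huv : u ≠ v) : triAdj u v := by
  simp only [cellV, mem_insert, mem_singleton] at hu hv
  rw [lat_adj_iff]
  rcases hu with rfl | rfl | rfl <;> rcases hv with rfl | rfl | rfl <;>
    first
      | exact absurd rfl huv
      | (simp [latDirs, Prod.ext_iff])

/-- two adjacent sites lie in a common up-cell -/
theorem pin_ml_adj_cell {u v : TV} (h : triAdj u v) : ∃ y, u ∈ cellV y ∧ v ∈ cellV y := by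
  rw [lat_adj_iff] at h
  have hv : v = u + (v - u) := by abel
  simp only [latDirs, mem_insert, mem_singleton] at h
  rcases h with h | h | h | h | h | h <;> rw [hv, h]
  · exact ⟨u, by simp [cellV], by simp [cellV]⟩
  · exact ⟨u, by simp [cellV], by simp [cellV]⟩
  · exact ⟨u - (1, 0), by simp [cellV], by simp [cellV, Prod.ext_iff, sub_eq_add_neg]⟩
  · exact ⟨u - (1, 0), by simp [cellV], by simp [cellV, Prod.ext_iff, sub_eq_add_neg]⟩
  · exact ⟨u - (0, 1), by simp [cellV], by simp [cellV, Prod.ext_iff, sub_eq_add_neg]⟩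
  · exact ⟨u - (0, 1), by simp [cellV], by simp [cellV, Prod.ext_iff, sub_eq_add_neg]⟩

theorem PinHt.cell {V : Finset TV} {h : TV → ℤ} (hh : PinHt V h) {y u v : TV} (hu : u ∈ cellV y ∩ V) (hv : v ∈ cellV y ∩ V) :
    |h u - h v| ≤ 1 := by
  rw [mem_inter] at hu hv
  by_cases huv : u = v
  · subst huv; simp
  · exact hh.2 u hu.2 v hv.2 (pin_ml_cell_adj hu.1 hv.1 huv)

/-! ### injectivity, finiteness -/

/-- uniqueness of the anchored lift -/
theorem pin_ml_inj {V : Finset TV} (hV : DisAmb V) {v0 : TV} (hv0 : v0 ∈ V) {h h' : TV → ℤ} (hh : PinHt V h) (hh' : PinHt V h')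
    (h0 : h v0 = h' v0) (hB : htB V h = htB V h') (hW : htW V h = htW V h') : h = h' := by
  funext u
  by_cases hu : u ∈ V
  · have := pin_mo_lift_conn hV.conn h h' (fun a ha b hb hab => hh.2 a ha b hb hab)
      (fun a ha b hb hab => hh'.2 a ha b hb hab) (fun a ha => pin_ml_res hB hW ha) (mem_coe.2 hu) (mem_coe.2 hv0)
    omega
  · rw [hh.1 u hu, hh'.1 u hu]

theorem pin_ml_finite {V : Finset TV} (hV : DisAmb V) {v0 : TV} (hv0 : v0 ∈ V) : {h | PinHt V h ∧ h v0 = 0}.Finite := by
  refine Set.Finite.of_finite_image (f := fun h => (htB V h, htW V h)) ?_ ?_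
  · refine (Finset.finite_toSet (V.powerset ×ˢ V.powerset)).subset ?_
    rintro _ ⟨h, -, rfl⟩
    simp only [coe_product, Set.mem_prod, mem_coe, mem_powerset]
    exact ⟨Finset.filter_subset _ _, Finset.filter_subset _ _⟩
  · intro h hh h' hh' he
    simp only [Prod.mk.injEq] at he
    exact pin_ml_inj hV hv0 hh.1 hh'.1 (by rw [hh.2, hh'.2]) he.1 he.2

theorem pin_ml_mem {V : Finset TV} (hV : DisAmb V) {v0 : TV} (hv0 : v0 ∈ V) {h : TV → ℤ} :
    h ∈ pinCfg V v0 ↔ PinHt V h ∧ h v0 = 0 := by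
  unfold pinCfg
  rw [dif_pos (pin_ml_finite hV hv0)]
  simp

/-! ### surjectivity -/

/-- the increments are closed on triangles -/
theorem pin_ml_tri (b1 b2 b3 w1 w2 w3 : Prop) [Decidable b1] [Decidable b2] [Decidable b3] [Decidable w1] [Decidable w2]
    [Decidable w3] (h12 : (b1 ↔ b2) ∨ (w1 ↔ w2)) (h23 : (b2 ↔ b3) ∨ (w2 ↔ w3)) (h13 : (b1 ↔ b3) ∨ (w1 ↔ w3)) :
    ((if w1 then (1 : ℤ) else -1) * (if b2 then 1 else -1) - (if b1 then 1 else -1) * (if w2 then 1 else -1)) / 2
      + ((if w2 then (1 : ℤ) else -1) * (if b3 then 1 else -1) - (if b2 then 1 else -1) * (if w3 then 1 else -1)) / 2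
      = ((if w1 then (1 : ℤ) else -1) * (if b3 then 1 else -1) - (if b1 then 1 else -1) * (if w3 then 1 else -1)) / 2 := by
  by_cases b1 <;> by_cases b2 <;> by_cases b3 <;> by_cases w1 <;> by_cases w2 <;> by_cases w3 <;> simp_all

/-- one step of the lift: the residue follows the Gray code -/
theorem pin_ml_step (b1 b2 w1 w2 : Prop) [Decidable b1] [Decidable b2] [Decidable w1] [Decidable w2]
    (h12 : (b1 ↔ b2) ∨ (w1 ↔ w2)) (a c : ℤ)
    (hc : c = a + ((if w1 then (1 : ℤ) else -1) * (if b2 then 1 else -1) - (if b1 then 1 else -1) * (if w2 then 1 else -1)) / 2) :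
    (a % 4 = (if b1 then (if w1 then 0 else 1) else (if w1 then 3 else 2))) ↔
      (c % 4 = (if b2 then (if w2 then 0 else 1) else (if w2 then 3 else 2))) := by
  subst hc
  by_cases b1 <;> by_cases b2 <;> by_cases w1 <;> by_cases w2 <;> simp_all <;> omega

theorem pin_ml_inc_le (b1 b2 w1 w2 : Prop) [Decidable b1] [Decidable b2] [Decidable w1] [Decidable w2] :
    |((if w1 then (1 : ℤ) else -1) * (if b2 then 1 else -1) - (if b1 then 1 else -1) * (if w2 then 1 else -1)) / 2| ≤ 1 := by
  by_cases b1 <;> by_cases b2 <;> by_cases w1 <;> by_cases w2 <;> simp_all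

theorem pin_ml_inc_anti (b1 b2 w1 w2 : Prop) [Decidable b1] [Decidable b2] [Decidable w1] [Decidable w2] :
    ((if w2 then (1 : ℤ) else -1) * (if b1 then 1 else -1) - (if b2 then 1 else -1) * (if w1 then 1 else -1)) / 2
      = - (((if w1 then (1 : ℤ) else -1) * (if b2 then 1 else -1) - (if b1 then 1 else -1) * (if w2 then 1 else -1)) / 2) := by
  by_cases b1 <;> by_cases b2 <;> by_cases w1 <;> by_cases w2 <;> simp_all

/-- existence of the anchored lift of a coherent pair.      TEX[lem:spin-lift] -/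
theorem pin_ml_surj {V : Finset TV} (hV : DisAmb V) {v0 : TV} (hv0 : v0 ∈ V) {B W : Finset TV} (hB : B ⊆ V) (hW : W ⊆ V)
    (hc : PinCoh V B W) (h0B : v0 ∈ B) (h0W : v0 ∈ W) : ∃ h ∈ pinCfg V v0, htB V h = B ∧ htW V h = W := by
  classical
  set inc : TV → TV → ℤ := fun u v =>
    ((if u ∈ W then (1 : ℤ) else -1) * (if v ∈ B then 1 else -1) - (if u ∈ B then 1 else -1) * (if v ∈ W then 1 else -1)) / 2
    with hinc
  have hcl : TscClosed tscG (↑V : Set TV) inc := by
    constructor
    · intro u _ v _ _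
      exact pin_ml_inc_anti _ _ _ _
    · intro u hu v hv w hw huv hvw huw
      exact pin_ml_tri _ _ _ _ _ _ (hc u hu v hv huv) (hc v hv w hw hvw) (hc u hu w hw huw)
  obtain ⟨f, hf⟩ := ((tsc_eqns_cite (A := ℤ) tscG (↑V : Set TV) v0 v0 v0).1.1 hV.scZ) inc hcl
  set h : TV → ℤ := fun u => if u ∈ V then f u - f v0 else 0 with hh
  have hstep : ∀ u ∈ V, ∀ v ∈ V, triAdj u v → h v = h u + inc u v := by
    intro u hu v hv huv
    have := hf u hu v hv huv
    simp only [hh, hu, hv, if_true]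
    omega
  have hht : PinHt V h := by
    refine ⟨fun u hu => by simp [hh, hu], fun u hu v hv huv => ?_⟩
    rw [hstep u hu v hv huv]
    have := pin_ml_inc_le (u ∈ B) (v ∈ B) (u ∈ W) (v ∈ W)
    rw [abs_le] at this ⊢
    simp only [hinc]
    constructor <;> omega
  have hh0 : h v0 = 0 := by simp [hh, hv0]
  have hres : ∀ u ∈ V, h u % 4 = (if u ∈ B then (if u ∈ W then 0 else 1) else (if u ∈ W then 3 else 2)) := by
    intro u hu
    have key := tsc_R_const (G := tscG) (s := (↑V : Set TV))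
      (fun u => (h u % 4 = (if u ∈ B then (if u ∈ W then 0 else 1) else (if u ∈ W then 3 else 2) : ℤ)))
      (fun a b hab => propext (pin_ml_step (a ∈ B) (b ∈ B) (a ∈ W) (b ∈ W) (hc a hab.2.1 b hab.2.2 hab.1) (h a) (h b)
        (hstep a hab.2.1 b hab.2.2 hab.1))) (hV.conn v0 hv0 u hu)
    rw [← key]
    simp [hh0, h0B, h0W]
  refine ⟨h, (pin_ml_mem hV hv0).2 ⟨hht, hh0⟩, ?_, ?_⟩
  · ext u
    rw [pin_ml_mem_B]
    constructor
    · rintro ⟨hu, h1⟩
      have := hres u hu
      by_contra hn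
      simp only [hn, if_false] at this
      split_ifs at this <;> omega
    · intro hu
      have := hres u (hB hu)
      simp only [hu, if_true] at this
      refine ⟨hB hu, ?_⟩
      split_ifs at this <;> omega
  · ext u
    rw [pin_ml_mem_W]
    constructor
    · rintro ⟨hu, h1⟩
      have := hres u hu
      by_contra hn
      simp only [hn, if_false] at this
      split_ifs at this <;> omega
    · intro hu
      have := hres u (hW hu)
      simp only [hu, if_true] at this
      refine ⟨hW hu, ?_⟩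
      split_ifs at this <;> omega

/-! ### weights -/

theorem pin_ml_const_iff {P s : Finset TV} : ClConst P s ↔ ∀ u ∈ s, ∀ v ∈ s, (u ∈ P ↔ v ∈ P) := by
  unfold ClConst
  constructor
  · rintro (h | h) u hu v hv
    · exact ⟨fun _ => h hv, fun _ => h hu⟩
    · exact ⟨fun hh => absurd hh (h u hu), fun hh => absurd hh (h v hv)⟩
  · intro h
    by_cases hex : ∃ u ∈ s, u ∈ P
    · obtain ⟨u, hu, huP⟩ := hex
      exact Or.inl fun v hv => (h u hu v hv).1 huP
    · exact Or.inr fun v hv hvP => hex ⟨v, hv, hvP⟩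

/-- a configuration of nonzero weight is coherent -/
theorem pin_ml_coh {x : ℝ} {V : Finset TV} {ω : ClCfg TV TV} (hw : (clAmb x V).wt ω ≠ 0) : PinCoh V ω.B ω.W := by
  intro u hu v hv huv
  obtain ⟨y, hyu, hyv⟩ := pin_ml_adj_cell huv
  have hy : y ∈ latCells V := lat_mem_cells.2 ⟨u, hyu, hu⟩
  have h1 : clCellW ((clAmb x V).q y) (ClConst ω.B (cellV y ∩ V)) (ClConst ω.W (cellV y ∩ V)) (y ∈ ω.O) ≠ 0 :=
    (Finset.prod_ne_zero_iff.1 hw) y hy
  have hus : u ∈ cellV y ∩ V := mem_inter.2 ⟨hyu, hu⟩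
  have hvs : v ∈ cellV y ∩ V := mem_inter.2 ⟨hyv, hv⟩
  unfold clCellW at h1
  by_cases hb : ClConst ω.B (cellV y ∩ V)
  · exact Or.inl (pin_ml_const_iff.1 hb u hus v hvs)
  · by_cases hwc : ClConst ω.W (cellV y ∩ V)
    · exact Or.inr (pin_ml_const_iff.1 hwc u hus v hvs)
    · simp [hb, hwc] at h1

/-- the statuses summed out (abstract) -/
theorem pin_ml_status {V Y : Type} [DecidableEq V] [DecidableEq Y] (S : ClSys V Y) (B W : Finset V) :
    ∑ O ∈ S.C.powerset, S.wt ⟨B, W, O⟩ = S.wtP B W := by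
  unfold ClSys.wt ClSys.wtP
  have h1 : ∀ y ∈ S.C, (if ClConst B (S.sv y) then (if ClConst W (S.sv y) then (1 : ℝ) else S.q y)
      else (if ClConst W (S.sv y) then S.q y else 0))
      = (if ClConst B (S.sv y) then S.q y else 0)
        + (if ClConst W (S.sv y) then (if ClConst B (S.sv y) then 1 - S.q y else S.q y) else 0) := by
    intro y _
    split_ifs <;> ring
  rw [Finset.prod_congr rfl h1, Finset.prod_add]
  refine Finset.sum_congr rfl fun O hO => ?_
  rw [mem_powerset] at hO
  simp only [clCellW]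
  rw [Finset.prod_ite]
  congr 1
  · refine Finset.prod_congr ?_ fun _ _ => rfl
    ext y; simp only [mem_filter]; exact ⟨fun h => h.2, fun h => ⟨hO h, h⟩⟩
  · refine Finset.prod_congr ?_ fun _ _ => rfl
    ext y; simp only [mem_filter, mem_sdiff]

/-- the Gray factor of a cell -/
theorem pin_ml_cellfac {V : Finset TV} {h : TV → ℤ} {s : Finset TV} (hs : s ⊆ V) (hL : ∀ u ∈ s, ∀ v ∈ s, |h u - h v| ≤ 1) (q : ℝ) :
    (if ClConst (htB V h) s then (if ClConst (htW V h) s then (1 : ℝ) else q) else (if ClConst (htW V h) s then q else 0))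
      = if PinCst h s then 1 else q := by
  have hB : ClConst (htB V h) s ↔ ∀ u ∈ s, ∀ v ∈ s, ((h u % 4 = 0 ∨ h u % 4 = 1) ↔ (h v % 4 = 0 ∨ h v % 4 = 1)) := by
    rw [pin_ml_const_iff]
    refine forall₂_congr fun u hu => forall₂_congr fun v hv => ?_
    rw [pin_ml_mem_B, pin_ml_mem_B]
    simp [hs hu, hs hv]
  have hW : ClConst (htW V h) s ↔ ∀ u ∈ s, ∀ v ∈ s, ((h u % 4 = 0 ∨ h u % 4 = 3) ↔ (h v % 4 = 0 ∨ h v % 4 = 3)) := by
    rw [pin_ml_const_iff]
    refine forall₂_congr fun u hu => forall₂_congr fun v hv => ?_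
    rw [pin_ml_mem_W, pin_ml_mem_W]
    simp [hs hu, hs hv]
  by_cases hc : PinCst h s
  · have b : ClConst (htB V h) s := hB.2 fun u hu v hv => by rw [hc u hu v hv]
    have w : ClConst (htW V h) s := hW.2 fun u hu v hv => by rw [hc u hu v hv]
    simp [hc, b, w]
  · rw [if_neg hc]
    have hc' := hc
    unfold PinCst at hc'
    push Not at hc'
    obtain ⟨a, ha, b, hb, hab⟩ := hc'
    have hLab := hL a ha b hb
    rw [abs_le] at hLab
    by_cases bB : ClConst (htB V h) s
    · have : ¬ ClConst (htW V h) s := by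
        intro bW
        have h1 := hB.1 bB a ha b hb
        have h2 := hW.1 bW a ha b hb
        omega
      simp [bB, this]
    · have : ClConst (htW V h) s := by
        rw [hW]
        intro c hc d hd
        rw [hB] at bB
        push Not at bB
        obtain ⟨e, he, f, hf, hef⟩ := bB
        have l1 := hL e he f hf
        have l2 := hL e he c hc
        have l3 := hL e he d hd
        have l4 := hL f hf c hc
        have l5 := hL f hf d hd
        have l6 := hL c hc d hd
        rw [abs_le] at l1 l2 l3 l4 l5 l6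
        omega
      simp [bB, this]

/-- **the statuses summed out**: the weight of a free height -/
theorem pin_ml_wt (x : ℝ) {V : Finset TV} {h : TV → ℤ} (hh : PinHt V h) :
    ∑ O ∈ (latCells V).powerset, (clAmb x V).wt (pinCf V h O) = pinW x V h := by
  have := pin_ml_status (clAmb x V) (htB V h) (htW V h)
  unfold pinCf
  refine this.trans ?_
  unfold ClSys.wtP pinW
  refine Finset.prod_congr rfl fun y _ => ?_
  exact pin_ml_cellfac inter_subset_right (fun u hu v hv => hh.cell hu hv) _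

theorem pin_ml_q (x : ℝ) (hx0 : 0 ≤ x) (hx1 : x ≤ 1) (V : Finset TV) (y : TV) : 0 ≤ (clAmb x V).q y ∧ (clAmb x V).q y ≤ 1 := by
  show 0 ≤ (if (cellV y ∩ V).card = 3 then x ^ 2 else x) ∧ (if (cellV y ∩ V).card = 3 then x ^ 2 else x) ≤ 1
  split_ifs
  · exact ⟨by positivity, pow_le_one₀ hx0 hx1⟩
  · exact ⟨hx0, hx1⟩

theorem pin_ml_W_nonneg (x : ℝ) (hx0 : 0 ≤ x) (hx1 : x ≤ 1) (V : Finset TV) (h : TV → ℤ) : 0 ≤ pinW x V h := by
  unfold pinW
  refine Finset.prod_nonneg fun y _ => ?_
  split_ifs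
  · exact zero_le_one
  · exact (pin_ml_q x hx0 hx1 V y).1

/-! ### rounded midpoints -/

theorem PinHt.midL {V : Finset TV} {s t : TV → ℤ} (hs : PinHt V s) (ht : PinHt V t) : PinHt V (midL s t) := by
  refine ⟨fun u hu => by simp [Claimed.Agent.R291.midL, hs.1 u hu, ht.1 u hu], fun u hu v hv huv => ?_⟩
  have h1 := hs.2 u hu v hv huv
  have h2 := ht.2 u hu v hv huv
  simp only [Claimed.Agent.R291.midL]
  rw [abs_le] at h1 h2 ⊢
  constructor <;> omega

theorem PinHt.midU {V : Finset TV} {s t : TV → ℤ} (hs : PinHt V s) (ht : PinHt V t) : PinHt V (midU s t) := by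
  refine ⟨fun u hu => by simp [Claimed.Agent.R291.midU, hs.1 u hu, ht.1 u hu], fun u hu v hv huv => ?_⟩
  have h1 := hs.2 u hu v hv huv
  have h2 := ht.2 u hu v hv huv
  simp only [Claimed.Agent.R291.midU]
  rw [abs_le] at h1 h2 ⊢
  constructor <;> omega

/-- on a cell where `s` is constant one of the two rounded midpoints is constant -/
theorem pin_ml_mid_cst {s t : TV → ℤ} {c : Finset TV} (hs : PinCst s c) (hL : ∀ u ∈ c, ∀ v ∈ c, |t u - t v| ≤ 1) :
    PinCst (midL s t) c ∨ PinCst (midU s t) c := by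
  by_contra hcon
  push Not at hcon
  obtain ⟨h1, h2⟩ := hcon
  unfold PinCst at h1 h2
  push Not at h1 h2
  obtain ⟨a, ha, b, hb, hab⟩ := h1
  obtain ⟨e, he, f, hf, hef⟩ := h2
  simp only [midL] at hab
  simp only [midU] at hef
  have e1 := hs a ha b hb
  have e2 := hs a ha e he
  have e3 := hs a ha f hf
  have l1 := hL a ha b hb
  have l2 := hL a ha e he
  have l3 := hL a ha f hf
  have l4 := hL b hb e he
  have l5 := hL b hb f hf
  have l6 := hL e he f hf
  rw [abs_le] at l1 l2 l3 l4 l5 l6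
  omega

theorem pin_ml_mid_comm (s t : TV → ℤ) : midL s t = midL t s ∧ midU s t = midU t s := by
  constructor <;> funext u <;> simp [midL, midU, add_comm]

theorem pin_ml_mid_cell {s t : TV → ℤ} {c : Finset TV} (hLs : ∀ u ∈ c, ∀ v ∈ c, |s u - s v| ≤ 1)
    (hLt : ∀ u ∈ c, ∀ v ∈ c, |t u - t v| ≤ 1) {q : ℝ} (hq0 : 0 ≤ q) (hq1 : q ≤ 1) :
    (if PinCst s c then 1 else q) * (if PinCst t c then 1 else q)
      ≤ (if PinCst (midL s t) c then 1 else q) * (if PinCst (midU s t) c then 1 else q) := by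
  have hqq : q * q ≤ q := by nlinarith
  have hqq0 : 0 ≤ q * q := by positivity
  by_cases h1 : PinCst s c <;> by_cases h2 : PinCst t c
  · have a : PinCst (midL s t) c := fun u hu v hv => by simp [midL, h1 u hu v hv, h2 u hu v hv]
    have b : PinCst (midU s t) c := fun u hu v hv => by simp [midU, h1 u hu v hv, h2 u hu v hv]
    simp [h1, h2, a, b]
  · rcases pin_ml_mid_cst h1 hLt with a | a
    · simp only [h1, h2, a, if_true, if_false]; split_ifs <;> linarith
    · simp only [h1, h2, a, if_true, if_false]; split_ifs <;> linarith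
  · have := pin_ml_mid_cst h2 hLs
    rw [← (pin_ml_mid_comm s t).1, ← (pin_ml_mid_comm s t).2] at this
    rcases this with a | a
    · simp only [h1, h2, a, if_true, if_false]; split_ifs <;> linarith
    · simp only [h1, h2, a, if_true, if_false]; split_ifs <;> linarith
  · simp only [h1, h2, if_false]; split_ifs <;> linarith

/-- **the weight inequality at the rounded midpoints** (3.7) for the free heights.      TEX[moments:weighted-midpoints] -/
theorem pin_ml_mid (x : ℝ) (hx0 : 0 ≤ x) (hx1 : x ≤ 1) {V : Finset TV} {s t : TV → ℤ} (hs : PinHt V s) (ht : PinHt V t) :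
    pinW x V s * pinW x V t ≤ pinW x V (midL s t) * pinW x V (midU s t) := by
  unfold pinW
  rw [← Finset.prod_mul_distrib, ← Finset.prod_mul_distrib]
  refine Finset.prod_le_prod (fun y _ => ?_) fun y _ => ?_
  · have := (pin_ml_q x hx0 hx1 V y).1
    split_ifs <;> positivity
  · exact pin_ml_mid_cell (fun u hu v hv => hs.cell hu hv) (fun u hu v hv => ht.cell hu hv) (pin_ml_q x hx0 hx1 V y).1
      (pin_ml_q x hx0 hx1 V y).2

/-! ### the sum formula -/

open Classical in
/-- **(LIFT), free anchored form with statuses.**      TEX[lem:spin-lift] -/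
theorem pin_ml_sum (x : ℝ) {V : Finset TV} (hV : DisAmb V) {v0 : TV} (hv0 : v0 ∈ V) (K : ClCfg TV TV → Prop)
    (hK : ∀ ω, K ω → v0 ∈ ω.B ∧ v0 ∈ ω.W) (G : ClCfg TV TV → ℝ) :
    (clAmb x V).N K G = ∑ h ∈ pinCfg V v0, ∑ O ∈ (latCells V).powerset,
      if K (pinCf V h O) then (clAmb x V).wt (pinCf V h O) * G (pinCf V h O) else 0 := by
  unfold ClSys.N
  rw [cl_sum_cfgs]
  set g : Finset TV × Finset TV → ℝ := fun p => ∑ O ∈ (latCells V).powerset,
    if K ⟨p.1, p.2, O⟩ then (clAmb x V).wt ⟨p.1, p.2, O⟩ * G ⟨p.1, p.2, O⟩ else 0 with hg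
  have e1 : ∑ B ∈ (clAmb x V).A.powerset, ∑ W ∈ (clAmb x V).A.powerset, ∑ O ∈ (clAmb x V).C.powerset,
      (if K ⟨B, W, O⟩ then (clAmb x V).wt ⟨B, W, O⟩ * G ⟨B, W, O⟩ else 0) = ∑ p ∈ V.powerset ×ˢ V.powerset, g p := by
    rw [Finset.sum_product]; rfl
  rw [e1]
  have e2 : ∑ h ∈ pinCfg V v0, ∑ O ∈ (latCells V).powerset,
      (if K (pinCf V h O) then (clAmb x V).wt (pinCf V h O) * G (pinCf V h O) else 0)
      = ∑ p ∈ (pinCfg V v0).image (fun h => (htB V h, htW V h)), g p := by
    rw [Finset.sum_image]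
    · rfl
    · intro h hh h' hh' he
      simp only [Prod.mk.injEq] at he
      rw [mem_coe, pin_ml_mem hV hv0] at hh hh'
      exact pin_ml_inj hV hv0 hh.1 hh'.1 (by rw [hh.2, hh'.2]) he.1 he.2
  rw [e2]
  symm
  refine Finset.sum_subset ?_ ?_
  · intro p hp
    obtain ⟨h, -, rfl⟩ := mem_image.1 hp
    rw [mem_product, mem_powerset, mem_powerset]
    exact ⟨Finset.filter_subset _ _, Finset.filter_subset _ _⟩
  · intro p hp hn
    rw [mem_product, mem_powerset, mem_powerset] at hp
    refine Finset.sum_eq_zero fun O _ => ?_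
    split_ifs with hk
    · by_cases hw : (clAmb x V).wt ⟨p.1, p.2, O⟩ = 0
      · rw [hw, zero_mul]
      · exfalso
        obtain ⟨h, hh, hB, hW⟩ := pin_ml_surj hV hv0 hp.1 hp.2 (pin_ml_coh hw) (hK _ hk).1 (hK _ hk).2
        exact hn (mem_image.2 ⟨h, hh, by rw [hB, hW]⟩)
    · rfl

end Claimed.Agent.R291
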