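import Claimed.Agent.R291.Pin.Sep

/-!
# Row 291 (S0539), unit PIN (05-pins), Pin/SepF : THE FINAL PLACEMENT AND THE GLUE OF THE SEPARATED INSERTION      (OWNER helper34; Pin/Sep = helper48)

TEX[pins:three-moves]: "At the final placement there is a horizontal site row separating `X_δ` from every other factor.  Reflection Cauchy-Schwarz, the side norm and reflection-null bound the
normalised expectation by `C ‖X_δ‖_ϑ → 0`."      Prefix `pin_sf_`.
* `pinMf …`          the normalised expectation at the placement `k` (the function `M` of `pin_cont_moves`)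
* `pin_sf_mir1`      the mirror map of the frame `1` is a horizontal row reflection
* **`pin_sf_fin`**   `PinMv b thr M 5`  (hypothesis `hfin` of `pin_cont_moves`)
* `pin_sf_zero`      the placement `0` is the original arrangement
* **`pin_sf_glue`**  `pin_cont_moves` + `pin_sf_fin` + (T) (hypothesis `hTr`, helper48) ⟹ SEP
-/

set_option autoImplicit false
set_option linter.unusedVariables false
set_option linter.unusedSectionVars false

namespace Claimed.Agent.R291

open Claims Claims.C0467 Set Metric Filter Topology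
open scoped ComplexConjugate

/-- the normalised expectation at the placement `k` -/
noncomputable def pinMf (x : ℝ) {α β : Type} (s : Finset α) (sb : Finset β) (kd : α → PinKind) (ks : β → PinKind)
    (G D : ℕ → α → Finset TV) (Sp : ℕ → β → (TV → ℤ) → ℝ) (X : ℕ → (TV → ℤ) → ℝ) (p : ℕ → α → ℝ) (n : ℕ) (k : Fin 5 → ℕ) : ℂ :=
  ((pinHat x (pinNo kd ks (pinDisp k) (G n) (D n) (Sp n) s sb (X n) (∏ i ∈ s, p n i)) : ℝ) : ℂ)

theorem pin_sf_eqns_cite : True := by
  have := @pinMf.eq_1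
  trivial

theorem pin_sf_mir1 (r0 : ℤ) : pinMir 1 r0 = plnRow (-r0) := by
  funext u
  have e : ∀ w, pinLrI 1 w = -w := fun w => pin_pc_lr1 w
  simp only [pinMir, pinLgI, pinLg, e, pin_pc_lr1, latRefl, plnRow, Prod.ext_iff]
  simp
  constructor <;> ring

/-- height in the frame `1` with the row `- r` = minus the height in the frame `0` with the row `r` -/
theorem pin_sf_eg1 (δ : ℝ) (r : ℤ) (p : ℂ) : (pinEg δ 1 (-r) p).im = -(pinEg δ 0 r p).im := by
  rw [pin_pc_eg_im, pin_pc_eg_im]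
  have e1 : pinDir 1 = -pinE := rfl
  have e0 : pinDir 0 = pinE := rfl
  rw [e1, e0]
  simp only [pinDot, Complex.neg_re, Complex.neg_im]
  push_cast
  ring

/-- a sequence whose square is dominated by a null sequence is null -/
theorem pin_sf_sq_null {v e : ℕ → ℝ} (he : Tendsto e atTop (𝓝 0)) (h : ∀ᶠ n in atTop, v n ^ 2 ≤ e n) : Tendsto v atTop (𝓝 0) := by
  have h1 : Tendsto (fun n => v n ^ 2) atTop (𝓝 0) :=
    squeeze_zero' (Eventually.of_forall fun n => sq_nonneg _) h he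
  have h2 : Tendsto (fun n => Real.sqrt (v n ^ 2)) atTop (𝓝 0) := by
    have := (Real.continuous_sqrt.tendsto 0).comp h1
    rw [Real.sqrt_zero] at this
    exact this
  have h3 : (fun n => Real.sqrt (v n ^ 2)) = fun n => |v n| := by
    funext n
    exact Real.sqrt_sq_eq_abs _
  rw [h3] at h2
  exact (tendsto_zero_iff_abs_tendsto_zero _).2 h2

section fin

variable {x : ℝ} {δ : ℕ → ℝ} {M κ ρ U0 lm lp : ℝ} {obj : PinKind → Set ℂ} {α β : Type} {s : Finset α} {sb : Finset β} {kd : α → PinKind} {ks : β → PinKind}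
  {m0 c : ℝ} {G D : ℕ → α → Finset TV} {Sp : ℕ → β → (TV → ℤ) → ℝ} {WS : ℕ → β → Finset TV} {X : ℕ → (TV → ℤ) → ℝ} {SX : ℕ → Finset TV} {p : ℕ → α → ℝ}

/-- **the final placement** -/
theorem pin_sf_fin (hP : PinPl x) (hδ : ∀ n, 0 < δ n) (hδ0 : Tendsto δ atTop (𝓝 0)) (hS : PinSc M κ ρ U0 lm lp obj)
    (hkd : ∀ i ∈ s, kd i ≠ .K) (hks : ∀ l ∈ sb, ks l ≠ .K) (hT : ∃ i ∈ s, kd i = .T) (hm0 : 0 < m0)
    (hAt : ∀ᶠ n in atTop, PinSpAt (δ n) obj s sb kd ks m0 c (G n) (D n) (Sp n) (WS n) (X n) (SX n))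
    (hp : ∀ n i, 0 < p n i) (hD1 : PinDb x δ s G D p (fun _ _ => 1) (fun _ => ∅)) (hR3 : PinR3 x δ X (lp - κ)) :
    PinMv (fun n => Real.sqrt 3 * δ n) (pinThr M) (pinMf x s sb kd ks G D Sp X p) 5 := by
  intro a ha1 _ k hk hk0
  have hb0 : ∀ n, 0 ≤ Real.sqrt 3 * δ n := fun n => by have := hδ n; positivity
  obtain ⟨μ, hμ, hadm⟩ := pin_pc_adm_ev (M := M) hb0 (j := 5) ha1 hk hk0
  obtain ⟨m, hm⟩ : ∃ m, m = pinMg κ ρ μ := ⟨_, rfl⟩
  have hm0' : 0 < m := by rw [hm]; exact pin_pc_mg_pos hS.κ0 hS.ρ0 hμ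
  -- the rows
  choose r hr1 hr2 using fun n => pin_pc_row (hδ n) (lp - κ + m / 4)
  have hrlim : Tendsto (fun n => Real.sqrt 3 / 2 * δ n * (r n : ℝ)) atTop (𝓝 (lp - κ + m / 4)) := by
    refine tendsto_of_tendsto_of_tendsto_of_le_of_le tendsto_const_nhds ?_ hr1 hr2
    have := (tendsto_const_nhds (x := lp - κ + m / 4)).add (hδ0.const_mul (Real.sqrt 3 / 2))
    simpa using this
  have hnull := hR3 (lp - κ + m / 4) r (by linarith) hrlim
  -- the doubled arrangement
  obtain ⟨C, hC0, hC⟩ := hD1 (min m0 (m / 4)) (lt_min hm0 (by positivity))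
  set c' : ℝ := (max 1 c) ^ sb.card with hc'
  have hnull' : Tendsto (fun n => htPl x (fun h => X n h * pinMp (plnRow (r n)) (X n) h) * (c' ^ 2 * C)) atTop (𝓝 0) := by
    simpa using hnull.mul_const (c' ^ 2 * C)
  have hreal : Tendsto (fun n => pinHat x (pinNo kd ks (pinDisp (k n)) (G n) (D n) (Sp n) s sb (X n) (∏ i ∈ s, p n i))) atTop (𝓝 0) := by
    refine pin_sf_sq_null hnull' ?_
    have hsmall : ∀ᶠ n in atTop, Real.sqrt 3 * δ n ≤ m / 4 := by
      have h0 : Tendsto (fun n => Real.sqrt 3 * δ n) atTop (𝓝 0) := by simpa using hδ0.const_mul (Real.sqrt 3)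
      exact (h0.eventually (gt_mem_nhds (show (0 : ℝ) < m / 4 by positivity))).mono fun n hn => hn.le
    filter_upwards [hadm, hAt, hC, hsmall] with n hadm hAt hC hsmall
    have hδn := hδ n
    -- heights above the row
    have hpos : ∀ (f : PinKind) (u : TV), pinP (δ n) u ∈ obj f →
        (f = .K → (pinEg (δ n) 0 (r n) (pinP (δ n) (u + pinDisp (k n) f))).im ≤ -(m / 4)) ∧
        (f ≠ .K → m / 4 ≤ (pinEg (δ n) 0 (r n) (pinP (δ n) (u + pinDisp (k n) f))).im) := by
      intro f u hu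
      obtain ⟨g1, g2⟩ := pin_pc_final hS hμ.le hadm f hu
      rw [pin_sp_pos, pin_pc_eg_im]
      have e : pinDir 0 = pinE := rfl
      rw [e]
      have a1 := hr1 n
      have a2 := hr2 n
      rw [← hm] at g2
      refine ⟨fun hf => by linarith [g1 hf], fun hf => by linarith [g2 hf]⟩
    have hK : ∀ u ∈ SX n, 0 ≤ (pinLg 1 (-(r n)) u).2 := by
      intro u hu
      have h1 := (hpos .K u (hAt.inX u hu)).1 rfl
      rw [pin_sp_disp_K, add_zero] at h1
      have h2 : ((0 : ℕ) : ℝ) * (Real.sqrt 3 * δ n) ≤ (pinEg (δ n) 1 (-(r n)) (pinP (δ n) u)).im := by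
        rw [pin_sf_eg1]
        simp only [Nat.cast_zero, zero_mul]
        linarith
      simpa using pin_pc_row_ge hδn h2
    have hR : ∀ u ∈ pinSdS ks (pinDisp (k n)) (WS n) sb ∪ pinGdS kd (pinDisp (k n)) (G n) s, (pinLg 1 (-(r n)) u).2 ≤ 0 := by
      intro u hu
      apply pin_pc_row_le hδn
      rw [pin_sf_eg1]
      rcases Finset.mem_union.1 hu with hu | hu
      · obtain ⟨l, hl, hu'⟩ := Finset.mem_biUnion.1 hu
        obtain ⟨w, hw, rfl⟩ := Finset.mem_image.1 hu'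
        have := (hpos (ks l) w (hAt.inS l hl w hw)).2 (hks l hl)
        linarith
      · obtain ⟨i, hi, hu'⟩ := Finset.mem_biUnion.1 hu
        obtain ⟨w, hw, rfl⟩ := Finset.mem_image.1 hu'
        have := (hpos (kd i) w (hAt.inG i hi w hw)).2 (hkd i hi)
        linarith
    obtain ⟨iT, hiT, -⟩ := hT
    have hCn := hC s (fun i => pinDisp (k n) (kd i)) 1 (-(r n)) (-1) subset_rfl ⟨iT, hiT⟩ (Or.inr rfl)
      (by
        intro i hi i' hi' hne u hu v hv
        by_cases hk' : kd i = kd i'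
        · show _ ≤ dist (pinP (δ n) (u + pinDisp (k n) (kd i))) (pinP (δ n) (v + pinDisp (k n) (kd i')))
          rw [← hk', pin_sp_dist_add]
          exact (min_le_left _ _).trans (hAt.far i hi i' hi' hne u hu v hv)
        · have := pin_sp_pair hS hμ.le hadm hk' (hAt.inG i hi u hu) (hAt.inG i' hi' v hv)
          rw [← hm] at this
          exact ((min_le_right _ _).trans (by linarith)).trans this)
      (by intro i _ u _ v hv; exact absurd hv (Finset.notMem_empty _))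
      (by
        intro i hi u hu
        rw [pin_sf_eg1]
        have := (hpos (kd i) u (hAt.inG i hi u hu)).2 (hkd i hi)
        have h2 := min_le_right m0 (m / 4)
        linarith)
      (by intro v hv; exact absurd hv (Finset.notMem_empty _))
    simp only [one_pow, one_mul] at hCn
    have hJ : 0 < ∏ i ∈ s, p n i := Finset.prod_pos fun i _ => hp n i
    have key := pin_last hP (pin_sp_lg_lgI 1 (-(r n))) (pin_sp_ivr_lg hP 1 (-(r n))) s (pinGd kd (pinDisp (k n)) (G n)) (pinGd kd (pinDisp (k n)) (D n))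
      ⟨iT, hiT, (hAt.ne iT hiT).image _⟩ (X := X n) (S := pinSd ks (pinDisp (k n)) (Sp n) sb) ⟨⟨_, hAt.xL⟩, hAt.xG⟩
      (pin_sp_sd_LG _ hAt.spL hAt.spG) (pin_sp_sd_bd _ subset_rfl hAt.spB) hJ hAt.xL
      (pin_loc_mono Finset.subset_union_left (pin_sp_sd_loc _ hAt.spL))
      (by
        intro i hi u hu
        refine Finset.mem_union_right _ (Finset.mem_biUnion.2 ⟨i, hi, ?_⟩)
        rcases Finset.mem_union.1 hu with h | h
        · exact h
        · exact pin_sp_gd_sub _ (hAt.sub i hi) h)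
      hK hR hCn
    have e1 : pinNo kd ks (pinDisp (k n)) (G n) (D n) (Sp n) s sb (X n) (∏ i ∈ s, p n i)
        = fun h => X n h * (pinSd ks (pinDisp (k n)) (Sp n) sb h * pinAl s (pinGd kd (pinDisp (k n)) (G n)) (pinGd kd (pinDisp (k n)) (D n)) h / ∏ i ∈ s, p n i) := by
      funext h
      unfold pinNo
      ring
    have e2 : (fun u => pinLgI 1 (-(r n)) (latRefl (pinLg 1 (-(r n)) u))) = plnRow (r n) := by
      have := pin_sf_mir1 (-(r n))
      rw [neg_neg] at this
      exact this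
    rw [e2] at key
    rw [e1]
    exact key
  have := (Complex.continuous_ofReal.tendsto 0).comp hreal
  rw [Complex.ofReal_zero] at this
  exact this

/-- the placement `0` is the original arrangement -/
theorem pin_sf_zero (hP : PinPl x) {n : ℕ} (hAt : PinSpAt (δ n) obj s sb kd ks m0 c (G n) (D n) (Sp n) (WS n) (X n) (SX n)) (hne : s.Nonempty) :
    pinHat x (pinNo kd ks (pinDisp 0) (G n) (D n) (Sp n) s sb (X n) (∏ i ∈ s, p n i))
      = pinHat x (fun h => X n h * (∏ l ∈ sb, Sp n l h) * pinAl s (G n) (D n) h) / ∏ i ∈ s, p n i := by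
  have eG : ∀ Q : α → Finset TV, pinGd kd (pinDisp 0) Q = Q := by
    intro Q
    funext i
    unfold pinGd
    rw [pin_sp_disp_zero]
    simp
  have eS : pinSd ks (pinDisp 0) (Sp n) sb = fun h => ∏ l ∈ sb, Sp n l h := by
    funext h
    unfold pinSd
    refine Finset.prod_congr rfl fun l _ => ?_
    rw [pin_sp_disp_zero]
    show Sp n l (fun u => h (u + 0)) = Sp n l h
    simp
  have e : pinNo kd ks (pinDisp 0) (G n) (D n) (Sp n) s sb (X n) (∏ i ∈ s, p n i)
      = fun h => (∏ i ∈ s, p n i)⁻¹ * (X n h * (∏ l ∈ sb, Sp n l h) * pinAl s (G n) (D n) h) := by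
    funext h
    unfold pinNo
    rw [eG, eG, eS, div_eq_mul_inv, mul_comm]
  obtain ⟨i0, hi0⟩ := hne
  have ok : PinOk (fun h => X n h * (∏ l ∈ sb, Sp n l h) * pinAl s (G n) (D n) h) :=
    (pin_sd_al_ok s (G n) (D n) ⟨i0, hi0, hAt.ne i0 hi0⟩).mul_left
      (PinLc.mul ⟨_, hAt.xL⟩ ⟨_, pin_sp_prod_loc sb hAt.spL⟩)
  rw [e, pin_hat_smul hP ok, div_eq_mul_inv, mul_comm]

/-- **SEP from the transfer representations of the five stages** -/
theorem pin_sf_glue (hP : PinPl x) (hδ : ∀ n, 0 < δ n) (hδ0 : Tendsto δ atTop (𝓝 0)) (hS : PinSc M κ ρ U0 lm lp obj)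
    (hkd : ∀ i ∈ s, kd i ≠ .K) (hks : ∀ l ∈ sb, ks l ≠ .K) (hT : ∃ i ∈ s, kd i = .T) (hm0 : 0 < m0)
    (hAt : ∀ᶠ n in atTop, PinSpAt (δ n) obj s sb kd ks m0 c (G n) (D n) (Sp n) (WS n) (X n) (SX n))
    (hp : ∀ n i, 0 < p n i) (hD1 : PinDb x δ s G D p (fun _ _ => 1) (fun _ => ∅)) (hR3 : PinR3 x δ X (lp - κ))
    (hTr : ∀ (j : Fin 5) (a : Fin 5 → ℝ), (∀ i : Fin 5, i < j → pinThr M i a < a i) → (∀ i : Fin 5, j ≤ i → a i = 0) →
      ∀ k : ℕ → Fin 5 → ℕ, (∀ i, Tendsto (fun n => (k n i : ℝ) * (Real.sqrt 3 * δ n)) atTop (𝓝 (a i))) → (∀ n (i : Fin 5), j ≤ i → k n i = 0) →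
        ∃ (C η : ℝ) (N : ℕ → ℕ), 0 ≤ C ∧ 0 < η ∧ Tendsto (fun n => (N n : ℝ) * (Real.sqrt 3 * δ n)) atTop (𝓝 η) ∧
          ∀ᶠ n in atTop, PinTr C (N n) (fun m => pinMf x s sb kd ks G D Sp X p n (Function.update (k n) j m))) :
    Tendsto (fun n => pinHat x (fun h => X n h * (∏ l ∈ sb, Sp n l h) * pinAl s (G n) (D n) h) / ∏ i ∈ s, p n i) atTop (𝓝 0) := by
  have h := pin_cont_moves (b := fun n => Real.sqrt 3 * δ n) (pin_pc_thr_dep M) (pin_sf_fin hP hδ hδ0 hS hkd hks hT hm0 hAt hp hD1 hR3) hTr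
  have h2 := (Complex.continuous_re.tendsto 0).comp h
  rw [Complex.zero_re] at h2
  refine h2.congr' ?_
  obtain ⟨iT, hiT, -⟩ := hT
  filter_upwards [hAt] with n hn
  show (pinMf x s sb kd ks G D Sp X p n 0).re = _
  unfold pinMf
  rw [Complex.ofReal_re]
  exact pin_sf_zero hP hn ⟨iT, hiT⟩

end fin

end Claimed.Agent.R291
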