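import Claimed.Agent.R291.Pin.Tr

/-!
# Row 291 (S0539), unit PIN (05-pins), Pin/Side : ONE MOVE, THE SIDE NORM, THE LAST STEP      (OWNER helper48; head of PIN: helper34)      0 sorry

TEX[lem:analytic-translation] (representation), TEX[pins:side-norm], TEX[pins:three-moves] (final placement).  Design D4/D5 (`origin/helper48:notes/R291/sec5b_48.md`): absolute heights, no phases, gradient pins.
* sec. 1  `PinIvr x g` (the plane gradient law is invariant under the map `g` of the lattice), `.hat`, `.comp`, `.inv`, `pin_inv_tr/re/ro/ro_pow`.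
* sec. 2  **`pin_stage`**: ONE MOVE in an arbitrary direction `d`.  `g` brings `d` to the normal step `pinE2` and the separating row to the row `0`; `A` static (below), `B` moving (`≥ 2N` rows above):
          `PinTr ((pinHat (A ΘA) + pinHat (B' ΘB'))/2) N (m ↦ pinHat (A * pinSh (m • d) B))`, `Θ = g⁻¹ ∘ latRefl ∘ g`, `B' = B` backed off by `N` steps.     (= hypothesis `hTr` of `pin_cont_moves`)
* sec. 3  `pinAl s G D` / `pinAg s G D` (indicators of the joint ABSOLUTE / GRADIENT pins of a family), **`pin_side`**: `pinHat (A ΘA) ≤ c² C` for `A = Y S 1_abs / J`, from the ONE bound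
          `htPl (Y² 1_grad 1_grad∘Θ) ≤ C J²` on the doubled arrangement (N3a of 39 / DisRare up).
* sec. 4  `pin_pl_rp_cs`, `pin_pl_rp_cs_gen` (reflection Cauchy-Schwarz in the gradient law), **`pin_last`**: `pinHat (X * Rest)² ≤ htPl (X ΘX) c² C`  (`X` alone above the row; `htPl (X ΘX) → 0` is PlnRN).
-/

set_option autoImplicit false
set_option linter.unusedVariables false

namespace Claimed.Agent.R291

open Claims Claims.C0467 Filter Topology

/-! ## 1. invariance of the plane functionals under maps of the lattice -/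

/-- the plane gradient law is invariant under `g` -/
def PinIvr (x : ℝ) (g : TV → TV) : Prop := ∀ K, PinLG K → htPl x (pinMp g K) = htPl x K

theorem pin_mp_mp (g g' : TV → TV) (G : (TV → ℤ) → ℝ) : pinMp g (pinMp g' G) = pinMp (fun u => g (g' u)) G := rfl

theorem pin_mp_id (G : (TV → ℤ) → ℝ) : pinMp (fun u => u) G = G := rfl

theorem PinIvr.hat {x : ℝ} {g : TV → TV} (h : PinIvr x g) {K : (TV → ℤ) → ℝ} (hK : PinLc K) : pinHat x (pinMp g K) = pinHat x K := by
  rw [pin_hat_eq, pin_hat_eq, pin_sum_mp, h _ (pin_sum_LG hK)]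

theorem PinIvr.comp {x : ℝ} {g g' : TV → TV} (h : PinIvr x g) (h' : PinIvr x g') : PinIvr x (fun u => g (g' u)) := by
  intro K hK
  rw [← pin_mp_mp, h _ (hK.mp g'), h' _ hK]

theorem PinIvr.inv {x : ℝ} {g g' : TV → TV} (h : PinIvr x g) (hgg : ∀ u, g (g' u) = u) : PinIvr x g' := by
  intro K hK
  have := h _ (hK.mp g')
  rw [pin_mp_mp] at this
  simp only [hgg] at this
  exact this.symm

theorem PinIvr.id (x : ℝ) : PinIvr x (fun u => u) := fun _ _ => rfl

theorem pin_inv_tr {x : ℝ} (hP : PinPl x) (a : TV) : PinIvr x (fun u => u + a) := fun _ hK => pin_pl_tr hP hK a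
theorem pin_inv_re {x : ℝ} (hP : PinPl x) : PinIvr x latRefl := fun _ hK => pin_pl_re hP hK
theorem pin_inv_ro {x : ℝ} (hP : PinPl x) : PinIvr x latRot := fun _ hK => pin_pl_ro hP hK

theorem pin_inv_ro_pow {x : ℝ} (hP : PinPl x) (e : ℕ) : PinIvr x (latRot^[e]) := by
  induction e with
  | zero => exact PinIvr.id x
  | succ e ih =>
    have := ih.comp (pin_inv_ro hP)
    exact this

/-! ## 2. one move: the transfer representation in an arbitrary direction -/

theorem pin_sh_mp (v : TV) (g : TV → TV) (G : (TV → ℤ) → ℝ) : pinSh v (pinMp g G) = pinMp (fun u => g u + v) G := rfl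

theorem pin_mp_sh (v : TV) (g : TV → TV) (G : (TV → ℤ) → ℝ) : pinMp g (pinSh v G) = pinMp (fun u => g (u + v)) G := rfl

theorem pin_mp_mul (g : TV → TV) (F G : (TV → ℤ) → ℝ) : pinMp g (fun h => F h * G h) = fun h => pinMp g F h * pinMp g G h := rfl

theorem pin_refl_snd (u : TV) : (latRefl u).2 = -u.2 := rfl

/-- **one move** (TEX[lem:analytic-translation], the representation).  `g` brings the direction `d` of the move to the normal step and the separating row to the row `0`;
`A` = static factor (below the row), `B` = moving factor (at least `2 N` rows above), `Θ` = the reflection in the separating row. -/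
theorem pin_stage {x : ℝ} (hP : PinPl x) {g g' : TV → TV} (h1 : ∀ u, g (g' u) = u) (hg : PinIvr x g) {d : TV}
    (hd : ∀ (u : TV) (m : ℤ), g (u + m • d) = g u + m • pinE2) {A B : (TV → ℤ) → ℝ} (hA : PinOk A) (hB : PinOk B)
    {SA SB : Finset TV} (lA : HtLoc SA A) (lB : HtLoc SB B) (N : ℕ) (sA : ∀ s ∈ SA, (g s).2 ≤ 0) (sB : ∀ s ∈ SB, 2 * (N : ℤ) ≤ (g s).2) :
    PinTr ((pinHat x (fun h => A h * pinMp (fun u => g' (latRefl (g u))) A h)
        + pinHat x (fun h => pinSh (-(N : ℤ) • d) B h * pinMp (fun u => g' (latRefl (g u))) (pinSh (-(N : ℤ) • d) B) h)) / 2) N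
      (fun m : ℕ => ((pinHat x (fun h => A h * pinSh ((m : ℤ) • d) B h) : ℝ) : ℂ)) := by
  set B' := pinSh (-(N : ℤ) • d) B with hB'
  set a := pinMp (fun u => latRefl (g u)) A with ha
  set b := pinMp g B' with hb
  have hB'ok : PinOk B' := hB.sh _
  have oka : PinOk a := hA.mp _
  have okb : PinOk b := hB'ok.mp _
  have upa : PinUp 0 a := by
    intro h h' hh
    refine lA _ _ fun s hs => hh _ ?_
    rw [pin_refl_snd]
    have := sA s hs
    omega
  have upb : PinUp 0 b := by
    intro h h' hh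
    refine lB _ _ fun s hs => hh _ ?_
    rw [hd]
    have := sB s hs
    simp only [pinE2, Prod.snd_add, Prod.smul_snd, smul_eq_mul]
    linarith
  have rea : pinMp latRefl a = pinMp g A := by
    rw [ha, pin_mp_mp]
    simp only [lat_refl_refl]
  have key := pin_rp_tr hP oka okb upa upb N
  have e1 : pinFm x a a = pinHat x (fun h => A h * pinMp (fun u => g' (latRefl (g u))) A h) := by
    unfold pinFm
    rw [rea, ← hg.hat (hA.1.mul (hA.1.mp _)), pin_mp_mul, pin_mp_mp]
    simp only [h1]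
    rfl
  have e2 : pinFm x b b = pinHat x (fun h => B' h * pinMp (fun u => g' (latRefl (g u))) B' h) := by
    unfold pinFm
    rw [← hg.hat (hB'ok.1.mul (hB'ok.1.mp _)), pin_mp_mul, pin_mp_mp, hb, pin_mp_mp]
    simp only [h1]
    congr 1
    funext h
    rw [mul_comm]
  have e3 : ∀ m : ℕ, pinFm x a (pinSh (((m + N : ℕ) : ℤ) • pinE2) b) = pinHat x (fun h => A h * pinSh ((m : ℤ) • d) B h) := by
    intro m
    unfold pinFm
    rw [rea, ← hg.hat (hA.1.mul (hB.1.sh _)), pin_mp_mul]
    have : pinSh (((m + N : ℕ) : ℤ) • pinE2) b = pinMp g (pinSh ((m : ℤ) • d) B) := by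
      rw [hb, pin_sh_mp, hB', pin_mp_sh, pin_mp_sh]
      unfold pinMp
      funext h
      congr 1
      funext u
      show h (g (u + -(N : ℤ) • d) + ((m + N : ℕ) : ℤ) • pinE2) = h (g (u + (m : ℤ) • d))
      rw [hd, hd, add_assoc, ← add_smul]
      congr 3
      push_cast
      ring
    rw [this]
  rw [e1, e2] at key
  simp only [e3] at key
  exact key

/-! ## 3. the normalised side norm -/

theorem pin_sd_I_nonneg (p : Prop) : 0 ≤ pinI p := by
  unfold pinI; split_ifs <;> norm_num

theorem pin_sd_I_le_one (p : Prop) : pinI p ≤ 1 := by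
  unfold pinI; split_ifs <;> norm_num

theorem pin_sd_I_true {p : Prop} (h : p) : pinI p = 1 := by
  unfold pinI; rw [if_pos h]

theorem pin_sd_I_false {p : Prop} (h : ¬ p) : pinI p = 0 := by
  unfold pinI; rw [if_neg h]

theorem pin_sd_I_mono {p q : Prop} (h : p → q) : pinI p ≤ pinI q := by
  by_cases hp : p
  · rw [pin_sd_I_true hp, pin_sd_I_true (h hp)]
  · rw [pin_sd_I_false hp]; exact pin_sd_I_nonneg q

theorem pin_sd_I_and (p q : Prop) : pinI (p ∧ q) = pinI p * pinI q := by
  by_cases hp : p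
  · by_cases hq : q
    · rw [pin_sd_I_true hp, pin_sd_I_true hq, pin_sd_I_true ⟨hp, hq⟩, one_mul]
    · rw [pin_sd_I_false hq, pin_sd_I_false (fun h => hq h.2), mul_zero]
  · rw [pin_sd_I_false hp, pin_sd_I_false (fun h => hp h.1), zero_mul]

theorem pin_sd_I_congr {p q : Prop} (h : p ↔ q) : pinI p = pinI q := by rw [propext h]

theorem pin_sd_I_ne {p : Prop} (h : pinI p ≠ 0) : p := by
  by_contra hp; exact h (pin_sd_I_false hp)

theorem pin_sd_abs_image (g : TV → TV) (G D : Finset TV) (h : TV → ℤ) :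
    PinAbs (G.image g) (D.image g) h ↔ PinAbs G D (fun u => h (g u)) := by
  unfold PinAbs
  simp only [Finset.mem_image, forall_exists_index, and_imp, forall_apply_eq_imp_iff₂]

theorem pin_sd_gr_image (g : TV → TV) (G D : Finset TV) (h : TV → ℤ) :
    PinGr (G.image g) (D.image g) h ↔ PinGr G D (fun u => h (g u)) := by
  unfold PinGr
  refine exists_congr fun t => ?_
  exact pin_sd_abs_image g G D (fun u => h u - t)

theorem pin_sd_abs_congr {G D : Finset TV} {h h' : TV → ℤ} (e : ∀ u ∈ G ∪ D, h u = h' u) : PinAbs G D h ↔ PinAbs G D h' := by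
  unfold PinAbs
  constructor
  · rintro ⟨a, b⟩
    exact ⟨fun u hu => by rw [← e u (Finset.mem_union_left _ hu)]; exact a u hu,
      fun u hu => by rw [← e u (Finset.mem_union_right _ hu)]; exact b u hu⟩
  · rintro ⟨a, b⟩
    exact ⟨fun u hu => by rw [e u (Finset.mem_union_left _ hu)]; exact a u hu,
      fun u hu => by rw [e u (Finset.mem_union_right _ hu)]; exact b u hu⟩

section fam

variable {α : Type} (s : Finset α) (G D : α → Finset TV)

/-- indicator of the joint ABSOLUTE pin -/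
noncomputable def pinAl (h : TV → ℤ) : ℝ := pinI (∀ i ∈ s, PinAbs (G i) (D i) h)

/-- indicator of the joint GRADIENT pin (all integer offsets) -/
noncomputable def pinAg (h : TV → ℤ) : ℝ := pinI (∀ i ∈ s, PinGr (G i) (D i) h)

theorem pin_sd_al_loc : HtLoc (s.biUnion fun i => G i ∪ D i) (pinAl s G D) := by
  intro h h' e
  unfold pinAl
  refine pin_sd_I_congr (forall₂_congr fun i hi => pin_sd_abs_congr fun u hu => e u ?_)
  exact Finset.mem_biUnion.2 ⟨i, hi, hu⟩

theorem pin_sd_ag_loc : HtLoc (s.biUnion fun i => G i ∪ D i) (pinAg s G D) := by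
  intro h h' e
  unfold pinAg PinGr
  refine pin_sd_I_congr (forall₂_congr fun i hi => exists_congr fun t => pin_sd_abs_congr fun u hu => ?_)
  rw [e u (Finset.mem_biUnion.2 ⟨i, hi, hu⟩)]

theorem pin_sd_ag_grad : HtGrad (pinAg s G D) := by
  intro h c
  unfold pinAg PinGr
  refine pin_sd_I_congr (forall₂_congr fun i hi => ?_)
  constructor
  · rintro ⟨t, ht⟩
    refine ⟨t - c, ?_⟩
    have e : (fun u => h u - (t - c)) = fun u => h u + c - t := by funext u; ring
    rw [e]; exact ht
  · rintro ⟨t, ht⟩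
    refine ⟨t + c, ?_⟩
    have e : (fun u => h u + c - (t + c)) = fun u => h u - t := by funext u; ring
    rw [e]; exact ht

theorem pin_sd_ag_LG : PinLG (pinAg s G D) := ⟨⟨_, pin_sd_ag_loc s G D⟩, pin_sd_ag_grad s G D⟩

theorem pin_sd_al_anchor {i0 : α} (hi0 : i0 ∈ s) {v : TV} (hv : v ∈ D i0) (h : TV → ℤ) (hh : pinAl s G D h ≠ 0) : h v = 0 :=
  ((pin_sd_I_ne hh) i0 hi0).2 v hv

theorem pin_sd_al_ok (hs : ∃ i ∈ s, (D i).Nonempty) : PinOk (pinAl s G D) := by
  obtain ⟨i0, hi0, v, hv⟩ := hs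
  refine ⟨⟨_, pin_sd_al_loc s G D⟩, {v}, 0, fun h hh => ⟨v, Finset.mem_singleton_self v, ?_⟩⟩
  rw [pin_sd_al_anchor s G D hi0 hv h hh]; simp

theorem pin_sd_al_mp (g : TV → TV) : pinMp g (pinAl s G D) = pinAl s (fun i => (G i).image g) (fun i => (D i).image g) := by
  funext h
  unfold pinMp pinAl
  exact pin_sd_I_congr (forall₂_congr fun i hi => (pin_sd_abs_image g _ _ h).symm)

theorem pin_sd_ag_mp (g : TV → TV) : pinMp g (pinAg s G D) = pinAg s (fun i => (G i).image g) (fun i => (D i).image g) := by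
  funext h
  unfold pinMp pinAg
  exact pin_sd_I_congr (forall₂_congr fun i hi => (pin_sd_gr_image g _ _ h).symm)

/-- the sum over the vertical shifts of a product of absolute pins is dominated by the gradient pins -/
theorem pin_sd_sum_le (hs : ∃ i ∈ s, (D i).Nonempty) {β : Type} (s' : Finset β) (G' D' : β → Finset TV) (h : TV → ℤ) :
    pinSum (fun a => pinAl s G D a * pinAl s' G' D' a) h ≤ pinAg s G D h * pinAg s' G' D' h := by
  obtain ⟨i0, hi0, v, hv⟩ := hs
  rw [pin_sum_anchor (v := v) (fun a ha => pin_sd_al_anchor s G D hi0 hv a (left_ne_zero_of_mul ha))]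
  refine mul_le_mul ?_ ?_ (pin_sd_I_nonneg _) (pin_sd_I_nonneg _)
  · exact pin_sd_I_mono fun H i hi => ⟨h v, H i hi⟩
  · exact pin_sd_I_mono fun H i hi => ⟨h v, H i hi⟩

end fam

/-- **normalised side norm** (TEX[pins:side-norm]).  `Θ` = reflection in the row; `Y` = the insertion (or `1`), `S` = bounded spectators; the only input is the bound `hC` on the DOUBLED arrangement. -/
theorem pin_side {x : ℝ} (hP : PinPl x) {Θ : TV → TV} (hΘ2 : ∀ u, Θ (Θ u) = u) (hΘ : PinIvr x Θ) {α : Type} (s : Finset α)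
    (G D : α → Finset TV) (hs : ∃ i ∈ s, (D i).Nonempty) {Y S : (TV → ℤ) → ℝ} (hY : PinLG Y) (hS : PinLG S) {c : ℝ}
    (hSb : ∀ h, |S h| ≤ c) {J C : ℝ} (hJ : 0 < J)
    (hC : htPl x (fun h => Y h ^ 2 * (pinAg s G D h * pinAg s (fun i => (G i).image Θ) (fun i => (D i).image Θ) h)) ≤ C * J ^ 2) :
    pinHat x (fun h => (Y h * S h * pinAl s G D h / J) * pinMp Θ (fun h => Y h * S h * pinAl s G D h / J) h) ≤ c ^ 2 * C := by
  set P := pinAl s G D with hPd
  set P' := pinAl s (fun i => (G i).image Θ) (fun i => (D i).image Θ) with hP'd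
  have hPP' : pinMp Θ P = P' := pin_sd_al_mp s G D Θ
  have hP'P : pinMp Θ P' = P := by rw [← hPP', pin_mp_mp]; simp only [hΘ2]; rfl
  have okP : PinOk P := pin_sd_al_ok s G D hs
  have lcP' : PinLc P' := ⟨_, pin_sd_al_loc s _ _⟩
  have hc0 : 0 ≤ c := (abs_nonneg _).trans (hSb 0)
  set Y' := pinMp Θ Y with hY'
  have hY'LG : PinLG Y' := hY.mp Θ
  -- the two dominating observables
  have ok1 : PinOk (fun h => Y h ^ 2 * (P h * P' h)) := (okP.mul_right lcP').mul_left (hY.1.map1 (· ^ 2))
  have ok2 : PinOk (fun h => Y' h ^ 2 * (P h * P' h)) := (okP.mul_right lcP').mul_left (hY'LG.1.map1 (· ^ 2))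
  have b1 : pinHat x (fun h => Y h ^ 2 * (P h * P' h)) ≤ C * J ^ 2 := by
    rw [pin_hat_eq, pin_sum_mul_grad (G := fun h => Y h ^ 2) (hY.map1 (· ^ 2)).2]
    refine le_trans (pin_pl_mono hP ((hY.map1 (· ^ 2)).mul (pin_sum_LG (okP.1.mul lcP')))
      ((hY.map1 (· ^ 2)).mul ((pin_sd_ag_LG s G D).mul (pin_sd_ag_LG s _ _))) fun a _ => ?_) hC
    exact mul_le_mul_of_nonneg_left (pin_sd_sum_le s G D hs s _ _ a) (sq_nonneg _)
  have b2 : pinHat x (fun h => Y' h ^ 2 * (P h * P' h)) = pinHat x (fun h => Y h ^ 2 * (P h * P' h)) := by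
    rw [← hΘ.hat ok1.1]
    congr 1
    funext h
    show Y' h ^ 2 * (P h * P' h) = Y' h ^ 2 * (pinMp Θ P h * pinMp Θ P' h)
    rw [hPP', hP'P, mul_comm (P h)]
  have okA : PinOk (fun h => (Y h * S h * P h / J) * pinMp Θ (fun h => Y h * S h * P h / J) h) := by
    have o1 : PinOk (fun h => Y h * S h * P h / J) := by
      have := (okP.mul_left (hY.1.mul hS.1)).smul (1 / J)
      refine ⟨?_, ?_⟩
      · convert this.1 using 2; ring
      · convert this.2 using 2; ring
    exact o1.mul_right (o1.1.mp Θ)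
  have okB : PinOk (fun h => (c ^ 2 / (2 * J ^ 2)) * (Y h ^ 2 * (P h * P' h) + Y' h ^ 2 * (P h * P' h))) := (ok1.add ok2).smul _
  refine (pin_hat_mono hP okA okB fun h => ?_).trans ?_
  · show (Y h * S h * P h / J) * (Y' h * pinMp Θ S h * pinMp Θ P h / J) ≤ _
    rw [hPP']
    have hp : 0 ≤ P h * P' h := mul_nonneg (pin_sd_I_nonneg _) (pin_sd_I_nonneg _)
    have h1 : S h * pinMp Θ S h ≤ c ^ 2 := by
      have := mul_le_mul (hSb h) (hSb (fun u => h (Θ u))) (abs_nonneg _) hc0
      rw [← abs_mul] at this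
      calc S h * pinMp Θ S h ≤ |S h * pinMp Θ S h| := le_abs_self _
        _ ≤ c * c := this
        _ = c ^ 2 := by ring
    have h1' : -(c ^ 2) ≤ S h * pinMp Θ S h := by
      have := mul_le_mul (hSb h) (hSb (fun u => h (Θ u))) (abs_nonneg _) hc0
      rw [← abs_mul] at this
      have h2 := neg_abs_le (S h * pinMp Θ S h)
      have h3 : |S h * pinMp Θ S h| ≤ c * c := this
      nlinarith
    have h2 : (Y h * Y' h) * (S h * pinMp Θ S h) ≤ c ^ 2 * ((Y h ^ 2 + Y' h ^ 2) / 2) := by
      have hy : |Y h * Y' h| ≤ (Y h ^ 2 + Y' h ^ 2) / 2 := by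
        rw [abs_le]; constructor <;> nlinarith [sq_nonneg (Y h - Y' h), sq_nonneg (Y h + Y' h)]
      have hs2 : |S h * pinMp Θ S h| ≤ c ^ 2 := abs_le.2 ⟨h1', h1⟩
      calc (Y h * Y' h) * (S h * pinMp Θ S h) ≤ |(Y h * Y' h) * (S h * pinMp Θ S h)| := le_abs_self _
        _ = |Y h * Y' h| * |S h * pinMp Θ S h| := abs_mul _ _
        _ ≤ ((Y h ^ 2 + Y' h ^ 2) / 2) * c ^ 2 := mul_le_mul hy hs2 (abs_nonneg _) (by positivity)
        _ = _ := by ring
    have e : (Y h * S h * P h / J) * (Y' h * pinMp Θ S h * P' h / J)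
        = ((Y h * Y' h) * (S h * pinMp Θ S h)) * ((P h * P' h) / J ^ 2) := by
      field_simp
    rw [e]
    calc ((Y h * Y' h) * (S h * pinMp Θ S h)) * ((P h * P' h) / J ^ 2)
        ≤ (c ^ 2 * ((Y h ^ 2 + Y' h ^ 2) / 2)) * ((P h * P' h) / J ^ 2) := mul_le_mul_of_nonneg_right h2 (by positivity)
      _ = _ := by field_simp
  · rw [pin_hat_smul hP (ok1.add ok2), pin_hat_add hP ok1 ok2, b2]
    have hJ2 : 0 < J ^ 2 := by positivity
    calc c ^ 2 / (2 * J ^ 2) * (pinHat x (fun h => Y h ^ 2 * (P h * P' h)) + pinHat x (fun h => Y h ^ 2 * (P h * P' h)))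
        ≤ c ^ 2 / (2 * J ^ 2) * (C * J ^ 2 + C * J ^ 2) := mul_le_mul_of_nonneg_left (add_le_add b1 b1) (by positivity)
      _ = c ^ 2 * C := by field_simp; ring

/-! ## 4. reflection Cauchy-Schwarz in the gradient law and the last step -/

/-- reflection Cauchy-Schwarz across the row `n = 0` -/
theorem pin_pl_rp_cs {x : ℝ} (hP : PinPl x) {a b : (TV → ℤ) → ℝ} (ha : PinLG a) (hb : PinLG b) (ua : PinUp 0 a) (ub : PinUp 0 b) :
    htPl x (fun h => pinMp latRefl a h * b h) ^ 2
      ≤ htPl x (fun h => pinMp latRefl a h * a h) * htPl x (fun h => pinMp latRefl b h * b h) := by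
  have hsym : htPl x (fun h => pinMp latRefl b h * a h) = htPl x (fun h => pinMp latRefl a h * b h) := by
    rw [← pin_pl_re hP ((hb.mp latRefl).mul ha)]
    congr 1
    funext h
    show pinMp latRefl (pinMp latRefl b) h * pinMp latRefl a h = _
    rw [pin_re_re, mul_comm]
  refine pin_cs_of_quad fun t => ?_
  have h0 := pin_pl_rp hP (F := fun h => a h + t * b h) (ha.add (hb.smul t)) (pin_up_add ua (pin_up_smul ub t))
  have e : (fun h => pinMp latRefl (fun h => a h + t * b h) h * (a h + t * b h))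
      = fun h => pinMp latRefl a h * a h + (t * (pinMp latRefl a h * b h) + (t * (pinMp latRefl b h * a h)
        + t ^ 2 * (pinMp latRefl b h * b h))) := by
    funext h
    show (pinMp latRefl a h + t * pinMp latRefl b h) * (a h + t * b h) = _
    ring
  have Laa := (ha.mp latRefl).mul ha
  have Lab := (ha.mp latRefl).mul hb
  have Lba := (hb.mp latRefl).mul ha
  have Lbb := (hb.mp latRefl).mul hb
  rw [e, pin_pl_add hP Laa ((Lab.smul t).add ((Lba.smul t).add (Lbb.smul _))), pin_pl_add hP (Lab.smul t) ((Lba.smul t).add (Lbb.smul _)),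
    pin_pl_add hP (Lba.smul t) (Lbb.smul _), pin_pl_smul hP Lab, pin_pl_smul hP Lba, pin_pl_smul hP Lbb, hsym] at h0
  linarith

/-- reflection Cauchy-Schwarz across an arbitrary row (`g` brings it to the row `0`): `F` below, `G` above -/
theorem pin_pl_rp_cs_gen {x : ℝ} (hP : PinPl x) {g g' : TV → TV} (h1 : ∀ u, g (g' u) = u) (hg : PinIvr x g)
    {F G : (TV → ℤ) → ℝ} (hF : PinLG F) (hG : PinLG G) {SF SG : Finset TV} (lF : HtLoc SF F) (lG : HtLoc SG G)
    (sF : ∀ s ∈ SF, (g s).2 ≤ 0) (sG : ∀ s ∈ SG, 0 ≤ (g s).2) :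
    htPl x (fun h => F h * G h) ^ 2 ≤ htPl x (fun h => F h * pinMp (fun u => g' (latRefl (g u))) F h)
      * htPl x (fun h => G h * pinMp (fun u => g' (latRefl (g u))) G h) := by
  set a := pinMp (fun u => latRefl (g u)) F with ha
  set b := pinMp g G with hb
  have upa : PinUp 0 a := by
    intro h h' hh
    refine lF _ _ fun s hs => hh _ ?_
    rw [pin_refl_snd]
    have := sF s hs
    omega
  have upb : PinUp 0 b := by
    intro h h' hh
    exact lG _ _ fun s hs => hh _ (sG s hs)
  have rea : pinMp latRefl a = pinMp g F := by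
    rw [ha, pin_mp_mp]
    simp only [lat_refl_refl]
  have key := pin_pl_rp_cs hP (hF.mp _ : PinLG a) (hG.mp _ : PinLG b) upa upb
  have e1 : htPl x (fun h => pinMp latRefl a h * b h) = htPl x (fun h => F h * G h) := by
    rw [rea, ← hg _ (hF.mul hG)]; rfl
  have e2 : htPl x (fun h => pinMp latRefl a h * a h) = htPl x (fun h => F h * pinMp (fun u => g' (latRefl (g u))) F h) := by
    rw [rea, ← hg _ (hF.mul (hF.mp _)), pin_mp_mul, pin_mp_mp]
    simp only [h1]
    rfl
  have e3 : htPl x (fun h => pinMp latRefl b h * b h) = htPl x (fun h => G h * pinMp (fun u => g' (latRefl (g u))) G h) := by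
    rw [← hg _ (hG.mul (hG.mp _)), pin_mp_mul, pin_mp_mp, hb, pin_mp_mp]
    simp only [h1]
    congr 1
    funext h
    rw [mul_comm]
  rw [e1, e2, e3] at key
  exact key

theorem pin_sd_sum_le_one {α : Type} (s : Finset α) (G D : α → Finset TV) (hs : ∃ i ∈ s, (D i).Nonempty) (h : TV → ℤ) :
    pinSum (pinAl s G D) h ≤ pinAg s G D h := by
  obtain ⟨i0, hi0, v, hv⟩ := hs
  rw [pin_sum_anchor (v := v) (fun a ha => pin_sd_al_anchor s G D hi0 hv a ha)]
  exact pin_sd_I_mono fun H i hi => ⟨h v, H i hi⟩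

/-- **the last step** (TEX[pins:three-moves], final placement): the insertion `X` alone above a row, all the other factors below -/
theorem pin_last {x : ℝ} (hP : PinPl x) {g g' : TV → TV} (h1 : ∀ u, g (g' u) = u) (hg : PinIvr x g) {α : Type} (s : Finset α)
    (G D : α → Finset TV) (hs : ∃ i ∈ s, (D i).Nonempty) {X S : (TV → ℤ) → ℝ} (hX : PinLG X) (hS : PinLG S) {c : ℝ}
    (hSb : ∀ h, |S h| ≤ c) {J C : ℝ} (hJ : 0 < J) {SX SR : Finset TV} (lX : HtLoc SX X) (lS : HtLoc SR S)
    (lG : ∀ i ∈ s, G i ∪ D i ⊆ SR) (sX : ∀ u ∈ SX, 0 ≤ (g u).2) (sR : ∀ u ∈ SR, (g u).2 ≤ 0)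
    (hC : htPl x (fun h => pinAg s G D h * pinAg s (fun i => (G i).image fun u => g' (latRefl (g u)))
      (fun i => (D i).image fun u => g' (latRefl (g u))) h) ≤ C * J ^ 2) :
    pinHat x (fun h => X h * (S h * pinAl s G D h / J)) ^ 2
      ≤ htPl x (fun h => X h * pinMp (fun u => g' (latRefl (g u))) X h) * (c ^ 2 * C) := by
  set Θ : TV → TV := fun u => g' (latRefl (g u)) with hΘ
  set Q := pinSum (pinAl s G D) with hQ
  have okP : PinOk (pinAl s G D) := pin_sd_al_ok s G D hs
  have hQLG : PinLG Q := pin_sum_LG okP.1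
  have hc0 : 0 ≤ c := (abs_nonneg _).trans (hSb 0)
  have lQ : HtLoc SR Q := by
    refine pin_sum_loc (pin_loc_mono ?_ (pin_sd_al_loc s G D))
    intro u hu
    obtain ⟨i, hi, hu'⟩ := Finset.mem_biUnion.1 hu
    exact lG i hi hu'
  set F : (TV → ℤ) → ℝ := fun h => S h * Q h / J with hF
  have hFLG : PinLG F := by
    have := (hS.mul hQLG).smul (1 / J)
    refine ⟨?_, ?_⟩
    · convert this.1 using 2; ring
    · convert this.2 using 2; ring
  have lF : HtLoc SR F := fun a b hab => by
    show S a * Q a / J = S b * Q b / J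
    rw [lS a b hab, lQ a b hab]
  have e0 : pinHat x (fun h => X h * (S h * pinAl s G D h / J)) = htPl x (fun h => F h * X h) := by
    have e : (fun h => X h * (S h * pinAl s G D h / J)) = fun h => (X h * S h / J) * pinAl s G D h := by
      funext h; ring
    have hgr : HtGrad (fun h => X h * S h / J) := fun h c => by
      show X _ * S _ / J = X h * S h / J
      rw [hX.2 h c, hS.2 h c]
    rw [e, pin_hat_eq, pin_sum_mul_grad hgr]
    congr 1
    funext h
    show X h * S h / J * Q h = S h * Q h / J * X h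
    ring
  rw [e0]
  have key := pin_pl_rp_cs_gen hP h1 hg hFLG hX lF lX sR sX
  have hXX : 0 ≤ htPl x (fun h => X h * pinMp Θ X h) := by
    -- a reflection norm
    have := pin_pl_rp_cs_gen hP h1 hg (PinLG.const 0) hX (SF := ∅) (fun _ _ _ => rfl) lX (by simp) sX
    by_contra hneg
    push Not at hneg
    -- use positivity directly
    have upb : PinUp 0 (pinMp g X) := fun h h' hh => lX _ _ fun s hs => hh _ (sX s hs)
    have h0 := pin_pl_rp hP (hX.mp g) upb
    have e3 : htPl x (fun h => pinMp latRefl (pinMp g X) h * pinMp g X h) = htPl x (fun h => X h * pinMp Θ X h) := by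
      rw [← hg _ (hX.mul (hX.mp _)), pin_mp_mul, pin_mp_mp, pin_mp_mp]
      simp only [hΘ, h1]
      congr 1
      funext h
      rw [mul_comm]
    rw [e3] at h0
    linarith
  have hFF : htPl x (fun h => F h * pinMp Θ F h) ≤ c ^ 2 * C := by
    have hdom : htPl x (fun h => F h * pinMp Θ F h) ≤ htPl x (fun h => (c ^ 2 / J ^ 2) * (pinAg s G D h
        * pinAg s (fun i => (G i).image Θ) (fun i => (D i).image Θ) h)) := by
      refine pin_pl_mono hP (hFLG.mul (hFLG.mp Θ)) (((pin_sd_ag_LG s G D).mul (pin_sd_ag_LG s _ _)).smul _) fun a _ => ?_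
      show (S a * Q a / J) * (pinMp Θ S a * pinMp Θ Q a / J) ≤ _
      have q0 : 0 ≤ Q a := pin_sum_nonneg (fun _ => pin_sd_I_nonneg _) a
      have q1 : Q a ≤ pinAg s G D a := pin_sd_sum_le_one s G D hs a
      have q0' : 0 ≤ pinMp Θ Q a := pin_sum_nonneg (K := pinAl s G D) (fun _ => pin_sd_I_nonneg _) (fun u => a (Θ u))
      have q1' : pinMp Θ Q a ≤ pinAg s (fun i => (G i).image Θ) (fun i => (D i).image Θ) a := by
        rw [← pin_sd_ag_mp]
        exact pin_sd_sum_le_one s G D hs _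
      have hs2 : S a * pinMp Θ S a ≤ c ^ 2 := by
        have := mul_le_mul (hSb a) (hSb (fun u => a (Θ u))) (abs_nonneg _) hc0
        rw [← abs_mul] at this
        calc S a * pinMp Θ S a ≤ |S a * pinMp Θ S a| := le_abs_self _
          _ ≤ c * c := this
          _ = c ^ 2 := by ring
      have e : (S a * Q a / J) * (pinMp Θ S a * pinMp Θ Q a / J) = (S a * pinMp Θ S a) * ((Q a * pinMp Θ Q a) / J ^ 2) := by
        field_simp
      rw [e]
      calc (S a * pinMp Θ S a) * ((Q a * pinMp Θ Q a) / J ^ 2) ≤ c ^ 2 * ((Q a * pinMp Θ Q a) / J ^ 2) :=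
            mul_le_mul_of_nonneg_right hs2 (by positivity)
        _ ≤ c ^ 2 * ((pinAg s G D a * pinAg s (fun i => (G i).image Θ) (fun i => (D i).image Θ) a) / J ^ 2) := by
            refine mul_le_mul_of_nonneg_left ?_ (by positivity)
            refine div_le_div_of_nonneg_right (mul_le_mul q1 q1' q0' (pin_sd_I_nonneg _)) (by positivity)
        _ = _ := by ring
    refine hdom.trans ?_
    rw [pin_pl_smul hP ((pin_sd_ag_LG s G D).mul (pin_sd_ag_LG s _ _))]
    have hJ2 : 0 < J ^ 2 := by positivity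
    calc c ^ 2 / J ^ 2 * htPl x (fun h => pinAg s G D h * pinAg s (fun i => (G i).image Θ) (fun i => (D i).image Θ) h)
        ≤ c ^ 2 / J ^ 2 * (C * J ^ 2) := mul_le_mul_of_nonneg_left hC (by positivity)
      _ = c ^ 2 * C := by field_simp
  calc htPl x (fun h => F h * X h) ^ 2 ≤ htPl x (fun h => F h * pinMp Θ F h) * htPl x (fun h => X h * pinMp Θ X h) := key
    _ ≤ (c ^ 2 * C) * htPl x (fun h => X h * pinMp Θ X h) := mul_le_mul_of_nonneg_right hFF hXX
    _ = _ := by ring

theorem pin_sd_eqns_cite : True := by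
  have := @PinIvr.eq_1; have := @pinAl.eq_1; have := @pinAg.eq_1
  trivial

end Claimed.Agent.R291
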