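import Claimed.Agent.R291.Spec.Form
import Claimed.Agent.R291.Pin.Cont
import Claimed.Agent.R291.Pin.Rp

/-!
# Row 291 (S0539), unit PIN (05-pins), Pin/Tr : THE NORMAL TRANSFER ON ABSOLUTE HEIGHTS      (OWNER helper48; head of PIN: helper34)      0 sorry

TEX[prop:reflection-transfer], TEX[lem:analytic-translation] (the representation `M(m) = ⟨A, S^(m+N) B⟩`), design D1 (34) + D4 (48).  No Hilbert space, no operator: only SCALAR moment sequences.
* sec. 6  `PinHs φ` (Hausdorff positivity of `φ j = ⟨y, T^j y⟩`), `pin_haus_meas` (representing measure on `[0,1]`, from `sp8_bh` of 179), `pin_haus_poly`, **`pin_tr_of_haus`** (polarization ⟹ `PinTr` of Pin/Cont).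
* sec. 7  `pinE2 = (-1,2)` (normal step), `pinSh a G` (translated observable), `pinFm x F G = pinHat x (θF * G)` (reflection form); `pin_fm_shift/symm/add_right/smul_right/sum_right/sum_sum/nonneg/le`;
          **`pin_rp_haus`**: `j ↦ pinFm x y (pinSh (j • pinE2) y)` is a Hausdorff sequence (RP across the rows `0` and `1`, translation invariance, Cauchy-Schwarz);
          **`pin_rp_tr`**: for `a b` local, height-localized, above the row `0`: `PinTr ((⟨a,a⟩ + ⟨b,b⟩)/2) N (m ↦ ⟨a, τ^(m+N) b⟩)`   = the hypothesis `hTr` of `pin_cont_lim` / `pin_cont_moves`.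
-/

set_option autoImplicit false
set_option linter.unusedVariables false
set_option linter.unnecessarySeqFocus false

namespace Claimed.Agent.R291

open Claims Claims.C0467 Filter Topology Set Polynomial MeasureTheory
open scoped ComplexConjugate

/-! ## 6. Hausdorff moment sequences and the transfer inequality -/

/-- Hausdorff positivity of a real sequence (`φ j = ⟨y, T^j y⟩`, `T` symmetric, positive, with bounded orbits) -/
structure PinHs (φ : ℕ → ℝ) : Prop where
  p0 : ∀ (α : Type) (s : Finset α) (e : α → ℕ) (c : α → ℝ), 0 ≤ ∑ p ∈ s, ∑ q ∈ s, c p * c q * φ (e p + e q)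
  p1 : ∀ (α : Type) (s : Finset α) (e : α → ℕ) (c : α → ℝ), 0 ≤ ∑ p ∈ s, ∑ q ∈ s, c p * c q * φ (e p + e q + 1)
  bd : ∃ K : ℝ, ∀ j, |φ j| ≤ K

theorem pin_haus_re (α : Type) (s : Finset α) (a : α → ℂ) (ψ : α → α → ℝ) :
    (∑ p ∈ s, ∑ q ∈ s, conj (a p) * a q * (ψ p q : ℂ)).re
      = (∑ p ∈ s, ∑ q ∈ s, (a p).re * (a q).re * ψ p q) + ∑ p ∈ s, ∑ q ∈ s, (a p).im * (a q).im * ψ p q := by
  rw [Complex.re_sum, ← Finset.sum_add_distrib]
  refine Finset.sum_congr rfl fun p _ => ?_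
  rw [Complex.re_sum, ← Finset.sum_add_distrib]
  refine Finset.sum_congr rfl fun q _ => ?_
  simp only [Complex.mul_re, Complex.conj_re, Complex.conj_im, Complex.ofReal_re, Complex.ofReal_im, Complex.mul_im]
  ring

/-- the representing measure -/
theorem pin_haus_meas {φ : ℕ → ℝ} (h : PinHs φ) :
    ∃ μ : Measure unitInterval, IsFiniteMeasure μ ∧ ∀ j : ℕ, ∫ t, ((t : ℝ)) ^ j ∂μ = φ j := by
  obtain ⟨K, hK⟩ := h.bd
  obtain ⟨μ, h1, h2, h3⟩ := sp8_bh (ι := Fin 0) (fun _ j => (φ j : ℂ)) (fun _ _ => (Complex.conj_ofReal _).symm)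
    (fun s a => by
      rw [pin_haus_re _ s a (fun p q => φ (p.2 + q.2))]
      exact add_nonneg (h.p0 _ s Prod.snd _) (h.p0 _ s Prod.snd _))
    (fun s a => by
      rw [pin_haus_re _ s a (fun p q => φ (p.2 + q.2 + 1))]
      exact add_nonneg (h.p1 _ s Prod.snd _) (h.p1 _ s Prod.snd _))
    (K := K) (fun j => by rw [Complex.norm_real]; exact hK j)
  refine ⟨μ.map Prod.snd, ?_, fun j => ?_⟩
  · exact Measure.isFiniteMeasure_map μ Prod.snd
  · have hm : Measurable (Prod.snd : UnitAddTorus (Fin 0) × unitInterval → unitInterval) := measurable_snd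
    rw [integral_map hm.aemeasurable (by
      have : Continuous fun t : unitInterval => ((t : ℝ)) ^ j := by fun_prop
      exact this.aestronglyMeasurable)]
    have h4 := h3 0 j
    have e : ∀ p : UnitAddTorus (Fin 0) × unitInterval, gspChi (0 : Fin 0 → ℤ) p * gspLam (Fin 0) p ^ j = (((p.2 : ℝ) ^ j : ℝ) : ℂ) := by
      intro p
      have e0 : gspChi (0 : Fin 0 → ℤ) p = 1 := by
        simp [gspChi, UnitAddTorus.mFourier]
      rw [e0, one_mul]
      simp [gspLam]
    simp only [e] at h4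
    have h5 := integral_ofReal (𝕜 := ℂ) (μ := μ) (f := fun p : UnitAddTorus (Fin 0) × unitInterval => (p.2 : ℝ) ^ j)
    have h6 : ((∫ p : UnitAddTorus (Fin 0) × unitInterval, (p.2 : ℝ) ^ j ∂μ : ℝ) : ℂ) = (φ j : ℂ) := h5.symm.trans h4
    exact_mod_cast h6

/-- a polynomial bounded by `κ` on `[0,1]` is bounded by `κ φ 0` on the moment sequence -/
theorem pin_haus_poly {φ : ℕ → ℝ} (h : PinHs φ) (Q : ℝ[X]) {κ : ℝ} (hQ : ∀ t ∈ Icc (0 : ℝ) 1, |Q.eval t| ≤ κ) :
    |Q.sum fun j a => a * φ j| ≤ κ * φ 0 := by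
  obtain ⟨μ, hμ, hm⟩ := pin_haus_meas h
  have hint : ∀ j : ℕ, Integrable (fun t : unitInterval => ((t : ℝ)) ^ j) μ := by
    intro j
    have hc : Continuous fun t : unitInterval => ((t : ℝ)) ^ j := by fun_prop
    refine Integrable.of_bound hc.aestronglyMeasurable 1 (ae_of_all _ fun t => ?_)
    rw [Real.norm_eq_abs, abs_of_nonneg (pow_nonneg t.2.1 j)]
    exact pow_le_one₀ t.2.1 t.2.2
  have e : (Q.sum fun j a => a * φ j) = ∫ t : unitInterval, Q.eval (t : ℝ) ∂μ := by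
    simp only [Polynomial.eval_eq_sum, Polynomial.sum_def]
    rw [integral_finsetSum _ fun j _ => (hint j).const_mul _]
    refine Finset.sum_congr rfl fun j _ => ?_
    rw [integral_const_mul, hm]
  have h0 : μ.real univ = φ 0 := by
    have := hm 0
    simpa using this
  rw [e, ← h0, ← Real.norm_eq_abs]
  refine norm_integral_le_of_norm_le_const (ae_of_all _ fun t => ?_)
  rw [Real.norm_eq_abs]
  exact hQ _ t.2

theorem pin_Q_bound (N r L : ℕ) {κ : ℝ} (hκ : ∀ t ∈ Icc (0:ℝ) 1, t * (1 - t ^ r) ^ L ≤ κ) :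
    ∀ t ∈ Icc (0 : ℝ) 1, |(pinQ N r L).eval t| ≤ κ := by
  intro t ht
  have hu0 : 0 ≤ t ^ N := pow_nonneg ht.1 N
  have hu1 : t ^ N ≤ 1 := pow_le_one₀ ht.1 ht.2
  have hp : 0 ≤ 1 - (t ^ N) ^ r := sub_nonneg.2 (pow_le_one₀ hu0 hu1)
  have e : (pinQ N r L).eval t = t ^ N * (1 - (t ^ N) ^ r) ^ L := by
    unfold pinQ
    simp only [eval_mul, eval_pow, eval_X, eval_sub, eval_one]
    rw [← pow_mul, mul_comm N r]
  rw [e, abs_of_nonneg (mul_nonneg hu0 (pow_nonneg hp L))]
  exact hκ _ ⟨hu0, hu1⟩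

theorem pin_Q_sum (N r L : ℕ) (φ : ℕ → ℝ) :
    ((pinQ N r L).sum fun j a => a * φ j) = ∑ i ∈ Finset.range (L + 1), (-1 : ℝ) ^ i * (L.choose i : ℝ) * φ (N + i * r * N) := by
  rw [pin_cont_Q_expand]
  have hlin : ∀ (s : Finset ℕ) (P : ℕ → ℝ[X]), ((∑ i ∈ s, P i).sum fun j a => a * φ j) = ∑ i ∈ s, ((P i).sum fun j a => a * φ j) := by
    intro s P
    induction s using Finset.induction_on with
    | empty => simp
    | insert a s ha ih =>
      rw [Finset.sum_insert ha, Finset.sum_insert ha, Polynomial.sum_add_index _ _ _ (by simp) (by intros; ring), ih]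
  rw [hlin]
  refine Finset.sum_congr rfl fun i _ => ?_
  rw [C_mul_X_pow_eq_monomial, Polynomial.sum_monomial_index _ _ (by simp)]

/-- **the transfer inequality from two Hausdorff sequences** (polarization) -/
theorem pin_tr_of_haus {φp φm : ℕ → ℝ} (hp : PinHs φp) (hm : PinHs φm) (N : ℕ) {M : ℕ → ℂ}
    (hM : ∀ m, M m = (((φp (m + N) - φm (m + N)) / 4 : ℝ) : ℂ)) : PinTr ((φp 0 + φm 0) / 4) N M := by
  intro r L κ hκ
  have b1 := pin_haus_poly hp (pinQ N r L) (pin_Q_bound N r L hκ)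
  have b2 := pin_haus_poly hm (pinQ N r L) (pin_Q_bound N r L hκ)
  rw [pin_Q_sum] at b1 b2
  rw [Finset.sum_range_succ'] at b1 b2
  simp only [pow_zero, Nat.choose_zero_right, Nat.cast_one, mul_one, one_mul, zero_mul, add_zero] at b1 b2
  set A : ℕ → ℝ := fun m => (φp (m + N) - φm (m + N)) / 4 with hA
  have hMn : ∀ m, ‖M m‖ = |A m| := fun m => by rw [hM, Complex.norm_real, Real.norm_eq_abs]
  simp only [hMn]
  -- the alternating identity
  have key : A 0 = -(∑ i ∈ Finset.range L, (-1 : ℝ) ^ (i + 1) * (L.choose (i + 1) : ℝ) * A ((i + 1) * r * N))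
      + ((∑ i ∈ Finset.range L, (-1 : ℝ) ^ (i + 1) * (L.choose (i + 1) : ℝ) * φp (N + (i + 1) * r * N) + φp N)
        - (∑ i ∈ Finset.range L, (-1 : ℝ) ^ (i + 1) * (L.choose (i + 1) : ℝ) * φm (N + (i + 1) * r * N) + φm N)) / 4 := by
    simp only [hA, zero_add]
    have : ∀ i, φp ((i + 1) * r * N + N) = φp (N + (i + 1) * r * N) ∧ φm ((i + 1) * r * N + N) = φm (N + (i + 1) * r * N) :=
      fun i => ⟨by rw [add_comm], by rw [add_comm]⟩
    simp only [fun i => (this i).1, fun i => (this i).2]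
    have e : ∑ i ∈ Finset.range L, (-1 : ℝ) ^ (i + 1) * (L.choose (i + 1) : ℝ) * ((φp (N + (i + 1) * r * N) - φm (N + (i + 1) * r * N)) / 4)
        = ((∑ i ∈ Finset.range L, (-1 : ℝ) ^ (i + 1) * (L.choose (i + 1) : ℝ) * φp (N + (i + 1) * r * N))
          - ∑ i ∈ Finset.range L, (-1 : ℝ) ^ (i + 1) * (L.choose (i + 1) : ℝ) * φm (N + (i + 1) * r * N)) / 4 := by
      rw [← Finset.sum_sub_distrib, Finset.sum_div]
      refine Finset.sum_congr rfl fun i _ => by ring
    rw [e]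
    ring
  have s1 : |∑ i ∈ Finset.range L, (-1 : ℝ) ^ (i + 1) * (L.choose (i + 1) : ℝ) * A ((i + 1) * r * N)|
      ≤ ∑ i ∈ Finset.range L, (L.choose (i + 1) : ℝ) * |A ((i + 1) * r * N)| := by
    refine (Finset.abs_sum_le_sum_abs _ _).trans (Finset.sum_le_sum fun i _ => ?_)
    rw [abs_mul, abs_mul, abs_pow, abs_neg, abs_one, one_pow, one_mul, Nat.abs_cast]
  rw [key]
  refine (abs_add_le _ _).trans ?_
  rw [abs_neg]
  refine add_le_add s1 ?_
  rw [abs_div, abs_of_pos (show (0:ℝ) < 4 by norm_num)]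
  have := abs_sub _ _ |>.trans (add_le_add b1 b2)
  calc _ ≤ (κ * φp 0 + κ * φm 0) / 4 := by gcongr
    _ = (φp 0 + φm 0) / 4 * κ := by ring

/-! ## 7. the normal transfer of the plane measure on absolute heights -/

/-- the normal step (two rows): `√3 e = -a₁ + 2 a₂` -/
def pinE2 : TV := (-1, 2)

/-- translation of an observable -/
def pinSh (a : TV) (G : (TV → ℤ) → ℝ) : (TV → ℤ) → ℝ := pinMp (fun u => u + a) G

theorem pin_sh_sh (a b : TV) (G : (TV → ℤ) → ℝ) : pinSh a (pinSh b G) = pinSh (a + b) G := by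
  unfold pinSh pinMp
  funext h
  congr 1
  funext u
  show h (u + b + a) = h (u + (a + b))
  rw [add_assoc, add_comm b a]

theorem pin_sh_zero (G : (TV → ℤ) → ℝ) : pinSh 0 G = G := by
  unfold pinSh pinMp
  simp

theorem pin_re_sh (a : TV) (G : (TV → ℤ) → ℝ) : pinMp latRefl (pinSh a G) = pinSh (latRefl a) (pinMp latRefl G) := by
  unfold pinSh pinMp
  funext h
  congr 1
  funext u
  show h (latRefl (u + a)) = h (latRefl u + latRefl a)
  rw [lat_refl_add]

theorem pin_re_re (G : (TV → ℤ) → ℝ) : pinMp latRefl (pinMp latRefl G) = G := by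
  unfold pinMp
  funext h
  congr 1
  funext u
  show h (latRefl (latRefl u)) = h u
  rw [lat_refl_refl]

theorem PinLc.sh {G : (TV → ℤ) → ℝ} (hG : PinLc G) (a : TV) : PinLc (pinSh a G) := hG.mp _
theorem PinOk.sh {G : (TV → ℤ) → ℝ} (hG : PinOk G) (a : TV) : PinOk (pinSh a G) := hG.mp _
theorem PinLG.sh {G : (TV → ℤ) → ℝ} (hG : PinLG G) (a : TV) : PinLG (pinSh a G) := hG.mp _

theorem pin_up_sh {j : ℤ} {G : (TV → ℤ) → ℝ} (hG : PinUp j G) (a : TV) : PinUp (j + a.2) (pinSh a G) := by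
  intro h h' hh
  refine hG _ _ fun u hu => hh _ ?_
  simp only [Prod.snd_add]
  linarith

theorem pin_up_mono {j j' : ℤ} (hjj : j' ≤ j) {G : (TV → ℤ) → ℝ} (hG : PinUp j G) : PinUp j' G :=
  fun h h' hh => hG h h' fun u hu => hh u (hjj.trans hu)

theorem pin_up_add {j : ℤ} {F G : (TV → ℤ) → ℝ} (hF : PinUp j F) (hG : PinUp j G) : PinUp j (fun a => F a + G a) :=
  fun h h' hh => by show F h + G h = F h' + G h'; rw [hF h h' hh, hG h h' hh]

theorem pin_up_mul {j : ℤ} {F G : (TV → ℤ) → ℝ} (hF : PinUp j F) (hG : PinUp j G) : PinUp j (fun a => F a * G a) :=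
  fun h h' hh => by show F h * G h = F h' * G h'; rw [hF h h' hh, hG h h' hh]

theorem pin_up_smul {j : ℤ} {F : (TV → ℤ) → ℝ} (hF : PinUp j F) (c : ℝ) : PinUp j (fun a => c * F a) :=
  fun h h' hh => by show c * F h = c * F h'; rw [hF h h' hh]

theorem pin_up_sum {j : ℤ} {ι : Type*} (s : Finset ι) {F : ι → (TV → ℤ) → ℝ} (hF : ∀ i ∈ s, PinUp j (F i)) :
    PinUp j (fun h => ∑ i ∈ s, F i h) :=
  fun h h' hh => Finset.sum_congr rfl fun i hi => hF i hi h h' hh

theorem pin_refl_E2 (j : ℤ) : latRefl (j • pinE2) = -(j • pinE2) := by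
  unfold latRefl pinE2
  ext <;> simp <;> ring

/-- the reflection form -/
noncomputable def pinFm (x : ℝ) (F G : (TV → ℤ) → ℝ) : ℝ := pinHat x (fun a => pinMp latRefl F a * G a)

section form

variable {x : ℝ} (hP : PinPl x)
include hP

theorem pin_fm_shift {F G : (TV → ℤ) → ℝ} (hF : PinLc F) (hG : PinLc G) (a b : TV) :
    pinFm x (pinSh a F) (pinSh b G) = pinFm x F (pinSh (b - latRefl a) G) := by
  unfold pinFm
  have h := pin_hat_tr hP (K := fun h => pinMp latRefl F h * pinSh (b - latRefl a) G h) ((hF.mp _).mul (hG.sh _)) (latRefl a)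
  rw [← h]
  have e : pinMp (fun u => u + latRefl a) (fun h => pinMp latRefl F h * pinSh (b - latRefl a) G h)
      = fun h => pinSh (latRefl a) (pinMp latRefl F) h * pinSh (latRefl a) (pinSh (b - latRefl a) G) h := rfl
  rw [e, pin_sh_sh, pin_re_sh, add_sub_cancel]

theorem pin_fm_symm {F G : (TV → ℤ) → ℝ} (hF : PinLc F) (hG : PinLc G) : pinFm x F G = pinFm x G F := by
  unfold pinFm
  have h := pin_hat_re hP (K := fun h => pinMp latRefl F h * G h) ((hF.mp _).mul hG)
  rw [← h]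
  have e : pinMp latRefl (fun h => pinMp latRefl F h * G h) = fun h => pinMp latRefl (pinMp latRefl F) h * pinMp latRefl G h := rfl
  rw [e, pin_re_re]
  congr 1
  funext h
  ring

theorem pin_fm_add_right {F G G' : (TV → ℤ) → ℝ} (hF : PinLc F) (hG : PinOk G) (hG' : PinOk G') :
    pinFm x F (fun a => G a + G' a) = pinFm x F G + pinFm x F G' := by
  unfold pinFm
  rw [← pin_hat_add hP (hG.mul_left (hF.mp _)) (hG'.mul_left (hF.mp _))]
  congr 1
  funext h
  ring

theorem pin_fm_smul_right {F G : (TV → ℤ) → ℝ} (hF : PinLc F) (hG : PinOk G) (c : ℝ) :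
    pinFm x F (fun a => c * G a) = c * pinFm x F G := by
  unfold pinFm
  rw [← pin_hat_smul hP (hG.mul_left (hF.mp _))]
  congr 1
  funext h
  ring

theorem pin_fm_sum_right {ι : Type*} (s : Finset ι) {F : (TV → ℤ) → ℝ} {G : ι → (TV → ℤ) → ℝ} (hF : PinLc F)
    (hG : ∀ i ∈ s, PinOk (G i)) : pinFm x F (fun a => ∑ i ∈ s, G i a) = ∑ i ∈ s, pinFm x F (G i) := by
  unfold pinFm
  rw [← pin_hat_sum hP s fun i hi => (hG i hi).mul_left (hF.mp _)]
  congr 1
  funext h
  rw [Finset.mul_sum]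

theorem pin_fm_sum_sum {ι : Type*} (s : Finset ι) {G : ι → (TV → ℤ) → ℝ} (hG : ∀ i ∈ s, PinOk (G i)) :
    pinFm x (fun a => ∑ i ∈ s, G i a) (fun a => ∑ i ∈ s, G i a) = ∑ p ∈ s, ∑ q ∈ s, pinFm x (G p) (G q) := by
  have hS : PinOk (fun a => ∑ i ∈ s, G i a) := PinOk.sum s hG
  rw [pin_fm_symm hP hS.1 hS.1, pin_fm_sum_right hP s hS.1 hG]
  refine Finset.sum_congr rfl fun p hp => ?_
  rw [pin_fm_symm hP hS.1 (hG p hp).1, pin_fm_sum_right hP s (hG p hp).1 hG]

theorem pin_fm_nonneg {F : (TV → ℤ) → ℝ} (hF : PinOk F) (hu : PinUp 0 F) : 0 ≤ pinFm x F F := pin_hat_rp hP hF hu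

/-- the form is bounded by the `L²` norms -/
theorem pin_fm_le {F G : (TV → ℤ) → ℝ} (hF : PinOk F) (hG : PinOk G) :
    pinFm x F G ^ 2 ≤ pinHat x (fun a => F a * F a) * pinHat x (fun a => G a * G a) := by
  unfold pinFm
  have h := pin_hat_cs hP (hF.mp latRefl) hG
  have e := pin_hat_re hP (K := fun a => F a * F a) (hF.1.mul hF.1)
  have e' : pinMp latRefl (fun a => F a * F a) = fun a => pinMp latRefl F a * pinMp latRefl F a := rfl
  rw [e'] at e
  rwa [e] at h

/-- **the moment sequence of the normal transfer is a Hausdorff sequence** -/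
theorem pin_rp_haus {y : (TV → ℤ) → ℝ} (hy : PinOk y) (hu : PinUp 0 y) :
    PinHs (fun j : ℕ => pinFm x y (pinSh ((j : ℤ) • pinE2) y)) := by
  have key : ∀ (w : TV) (p q : ℕ), pinFm x (pinSh ((p : ℤ) • pinE2 + w) y) (pinSh ((q : ℤ) • pinE2 + w) y)
      = pinFm x y (pinSh (((p + q : ℕ) : ℤ) • pinE2 + (w - latRefl w)) y) := by
    intro w p q
    rw [pin_fm_shift hP hy.1 hy.1, lat_refl_add, pin_refl_E2]
    congr 2
    push_cast
    rw [add_smul]
    abel
  have pos : ∀ (w : TV), 0 ≤ w.2 → ∀ (α : Type) (s : Finset α) (e : α → ℕ) (c : α → ℝ),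
      0 ≤ ∑ p ∈ s, ∑ q ∈ s, c p * c q * pinFm x y (pinSh (((e p + e q : ℕ) : ℤ) • pinE2 + (w - latRefl w)) y) := by
    intro w hw α s e c
    have hok : ∀ i ∈ s, PinOk (fun a => c i * pinSh ((e i : ℤ) • pinE2 + w) y a) := fun i _ => (hy.sh _).smul _
    have hup : PinUp 0 (fun a => ∑ i ∈ s, c i * pinSh ((e i : ℤ) • pinE2 + w) y a) := by
      refine pin_up_sum s fun i _ => pin_up_smul ?_ _
      refine pin_up_mono ?_ (pin_up_sh hu _)
      simp only [pinE2, Prod.snd_add, Prod.smul_snd, smul_eq_mul, zero_add]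
      positivity
    have h0 := pin_fm_nonneg hP (PinOk.sum s hok) hup
    rw [pin_fm_sum_sum hP s hok] at h0
    refine h0.trans_eq (Finset.sum_congr rfl fun p hp => Finset.sum_congr rfl fun q hq => ?_)
    rw [pin_fm_smul_right hP ((hy.sh _).smul _).1 (hy.sh _), pin_fm_symm hP ((hy.sh _).smul _).1 (hy.sh _).1,
      pin_fm_smul_right hP (hy.sh _).1 (hy.sh _), pin_fm_symm hP (hy.sh _).1 (hy.sh _).1, key]
    ring
  refine ⟨fun α s e c => ?_, fun α s e c => ?_, ?_⟩
  · have := pos 0 le_rfl α s e c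
    have e0 : (0 : TV) - latRefl 0 = 0 := by simp [latRefl]
    simp only [e0, add_zero] at this
    exact this
  · have := pos (-1, 1) (by norm_num) α s e c
    refine this.trans_eq (Finset.sum_congr rfl fun p _ => Finset.sum_congr rfl fun q _ => ?_)
    congr 3
    unfold latRefl pinE2
    ext <;> simp <;> ring
  · refine ⟨pinHat x (fun a => y a * y a), fun j => ?_⟩
    have h := pin_fm_le hP hy (hy.sh ((j : ℤ) • pinE2))
    have e := pin_hat_tr hP (K := fun a => y a * y a) (hy.1.mul hy.1) ((j : ℤ) • pinE2)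
    have e' : pinMp (fun u => u + (j : ℤ) • pinE2) (fun a => y a * y a)
        = fun a => pinSh ((j : ℤ) • pinE2) y a * pinSh ((j : ℤ) • pinE2) y a := rfl
    rw [e'] at e
    rw [e, ← sq] at h
    exact abs_le_of_sq_le_sq h (pin_hat_nonneg hP (hy.1.mul hy.1) fun a => mul_self_nonneg _)

/-- **transfer representation**: what `pin_cont_lim` consumes, for two observables above the row `n = 0` -/
theorem pin_rp_tr {a b : (TV → ℤ) → ℝ} (ha : PinOk a) (hb : PinOk b) (hua : PinUp 0 a) (hub : PinUp 0 b) (N : ℕ) :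
    PinTr ((pinFm x a a + pinFm x b b) / 2) N (fun m : ℕ => ((pinFm x a (pinSh (((m + N : ℕ) : ℤ) • pinE2) b) : ℝ) : ℂ)) := by
  have hm : PinOk (fun h => (-1) * b h) := hb.smul (-1)
  have hp1 : PinOk (fun h => a h + b h) := ha.add hb
  have hm1 : PinOk (fun h => a h + (-1) * b h) := ha.add hm
  have Hp := pin_rp_haus hP hp1 (pin_up_add hua hub)
  have Hm := pin_rp_haus hP hm1 (pin_up_add hua (pin_up_smul hub _))
  -- expansion of the two quadratic forms
  have ex : ∀ (σ : ℝ) (v : TV), pinFm x (fun h => a h + σ * b h) (pinSh v (fun h => a h + σ * b h))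
      = pinFm x a (pinSh v a) + σ * pinFm x a (pinSh v b) + σ * pinFm x b (pinSh v a) + σ ^ 2 * pinFm x b (pinSh v b) := by
    intro σ v
    have hσ : PinOk (fun h => σ * b h) := hb.smul σ
    have e1 : pinSh v (fun h => a h + σ * b h) = fun h => pinSh v a h + σ * pinSh v b h := rfl
    rw [e1, pin_fm_add_right hP (ha.add hσ).1 (ha.sh v) ((hb.sh v).smul σ), pin_fm_smul_right hP (ha.add hσ).1 (hb.sh v),
      pin_fm_symm hP (ha.add hσ).1 (ha.sh v).1, pin_fm_symm hP (ha.add hσ).1 (hb.sh v).1,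
      pin_fm_add_right hP (ha.sh v).1 ha hσ, pin_fm_add_right hP (hb.sh v).1 ha hσ,
      pin_fm_smul_right hP (ha.sh v).1 hb, pin_fm_smul_right hP (hb.sh v).1 hb,
      pin_fm_symm hP (ha.sh v).1 ha.1, pin_fm_symm hP (ha.sh v).1 hb.1, pin_fm_symm hP (hb.sh v).1 ha.1,
      pin_fm_symm hP (hb.sh v).1 hb.1]
    ring
  have sy : ∀ j : ℤ, pinFm x b (pinSh (j • pinE2) a) = pinFm x a (pinSh (j • pinE2) b) := by
    intro j
    rw [pin_fm_symm hP hb.1 (ha.sh _).1]
    have := pin_fm_shift hP ha.1 hb.1 (j • pinE2) 0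
    rw [pin_sh_zero, pin_refl_E2, zero_sub, neg_neg] at this
    exact this
  have h := pin_tr_of_haus Hp Hm N (M := fun m : ℕ => ((pinFm x a (pinSh (((m + N : ℕ) : ℤ) • pinE2) b) : ℝ) : ℂ)) (fun m => by
    have e1 := ex 1 (((m + N : ℕ) : ℤ) • pinE2)
    have e2 := ex (-1) (((m + N : ℕ) : ℤ) • pinE2)
    simp only [one_mul] at e1
    rw [e1, e2, sy]
    congr 1
    ring)
  have e0 : (pinFm x (fun h => a h + b h) (pinSh (((0 : ℕ) : ℤ) • pinE2) (fun h => a h + b h))
      + pinFm x (fun h => a h + (-1) * b h) (pinSh (((0 : ℕ) : ℤ) • pinE2) (fun h => a h + (-1) * b h))) / 4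
      = (pinFm x a a + pinFm x b b) / 2 := by
    have e1 := ex 1 (((0 : ℕ) : ℤ) • pinE2)
    have e2 := ex (-1) (((0 : ℕ) : ℤ) • pinE2)
    simp only [one_mul] at e1
    rw [e1, e2]
    simp only [Nat.cast_zero, zero_smul, pin_sh_zero]
    ring
  rw [e0] at h
  exact h

end form

theorem pin_tr_eqns_cite : True := by
  have := @pinE2.eq_1; have := @pinSh.eq_1; have := @pinFm.eq_1
  trivial

end Claimed.Agent.R291
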